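import Mathlib.Algebra.BigOperators.Finsupp.Basic
import Mathlib.LinearAlgebra.Finsupp.LinearCombination
import Mathlib.CategoryTheory.Category.Basic
import Mathlib.CategoryTheory.ObjectProperty.FullSubcategory
import Mathlib.Data.ENat.Basic
import Mathlib.Data.Finsupp.Order
import Mathlib.Tactic.Abel
import Mathlib.Algebra.BigOperators.Fin
import Mathlib.Order.Hom.Basic
import Mathlib.AlgebraicTopology.SimplicialSet.Basic
import Mathlib.AlgebraicTopology.SimplicialSet.Subdivision
import Mathlib.AlgebraicTopology.SimplicialSet.CategoryWithFibrations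
import Mathlib.AlgebraicTopology.ModelCategory.Basic
import Mathlib.Algebra.BigOperators.Ring.Finset
import Mathlib.Data.Fintype.BigOperators
import Mathlib.Data.Finset.Sort
import Mathlib.AlgebraicTopology.SimplicialSet.Homotopy
import Mathlib.AlgebraicTopology.SimplicialSet.KanComplex

set_option linter.all false

section

/-!
One-sorted strict omega-categories, strict functors.
-/

universe u v w

namespace Vale.Agent.P213

/-- A strict globular omega-category in one-sorted form: the elements are cells of all
dimensions (a cell is identified with its identities), `d false n` and `d true n` are the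
`n`-dimensional source and target, `comp n` is the composition along `n`-cells. -/
class OmegaStr (C : Type u) where
  d : Bool → ℕ → C → C
  comp : (n : ℕ) → (x y : C) → d true n x = d false n y → C
  finite_dim : ∀ x : C, ∃ n : ℕ, d false n x = x
  d_d_of_lt : ∀ (a b : Bool) (m n : ℕ) (x : C), m < n → d a m (d b n x) = d a m x
  d_d_of_le : ∀ (a b : Bool) (m n : ℕ) (x : C), n ≤ m → d a m (d b n x) = d b n x
  src_comp : ∀ (n : ℕ) (x y : C) (h : d true n x = d false n y),
    d false n (comp n x y h) = d false n x
  tgt_comp : ∀ (n : ℕ) (x y : C) (h : d true n x = d false n y),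
    d true n (comp n x y h) = d true n y
  d_comp : ∀ (a : Bool) (m n : ℕ) (x y : C) (h : d true n x = d false n y)
    (h' : d true n (d a m x) = d false n (d a m y)), n < m →
    d a m (comp n x y h) = comp n (d a m x) (d a m y) h'
  id_comp : ∀ (n : ℕ) (x : C) (h : d true n (d false n x) = d false n x),
    comp n (d false n x) x h = x
  comp_id : ∀ (n : ℕ) (x : C) (h : d true n x = d false n (d true n x)),
    comp n x (d true n x) h = x
  assoc : ∀ (n : ℕ) (x y z : C) (h₁ : d true n x = d false n y) (h₂ : d true n y = d false n z)
    (h₃ : d true n (comp n x y h₁) = d false n z) (h₄ : d true n x = d false n (comp n y z h₂)),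
    comp n (comp n x y h₁) z h₃ = comp n x (comp n y z h₂) h₄
  interchange : ∀ (m n : ℕ) (x y z w : C), m < n →
    ∀ (h₁ : d true n x = d false n y) (h₂ : d true n z = d false n w)
    (h₃ : d true m x = d false m z) (h₄ : d true m y = d false m w)
    (h₅ : d true m (comp n x y h₁) = d false m (comp n z w h₂))
    (h₆ : d true n (comp m x z h₃) = d false n (comp m y w h₄)),
    comp m (comp n x y h₁) (comp n z w h₂) h₅ = comp n (comp m x z h₃) (comp m y w h₄) h₆

/-- A strict functor between omega-categories. -/
structure OmegaFun (C : Type u) (D : Type v) [OmegaStr C] [OmegaStr D] where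
  toFun : C → D
  map_d : ∀ (a : Bool) (n : ℕ) (x : C), toFun (OmegaStr.d a n x) = OmegaStr.d a n (toFun x)
  map_comp : ∀ (n : ℕ) (x y : C) (h : OmegaStr.d true n x = OmegaStr.d false n y)
    (h' : OmegaStr.d true n (toFun x) = OmegaStr.d false n (toFun y)),
    toFun (OmegaStr.comp n x y h) = OmegaStr.comp n (toFun x) (toFun y) h'

namespace OmegaFun

variable {C : Type u} {D : Type v} {E : Type w} [OmegaStr C] [OmegaStr D] [OmegaStr E]

instance : FunLike (OmegaFun C D) C D where
  coe := toFun
  coe_injective := by
    rintro ⟨f, _, _⟩ ⟨g, _, _⟩ h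
    congr

@[ext]
theorem ext {f g : OmegaFun C D} (h : ∀ x, f x = g x) : f = g :=
  DFunLike.ext f g h

/-- The identity functor. -/
@[simps]
def id (C : Type u) [OmegaStr C] : OmegaFun C C where
  toFun x := x
  map_d _ _ _ := rfl
  map_comp _ _ _ _ _ := rfl

/-- Composition of strict functors (first `f`, then `g`). -/
@[simps]
def comp (g : OmegaFun D E) (f : OmegaFun C D) : OmegaFun C E where
  toFun x := g.toFun (f.toFun x)
  map_d a n x := by rw [f.map_d, g.map_d]
  map_comp n x y h h' := by
    have h₁ : OmegaStr.d true n (f.toFun x) = OmegaStr.d false n (f.toFun y) := by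
      rw [← f.map_d, ← f.map_d, h]
    rw [f.map_comp n x y h h₁, g.map_comp n _ _ h₁ h']

end OmegaFun

/-- Small strict omega-categories. -/
structure OmegaCat where
  carrier : Type u
  [str : OmegaStr carrier]

attribute [instance] OmegaCat.str

open CategoryTheory

instance : Category OmegaCat.{u} where
  Hom X Y := OmegaFun X.carrier Y.carrier
  id X := OmegaFun.id X.carrier
  comp f g := OmegaFun.comp g f

/-- The full subcategory of strict `n`-categories, `n` finite or `⊤`:
all cells above dimension `n` are identities. -/
def isNCat (n : ℕ∞) : ObjectProperty OmegaCat.{u} := fun X =>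
  ∀ k : ℕ, n ≤ (k : ℕ∞) → ∀ x : X.carrier, OmegaStr.d false k x = x

/-- The category of small strict `n`-categories. -/
abbrev NCat (n : ℕ∞) := (isNCat.{u} n).FullSubcategory

end Vale.Agent.P213
end

section

universe u v w

namespace Vale.Agent.P213

/-- A based augmented directed complex: a graded basis `B` and a boundary map `bd`;
the augmentation sends every basis element of degree `0` to `1`. -/
structure BCx where
  B : Type
  dim : B → ℕ
  bd : B → (B →₀ ℤ)
  bd_dim : ∀ b c : B, bd b c ≠ 0 → dim c + 1 = dim b
  bd_bd : ∀ b : B, Finsupp.linearCombination ℤ bd (bd b) = 0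
  aug_bd : ∀ b : B, Finsupp.linearCombination ℤ (fun c => if dim c = 0 then (1 : ℤ) else 0)
    (bd b) = 0

namespace BCx

variable (K : BCx)

/-- The boundary of a chain. -/
noncomputable def bdry : (K.B →₀ ℤ) →ₗ[ℤ] (K.B →₀ ℤ) := Finsupp.linearCombination ℤ K.bd

/-- The augmentation. -/
noncomputable def aug : (K.B →₀ ℤ) →ₗ[ℤ] ℤ :=
  Finsupp.linearCombination ℤ (fun c => if K.dim c = 0 then (1 : ℤ) else 0)

/-- The part of a chain in the degrees satisfying `p`. -/
noncomputable def part (p : ℕ → Prop) [DecidablePred p] : (K.B →₀ ℤ) →ₗ[ℤ] (K.B →₀ ℤ) where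
  toFun x := x.filter (fun b => p (K.dim b))
  map_add' _ _ := Finsupp.filter_add
  map_smul' _ _ := Finsupp.filter_smul

end BCx

/-- A cell of the omega-category of tables of `K`: a pair (`val false`, `val true`) of
nonnegative chains (the sums of the homogeneous parts `x_i^-`, resp. `x_i^+`) with
`bdry x_{i+1}^- = bdry x_{i+1}^+ = x_i^+ - x_i^-` and augmentation `1`. -/
@[ext]
structure Cell (K : BCx) where
  val : Bool → (K.B →₀ ℤ)
  nonneg : ∀ a, 0 ≤ val a
  bdry_val : ∀ a, K.bdry (val a) = val true - val false
  aug_val : ∀ a, K.aug (val a) = 1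

end Vale.Agent.P213
end

section

universe u v w

namespace Vale.Agent.P213

namespace BCx

variable {K : BCx}

theorem part_apply (p : ℕ → Prop) [DecidablePred p] (x : K.B →₀ ℤ) (b : K.B) :
    K.part p x b = if p (K.dim b) then x b else 0 := by
  classical
  simp [part, Finsupp.filter_apply]

theorem part_congr {p q : ℕ → Prop} [DecidablePred p] [DecidablePred q]
    (h : ∀ n, p n ↔ q n) (x : K.B →₀ ℤ) : K.part p x = K.part q x := by
  ext b
  simp only [part_apply, h]

theorem part_part (p q : ℕ → Prop) [DecidablePred p] [DecidablePred q] (x : K.B →₀ ℤ) :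
    K.part p (K.part q x) = K.part (fun n => p n ∧ q n) x := by
  ext b
  simp only [part_apply]
  split_ifs <;> tauto

theorem bdry_single (b : K.B) (k : ℤ) : K.bdry (Finsupp.single b k) = k • K.bd b := by
  simp [bdry]

theorem aug_single (b : K.B) (k : ℤ) :
    K.aug (Finsupp.single b k) = if K.dim b = 0 then k else 0 := by
  simp [aug]

theorem bdry_bdry (x : K.B →₀ ℤ) : K.bdry (K.bdry x) = 0 := by
  induction x using Finsupp.induction_linear with
  | zero => simp
  | add f g hf hg => simp [hf, hg]
  | single b k =>
    rw [bdry_single, map_smul]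
    have := K.bd_bd b
    simp [bdry, this]

theorem aug_bdry (x : K.B →₀ ℤ) : K.aug (K.bdry x) = 0 := by
  induction x using Finsupp.induction_linear with
  | zero => simp
  | add f g hf hg => simp [hf, hg]
  | single b k =>
    rw [bdry_single, map_smul]
    have := K.aug_bd b
    simp [aug, this]

theorem part_single (p : ℕ → Prop) [DecidablePred p] (b : K.B) (k : ℤ) :
    K.part p (Finsupp.single b k) = if p (K.dim b) then Finsupp.single b k else 0 := by
  classical
  ext c
  rw [part_apply]
  by_cases hc : b = c
  · subst hc
    split_ifs <;> simp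
  · have : (Finsupp.single b k) c = 0 := by
      rw [Finsupp.single_apply, if_neg hc]
    split_ifs <;> simp [this]

/-- The boundary map lowers the degree by one. -/
theorem bdry_part (p : ℕ → Prop) [DecidablePred p] (x : K.B →₀ ℤ) :
    K.bdry (K.part p x) = K.part (fun n => p (n + 1)) (K.bdry x) := by
  induction x using Finsupp.induction_linear with
  | zero => simp
  | add f g hf hg => simp [hf, hg]
  | single b k =>
    have h1 : K.part (fun n => p (n + 1)) (K.bd b) = if p (K.dim b) then K.bd b else 0 := by
      ext c
      rw [part_apply]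
      by_cases hc : K.bd b c = 0
      · split_ifs <;> simp [hc]
      · rw [K.bd_dim b c hc]
        split_ifs <;> simp
    rw [bdry_single, map_smul, h1, part_single]
    split_ifs
    · rw [bdry_single]
    · simp

theorem aug_part (p : ℕ → Prop) [DecidablePred p] (x : K.B →₀ ℤ) :
    K.aug (K.part p x) = if p 0 then K.aug x else 0 := by
  induction x using Finsupp.induction_linear with
  | zero => simp
  | add f g hf hg => simp only [map_add, hf, hg]; split_ifs <;> simp
  | single b k =>
    rw [part_single]
    by_cases hb : K.dim b = 0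
    · rw [hb]
      split_ifs <;> simp
    · split_ifs <;> simp [aug_single, hb]

theorem part_nonneg (p : ℕ → Prop) [DecidablePred p] {x : K.B →₀ ℤ} (hx : 0 ≤ x) :
    0 ≤ K.part p x := by
  intro b
  rw [part_apply]
  split_ifs
  · exact hx b
  · simp

theorem part_of_forall {p : ℕ → Prop} [DecidablePred p] {x : K.B →₀ ℤ}
    (h : ∀ b, x b ≠ 0 → p (K.dim b)) : K.part p x = x := by
  ext b
  rw [part_apply]
  by_cases hb : x b = 0
  · simp [hb]
  · rw [if_pos (h b hb)]

end BCx

end Vale.Agent.P213
end

section

universe u v w

namespace Vale.Agent.P213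

namespace Cell

variable {K : BCx}

open BCx

/-- The `n`-dimensional source (`a = false`) and target (`a = true`) of a table. -/
noncomputable def dd (a : Bool) (n : ℕ) (x : Cell K) : Cell K where
  val b := K.part (· < n) (x.val b) + K.part (· = n) (x.val a)
  nonneg b := add_nonneg (part_nonneg _ (x.nonneg b)) (part_nonneg _ (x.nonneg a))
  bdry_val b := by
    simp only [map_add, bdry_part, x.bdry_val, map_sub, add_sub_add_right_eq_sub]
    ext c
    simp only [Finsupp.coe_add, Finsupp.coe_sub, Pi.add_apply, Pi.sub_apply, part_apply]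
    split_ifs <;> omega
  aug_val b := by
    simp only [map_add, aug_part, x.aug_val]
    split_ifs <;> omega

theorem dd_val (a : Bool) (n : ℕ) (x : Cell K) (b : Bool) :
    (x.dd a n).val b = K.part (· < n) (x.val b) + K.part (· = n) (x.val a) := rfl

theorem dd_val_apply (a : Bool) (n : ℕ) (x : Cell K) (b : Bool) (c : K.B) :
    (x.dd a n).val b c = if K.dim c < n then x.val b c else
      if K.dim c = n then x.val a c else 0 := by
  simp only [dd_val, Finsupp.coe_add, Pi.add_apply, part_apply]
  split_ifs <;> omega

/-- The composite of tables. -/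
noncomputable def cc (n : ℕ) (x y : Cell K) (h : x.dd true n = y.dd false n) : Cell K where
  val b := x.val b - (x.dd true n).val b + y.val b
  nonneg b := by
    intro c
    have h1 := congrArg (fun z => z.val b c) h
    simp only [dd_val_apply, Finsupp.coe_add, Finsupp.coe_sub, Pi.add_apply, Pi.sub_apply] at h1 ⊢
    have h2 := x.nonneg b c
    have h3 := y.nonneg b c
    have h4 := x.nonneg false c
    have h5 := y.nonneg true c
    simp only [Finsupp.coe_zero, Pi.zero_apply] at *
    cases b <;> split_ifs at h1 ⊢ <;> omega
  bdry_val b := by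
    simp only [map_add, map_sub, x.bdry_val, y.bdry_val, (x.dd true n).bdry_val]
    abel
  aug_val b := by
    simp only [map_add, map_sub, x.aug_val, y.aug_val, (x.dd true n).aug_val]
    norm_num

theorem cc_val (n : ℕ) (x y : Cell K) (h : x.dd true n = y.dd false n) (b : Bool) :
    (cc n x y h).val b = x.val b - (x.dd true n).val b + y.val b := rfl

theorem dd_dd_of_lt (a b : Bool) (m n : ℕ) (x : Cell K) (h : m < n) :
    (x.dd b n).dd a m = x.dd a m := by
  ext e c
  simp only [dd_val_apply]
  split_ifs <;> first | rfl | omega

theorem dd_dd_of_le (a b : Bool) (m n : ℕ) (x : Cell K) (h : n ≤ m) :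
    (x.dd b n).dd a m = x.dd b n := by
  ext e c
  simp only [dd_val_apply]
  split_ifs <;> first | rfl | omega

theorem exists_dim (x : Cell K) : ∃ n : ℕ, x.dd false n = x := by
  classical
  refine ⟨((x.val true).support ∪ (x.val false).support).sup K.dim + 1, ?_⟩
  ext e c
  rw [dd_val_apply]
  by_cases hc : x.val e c = 0
  · rw [hc]
    split_ifs with h1 h2
    · rfl
    · by_contra h3
      have : K.dim c ≤ ((x.val true).support ∪ (x.val false).support).sup K.dim := by
        apply Finset.le_sup
        simp [h3]
      omega
    · rfl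
  · have : K.dim c ≤ ((x.val true).support ∪ (x.val false).support).sup K.dim := by
      apply Finset.le_sup
      cases e <;> simp [hc]
    rw [if_pos (by omega)]

noncomputable instance : OmegaStr (Cell K) where
  d a n x := x.dd a n
  comp n x y h := cc n x y h
  finite_dim := exists_dim
  d_d_of_lt := dd_dd_of_lt
  d_d_of_le := dd_dd_of_le
  src_comp n x y h := by
    ext e c
    have h1 := congrArg (fun z => z.val e c) h
    simp only [dd_val_apply, cc_val, Finsupp.coe_add, Finsupp.coe_sub, Pi.add_apply,
      Pi.sub_apply] at h1 ⊢
    split_ifs at h1 ⊢ <;> omega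
  tgt_comp n x y h := by
    ext e c
    have h1 := congrArg (fun z => z.val e c) h
    simp only [dd_val_apply, cc_val, Finsupp.coe_add, Finsupp.coe_sub, Pi.add_apply,
      Pi.sub_apply] at h1 ⊢
    split_ifs at h1 ⊢ <;> omega
  d_comp a m n x y h h' hnm := by
    ext e c
    simp only [dd_val_apply, cc_val, Finsupp.coe_add, Finsupp.coe_sub, Pi.add_apply,
      Pi.sub_apply]
    split_ifs <;> omega
  id_comp n x h := by
    ext e c
    simp only [dd_val_apply, cc_val, Finsupp.coe_add, Finsupp.coe_sub, Pi.add_apply,
      Pi.sub_apply]
    split_ifs <;> omega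
  comp_id n x h := by
    ext e c
    simp only [dd_val_apply, cc_val, Finsupp.coe_add, Finsupp.coe_sub, Pi.add_apply,
      Pi.sub_apply]
    split_ifs <;> omega
  assoc n x y z h₁ h₂ h₃ h₄ := by
    ext e c
    simp only [dd_val_apply, cc_val, Finsupp.coe_add, Finsupp.coe_sub, Pi.add_apply,
      Pi.sub_apply]
    split_ifs <;> omega
  interchange m n x y z w hmn h₁ h₂ h₃ h₄ h₅ h₆ := by
    ext e c
    have g₁ := congrArg (fun z => z.val e c) h₁
    have g₂ := congrArg (fun z => z.val e c) h₂
    have g₃ := congrArg (fun z => z.val e c) h₃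
    have g₄ := congrArg (fun z => z.val e c) h₄
    simp only [dd_val_apply, cc_val, Finsupp.coe_add, Finsupp.coe_sub, Pi.add_apply,
      Pi.sub_apply] at g₁ g₂ g₃ g₄ ⊢
    split_ifs at g₁ g₂ g₃ g₄ ⊢ <;> omega

end Cell

end Vale.Agent.P213
end

section

universe u v w

namespace Vale.Agent.P213

/-- A morphism of based augmented directed complexes: a chain map preserving degrees,
nonnegative chains and augmentations. -/
@[ext]
structure BCxHom (K L : BCx) where
  f : K.B → (L.B →₀ ℤ)
  nonneg : ∀ b, 0 ≤ f b
  dim_f : ∀ b c, f b c ≠ 0 → L.dim c = K.dim b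
  bdry_f : ∀ b, L.bdry (f b) = Finsupp.linearCombination ℤ f (K.bd b)
  aug_f : ∀ b, K.dim b = 0 → L.aug (f b) = 1

namespace BCxHom

variable {K L M : BCx}

/-- The linear extension of a morphism. -/
noncomputable def lin (φ : BCxHom K L) : (K.B →₀ ℤ) →ₗ[ℤ] (L.B →₀ ℤ) :=
  Finsupp.linearCombination ℤ φ.f

end BCxHom

end Vale.Agent.P213
end

section

universe u v w

namespace Vale.Agent.P213

namespace BCxHom

variable {K L M : BCx}

theorem lin_single (φ : BCxHom K L) (b : K.B) (k : ℤ) :
    φ.lin (Finsupp.single b k) = k • φ.f b := by
  simp [lin]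

theorem lin_bdry (φ : BCxHom K L) (x : K.B →₀ ℤ) : φ.lin (K.bdry x) = L.bdry (φ.lin x) := by
  induction x using Finsupp.induction_linear with
  | zero => simp
  | add f g hf hg => simp [hf, hg]
  | single b k =>
    rw [BCx.bdry_single, lin_single, map_smul, map_smul, φ.bdry_f]
    rfl

theorem lin_part (φ : BCxHom K L) (p : ℕ → Prop) [DecidablePred p] (x : K.B →₀ ℤ) :
    φ.lin (K.part p x) = L.part p (φ.lin x) := by
  induction x using Finsupp.induction_linear with
  | zero => simp
  | add f g hf hg => simp [hf, hg]
  | single b k =>
    rw [BCx.part_single, lin_single, map_smul]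
    have h1 : L.part p (φ.f b) = if p (K.dim b) then φ.f b else 0 := by
      ext c
      rw [BCx.part_apply]
      by_cases hc : φ.f b c = 0
      · split_ifs <;> simp [hc]
      · rw [φ.dim_f b c hc]
        split_ifs <;> simp
    rw [h1]
    split_ifs
    · rw [lin_single]
    · simp

theorem aug_lin (φ : BCxHom K L) (x : K.B →₀ ℤ) : L.aug (φ.lin x) = K.aug x := by
  induction x using Finsupp.induction_linear with
  | zero => simp
  | add f g hf hg => simp [hf, hg]
  | single b k =>
    rw [BCx.aug_single, lin_single, map_smul]
    split_ifs with h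
    · rw [φ.aug_f b h]; simp
    · have h1 : L.part (· = 0) (φ.f b) = 0 := by
        ext c
        rw [BCx.part_apply]
        by_cases hc : φ.f b c = 0
        · simp [hc]
        · rw [φ.dim_f b c hc]
          simp [h]
      have h2 : L.aug (φ.f b) = L.aug (L.part (· = 0) (φ.f b)) := by
        rw [BCx.aug_part]; simp
      rw [h2, h1]
      simp

theorem lin_nonneg (φ : BCxHom K L) {x : K.B →₀ ℤ} (hx : 0 ≤ x) : 0 ≤ φ.lin x := by
  rw [lin, Finsupp.linearCombination_apply, Finsupp.sum]
  exact Finset.sum_nonneg (fun b _ => smul_nonneg (hx b) (φ.nonneg b))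

/-- The identity morphism. -/
noncomputable def id (K : BCx) : BCxHom K K where
  f b := Finsupp.single b 1
  nonneg b := by
    intro c
    classical
    simp only [Finsupp.coe_zero, Pi.zero_apply, Finsupp.single_apply]
    split_ifs <;> simp
  dim_f b c h := by
    classical
    simp only [Finsupp.single_apply, ne_eq, ite_eq_right_iff, one_ne_zero, imp_false,
      not_not] at h
    rw [h]
  bdry_f b := by
    rw [BCx.bdry_single, one_smul]
    conv_rhs => rw [Finsupp.linearCombination_apply]
    simp [Finsupp.sum_single]
  aug_f b h := by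
    rw [BCx.aug_single, if_pos h]

theorem lin_id (x : K.B →₀ ℤ) : (BCxHom.id K).lin x = x := by
  induction x using Finsupp.induction_linear with
  | zero => simp
  | add f g hf hg => simp [hf, hg]
  | single b k => rw [lin_single]; simp [BCxHom.id]

/-- Composition of morphisms (first `φ`, then `ψ`). -/
noncomputable def comp (ψ : BCxHom L M) (φ : BCxHom K L) : BCxHom K M where
  f b := ψ.lin (φ.f b)
  nonneg b := ψ.lin_nonneg (φ.nonneg b)
  dim_f b c h := by
    by_contra hne
    have h1 : L.part (· = K.dim b) (φ.f b) = φ.f b :=
      BCx.part_of_forall (fun e he => φ.dim_f b e he)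
    have h2 : M.part (· = K.dim b) (ψ.lin (φ.f b)) = ψ.lin (φ.f b) := by
      rw [← lin_part, h1]
    have h3 := congrArg (fun z => z c) h2
    simp only [BCx.part_apply, if_neg hne] at h3
    exact h h3.symm
  bdry_f b := by
    rw [← lin_bdry, φ.bdry_f]
    have : ∀ x : K.B →₀ ℤ, ψ.lin (Finsupp.linearCombination ℤ φ.f x)
        = Finsupp.linearCombination ℤ (fun b => ψ.lin (φ.f b)) x := by
      intro x
      induction x using Finsupp.induction_linear with
      | zero => simp
      | add f g hf hg => simp [hf, hg]
      | single b k => simp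
    exact this _
  aug_f b h := by rw [aug_lin, φ.aug_f b h]

theorem lin_comp (ψ : BCxHom L M) (φ : BCxHom K L) (x : K.B →₀ ℤ) :
    (ψ.comp φ).lin x = ψ.lin (φ.lin x) := by
  induction x using Finsupp.induction_linear with
  | zero => simp
  | add f g hf hg => simp [hf, hg]
  | single b k => rw [lin_single, lin_single, map_smul]; rfl

end BCxHom

end Vale.Agent.P213
end

section

universe u v w

namespace Vale.Agent.P213

namespace Cell

variable {K L M : BCx}

/-- The image of a table under a morphism of based complexes. -/
noncomputable def map (φ : BCxHom K L) (x : Cell K) : Cell L where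
  val a := φ.lin (x.val a)
  nonneg a := φ.lin_nonneg (x.nonneg a)
  bdry_val a := by rw [← φ.lin_bdry, x.bdry_val, map_sub]
  aug_val a := by rw [φ.aug_lin, x.aug_val]

theorem map_val (φ : BCxHom K L) (x : Cell K) (a : Bool) :
    (x.map φ).val a = φ.lin (x.val a) := rfl

theorem map_dd (φ : BCxHom K L) (a : Bool) (n : ℕ) (x : Cell K) :
    (x.dd a n).map φ = (x.map φ).dd a n := by
  ext1
  funext b
  simp only [map_val, dd_val, map_add, BCxHom.lin_part]

/-- The strict functor induced by a morphism of based complexes. -/
noncomputable def mapFun (φ : BCxHom K L) : OmegaFun (Cell K) (Cell L) where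
  toFun x := x.map φ
  map_d a n x := map_dd φ a n x
  map_comp n x y h h' := by
    apply Cell.ext
    funext b
    change φ.lin (x.val b - (x.dd true n).val b + y.val b) =
      φ.lin (x.val b) - ((x.map φ).dd true n).val b + φ.lin (y.val b)
    rw [← map_dd, map_add, map_sub]
    rfl

end Cell

end Vale.Agent.P213
end

section

universe u v w

namespace Vale.Agent.P213

namespace Cell

variable {K L M : BCx}

theorem mapFun_apply (φ : BCxHom K L) (x : Cell K) : mapFun φ x = x.map φ := rfl

theorem map_id (x : Cell K) : x.map (BCxHom.id K) = x := by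
  ext1
  funext b
  rw [map_val, BCxHom.lin_id]

theorem map_comp (ψ : BCxHom L M) (φ : BCxHom K L) (x : Cell K) :
    x.map (ψ.comp φ) = (x.map φ).map ψ := by
  ext1
  funext b
  rw [map_val, BCxHom.lin_comp]
  rfl

end Cell

end Vale.Agent.P213
end

section

universe u v w

namespace Vale.Agent.P213

section Lists

variable {I J : Type}

/-- The alternating sum of the faces of a list of vertices. -/
noncomputable def faces (l : List I) : List I →₀ ℤ :=
  ∑ i ∈ Finset.range l.length, Finsupp.single (l.eraseIdx i) ((-1 : ℤ) ^ i)

end Lists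

/-- The simplices of the linear order `I`: nonempty strictly increasing lists. -/
abbrev Smpl (I : Type) [LinearOrder I] : Type := {l : List I // l ≠ [] ∧ l.Pairwise (· < ·)}

section Smpl

variable {I J : Type} [LinearOrder I] [LinearOrder J]

/-- Restriction of a chain of lists to the nonempty strictly increasing lists. -/
noncomputable def toS : (List I →₀ ℤ) →ₗ[ℤ] (Smpl I →₀ ℤ) where
  toFun x := x.subtypeDomain (fun l => l ≠ [] ∧ l.Pairwise (· < ·))
  map_add' _ _ := Finsupp.subtypeDomain_add
  map_smul' _ _ := by ext; rfl

end Smpl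

end Vale.Agent.P213
end

section

universe u v w

namespace Vale.Agent.P213

section Lists

variable {I J : Type}

/-- The boundary on all lists. -/
noncomputable def dL : (List I →₀ ℤ) →ₗ[ℤ] (List I →₀ ℤ) := Finsupp.linearCombination ℤ faces

/-- Prepend a vertex. -/
noncomputable def consL (a : I) : (List I →₀ ℤ) →ₗ[ℤ] (List I →₀ ℤ) :=
  Finsupp.linearCombination ℤ (fun l => Finsupp.single (a :: l) 1)

theorem consL_single (a : I) (l : List I) (k : ℤ) :
    consL a (Finsupp.single l k) = Finsupp.single (a :: l) k := by
  simp [consL]

theorem dL_single (l : List I) (k : ℤ) : dL (Finsupp.single l k) = k • faces l := by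
  simp [dL]

theorem faces_nil : faces ([] : List I) = 0 := by simp [faces]

theorem faces_cons (a : I) (l : List I) :
    faces (a :: l) = Finsupp.single l 1 - consL a (faces l) := by
  rw [faces, faces, List.length_cons, Finset.sum_range_succ', map_sum]
  simp only [List.eraseIdx_zero, List.tail_cons, pow_zero, List.eraseIdx_cons_succ,
    consL_single, pow_succ, mul_neg, mul_one, Finsupp.single_neg, Finset.sum_neg_distrib]
  abel

theorem dL_consL (a : I) (x : List I →₀ ℤ) : dL (consL a x) = x - consL a (dL x) := by
  induction x using Finsupp.induction_linear with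
  | zero => simp
  | add f g hf hg => simp only [map_add, hf, hg]; abel
  | single l k =>
    rw [consL_single, dL_single, dL_single, faces_cons, map_smul, smul_sub]
    simp

theorem dL_dL (x : List I →₀ ℤ) : dL (dL x) = 0 := by
  induction x using Finsupp.induction_linear with
  | zero => simp
  | add f g hf hg => simp only [map_add, hf, hg, add_zero]
  | single l k =>
    rw [dL_single, map_smul]
    have : dL (faces l) = 0 := by
      induction l with
      | nil => rw [faces_nil]; simp
      | cons a l ih =>
        rw [faces_cons, map_sub, dL_single, dL_consL, ih]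
        simp
    rw [this, smul_zero]

theorem faces_support {l l' : List I} (h : faces l l' ≠ 0) :
    l'.Sublist l ∧ l'.length + 1 = l.length := by
  classical
  rw [faces, Finsupp.finsetSum_apply] at h
  obtain ⟨i, hi, h2⟩ := Finset.exists_ne_zero_of_sum_ne_zero h
  rw [Finset.mem_range] at hi
  have h3 : l.eraseIdx i = l' := by
    by_contra hne
    rw [Finsupp.single_apply, if_neg hne] at h2
    exact h2 rfl
  subst h3
  refine ⟨List.eraseIdx_sublist l i, ?_⟩
  rw [List.length_eraseIdx_of_lt hi]
  omega

end Lists

section Smpl

variable {I J : Type} [LinearOrder I] [LinearOrder J]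

/-- The inclusion of simplices in lists. -/
noncomputable def ofS : (Smpl I →₀ ℤ) →ₗ[ℤ] (List I →₀ ℤ) :=
  Finsupp.linearCombination ℤ (fun s => Finsupp.single s.1 1)

theorem toS_apply (x : List I →₀ ℤ) (s : Smpl I) : toS x s = x s.1 := rfl

theorem ofS_single (s : Smpl I) (k : ℤ) :
    ofS (Finsupp.single s k) = Finsupp.single s.1 k := by
  simp [ofS]

theorem toS_ofS (x : Smpl I →₀ ℤ) : toS (ofS x) = x := by
  classical
  induction x using Finsupp.induction_linear with
  | zero => simp
  | add f g hf hg => simp only [map_add, hf, hg]
  | single s k =>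
    rw [ofS_single]
    ext t
    rw [toS_apply, Finsupp.single_apply, Finsupp.single_apply]
    congr 1
    exact propext ⟨fun h => Subtype.ext h, fun h => congrArg _ h⟩

/-- `x` is supported on strictly increasing lists. -/
def IsSorted (x : List I →₀ ℤ) : Prop := ∀ l, x l ≠ 0 → l.Pairwise (· < ·)

theorem ofS_toS {x : List I →₀ ℤ} (hx : IsSorted x) :
    ofS (toS x) = x - Finsupp.single [] (x []) := by
  classical
  have key : ∀ y : Smpl I →₀ ℤ, ∀ l : List I, (ofS y) l =
      if h : l ≠ [] ∧ l.Pairwise (· < ·) then y ⟨l, h⟩ else 0 := by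
    intro y l
    induction y using Finsupp.induction_linear with
    | zero => simp only [map_zero, Finsupp.coe_zero, Pi.zero_apply]; split_ifs <;> rfl
    | add f g hf hg =>
      simp only [map_add, Finsupp.coe_add, Pi.add_apply, hf, hg]
      split_ifs
      · rfl
      · simp
    | single s k =>
      rw [ofS_single, Finsupp.single_apply]
      split_ifs with h1 h2 h2
      · subst h1
        exact (Finsupp.single_eq_same).symm
      · subst h1
        exact absurd s.2 h2
      · rw [Finsupp.single_apply, if_neg]
        rintro rfl
        exact h1 rfl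
      · rfl
  ext l
  rw [key, Finsupp.sub_apply, Finsupp.single_apply]
  split_ifs with h1 h2 h2
  · exact absurd h2.symm h1.1
  · rw [toS_apply]; simp
  · subst h2; simp
  · by_cases h3 : x l = 0
    · simp [h3]
    · exact absurd ⟨fun h => h2 h.symm, hx l h3⟩ h1

theorem isSorted_ofS (x : Smpl I →₀ ℤ) : IsSorted (ofS x) := by
  classical
  intro l hl
  by_contra h
  apply hl
  induction x using Finsupp.induction_linear with
  | zero => simp
  | add f g hf hg =>
    rw [map_add, Finsupp.add_apply]
    by_cases h1 : (ofS f) l = 0
    · by_cases h2 : (ofS g) l = 0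
      · rw [h1, h2]; rfl
      · exact absurd (hg h2) h2
    · exact absurd (hf h1) h1
  | single s k =>
    rw [ofS_single, Finsupp.single_apply, if_neg]
    rintro rfl
    exact h s.2.2

theorem IsSorted.dL {x : List I →₀ ℤ} (hx : IsSorted x) : IsSorted (dL x) := by
  intro l hl
  rw [Vale.Agent.P213.dL, Finsupp.linearCombination_apply, Finsupp.sum,
    Finsupp.finsetSum_apply] at hl
  obtain ⟨l', hl', h2⟩ := Finset.exists_ne_zero_of_sum_ne_zero hl
  rw [Finsupp.smul_apply] at h2
  have h3 : faces l' l ≠ 0 := fun h => h2 (by rw [h, smul_zero])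
  exact (hx l' (Finsupp.mem_support_iff.1 hl')).sublist (faces_support h3).1

end Smpl

section Aug

variable {I : Type}

/-- The augmentation on lists. -/
noncomputable def augL : (List I →₀ ℤ) →ₗ[ℤ] ℤ :=
  Finsupp.linearCombination ℤ (fun l => if l.length = 1 then (1 : ℤ) else 0)

theorem augL_faces (l : List I) : augL (faces l) = 0 := by
  have h1 : ∀ a : I, ∀ x : List I →₀ ℤ, augL (consL a x) = x [] := by
    classical
    intro a x
    induction x using Finsupp.induction_linear with
    | zero => simp
    | add f g hf hg => simp only [map_add, hf, hg, Finsupp.add_apply]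
    | single s k =>
      rw [consL_single, Finsupp.single_apply]
      rcases s with _ | ⟨b, s⟩ <;> simp [augL]
  rcases l with _ | ⟨a, l⟩
  · rw [faces_nil]; simp
  · rw [faces_cons, map_sub, h1]
    rcases l with _ | ⟨b, l⟩
    · rw [faces_nil]; simp [augL]
    · rw [faces_cons, Finsupp.sub_apply]
      have h2 : ∀ x : List I →₀ ℤ, (consL b x) [] = 0 := by
        classical
        intro x
        induction x using Finsupp.induction_linear with
        | zero => simp
        | add f g hf hg => simp only [map_add, hf, hg, Finsupp.add_apply, add_zero]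
        | single s k => rw [consL_single, Finsupp.single_apply, if_neg (by simp)]
      rw [h2]
      rcases l with _ | ⟨c, l⟩ <;> simp [augL]

end Aug

end Vale.Agent.P213
end

section

universe u v w

namespace Vale.Agent.P213

/-- The based complex of normalized chains on the simplex with vertex set `I`. -/
noncomputable abbrev simplexCx (I : Type) [LinearOrder I] : BCx where
  B := Smpl I
  dim s := s.1.length - 1
  bd s := toS (faces s.1)
  bd_dim s t h := by
    have h1 := (faces_support h).2
    have h2 : t.1.length ≠ 0 := by
      intro h3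
      exact t.2.1 (List.length_eq_zero_iff.1 h3)
    omega
  bd_bd s := by
    have key : ∀ x : Smpl I →₀ ℤ,
        Finsupp.linearCombination ℤ (fun s : Smpl I => toS (faces s.1)) x = toS (dL (ofS x)) := by
      intro x
      induction x using Finsupp.induction_linear with
      | zero => simp
      | add f g hf hg => simp only [map_add, hf, hg]
      | single s k => rw [ofS_single, dL_single]; simp
    rw [key]
    have h1 : IsSorted (faces s.1) := fun l hl => s.2.2.sublist (faces_support hl).1
    rw [ofS_toS h1, map_sub, dL_single, faces_nil, smul_zero, sub_zero]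
    have : dL (faces s.1) = dL (dL (Finsupp.single s.1 1)) := by
      rw [dL_single, one_smul]
    rw [this, dL_dL]
    simp
  aug_bd s := by
    have key : ∀ x : Smpl I →₀ ℤ,
        Finsupp.linearCombination ℤ
          (fun c : Smpl I => if c.1.length - 1 = 0 then (1 : ℤ) else 0) x = augL (ofS x) := by
      intro x
      induction x using Finsupp.induction_linear with
      | zero => simp
      | add f g hf hg => simp only [map_add, hf, hg]
      | single s k =>
        have h0 : s.1.length ≠ 0 := fun h => s.2.1 (List.length_eq_zero_iff.1 h)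
        have h1 : (s.1.length - 1 = 0) ↔ s.1.length = 1 := by omega
        rw [ofS_single]
        simp [augL, h1]
    rw [key]
    have h1 : IsSorted (faces s.1) := fun l hl => s.2.2.sublist (faces_support hl).1
    rw [ofS_toS h1, map_sub, augL_faces]
    simp [augL]

end Vale.Agent.P213
end

section

universe u v w

namespace Vale.Agent.P213

section Push

variable {I J : Type} [LinearOrder I] [LinearOrder J]

/-- Push a list forward along a map; lists which do not stay strictly increasing are
sent to zero. -/
noncomputable def pushL (θ : I →o J) : (List I →₀ ℤ) →ₗ[ℤ] (List J →₀ ℤ) :=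
  Finsupp.linearCombination ℤ
    (fun l => if (l.map θ).Pairwise (· < ·) then Finsupp.single (l.map θ) 1 else 0)

end Push

end Vale.Agent.P213
end

section

universe u v w

namespace Vale.Agent.P213

section Push

variable {I J : Type} [LinearOrder I] [LinearOrder J]

/-- Prepend a vertex, and keep strictly increasing lists only. -/
noncomputable def pcons (a : I) : (List I →₀ ℤ) →ₗ[ℤ] (List I →₀ ℤ) :=
  Finsupp.linearCombination ℤ
    (fun l => if (a :: l).Pairwise (· < ·) then Finsupp.single (a :: l) 1 else 0)

theorem pushL_single (θ : I →o J) (l : List I) (k : ℤ) :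
    pushL θ (Finsupp.single l k) =
      if (l.map θ).Pairwise (· < ·) then Finsupp.single (l.map θ) k else 0 := by
  simp only [pushL, Finsupp.linearCombination_single]
  split_ifs <;> simp

theorem pcons_single (a : I) (l : List I) (k : ℤ) :
    pcons a (Finsupp.single l k) =
      if (a :: l).Pairwise (· < ·) then Finsupp.single (a :: l) k else 0 := by
  simp only [pcons, Finsupp.linearCombination_single]
  split_ifs <;> simp

theorem pushL_consL (θ : I →o J) (a : I) (x : List I →₀ ℤ) :
    pushL θ (consL a x) = pcons (θ a) (pushL θ x) := by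
  induction x using Finsupp.induction_linear with
  | zero => simp
  | add f g hf hg => simp only [map_add, hf, hg]
  | single l k =>
    rw [consL_single, pushL_single, pushL_single]
    simp only [List.map_cons]
    by_cases h : (l.map θ).Pairwise (· < ·)
    · rw [if_pos h, pcons_single]
    · rw [if_neg h, map_zero, if_neg]
      intro h2
      exact h h2.of_cons

/-- Prepending `a` with sorting, twice the same vertex, gives zero. -/
theorem pcons_consL_self (a : I) (x : List I →₀ ℤ) : pcons a (consL a x) = 0 := by
  induction x using Finsupp.induction_linear with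
  | zero => simp
  | add f g hf hg => simp only [map_add, hf, hg, add_zero]
  | single l k =>
    rw [consL_single, pcons_single, if_neg]
    intro h
    rw [List.pairwise_cons] at h
    exact lt_irrefl a (h.1 a (by simp))

theorem dL_pcons {a : I} {l : List I} (hl : l.Pairwise (· < ·)) (ha : ∀ b ∈ l, a ≤ b) (k : ℤ) :
    dL (pcons a (Finsupp.single l k)) = Finsupp.single l k - pcons a (dL (Finsupp.single l k)) := by
  classical
  by_cases h : (a :: l).Pairwise (· < ·)
  · have h1 : ∀ x : List I →₀ ℤ, (∀ l', x l' ≠ 0 → l'.Sublist l) → pcons a x = consL a x := by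
      intro x hx
      rw [pcons, consL, Finsupp.linearCombination_apply, Finsupp.linearCombination_apply]
      apply Finsupp.sum_congr
      intro l' hl'
      rw [if_pos]
      exact h.sublist ((hx l' (Finsupp.mem_support_iff.1 hl')).cons_cons a)
    rw [h1, dL_consL, h1]
    · intro l' hl'
      rw [dL_single, Finsupp.smul_apply] at hl'
      exact (faces_support (fun h0 => hl' (by rw [h0, smul_zero]))).1
    · intro l' hl'
      rw [Finsupp.single_apply] at hl'
      by_cases h2 : l = l'
      · rw [h2]
      · rw [if_neg h2] at hl'; exact absurd rfl hl'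
  · rcases l with _ | ⟨b, l⟩
    · simp at h
    · have hb : b = a := by
        by_contra hne
        apply h
        rw [List.pairwise_cons]
        refine ⟨?_, hl⟩
        have hab : a < b := lt_of_le_of_ne (ha b (by simp)) (fun h => hne h.symm)
        intro c hc
        rw [List.mem_cons] at hc
        rcases hc with rfl | hc
        · exact hab
        · rw [List.pairwise_cons] at hl
          exact hab.trans (hl.1 c hc)
      subst hb
      rw [pcons_single, if_neg h, map_zero, dL_single, faces_cons, map_smul, map_sub,
        pcons_consL_self, sub_zero, pcons_single, if_pos hl]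
      simp

theorem dL_pushL (θ : I →o J) {l : List I} (hl : l.Pairwise (· < ·)) :
    dL (pushL θ (Finsupp.single l 1)) = pushL θ (faces l) := by
  induction l with
  | nil => rw [faces_nil, pushL_single]; simp [dL_single, faces_nil]
  | cons a l ih =>
    have h1 := ih hl.of_cons
    rw [← consL_single, pushL_consL, faces_cons, map_sub, pushL_consL, pushL_single]
    rw [pushL_single] at h1
    split_ifs at h1 ⊢ with h2
    · rw [dL_pcons h2, ← h1]
      intro b hb
      rw [List.mem_map] at hb
      obtain ⟨c, hc, rfl⟩ := hb
      rw [List.pairwise_cons] at hl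
      exact θ.monotone (hl.1 c hc).le
    · rw [map_zero, map_zero, ← h1]
      simp

theorem isSorted_pushL (θ : I →o J) (x : List I →₀ ℤ) : IsSorted (pushL θ x) := by
  classical
  intro l hl
  rw [pushL, Finsupp.linearCombination_apply, Finsupp.sum, Finsupp.finsetSum_apply] at hl
  obtain ⟨l', hl', h2⟩ := Finset.exists_ne_zero_of_sum_ne_zero hl
  rw [Finsupp.smul_apply] at h2
  split_ifs at h2 with h3
  · rw [Finsupp.single_apply] at h2
    split_ifs at h2 with h4
    · rwa [← h4]
    · simp at h2
  · simp at h2

theorem simplexCx_bdry (x : Smpl I →₀ ℤ) : (simplexCx I).bdry x = toS (dL (ofS x)) := by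
  induction x using Finsupp.induction_linear with
  | zero => simp
  | add f g hf hg => simp only [map_add, hf, hg]
  | single s k => rw [ofS_single, dL_single, map_smul, BCx.bdry_single]

end Push

end Vale.Agent.P213
end

section

universe u v w

namespace Vale.Agent.P213

section Push

variable {I J : Type} [LinearOrder I] [LinearOrder J]

/-- The morphism of based complexes induced by a monotone map. -/
noncomputable def simplexMap (θ : I →o J) : BCxHom (simplexCx I) (simplexCx J) where
  f s := toS (pushL θ (Finsupp.single s.1 1))
  nonneg s := by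
    classical
    intro t
    rw [toS_apply, pushL_single]
    split_ifs
    · rw [Finsupp.single_apply]
      split_ifs <;> simp
    · simp
  dim_f s t h := by
    classical
    rw [toS_apply, pushL_single] at h
    split_ifs at h
    · rw [Finsupp.single_apply] at h
      split_ifs at h with h1
      · change t.1.length - 1 = s.1.length - 1
        rw [← h1, List.length_map]
      · exact absurd rfl h
    · exact absurd rfl h
  bdry_f s := by
    have key : ∀ x : Smpl I →₀ ℤ,
        Finsupp.linearCombination ℤ
          (fun s : Smpl I => toS (pushL θ (Finsupp.single s.1 1))) x = toS (pushL θ (ofS x)) := by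
      intro x
      induction x using Finsupp.induction_linear with
      | zero => simp
      | add f g hf hg => simp only [map_add, hf, hg]
      | single s k =>
        rw [Finsupp.linearCombination_single, ofS_single, ← map_smul, ← map_smul]
        simp
    have h1 : IsSorted (faces s.1) := fun l hl => s.2.2.sublist (faces_support hl).1
    change (simplexCx J).bdry _ = Finsupp.linearCombination ℤ _ (toS (faces s.1))
    rw [key, ofS_toS h1, map_sub, ← dL_pushL θ s.2.2, simplexCx_bdry, ofS_toS (isSorted_pushL θ _),
      map_sub, map_sub, map_sub]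
    congr 1
    rw [pushL_single, pushL_single, dL_single, faces_nil]
    simp only [List.map_nil, List.Pairwise.nil, if_true, smul_zero, map_zero]
    ext t
    rw [toS_apply, Finsupp.single_apply, if_neg (fun h => t.2.1 h.symm)]
    rfl
  aug_f s h := by
    change s.1.length - 1 = 0 at h
    obtain ⟨l, hl, h2⟩ := s
    rcases l with _ | ⟨a, l⟩
    · exact absurd rfl hl
    · rcases l with _ | ⟨b, l⟩
      · have : toS (pushL θ (Finsupp.single [a] 1))
            = Finsupp.single (⟨[θ a], by simp⟩ : Smpl J) (1 : ℤ) := by
          rw [pushL_single]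
          simp only [List.map_cons, List.map_nil, List.pairwise_cons, List.not_mem_nil,
            false_implies, implies_true, List.Pairwise.nil, and_self, if_true]
          rw [← toS_ofS (Finsupp.single (⟨[θ a], by simp⟩ : Smpl J) (1 : ℤ)), ofS_single]
        rw [this, BCx.aug_single]
        simp
      · simp at h

end Push

end Vale.Agent.P213
end

section

universe u v w

namespace Vale.Agent.P213

section Push

variable {I J : Type} [LinearOrder I] [LinearOrder J]

theorem simplexMap_lin (θ : I →o J) (x : Smpl I →₀ ℤ) :
    (simplexMap θ).lin x = toS (pushL θ (ofS x)) := by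
  induction x using Finsupp.induction_linear with
  | zero => simp
  | add f g hf hg => simp only [map_add, hf, hg]
  | single s k =>
    rw [BCxHom.lin_single, ofS_single]
    change k • toS (pushL θ (Finsupp.single s.1 1)) = _
    rw [← map_smul, ← map_smul]
    simp

theorem pushL_id {l : List I} (hl : l.Pairwise (· < ·)) (k : ℤ) :
    pushL (OrderHom.id : I →o I) (Finsupp.single l k) = Finsupp.single l k := by
  rw [pushL_single]
  simp [hl]

theorem simplexMap_id : simplexMap (OrderHom.id : I →o I) = BCxHom.id (simplexCx I) := by
  ext1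
  funext s
  change toS (pushL _ (Finsupp.single s.1 1)) = Finsupp.single s 1
  rw [pushL_id s.2.2, ← toS_ofS (Finsupp.single s 1), ofS_single]

theorem pushL_pushL {J' : Type} [LinearOrder J'] (θ : I →o J) (θ' : J →o J') {l : List I}
    (hl : l.Pairwise (· < ·)) (k : ℤ) :
    pushL θ' (pushL θ (Finsupp.single l k)) = pushL (θ'.comp θ) (Finsupp.single l k) := by
  rw [pushL_single, pushL_single]
  by_cases h : (l.map θ).Pairwise (· < ·)
  · rw [if_pos h, pushL_single]
    simp [List.map_map]
  · rw [if_neg h, map_zero, if_neg]
    intro h2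
    apply h
    rw [List.pairwise_map] at h2 ⊢
    refine (hl.and h2).imp ?_
    rintro a b ⟨h3, h4⟩
    refine lt_of_le_of_ne (θ.monotone h3.le) ?_
    intro h5
    simp only [OrderHom.comp_coe, Function.comp_apply, h5, lt_self_iff_false] at h4

theorem simplexMap_comp {J' : Type} [LinearOrder J'] (θ : I →o J) (θ' : J →o J') :
    simplexMap (θ'.comp θ) = (simplexMap θ').comp (simplexMap θ) := by
  ext1
  funext s
  change toS (pushL _ (Finsupp.single s.1 1)) =
    (simplexMap θ').lin (toS (pushL θ (Finsupp.single s.1 1)))
  rw [simplexMap_lin, ofS_toS (isSorted_pushL _ _), map_sub, pushL_pushL θ θ' s.2.2]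
  have : (pushL θ (Finsupp.single s.1 1)) [] = 0 := by
    rw [pushL_single]
    split_ifs
    · rw [Finsupp.single_eq_of_ne]
      intro h
      exact s.2.1 (List.map_eq_nil_iff.1 h.symm)
    · rfl
  rw [this]
  simp

end Push

end Vale.Agent.P213
end

section

universe u v w

namespace Vale.Agent.P213

open CategoryTheory

/-- The cosimplicial strict omega-category of Street's orientals: the `m`-th oriental is
the omega-category of tables of the normalized chain complex of the `m`-simplex. -/
noncomputable def oriental : SimplexCategory ⥤ OmegaCat.{0} where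
  obj m := OmegaCat.mk (Cell (simplexCx (Fin (m.len + 1))))
  map θ := Cell.mapFun (simplexMap θ.toOrderHom)
  map_id m := by
    apply OmegaFun.ext
    intro x
    change x.map (simplexMap _) = x
    exact (congrArg (fun φ => x.map φ) simplexMap_id).trans (Cell.map_id x)
  map_comp θ θ' := by
    apply OmegaFun.ext
    intro x
    exact (congrArg (fun φ => x.map φ) (simplexMap_comp θ.toOrderHom θ'.toOrderHom)).trans
      (Cell.map_comp _ _ x)

/-- The Street nerve: `m`-simplices are the strict functors from the `m`-th oriental. -/
noncomputable def streetNerve : OmegaCat.{0} ⥤ SSet.{0} :=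
  yoneda ⋙ (Functor.whiskeringLeft _ _ _).obj oriental.op

/-- The Street nerve of strict `n`-categories. -/
noncomputable def nerveN (n : ℕ∞) : NCat.{0} n ⥤ SSet.{0} := (isNCat n).ι ⋙ streetNerve

end Vale.Agent.P213
end

section

/-!
Statement-level definitions for problem P213 (kept short).
-/

open CategoryTheory HomotopicalAlgebra Simplicial SSet.modelCategoryQuillen

namespace Vale.Agent.P213.St

/-- Operations of a one-sorted omega-category: the elements are the cells of all dimensions (a
cell is identified with its identities), `d false n` and `d true n` are the `n`-dimensional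
source and target, `comp n` is composition along `n`-cells (used for composable cells only). -/
class Ops (C : Type) where
  d : Bool → ℕ → C → C
  comp : ℕ → C → C → C

open Ops

/-- The `n`-target of `x` is the `n`-source of `y`: then `comp n x y` makes sense. -/
def Cmp {C : Type} [Ops C] (n : ℕ) (x y : C) : Prop := d true n x = d false n y

/-- The axioms of strict omega-categories. -/
structure IsOmega (C : Type) [Ops C] : Prop where
  fin (x : C) : ∃ n, d false n x = x
  dd a b m n (x : C) : d a m (d b n x) = if m < n then d a m x else d b n x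
  src n (x y : C) : Cmp n x y → d false n (comp n x y) = d false n x
  tgt n (x y : C) : Cmp n x y → d true n (comp n x y) = d true n y
  dcomp a m n (x y : C) : n < m → Cmp n x y → d a m (comp n x y) = comp n (d a m x) (d a m y)
  idl n (x : C) : comp n (d false n x) x = x
  idr n (x : C) : comp n x (d true n x) = x
  assoc n (x y z : C) : Cmp n x y → Cmp n y z → comp n (comp n x y) z = comp n x (comp n y z)
  inter m n (x y z w : C) : m < n → Cmp n x y → Cmp n z w → Cmp m x z →
    comp m (comp n x y) (comp n z w) = comp n (comp m x z) (comp m y w)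

/-- Small strict `n`-categories, `n` finite or `⊤`: strict omega-categories all of whose cells
above dimension `n` are identities. -/
structure NCat (n : ℕ∞) where
  C : Type
  [ops : Ops C]
  omega : IsOmega C
  dim : ∀ k : ℕ, n ≤ k → ∀ x : C, d false k x = x

attribute [instance] NCat.ops

/-- Strict functors. -/
structure Fun {n : ℕ∞} (X Y : NCat n) where
  f : X.C → Y.C
  map_d : ∀ a k x, f (d a k x) = d a k (f x)
  map_comp : ∀ k x y, Cmp k x y → f (comp k x y) = comp k (f x) (f y)

/-- Composition of strict functors. -/
def Fun.comp {n : ℕ∞} {X Y Z : NCat n} (g : Fun Y Z) (h : Fun X Y) : Fun X Z where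
  f x := g.f (h.f x)
  map_d a k x := by rw [h.map_d, g.map_d]
  map_comp k x y e := by
    rw [h.map_comp k x y e, g.map_comp k _ _ (by rw [Cmp, ← h.map_d, ← h.map_d, e])]

instance (n : ℕ∞) : Category (NCat n) where
  Hom := Fun
  id X := ⟨fun x => x, fun _ _ _ => rfl, fun _ _ _ _ => rfl⟩
  comp f g := g.comp f

/-- The cells of Street's `m`-th oriental, as tables of chains of the `m`-simplex:
`x false s` and `x true s` are the coefficients of the face `s` in the source part and in the
target part of its dimension, and (lower target part) - (lower source part) is the boundary of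
both parts one dimension up. -/
structure O (m : ℕ) where
  x : Bool → Finset (Fin (m + 1)) → ℕ
  empty a : x a ∅ = 0
  aug a : ∑ i, x a {i} = 1
  bdry a t : t ≠ ∅ → (x true t : ℤ) - x false t =
    ∑ j ∈ tᶜ, (-1) ^ (t.filter (· < j)).card * (x a (insert j t) : ℤ)

/-- `y` is the `n`-source or `n`-target of `x`. -/
def IsBd {m : ℕ} (a : Bool) (n : ℕ) (x y : O m) : Prop := ∀ b s,
  y.x b s = if s.card ≤ n then x.x b s else if s.card = n + 1 then x.x a s else 0

/-- Strict functors from the `m`-th oriental to `C`. The composite along the `n`-cell `w` of `x`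
and `y` is `z = x - w + y`. -/
def IsSimplex {C : Type} [Ops C] {m : ℕ} (f : O m → C) : Prop :=
  (∀ a n x y, IsBd a n x y → f y = d a n (f x)) ∧
  ∀ n x y z w, IsBd true n x w → IsBd false n y w →
    (∀ a s, z.x a s + w.x a s = x.x a s + y.x a s) → f z = comp n (f x) (f y)

/-- `N` is the Street nerve: `m`-simplices of `N.obj X` are the same as strict functors from the
`m`-th oriental to `X`, naturally in `X` and in `m`. -/
structure IsStreetNerve {D : Type 1} [Category.{0} D] (U : D → Type) [∀ X, Ops (U X)]
    (H : ∀ X Y : D, (X ⟶ Y) → U X → U Y) (N : D ⥤ SSet.{0})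
    (ev : ∀ (X : D) (m : ℕ), (Δ[m] ⟶ N.obj X) → O m → U X) : Prop where
  inj X m : (ev X m).Injective
  surj X m f : IsSimplex f ↔ ∃ s, ev X m s = f
  nat X Y φ m s x : ev Y m (s ≫ N.map φ) x = H X Y φ (ev X m s x)
  nat' X m k (θ : ⦋k⦌ ⟶ ⦋m⦌) s (x : O k) (y : O m) :
    (∀ a t, y.x a t = ∑ u with u.image θ.toOrderHom = t ∧ u.card = t.card, x.x a u) →
    ev X k (SSet.stdSimplex.map θ ≫ s) x = ev X m s y

/-- Weak homotopy equivalences of simplicial sets: the composites of a map with the left lifting
property against Kan fibrations and a map with the right lifting property against the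
boundary inclusions. -/
def whe : MorphismProperty SSet.{0} := fun X Y f => ∃ (Z : SSet.{0}) (j : X ⟶ Z) (p : Z ⟶ Y),
  J.rlp.llp j ∧ I.rlp p ∧ j ≫ p = f

/-- The three classes form a model structure. -/
def IsModel {C : Type 1} [Category.{0} C] (cof w fib : MorphismProperty C) : Prop :=
  ∃ M : ModelCategory C,
    @cofibrations C _ M.categoryWithCofibrations = cof ∧
    @weakEquivalences C _ M.categoryWithWeakEquivalences = w ∧
    @fibrations C _ M.categoryWithFibrations = fib

section

variable {D : Type 1} [Category.{0} D]

/-- Quillen equivalences between simplicial sets and `D`. -/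
def IsQuillenEquivalence {L : SSet.{0} ⥤ D} {R : D ⥤ SSet.{0}} (adj : L ⊣ R)
    (cof w : MorphismProperty D) : Prop :=
  (∀ K K' (i : K ⟶ K'), Mono i → cof (L.map i) ∧ (whe i → w (L.map i))) ∧
  ∀ K Y (f : L.obj K ⟶ Y), w f ↔ whe (adj.unit.app K ≫ R.map f)

variable (N : D ⥤ SSet.{0})

/-- Thomason weak equivalences. -/
def thW : MorphismProperty D := whe.inverseImage N

/-- Thomason fibrations. -/
def thF : MorphismProperty D := J.rlp.inverseImage (N ⋙ SSet.ex ⋙ SSet.ex)

/-- Thomason cofibrations. -/
def thC : MorphismProperty D := (thF N ⊓ thW N).llp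

/-- The Kan-Quillen classes and the Thomason classes form model structures, `N` has a left
adjoint, and for every left adjoint `c` the adjunction `c Sd² ⊣ Ex² N` is a Quillen
equivalence. -/
def IsThomason : Prop :=
  IsModel (.monomorphisms SSet.{0}) whe J.rlp ∧ IsModel (thC N) (thW N) (thF N) ∧
  N.IsRightAdjoint ∧ ∀ c (h : c ⊣ N), IsQuillenEquivalence
    ((SSet.sdExAdjunction.comp SSet.sdExAdjunction).comp h) (thC N) (thW N)

end

end Vale.Agent.P213.St
end

section

/-!
Comparison of the two descriptions of the cells of the orientals.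
-/

namespace Vale.Agent.P213.St

section Chains

variable {I : Type} [LinearOrder I]

lemma sorted_ext {l l' : List I} (h : l.Pairwise (· < ·)) (h' : l'.Pairwise (· < ·))
    (e : l.toFinset = l'.toFinset) : l = l' := by
  have hn : l.Nodup := h.imp (fun h => ne_of_lt h)
  have hn' : l'.Nodup := h'.imp (fun h => ne_of_lt h)
  refine List.Perm.eq_of_pairwise (le := (· < ·)) ?_ h h' ?_
  · intro a b _ _ h1 h2
    exact absurd (h1.trans h2) (lt_irrefl _)
  · rw [List.perm_iff_count]
    intro a
    have : a ∈ l ↔ a ∈ l' := by rw [← List.mem_toFinset, e, List.mem_toFinset]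
    rw [hn.count, hn'.count]
    simp [this]

/-- The simplex with a given nonempty set of vertices. -/
noncomputable def mkS (s : Finset I) (h : s.Nonempty) : Smpl I :=
  ⟨s.sort (· ≤ ·), by
    constructor
    · intro h'
      apply h.ne_empty
      rw [← Finset.sort_toFinset s (· ≤ ·), h']
      rfl
    · exact s.sortedLT_sort.pairwise⟩

lemma mkS_toFinset (s : Finset I) (h : s.Nonempty) : (mkS s h).1.toFinset = s :=
  Finset.sort_toFinset s (· ≤ ·)

lemma smpl_nonempty (l : Smpl I) : l.1.toFinset.Nonempty := by
  rw [List.toFinset_nonempty_iff]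
  exact l.2.1

lemma mkS_eq (l : Smpl I) : mkS l.1.toFinset (smpl_nonempty l) = l := by
  apply Subtype.ext
  exact sorted_ext (mkS _ _).2.2 l.2.2 (mkS_toFinset _ _)

lemma smpl_card (l : Smpl I) : l.1.toFinset.card = l.1.length :=
  List.toFinset_card_of_nodup (l.2.2.imp (fun h => ne_of_lt h))

/-- The coefficient of a set of vertices in a chain. -/
noncomputable def ev (c : Smpl I →₀ ℤ) (s : Finset I) : ℤ :=
  if h : s.Nonempty then c (mkS s h) else 0

lemma ev_empty (c : Smpl I →₀ ℤ) : ev c ∅ = 0 := by
  rw [ev, dif_neg Finset.not_nonempty_empty]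

lemma ev_toFinset (c : Smpl I →₀ ℤ) (l : Smpl I) : ev c l.1.toFinset = c l := by
  rw [ev, dif_pos (smpl_nonempty l), mkS_eq]

lemma ev_ext {c c' : Smpl I →₀ ℤ} (h : ∀ s, ev c s = ev c' s) : c = c' := by
  ext l
  rw [← ev_toFinset, h, ev_toFinset]

lemma ev_zero (s : Finset I) : ev 0 s = 0 := by
  rw [ev]; split_ifs <;> rfl

lemma ev_add (c c' : Smpl I →₀ ℤ) (s : Finset I) : ev (c + c') s = ev c s + ev c' s := by
  rw [ev, ev, ev]; split_ifs <;> simp

lemma ev_sub (c c' : Smpl I →₀ ℤ) (s : Finset I) : ev (c - c') s = ev c s - ev c' s := by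
  rw [ev, ev, ev]; split_ifs <;> simp

lemma ev_nonneg {c : Smpl I →₀ ℤ} (h : 0 ≤ c) (s : Finset I) : 0 ≤ ev c s := by
  rw [ev]; split_ifs
  · exact h _
  · exact le_rfl

lemma ev_single (l : Smpl I) (k : ℤ) (s : Finset I) :
    ev (Finsupp.single l k) s = if l.1.toFinset = s then k else 0 := by
  rw [ev]
  split_ifs with h1 h2 h2
  · have : mkS s h1 = l := by
      subst h2
      exact mkS_eq l
    rw [this, Finsupp.single_eq_same]
  · rw [Finsupp.single_eq_of_ne]
    intro h3
    apply h2
    rw [← h3, mkS_toFinset]
  · exact absurd (h2 ▸ smpl_nonempty l) h1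
  · rfl

lemma ev_part (p : ℕ → Prop) [DecidablePred p] (c : Smpl I →₀ ℤ) (s : Finset I) :
    ev ((simplexCx I).part p c) s = if p (s.card - 1) then ev c s else 0 := by
  by_cases h : s.Nonempty
  · rw [ev, dif_pos h, BCx.part_apply, ev, dif_pos h]
    have : (simplexCx I).dim (mkS s h) = s.card - 1 := by
      change (mkS s h).1.length - 1 = _
      rw [← smpl_card, mkS_toFinset]
    rw [this]
  · rw [ev, dif_neg h, ev, dif_neg h]
    simp

/-! ### The augmentation -/

lemma aug_ev [Fintype I] (c : Smpl I →₀ ℤ) : (simplexCx I).aug c = ∑ i, ev c {i} := by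
  induction c using Finsupp.induction_linear with
  | zero => simp [ev_zero]
  | add f g hf hg => simp only [map_add, hf, hg, ev_add, Finset.sum_add_distrib]
  | single l k =>
    rw [BCx.aug_single]
    simp only [ev_single]
    obtain ⟨l, h0, h1⟩ := l
    change (if l.length - 1 = 0 then k else 0) = ∑ i, if l.toFinset = {i} then k else 0
    rcases l with _ | ⟨a, l⟩
    · exact absurd rfl h0
    · rcases l with _ | ⟨b, l⟩
      · simp
      · rw [if_neg (by simp)]
        symm
        apply Finset.sum_eq_zero
        intro i _
        rw [if_neg]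
        intro h2
        have h3 := congrArg Finset.card h2
        rw [Finset.card_singleton, List.toFinset_card_of_nodup (h1.imp (fun h => ne_of_lt h))] at h3
        simp at h3

/-! ### The boundary -/

lemma card_filter_lt {s : List I} (hs : s.Pairwise (· < ·)) (i : ℕ) (hi : i < s.length) :
    (s.toFinset.filter (· < s[i])).card = i := by
  induction s generalizing i with
  | nil => simp at hi
  | cons a l ih =>
    rw [List.pairwise_cons] at hs
    rcases i with _ | i
    · simp only [List.getElem_cons_zero, List.toFinset_cons, Finset.card_eq_zero]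
      rw [Finset.filter_eq_empty_iff]
      intro x hx
      rw [Finset.mem_insert, List.mem_toFinset] at hx
      rcases hx with rfl | hx
      · exact lt_irrefl _
      · exact not_lt_of_gt (hs.1 x hx)
    · simp only [List.getElem_cons_succ, List.toFinset_cons]
      have hi' : i < l.length := by simpa using hi
      rw [Finset.filter_insert, if_pos (hs.1 _ (List.getElem_mem hi')),
        Finset.card_insert_of_notMem, ih hs.2 i hi']
      intro h
      rw [Finset.mem_filter, List.mem_toFinset] at h
      exact lt_irrefl _ (hs.1 a h.1)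

lemma faces_apply {s t : List I} (hs : s.Pairwise (· < ·)) (ht : t.Pairwise (· < ·))
    [Fintype I] :
    faces s t = ∑ j ∈ t.toFinsetᶜ with insert j t.toFinset = s.toFinset,
      (-1 : ℤ) ^ (t.toFinset.filter (· < j)).card := by
  have hn : s.Nodup := hs.imp (fun h => ne_of_lt h)
  have h1 : faces s t = ∑ i ∈ Finset.range s.length with s.eraseIdx i = t, (-1 : ℤ) ^ i := by
    rw [faces, Finsupp.finsetSum_apply, Finset.sum_filter]
    refine Finset.sum_congr rfl (fun i _ => ?_)
    rw [Finsupp.single_apply]
  have key : ∀ i (hi : i < s.length), s.eraseIdx i = t →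
      t.toFinset = s.toFinset.erase s[i] := by
    intro i hi h
    have h2 : s.erase s[i] = s.eraseIdx i := by
      rw [← List.eraseIdx_idxOf_eq_erase, hn.idxOf_getElem]
    rw [← h, ← h2]
    ext x
    rw [List.mem_toFinset, hn.mem_erase_iff, Finset.mem_erase, List.mem_toFinset]
  rw [h1]
  have hlt : ∀ i, i ∈ (Finset.range s.length).filter (fun i => s.eraseIdx i = t) →
      i < s.length := fun i hi => Finset.mem_range.1 (Finset.mem_filter.1 hi).1
  refine Finset.sum_bij (fun i hi => s[i]'(hlt i hi)) ?_ ?_ ?_ ?_
  · intro i hi
    have h2 := key i (hlt i hi) (Finset.mem_filter.1 hi).2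
    rw [Finset.mem_filter, Finset.mem_compl, h2]
    refine ⟨Finset.notMem_erase _ _, Finset.insert_erase ?_⟩
    rw [List.mem_toFinset]
    exact List.getElem_mem _
  · intro i hi j hj h
    exact (hn.getElem_inj_iff).1 h
  · intro j hj
    rw [Finset.mem_filter, Finset.mem_compl] at hj
    have hjs : j ∈ s := by
      rw [← List.mem_toFinset, ← hj.2]
      exact Finset.mem_insert_self _ _
    refine ⟨s.idxOf j, ?_, List.getElem_idxOf (List.idxOf_lt_length_of_mem hjs)⟩
    rw [Finset.mem_filter, Finset.mem_range, List.eraseIdx_idxOf_eq_erase]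
    refine ⟨List.idxOf_lt_length_of_mem hjs, ?_⟩
    apply sorted_ext (hs.sublist List.erase_sublist) ht
    ext x
    rw [List.mem_toFinset, hn.mem_erase_iff, ← List.mem_toFinset (l := s), ← hj.2,
      Finset.mem_insert]
    constructor
    · rintro ⟨h2, h3 | h3⟩
      · exact absurd h3 h2
      · exact h3
    · intro h2
      exact ⟨fun h3 => hj.1 (h3 ▸ h2), Or.inr h2⟩
  · intro i hi
    have h2 := key i (hlt i hi) (Finset.mem_filter.1 hi).2
    rw [h2, Finset.filter_erase, Finset.erase_eq_of_notMem, card_filter_lt hs]
    rw [Finset.mem_filter]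
    exact fun h => lt_irrefl _ h.2

lemma bdry_ev [Fintype I] (c : Smpl I →₀ ℤ) (t : Finset I) (ht : t.Nonempty) :
    ev ((simplexCx I).bdry c) t =
      ∑ j ∈ tᶜ, (-1 : ℤ) ^ (t.filter (· < j)).card * ev c (insert j t) := by
  induction c using Finsupp.induction_linear with
  | zero => simp [ev_zero]
  | add f g hf hg => simp only [map_add, hf, hg, ev_add, mul_add, Finset.sum_add_distrib]
  | single l k =>
    rw [BCx.bdry_single]
    have h1 : ev (k • (simplexCx I).bd l) t = k * faces l.1 (mkS t ht).1 := by
      rw [ev, dif_pos ht]
      rfl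
    rw [h1, faces_apply l.2.2 (mkS t ht).2.2, mkS_toFinset, Finset.sum_filter, Finset.mul_sum]
    refine Finset.sum_congr rfl (fun j _ => ?_)
    rw [ev_single]
    by_cases h : insert j t = l.1.toFinset
    · rw [if_pos h, if_pos h.symm, mul_comm]
    · rw [if_neg h, if_neg (fun h' => h h'.symm)]
      simp

/-! ### Push forward -/

variable {J : Type} [LinearOrder J]

lemma push_ev [Fintype I] (θ : I →o J) (c : Smpl I →₀ ℤ) (t : Finset J) :
    ev ((simplexMap θ).lin c) t = ∑ u : Finset I with u.image θ = t ∧ u.card = t.card, ev c u := by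
  induction c using Finsupp.induction_linear with
  | zero => simp [ev_zero]
  | add f g hf hg => simp only [map_add, hf, hg, ev_add, Finset.sum_add_distrib]
  | single l k =>
    rw [Finset.sum_filter]
    simp only [ev_single]
    rw [Finset.sum_eq_single l.1.toFinset]
    · rw [if_pos rfl, BCxHom.lin_single]
      by_cases ht : t.Nonempty
      · rw [ev, dif_pos ht]
        change k * (pushL θ (Finsupp.single l.1 1)) (mkS t ht).1 = _
        rw [pushL_single]
        have hm : (l.1.map θ).toFinset = l.1.toFinset.image θ := by
          ext x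
          simp
        by_cases hp : (l.1.map θ).Pairwise (· < ·)
        · rw [if_pos hp, Finsupp.single_apply]
          by_cases h2 : l.1.map θ = (mkS t ht).1
          · have h3 : l.1.toFinset.image θ = t := by
              rw [← hm, h2, mkS_toFinset]
            have h4 : l.1.toFinset.card = t.card := by
              rw [smpl_card, ← h3, ← hm, List.toFinset_card_of_nodup
                (hp.imp (fun h => ne_of_lt h)), List.length_map]
            rw [if_pos h2, if_pos ⟨h3, h4⟩, mul_one]
          · rw [if_neg h2, if_neg, mul_zero]
            rintro ⟨h3, -⟩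
            apply h2
            apply sorted_ext hp (mkS t ht).2.2
            rw [hm, h3, mkS_toFinset]
        · rw [if_neg hp, if_neg]
          · simp
          · rintro ⟨h3, h4⟩
            apply hp
            have hinj : Set.InjOn θ (l.1.toFinset : Set I) := by
              apply Finset.injOn_of_card_image_eq
              rw [h3, h4]
            rw [List.pairwise_map]
            have h5 := l.2.2
            refine List.Pairwise.imp_of_mem ?_ h5
            intro a b ha hb hab
            refine lt_of_le_of_ne (θ.monotone hab.le) ?_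
            intro h6
            have := hinj (by simpa using ha) (by simpa using hb) h6
            exact absurd this (ne_of_lt hab)
      · rw [Finset.not_nonempty_iff_eq_empty] at ht
        subst ht
        rw [ev_empty, if_neg]
        rintro ⟨-, h⟩
        rw [Finset.card_empty, Finset.card_eq_zero] at h
        exact (smpl_nonempty l).ne_empty h
    · intro b _ hb
      split_ifs with h1 h2
      · exact absurd h2.symm hb
      · rfl
      · rfl
    · intro h
      exact absurd (Finset.mem_univ _) h

/-! ### Tables -/

instance [Fintype I] : Finite (Smpl I) :=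
  Finite.of_injective (fun l : Smpl I => l.1.toFinset) (fun l l' h =>
    Subtype.ext (sorted_ext l.2.2 l'.2.2 h))

/-- The chain with given coefficients. -/
noncomputable def ofTab [Fintype I] (f : Finset I → ℕ) : Smpl I →₀ ℤ :=
  Finsupp.ofSupportFinite (fun l => (f l.1.toFinset : ℤ)) (Set.toFinite _)

lemma ev_ofTab [Fintype I] (f : Finset I → ℕ) (hf : f ∅ = 0) (s : Finset I) :
    ev (ofTab f) s = f s := by
  rw [ev]
  split_ifs with h
  · change (f (mkS s h).1.toFinset : ℤ) = f s
    rw [mkS_toFinset]
  · rw [Finset.not_nonempty_iff_eq_empty] at h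
    rw [h, hf]
    rfl

end Chains

/-- The cells of the oriental as tables. -/
noncomputable def tabEquiv (m : ℕ) : O m ≃ Cell (simplexCx (Fin (m + 1))) where
  toFun x :=
    { val := fun a => ofTab (x.x a)
      nonneg := fun a l => Int.natCast_nonneg _
      bdry_val := fun a => by
        apply ev_ext
        intro t
        rw [ev_sub, ev_ofTab _ (x.empty _), ev_ofTab _ (x.empty _)]
        by_cases ht : t.Nonempty
        · rw [bdry_ev _ _ ht, x.bdry a t ht.ne_empty]
          simp only [ev_ofTab _ (x.empty _)]
        · rw [Finset.not_nonempty_iff_eq_empty] at ht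
          rw [ht, ev_empty, x.empty, x.empty]
          rfl
      aug_val := fun a => by
        rw [aug_ev]
        simp only [ev_ofTab _ (x.empty _)]
        exact_mod_cast x.aug a }
  invFun c :=
    { x := fun a s => (ev (c.val a) s).toNat
      empty := fun a => by rw [ev_empty]; rfl
      aug := fun a => by
        have h := c.aug_val a
        rw [aug_ev] at h
        have h2 : ((∑ i, (ev (c.val a) {i}).toNat : ℕ) : ℤ) = 1 := by
          rw [Nat.cast_sum, ← h]
          exact Finset.sum_congr rfl
            (fun i _ => Int.toNat_of_nonneg (ev_nonneg (c.nonneg a) _))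
        exact_mod_cast h2
      bdry := fun a t ht => by
        simp only [Int.toNat_of_nonneg (ev_nonneg (c.nonneg _) _)]
        rw [← ev_sub, ← c.bdry_val a, bdry_ev _ _ (Finset.nonempty_iff_ne_empty.2 ht)] }
  left_inv x := by
    have : ∀ a s, (ev (ofTab (x.x a)) s).toNat = x.x a s := by
      intro a s
      rw [ev_ofTab _ (x.empty _)]
      rfl
    obtain ⟨x, h1, h2, h3⟩ := x
    simp only [O.mk.injEq]
    funext a s
    exact this a s
  right_inv c := by
    apply Cell.ext
    funext a
    apply ev_ext
    intro s
    rw [ev_ofTab]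
    · exact Int.toNat_of_nonneg (ev_nonneg (c.nonneg a) _)
    · change (ev (c.val a) ∅).toNat = 0
      rw [ev_empty]; rfl

lemma ev_tabEquiv {m : ℕ} (x : O m) (a : Bool) (s : Finset (Fin (m + 1))) :
    ev ((tabEquiv m x).val a) s = x.x a s :=
  ev_ofTab _ (x.empty _) s

lemma tab_ext_iff {m : ℕ} (x : O m) (c : Cell (simplexCx (Fin (m + 1)))) :
    tabEquiv m x = c ↔ ∀ a s, (x.x a s : ℤ) = ev (c.val a) s := by
  constructor
  · rintro rfl a s
    rw [ev_tabEquiv]
  · intro h
    apply Cell.ext
    funext a
    apply ev_ext
    intro s
    rw [ev_tabEquiv, h]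

theorem isBd_iff {m : ℕ} (a : Bool) (n : ℕ) (x y : O m) :
    IsBd a n x y ↔ tabEquiv m y = OmegaStr.d a n (tabEquiv m x) := by
  rw [tab_ext_iff]
  refine forall_congr' (fun b => forall_congr' (fun s => ?_))
  change _ ↔ _ = ev ((simplexCx _).part (· < n) ((tabEquiv m x).val b) +
    (simplexCx _).part (· = n) ((tabEquiv m x).val a)) s
  rw [ev_add, ev_part, ev_part, ev_tabEquiv, ev_tabEquiv]
  by_cases hs : s = ∅
  · subst hs
    simp only [x.empty, y.empty, Finset.card_empty]
    simp
  · have h0 : 0 < s.card := Finset.card_pos.2 (Finset.nonempty_iff_ne_empty.2 hs)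
    by_cases h1 : s.card ≤ n
    · rw [if_pos h1, if_pos (by omega), if_neg (by omega)]
      simp
    · by_cases h2 : s.card = n + 1
      · rw [if_neg h1, if_pos h2, if_neg (by omega), if_pos (by omega)]
        simp
      · rw [if_neg h1, if_neg h2, if_neg (by omega), if_neg (by omega)]
        simp

theorem comp_iff {m : ℕ} (n : ℕ) (x y z : O m) :
    (∃ w, IsBd true n x w ∧ IsBd false n y w ∧ ∀ a s, z.x a s + w.x a s = x.x a s + y.x a s) ↔
      ∃ h : OmegaStr.d true n (tabEquiv m x) = OmegaStr.d false n (tabEquiv m y),
        tabEquiv m z = OmegaStr.comp n (tabEquiv m x) (tabEquiv m y) h := by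
  have key : ∀ (w : O m) (hw : tabEquiv m w = OmegaStr.d true n (tabEquiv m x))
      (h : OmegaStr.d true n (tabEquiv m x) = OmegaStr.d false n (tabEquiv m y)),
      (∀ a s, z.x a s + w.x a s = x.x a s + y.x a s) ↔
        tabEquiv m z = OmegaStr.comp n (tabEquiv m x) (tabEquiv m y) h := by
    intro w hw h
    rw [tab_ext_iff]
    refine forall_congr' (fun b => forall_congr' (fun s => ?_))
    change _ ↔ _ = ev ((tabEquiv m x).val b - (Cell.dd true n (tabEquiv m x)).val b +
      (tabEquiv m y).val b) s
    have hw' : Cell.dd true n (tabEquiv m x) = tabEquiv m w := hw.symm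
    rw [hw', ev_add, ev_sub, ev_tabEquiv, ev_tabEquiv, ev_tabEquiv]
    omega
  constructor
  · rintro ⟨w, h1, h2, h3⟩
    rw [isBd_iff] at h1 h2
    exact ⟨h1.symm.trans h2, (key w h1 _).1 h3⟩
  · rintro ⟨h, hz⟩
    refine ⟨(tabEquiv m).symm (OmegaStr.d true n (tabEquiv m x)), ?_, ?_, ?_⟩
    · rw [isBd_iff, Equiv.apply_symm_apply]
    · rw [isBd_iff, Equiv.apply_symm_apply, h]
    · exact (key _ (Equiv.apply_symm_apply _ _) h).2 hz

theorem push_iff {k m : ℕ} (θ : Fin (k + 1) →o Fin (m + 1)) (x : O k) (y : O m) :
    (∀ a t, y.x a t = ∑ u with u.image θ = t ∧ u.card = t.card, x.x a u) ↔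
      tabEquiv m y = (tabEquiv k x).map (simplexMap θ) := by
  rw [tab_ext_iff]
  refine forall_congr' (fun a => forall_congr' (fun t => ?_))
  rw [Cell.map_val, push_ev]
  simp only [ev_tabEquiv]
  norm_cast

end Vale.Agent.P213.St
end

section

open CategoryTheory HomotopicalAlgebra Simplicial MonoidalCategory Limits

universe v u

namespace Vale.Agent.P213

/-- Homotopy classes of maps of simplicial sets `X ⟶ K`: the quotient of the set of maps
by the equivalence relation generated by simplicial homotopy `X ⊗ Δ[1] ⟶ K`. -/
def HoClass (X K : SSet.{u}) : Type u :=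
  Quot (fun f g : X ⟶ K => ∃ h : X ⊗ Δ[1] ⟶ K, SSet.ι₀ ≫ h = f ∧ SSet.ι₁ ≫ h = g)

/-- Precomposition with `f : X ⟶ Y` on homotopy classes of maps. -/
def HoClass.precomp {X Y : SSet.{u}} (f : X ⟶ Y) (K : SSet.{u}) :
    HoClass Y K → HoClass X K :=
  Quot.map (fun g => f ≫ g) (by
    rintro g g' ⟨h, h₀, h₁⟩
    refine ⟨f ▷ Δ[1] ≫ h, ?_, ?_⟩
    · rw [← h₀]; rfl
    · rw [← h₁]; rfl)

/-- Weak homotopy equivalences of simplicial sets: `f : X ⟶ Y` such that for every Kan
complex `K` precomposition with `f` is a bijection `[Y, K] ≃ [X, K]` on homotopy classes. -/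
def whe : MorphismProperty SSet.{u} := fun _ _ f =>
  ∀ (K : SSet.{u}) [SSet.KanComplex K], Function.Bijective (HoClass.precomp f K)

/-- Kan fibrations (right lifting property against all horn inclusions). -/
def kanFib : MorphismProperty SSet.{u} := SSet.modelCategoryQuillen.J.rlp

variable {C : Type u} [Category.{v} C]

/-- The three classes form a (Quillen, closed) model structure on `C`. -/
def IsModelStructure (cof w fib : MorphismProperty C) : Prop :=
  ∃ M : ModelCategory C,
    @cofibrations C _ M.categoryWithCofibrations = cof ∧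
    @weakEquivalences C _ M.categoryWithWeakEquivalences = w ∧
    @fibrations C _ M.categoryWithFibrations = fib

section

variable {D : Type (u + 1)} [Category.{v} D] (N : D ⥤ SSet.{u})

/-- Thomason weak equivalences relative to a nerve functor `N`. -/
def thW : MorphismProperty D := whe.inverseImage N

/-- Thomason fibrations relative to `N`: `Ex² N f` is a Kan fibration. -/
def thF : MorphismProperty D := kanFib.inverseImage (N ⋙ SSet.ex ⋙ SSet.ex)

/-- Thomason cofibrations: the left lifting property against `thF ∩ thW`. -/
def thC : MorphismProperty D := (thF N ⊓ thW N).llp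

/-- `L ⊣ R` is a Quillen equivalence between simplicial sets (Kan-Quillen model structure:
monomorphisms, weak homotopy equivalences, Kan fibrations) and `D` with classes `cof w fib`. -/
structure IsQuillenEquivalence {L : SSet.{u} ⥤ D} {R : D ⥤ SSet.{u}} (adj : L ⊣ R)
    (cof w fib : MorphismProperty D) : Prop where
  cof_map : ∀ ⦃X Y : SSet.{u}⦄ (f : X ⟶ Y), Mono f → cof (L.map f)
  trivCof_map : ∀ ⦃X Y : SSet.{u}⦄ (f : X ⟶ Y), Mono f → whe f → w (L.map f)
  fib_map : ∀ ⦃X Y : D⦄ (f : X ⟶ Y), fib f → kanFib (R.map f)
  equiv : ∀ (K : SSet.{u}) (Y T : D) (_ : IsTerminal T) (p : Y ⟶ T) (_ : fib p)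
    (f : L.obj K ⟶ Y), w f ↔ whe (adj.homEquiv K Y f)

/-- The Thomason statement for a nerve functor `N : D ⥤ SSet`: the Kan-Quillen classes form
a model structure on simplicial sets, the Thomason classes form a model structure on `D`,
`N` has a left adjoint `c`, and for every such `c` the adjunction `c Sd² ⊣ Ex² N` is a
Quillen equivalence. -/
structure IsThomason : Prop where
  kanQuillen : IsModelStructure (MorphismProperty.monomorphisms SSet.{u}) whe kanFib
  model : IsModelStructure (thC N) (thW N) (thF N)
  isRightAdjoint : N.IsRightAdjoint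
  quillenEquivalence : ∀ {c : SSet.{u} ⥤ D} (adj : c ⊣ N),
    IsQuillenEquivalence ((SSet.sdExAdjunction.comp SSet.sdExAdjunction).comp adj)
      (thC N) (thW N) (thF N)

end

end Vale.Agent.P213
end
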