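import Mathlib.AlgebraicTopology.SimplicialSet.AnodyneExtensions.PushoutProduct
import Mathlib.AlgebraicTopology.SimplicialSet.Monomorphisms
import Mathlib.AlgebraicTopology.SimplicialSet.Boundary
import Mathlib.CategoryTheory.Comma.Over.Pullback
import Mathlib.CategoryTheory.Limits.Preserves.Filtered
import Mathlib.SetTheory.Cardinal.Finite
import Mathlib.Data.Fintype.Sort
import Mathlib.Order.Defs.LinearOrder
import Vale.Agent.P213.Bdl.B1

set_option linter.all false

section

/-!
# Weak homotopy equivalences of simplicial sets: basic theory (KQ1)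
-/

universe u

open CategoryTheory MonoidalCategory CartesianMonoidalCategory Simplicial
  HomotopicalAlgebra Limits SSet SSet.modelCategoryQuillen

namespace Vale.Agent.P213

/-- Elementary simplicial homotopy. -/
def Htpy {X Y : SSet.{u}} (f g : X ⟶ Y) : Prop :=
  ∃ h : X ⊗ Δ[1] ⟶ Y, ι₀ ≫ h = f ∧ ι₁ ≫ h = g

variable {X Y Z K : SSet.{u}}

section Htpy

lemma Htpy.refl (f : X ⟶ Y) : Htpy f f :=
  ⟨fst _ _ ≫ f, by simp, by simp⟩

lemma Htpy.of_eq {f g : X ⟶ Y} (h : f = g) : Htpy f g := h ▸ Htpy.refl f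

lemma Htpy.precomp {f g : Y ⟶ Z} (h : Htpy f g) (k : X ⟶ Y) : Htpy (k ≫ f) (k ≫ g) := by
  obtain ⟨h, rfl, rfl⟩ := h
  exact ⟨k ▷ _ ≫ h, by simp, by simp⟩

lemma Htpy.postcomp {f g : X ⟶ Y} (h : Htpy f g) (k : Y ⟶ Z) : Htpy (f ≫ k) (g ≫ k) := by
  obtain ⟨h, rfl, rfl⟩ := h
  exact ⟨h ≫ k, by simp, by simp⟩

lemma δ_one_eq : (stdSimplex.{u}.δ 1 : Δ[0] ⟶ Δ[1]) = const (stdSimplex.obj₀Equiv.symm 0) := by
  apply SSet.yonedaEquiv.injective
  apply stdSimplex.objEquiv.injective
  ext i : 3
  fin_cases i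
  rfl

lemma δ_zero_eq : (stdSimplex.{u}.δ 0 : Δ[0] ⟶ Δ[1]) = const (stdSimplex.obj₀Equiv.symm 1) := by
  apply SSet.yonedaEquiv.injective
  apply stdSimplex.objEquiv.injective
  ext i : 3
  fin_cases i
  rfl

lemma fst_ι₀ (X : SSet.{u}) : fst X Δ[0] ≫ ι₀ = X ◁ stdSimplex.δ 1 := by
  rw [δ_one_eq]
  rfl

lemma fst_ι₁ (X : SSet.{u}) : fst X Δ[0] ≫ ι₁ = X ◁ stdSimplex.δ 0 := by
  rw [δ_zero_eq]
  rfl

instance isIso_fst (X : SSet.{u}) : IsIso (fst X Δ[0]) :=
  ⟨lift (𝟙 _) (stdSimplex.isTerminalObj₀.from X), by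
    ext
    simp, by simp⟩

lemma edge_euclid {L : SSet.{u}} [KanComplex L] (e e' : Δ[1] ⟶ L)
    (h : stdSimplex.δ 1 ≫ e = stdSimplex.δ 1 ≫ e') :
    ∃ e'' : Δ[1] ⟶ L, stdSimplex.δ 1 ≫ e'' = stdSimplex.δ 0 ≫ e ∧
      stdSimplex.δ 0 ≫ e'' = stdSimplex.δ 0 ≫ e' := by
  let f : ∀ (j : Fin 3) (_ : j ≠ 0), Δ[1] ⟶ L := fun j _ => if j = 1 then e' else e
  have hf : horn.IsCompatible f := by
    rw [horn.isCompatible_iff]
    intro j k hj hk hjk
    fin_cases j
    · simp at hj
    · fin_cases k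
      · simp at hk
      · simp at hjk
      · exact h.symm
    · fin_cases k
      · simp at hk
      · simp at hjk
      · simp at hjk
  obtain ⟨φ, hφ⟩ := hf.exists_lift_of_kanComplex
  have h1 : stdSimplex.δ 1 ≫ φ = e' := hφ 1 (by simp)
  have h2 : stdSimplex.δ 2 ≫ φ = e := hφ 2 (by simp)
  have e1 : (stdSimplex.{u}.δ 1 : Δ[0] ⟶ Δ[1]) ≫ (stdSimplex.δ 0 : Δ[1] ⟶ Δ[2]) =
      stdSimplex.δ 0 ≫ stdSimplex.δ 2 :=
    (stdSimplex.δ_comp_δ (n := 0) (i := 0) (j := 1) (by simp)).symm
  have e0 : (stdSimplex.{u}.δ 0 : Δ[0] ⟶ Δ[1]) ≫ (stdSimplex.δ 0 : Δ[1] ⟶ Δ[2]) =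
      stdSimplex.δ 0 ≫ stdSimplex.δ 1 :=
    (stdSimplex.δ_comp_δ (n := 0) (i := 0) (j := 0) (by simp)).symm
  refine ⟨stdSimplex.δ 0 ≫ φ, ?_, ?_⟩
  · rw [← Category.assoc, e1, Category.assoc, h2]
  · rw [← Category.assoc, e0, Category.assoc, h1]

lemma Htpy_iff_curry {f g : X ⟶ K} : Htpy f g ↔ ∃ e : Δ[1] ⟶ (ihom X).obj K,
    stdSimplex.δ 1 ≫ e = MonoidalClosed.curry (fst X Δ[0] ≫ f) ∧
    stdSimplex.δ 0 ≫ e = MonoidalClosed.curry (fst X Δ[0] ≫ g) := by
  constructor
  · rintro ⟨h, h0, h1⟩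
    refine ⟨MonoidalClosed.curry h, ?_, ?_⟩
    · rw [← MonoidalClosed.curry_natural_left, ← fst_ι₀, Category.assoc, h0]
    · rw [← MonoidalClosed.curry_natural_left, ← fst_ι₁, Category.assoc, h1]
  · rintro ⟨e, h0, h1⟩
    refine ⟨MonoidalClosed.uncurry e, ?_, ?_⟩
    · rw [← cancel_epi (fst X Δ[0]), ← Category.assoc, fst_ι₀,
        ← MonoidalClosed.uncurry_natural_left, h0, MonoidalClosed.uncurry_curry]
    · rw [← cancel_epi (fst X Δ[0]), ← Category.assoc, fst_ι₁,
        ← MonoidalClosed.uncurry_natural_left, h1, MonoidalClosed.uncurry_curry]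

lemma Htpy.euclid [KanComplex K] {f g h : X ⟶ K} (h₁ : Htpy f g) (h₂ : Htpy f h) :
    Htpy g h := by
  rw [Htpy_iff_curry] at h₁ h₂ ⊢
  obtain ⟨e, he0, he1⟩ := h₁
  obtain ⟨e', he0', he1'⟩ := h₂
  obtain ⟨e'', h, h'⟩ := edge_euclid e e' (by rw [he0, he0'])
  exact ⟨e'', by rw [h, he1], by rw [h', he1']⟩

lemma Htpy.symm [KanComplex K] {f g : X ⟶ K} (h₁ : Htpy f g) : Htpy g f :=
  h₁.euclid (Htpy.refl f)

lemma Htpy.trans [KanComplex K] {f g h : X ⟶ K} (h₁ : Htpy f g) (h₂ : Htpy g h) : Htpy f h :=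
  h₁.symm.euclid h₂

/-- The equivalence relation generated by simplicial homotopy. -/
abbrev HtpyE {X Y : SSet.{u}} (f g : X ⟶ Y) : Prop := Relation.EqvGen Htpy f g

lemma Htpy.toE {f g : X ⟶ Y} (h : Htpy f g) : HtpyE f g := Relation.EqvGen.rel _ _ h

lemma HtpyE.refl (f : X ⟶ Y) : HtpyE f f := Relation.EqvGen.refl f

lemma HtpyE.symm {f g : X ⟶ Y} (h : HtpyE f g) : HtpyE g f := Relation.EqvGen.symm _ _ h

lemma HtpyE.trans {f g h : X ⟶ Y} (h₁ : HtpyE f g) (h₂ : HtpyE g h) : HtpyE f h :=
  Relation.EqvGen.trans _ _ _ h₁ h₂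

lemma HtpyE.precomp {f g : Y ⟶ Z} (h : HtpyE f g) (k : X ⟶ Y) : HtpyE (k ≫ f) (k ≫ g) := by
  induction h with
  | rel _ _ h => exact (h.precomp k).toE
  | refl _ => exact HtpyE.refl _
  | symm _ _ _ h => exact HtpyE.symm h
  | trans _ _ _ _ _ h₁ h₂ => exact HtpyE.trans h₁ h₂

lemma HtpyE.postcomp {f g : X ⟶ Y} (h : HtpyE f g) (k : Y ⟶ Z) : HtpyE (f ≫ k) (g ≫ k) := by
  induction h with
  | rel _ _ h => exact (h.postcomp k).toE
  | refl _ => exact HtpyE.refl _
  | symm _ _ _ h => exact HtpyE.symm h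
  | trans _ _ _ _ _ h₁ h₂ => exact HtpyE.trans h₁ h₂

lemma HtpyE.htpy [KanComplex K] {f g : X ⟶ K} (h : HtpyE f g) : Htpy f g := by
  induction h with
  | rel _ _ h => exact h
  | refl _ => exact Htpy.refl _
  | symm _ _ _ h => exact h.symm
  | trans _ _ _ _ _ h₁ h₂ => exact h₁.trans h₂

end Htpy

section whe

lemma HoClass.mk_eq_iff [KanComplex K] {f g : X ⟶ K} :
    (Quot.mk _ f : HoClass X K) = Quot.mk _ g ↔ Htpy f g := by
  constructor
  · intro h
    exact HtpyE.htpy (Quot.eqvGen_exact h)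
  · intro h
    exact Quot.sound h

lemma whe_iff {f : X ⟶ Y} : whe f ↔ ∀ (K : SSet.{u}) [KanComplex K],
    (∀ g : X ⟶ K, ∃ g' : Y ⟶ K, Htpy (f ≫ g') g) ∧
    (∀ g g' : Y ⟶ K, Htpy (f ≫ g) (f ≫ g') → Htpy g g') := by
  constructor
  · intro h K _
    refine ⟨fun g => ?_, fun g g' hg => ?_⟩
    · obtain ⟨⟨g'⟩, hg'⟩ := (h K).2 (Quot.mk _ g)
      exact ⟨g', HoClass.mk_eq_iff.1 hg'⟩
    · exact HoClass.mk_eq_iff.1 ((h K).1 (HoClass.mk_eq_iff.2 hg))
  · intro h K _
    refine ⟨?_, ?_⟩
    · rintro ⟨g⟩ ⟨g'⟩ hg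
      exact HoClass.mk_eq_iff.2 ((h K).2 _ _ (HoClass.mk_eq_iff.1 hg))
    · rintro ⟨g⟩
      obtain ⟨g', hg'⟩ := (h K).1 g
      exact ⟨Quot.mk _ g', HoClass.mk_eq_iff.2 hg'⟩

lemma whe.surj {f : X ⟶ Y} (hf : whe f) [KanComplex K] (g : X ⟶ K) :
    ∃ g' : Y ⟶ K, Htpy (f ≫ g') g := (whe_iff.1 hf K).1 g

lemma whe.inj {f : X ⟶ Y} (hf : whe f) [KanComplex K] {g g' : Y ⟶ K}
    (h : Htpy (f ≫ g) (f ≫ g')) : Htpy g g' := (whe_iff.1 hf K).2 g g' h

lemma whe.comp {f : X ⟶ Y} {g : Y ⟶ Z} (hf : whe f)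
    (hg : whe g) : whe (f ≫ g) := by
  rw [whe_iff]
  intro K _
  refine ⟨fun k => ?_, fun a b h => ?_⟩
  · obtain ⟨g', hg'⟩ := hf.surj k
    obtain ⟨g'', hg''⟩ := hg.surj g'
    exact ⟨g'', by simpa using (hg''.precomp f).trans hg'⟩
  · exact hg.inj (hf.inj (by simpa using h))

lemma whe.cancel_pre {f : X ⟶ Y} {g : Y ⟶ Z} (hf : whe f)
    (hfg : whe (f ≫ g)) : whe g := by
  rw [whe_iff]
  intro K _
  refine ⟨fun k => ?_, fun a b h => ?_⟩
  · obtain ⟨a, ha⟩ := hfg.surj (f ≫ k)
    exact ⟨a, hf.inj (by simpa using ha)⟩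
  · exact hfg.inj (by simpa using h.precomp f)

lemma whe.cancel_post {f : X ⟶ Y} {g : Y ⟶ Z} (hg : whe g)
    (hfg : whe (f ≫ g)) : whe f := by
  rw [whe_iff]
  intro K _
  refine ⟨fun k => ?_, fun a b h => ?_⟩
  · obtain ⟨a, ha⟩ := hfg.surj k
    exact ⟨g ≫ a, by simpa using ha⟩
  · obtain ⟨a', ha'⟩ := hg.surj a
    obtain ⟨b', hb'⟩ := hg.surj b
    have : Htpy (f ≫ g ≫ a') (f ≫ g ≫ b') :=
      (ha'.precomp f).trans (h.trans (hb'.precomp f).symm)
    have h3 : Htpy a' b' := hfg.inj (by simpa using this)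
    exact ha'.symm.trans ((h3.precomp g).trans hb')

/-- a homotopy equivalence (up to zigzags of homotopies) is a weak equivalence -/
lemma whe_of_eqvGen {X Y : SSet.{u}} (f : X ⟶ Y) (g : Y ⟶ X)
    (h₁ : Relation.EqvGen Htpy (f ≫ g) (𝟙 X)) (h₂ : Relation.EqvGen Htpy (g ≫ f) (𝟙 Y)) :
    whe f := by
  rw [whe_iff]
  intro K _
  refine ⟨fun k => ⟨g ≫ k, ?_⟩, fun a b h => ?_⟩
  · simpa using (HtpyE.postcomp h₁ k).htpy
  · have ha : Htpy (g ≫ f ≫ a) a := by simpa using (HtpyE.postcomp h₂ a).htpy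
    have hb : Htpy (g ≫ f ≫ b) b := by simpa using (HtpyE.postcomp h₂ b).htpy
    exact (ha.symm.trans (h.precomp g)).trans hb

lemma whe.of_htpyE {f g : X ⟶ Y} (h : HtpyE f g) (hf : whe f) :
    whe g := by
  rw [whe_iff]
  intro K _
  refine ⟨fun k => ?_, fun a b hab => ?_⟩
  · obtain ⟨a, ha⟩ := hf.surj k
    exact ⟨a, (HtpyE.postcomp h a).htpy.symm.trans ha⟩
  · exact hf.inj (((HtpyE.postcomp h a).htpy.trans hab).trans (HtpyE.postcomp h b).htpy.symm)

/-- homotopic maps: one is a weak equivalence iff the other is -/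
lemma whe_iff_of_eqvGen {X Y : SSet.{u}} {f g : X ⟶ Y} (h : Relation.EqvGen Htpy f g) :
    whe f ↔ whe g :=
  ⟨whe.of_htpyE h, whe.of_htpyE (HtpyE.symm h)⟩

lemma whe_of_isIso {X Y : SSet.{u}} (f : X ⟶ Y) [IsIso f] : whe f :=
  whe_of_eqvGen f (inv f) (by simpa using HtpyE.refl _) (by simpa using HtpyE.refl _)

instance whe_isMultiplicative : whe.{u}.IsMultiplicative where
  id_mem _ := whe_of_isIso _
  comp_mem _ _ hf hg := hf.comp hg

instance whe_twoOutOfThree : whe.{u}.HasTwoOutOfThreeProperty where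
  of_postcomp _ _ hg hfg := whe.cancel_post hg hfg
  of_precomp _ _ hf hfg := whe.cancel_pre hf hfg

instance whe_respectsIso : whe.{u}.RespectsIso :=
  MorphismProperty.respectsIso_of_isStableUnderComposition
    (fun _ _ f (_ : IsIso f) => whe_of_isIso f)

instance whe_retracts : whe.{u}.IsStableUnderRetracts where
  of_retract {X Y Z W f g} h hg := by
    rw [whe_iff]
    intro K _
    refine ⟨fun k => ?_, fun a b hab => ?_⟩
    · obtain ⟨a, ha⟩ := hg.surj (h.r.left ≫ k)
      refine ⟨h.i.right ≫ a, ?_⟩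
      have := ha.precomp h.i.left
      simpa using this
    · have : Htpy (h.r.right ≫ a) (h.r.right ≫ b) := hg.inj (by
        simpa using hab.precomp h.r.left)
      simpa using this.precomp h.i.right

end whe

section lifting

variable {A B E S T : SSet.{u}}

lemma app_injective (a : S ⟶ Z) [Mono a] (n) : Function.Injective (a.app n) := by
  rw [← mono_iff_injective]
  infer_instance

/-- Gluing of two maps defined on the ranges of two monomorphisms. -/
lemma exists_glue (a : S ⟶ Z) (b : T ⟶ Z) [Mono a] [Mono b] (f : S ⟶ E) (g : T ⟶ E)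
    (hab : ∀ n (x : S.obj n) (y : T.obj n), a.app n x = b.app n y → f.app n x = g.app n y) :
    ∃ k : ((Subcomplex.range a ⊔ Subcomplex.range b : Z.Subcomplex) : SSet) ⟶ E,
      Subcomplex.lift a le_sup_left ≫ k = f ∧ Subcomplex.lift b le_sup_right ≫ k = g := by
  have ha := fun n => app_injective a n
  have hb := fun n => app_injective b n
  have key : ∀ n (z : ((Subcomplex.range a ⊔ Subcomplex.range b : Z.Subcomplex)).obj n),
    ∃ e : E.obj n, (∀ x : S.obj n, a.app n x = z.1 → f.app n x = e) ∧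
      (∀ y : T.obj n, b.app n y = z.1 → g.app n y = e) := by
    rintro n ⟨z, hz⟩
    obtain ⟨x, rfl⟩ | ⟨y, rfl⟩ := hz
    · exact ⟨f.app n x, fun x' hx' => by rw [ha n hx'], fun y hy => (hab _ _ _ hy.symm).symm⟩
    · exact ⟨g.app n y, fun x' hx' => hab _ _ _ hx', fun y' hy' => by rw [hb n hy']⟩
  choose k hk₁ hk₂ using key
  refine ⟨{ app n := ↾(k n), naturality := ?_ }, ?_, ?_⟩
  · intro n m φ
    ext ⟨z, hz⟩
    obtain ⟨x, rfl⟩ | ⟨y, rfl⟩ := hz
    · exact (hk₁ m _ (S.map φ x) (NatTrans.naturality_apply a φ x)).symm.trans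
        ((NatTrans.naturality_apply f φ x).trans (congrArg (E.map φ)
          (hk₁ n ⟨_, Or.inl ⟨x, rfl⟩⟩ x rfl)))
    · exact (hk₂ m _ (T.map φ y) (NatTrans.naturality_apply b φ y)).symm.trans
        ((NatTrans.naturality_apply g φ y).trans (congrArg (E.map φ) (hk₂ n _ y rfl)))
  · ext n x
    exact (hk₁ n _ x rfl).symm
  · ext n x
    exact (hk₂ n _ x rfl).symm

/-- Gluing of maps on a subcomplex expressed as a union: extensionality. -/
lemma glue_hom_ext {a : S ⟶ Z} {b : T ⟶ Z}
    {f g : ((Subcomplex.range a ⊔ Subcomplex.range b : Z.Subcomplex) : SSet) ⟶ E}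
    (h₁ : Subcomplex.lift a le_sup_left ≫ f = Subcomplex.lift a le_sup_left ≫ g)
    (h₂ : Subcomplex.lift b le_sup_right ≫ f = Subcomplex.lift b le_sup_right ≫ g) : f = g := by
  ext n ⟨z, hz⟩
  obtain ⟨x, rfl⟩ | ⟨y, rfl⟩ := hz
  · exact ConcreteCategory.congr_hom (congr_app h₁ n) x
  · exact ConcreteCategory.congr_hom (congr_app h₂ n) y

/-- If the union of two ranges has the left lifting property, then a lifting problem given on
the two pieces has a solution. -/
lemma exists_lift_glue {a : S ⟶ Z} {b : T ⟶ Z} [Mono a] [Mono b] {p : E ⟶ B}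
    [HasLiftingProperty (Subcomplex.range a ⊔ Subcomplex.range b : Z.Subcomplex).ι p]
    (f : S ⟶ E) (g : T ⟶ E)
    (hab : ∀ n (x : S.obj n) (y : T.obj n), a.app n x = b.app n y → f.app n x = g.app n y)
    (k : Z ⟶ B) (hf : a ≫ k = f ≫ p) (hg : b ≫ k = g ≫ p) :
    ∃ l : Z ⟶ E, a ≫ l = f ∧ b ≫ l = g ∧ l ≫ p = k := by
  obtain ⟨m, hm₁, hm₂⟩ := exists_glue a b f g hab
  have sq : CommSq m (Subcomplex.range a ⊔ Subcomplex.range b : Z.Subcomplex).ι p k := ⟨by
    apply glue_hom_ext
    · rw [reassoc_of% hm₁, Subcomplex.lift_ι_assoc, hf]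
    · rw [reassoc_of% hm₂, Subcomplex.lift_ι_assoc, hg]⟩
  refine ⟨sq.lift, ?_, ?_, sq.fac_right⟩
  · have := Subcomplex.lift a le_sup_left ≫= sq.fac_left
    rwa [Subcomplex.lift_ι_assoc, hm₁] at this
  · have := Subcomplex.lift b le_sup_right ≫= sq.fac_left
    rwa [Subcomplex.lift_ι_assoc, hm₂] at this


lemma horn_one_zero : (Λ[1, 0] : Subcomplex.{u} Δ[1]) = Subcomplex.range (stdSimplex.δ 1) := by
  rw [horn_eq_iSup, stdSimplex.range_δ]
  apply le_antisymm
  · refine iSup_le fun ⟨j, hj⟩ => ?_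
    obtain rfl : j = 1 := by
      fin_cases j
      · simp at hj
      · rfl
    rfl
  · exact le_iSup (fun (j : (({0}ᶜ : Set (Fin 2)))) => stdSimplex.face.{u} {j.1}ᶜ) ⟨1, by simp⟩

lemma horn_one_one : (Λ[1, 1] : Subcomplex.{u} Δ[1]) = Subcomplex.range (stdSimplex.δ 0) := by
  rw [horn_eq_iSup, stdSimplex.range_δ]
  apply le_antisymm
  · refine iSup_le fun ⟨j, hj⟩ => ?_
    obtain rfl : j = 0 := by
      fin_cases j
      · rfl
      · simp at hj
    rfl
  · exact le_iSup (fun (j : (({1}ᶜ : Set (Fin 2)))) => stdSimplex.face.{u} {j.1}ᶜ) ⟨0, by simp⟩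

lemma boundary_one : (∂Δ[1] : Subcomplex.{u} Δ[1]) =
    Subcomplex.range (stdSimplex.δ 1) ⊔ Subcomplex.range (stdSimplex.δ 0) := by
  rw [boundary_eq_iSup, stdSimplex.range_δ, stdSimplex.range_δ]
  apply le_antisymm
  · refine iSup_le fun j => ?_
    fin_cases j
    · exact le_sup_right
    · exact le_sup_left
  · exact sup_le (le_iSup (fun (j : Fin 2) => stdSimplex.face.{u} {j}ᶜ) 1)
      (le_iSup (fun (j : Fin 2) => stdSimplex.face.{u} {j}ᶜ) 0)

lemma range_ι₀ : Subcomplex.range (ι₀ : X ⟶ X ⊗ Δ[1]) =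
    (⊤ : X.Subcomplex).prod (Subcomplex.range (stdSimplex.δ 1)) := by
  have : Subcomplex.range (𝟙 X ⊗ₘ (stdSimplex.{u}.δ 1 : Δ[0] ⟶ Δ[1])) =
    (⊤ : X.Subcomplex).prod (Subcomplex.range (stdSimplex.δ 1)) := by
      rw [Subcomplex.range_tensorHom, Subcomplex.range_eq_top]
  rw [← this, id_tensorHom, ← fst_ι₀, Subcomplex.range_comp,
    Subcomplex.range_eq_top (fst X Δ[0]), Subcomplex.image_top]

lemma range_ι₁ : Subcomplex.range (ι₁ : X ⟶ X ⊗ Δ[1]) =
    (⊤ : X.Subcomplex).prod (Subcomplex.range (stdSimplex.δ 0)) := by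
  have : Subcomplex.range (𝟙 X ⊗ₘ (stdSimplex.{u}.δ 0 : Δ[0] ⟶ Δ[1])) =
    (⊤ : X.Subcomplex).prod (Subcomplex.range (stdSimplex.δ 0)) := by
      rw [Subcomplex.range_tensorHom, Subcomplex.range_eq_top]
  rw [← this, id_tensorHom, ← fst_ι₁, Subcomplex.range_comp,
    Subcomplex.range_eq_top (fst X Δ[0]), Subcomplex.image_top]

lemma range_whiskerRight (i : A ⟶ X) : Subcomplex.range (i ▷ Δ[1]) =
    (Subcomplex.range i).prod ⊤ := by
  rw [← tensorHom_id, Subcomplex.range_tensorHom, Subcomplex.range_eq_top (𝟙 _)]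

/-- `X × {0} ∪ A × Δ[1] → X × Δ[1]` is anodyne -/
lemma anodyne_cyl₀ (i : A ⟶ X) : anodyneExtensions
    (Subcomplex.range (ι₀ : X ⟶ X ⊗ Δ[1]) ⊔ Subcomplex.range (i ▷ Δ[1])).ι := by
  rw [range_ι₀, range_whiskerRight, ← horn_one_zero]
  exact anodyneExtensions_unionProd_ι (Subcomplex.range i) (Λ[1, 0] : Subcomplex.{u} Δ[1])
    (.horn_ι _)

/-- `X × {1} ∪ A × Δ[1] → X × Δ[1]` is anodyne -/
lemma anodyne_cyl₁ (i : A ⟶ X) : anodyneExtensions
    (Subcomplex.range (ι₁ : X ⟶ X ⊗ Δ[1]) ⊔ Subcomplex.range (i ▷ Δ[1])).ι := by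
  rw [range_ι₁, range_whiskerRight, ← horn_one_one]
  exact anodyneExtensions_unionProd_ι (Subcomplex.range i) (Λ[1, 1] : Subcomplex.{u} Δ[1])
    (.horn_ι _)

lemma anodyne_range_ι (i : A ⟶ X) [Mono i] (hi : anodyneExtensions i) :
    anodyneExtensions (Subcomplex.range i).ι := by
  rw [← Subcomplex.toRange_ι i] at hi
  exact (anodyneExtensions.cancel_left_of_respectsIso _ _).1 hi

/-- `X × {0, 1} ∪ A × Δ[1] → X × Δ[1]` is anodyne when `A → X` is anodyne. -/
lemma anodyne_cyl₀₁ (i : A ⟶ X) [Mono i] (hi : anodyneExtensions i) : anodyneExtensions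
    ((Subcomplex.range (ι₀ : X ⟶ X ⊗ Δ[1]) ⊔ Subcomplex.range (ι₁ : X ⟶ X ⊗ Δ[1])) ⊔
      Subcomplex.range (i ▷ Δ[1])).ι := by
  have h : (Subcomplex.range (ι₀ : X ⟶ X ⊗ Δ[1]) ⊔ Subcomplex.range (ι₁ : X ⟶ X ⊗ Δ[1])) =
      (⊤ : X.Subcomplex).prod (∂Δ[1] : Subcomplex.{u} Δ[1]) := by
    rw [range_ι₀, range_ι₁, boundary_one]
    ext n ⟨x, y⟩
    constructor
    · rintro (h | h)
      · exact ⟨h.1, Or.inl h.2⟩
      · exact ⟨h.1, Or.inr h.2⟩
    · rintro ⟨h, h' | h'⟩
      · exact Or.inl ⟨h, h'⟩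
      · exact Or.inr ⟨h, h'⟩
  rw [h, range_whiskerRight]
  exact anodyneExtensions_unionProd_ι' (Subcomplex.range i) (∂Δ[1] : Subcomplex.{u} Δ[1])
    (anodyne_range_ι i hi)

instance mono_ι₀ : Mono (ι₀ : X ⟶ X ⊗ Δ[1]) := mono_of_mono_fac (ι₀_fst X)

instance mono_ι₁ : Mono (ι₁ : X ⟶ X ⊗ Δ[1]) := mono_of_mono_fac (ι₁_fst X)

instance mono_whiskerRight (i : A ⟶ X) [Mono i] (Y : SSet.{u}) : Mono (i ▷ Y) := by
  rw [NatTrans.mono_iff_mono_app]
  intro n
  rw [mono_iff_injective]
  rintro ⟨a, b⟩ ⟨a', b'⟩ h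
  have h1 : i.app n a = i.app n a' := congrArg Prod.fst h
  have h2 : b = b' := congrArg Prod.snd h
  rw [app_injective i n h1, h2]

instance mono_whiskerLeft (i : A ⟶ X) [Mono i] (Y : SSet.{u}) : Mono (Y ◁ i) := by
  rw [NatTrans.mono_iff_mono_app]
  intro n
  rw [mono_iff_injective]
  rintro ⟨a, b⟩ ⟨a', b'⟩ h
  have h1 : a = a' := congrArg Prod.fst h
  have h2 : i.app n b = i.app n b' := congrArg Prod.snd h
  rw [h1, app_injective i n h2]

lemma anodyneExtensions.hasLift {i : A ⟶ X} (hi : anodyneExtensions i) {p : E ⟶ B}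
    (hp : kanFib p) : HasLiftingProperty i p := hi p hp

/-- compatibility of a map on `X × {0}` and a map on `A × Δ[1]` -/
lemma cyl₀_compat (i : A ⟶ X) (f : X ⟶ E) (G : A ⊗ Δ[1] ⟶ E) (h₁ : ι₀ ≫ G = i ≫ f) :
    ∀ n (x : X.obj n) (z : (A ⊗ Δ[1]).obj n), ι₀.app n x = (i ▷ Δ[1]).app n z →
      f.app n x = G.app n z := by
  rintro n x ⟨a, t⟩ h
  have h2 : x = i.app n a := congrArg Prod.fst h
  have h3 : (ι₀.app n x).2 = t := congrArg Prod.snd h
  subst h2 h3
  exact (ConcreteCategory.congr_hom (congr_app h₁ n) a).symm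

/-- compatibility of a map on `X × {1}` and a map on `A × Δ[1]` -/
lemma cyl₁_compat (i : A ⟶ X) (f : X ⟶ E) (G : A ⊗ Δ[1] ⟶ E) (h₁ : ι₁ ≫ G = i ≫ f) :
    ∀ n (x : X.obj n) (z : (A ⊗ Δ[1]).obj n), ι₁.app n x = (i ▷ Δ[1]).app n z →
      f.app n x = G.app n z := by
  rintro n x ⟨a, t⟩ h
  have h2 : x = i.app n a := congrArg Prod.fst h
  have h3 : (ι₁.app n x).2 = t := congrArg Prod.snd h
  subst h2 h3
  exact (ConcreteCategory.congr_hom (congr_app h₁ n) a).symm

/-- Homotopy lifting extension property, given end `0`. -/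
lemma lift_cyl₀ (i : A ⟶ X) [Mono i] {p : E ⟶ B} (hp : kanFib p) (f : X ⟶ E)
    (G : A ⊗ Δ[1] ⟶ E) (H : X ⊗ Δ[1] ⟶ B) (h₁ : ι₀ ≫ G = i ≫ f) (h₂ : ι₀ ≫ H = f ≫ p)
    (h₃ : i ▷ _ ≫ H = G ≫ p) :
    ∃ L : X ⊗ Δ[1] ⟶ E, ι₀ ≫ L = f ∧ i ▷ _ ≫ L = G ∧ L ≫ p = H := by
  have := anodyneExtensions.hasLift (anodyne_cyl₀ i) hp
  exact exists_lift_glue f G (cyl₀_compat i f G h₁) H h₂ h₃

/-- Homotopy lifting extension property, given end `1`. -/
lemma lift_cyl₁ (i : A ⟶ X) [Mono i] {p : E ⟶ B} (hp : kanFib p) (f : X ⟶ E)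
    (G : A ⊗ Δ[1] ⟶ E) (H : X ⊗ Δ[1] ⟶ B) (h₁ : ι₁ ≫ G = i ≫ f) (h₂ : ι₁ ≫ H = f ≫ p)
    (h₃ : i ▷ _ ≫ H = G ≫ p) :
    ∃ L : X ⊗ Δ[1] ⟶ E, ι₁ ≫ L = f ∧ i ▷ _ ≫ L = G ∧ L ≫ p = H := by
  have := anodyneExtensions.hasLift (anodyne_cyl₁ i) hp
  exact exists_lift_glue f G (cyl₁_compat i f G h₁) H h₂ h₃

/-- Lifting of homotopies with both ends given. -/
lemma lift_cyl₀₁ (i : A ⟶ X) [Mono i] {p : E ⟶ B}
    [hl : HasLiftingProperty ((Subcomplex.range (ι₀ : X ⟶ X ⊗ Δ[1]) ⊔
      Subcomplex.range (ι₁ : X ⟶ X ⊗ Δ[1])) ⊔ Subcomplex.range (i ▷ Δ[1])).ι p]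
    (f g : X ⟶ E)
    (G : A ⊗ Δ[1] ⟶ E) (H : X ⊗ Δ[1] ⟶ B) (h₁ : ι₀ ≫ G = i ≫ f) (h₂ : ι₀ ≫ H = f ≫ p)
    (h₁' : ι₁ ≫ G = i ≫ g) (h₂' : ι₁ ≫ H = g ≫ p)
    (h₃ : i ▷ _ ≫ H = G ≫ p) :
    ∃ L : X ⊗ Δ[1] ⟶ E, ι₀ ≫ L = f ∧ ι₁ ≫ L = g ∧ i ▷ _ ≫ L = G ∧ L ≫ p = H := by
  obtain ⟨m, hm₀, hm₁⟩ := exists_glue (ι₀ : X ⟶ X ⊗ Δ[1]) (ι₁ : X ⟶ X ⊗ Δ[1]) f g (by
    rintro ⟨⟨n⟩⟩ x y h
    exfalso
    have h3 : (ι₀.app _ x).2 = (ι₁.app _ y).2 := congrArg Prod.snd h
    have h4 := ι₀_app_snd_apply (m := n) x 0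
    have h5 := ι₁_app_snd_apply (m := n) y 0
    have h6 : (ι₀.app _ x).2 0 = (ι₁.app _ y).2 0 :=
      congrArg (fun (t : (Δ[1] : SSet.{u}) _⦋n⦌) => t 0) h3
    exact absurd (h4.symm.trans (h6.trans h5)) (by simp))
  have hr : Subcomplex.range (Subcomplex.range (ι₀ : X ⟶ X ⊗ Δ[1]) ⊔
      Subcomplex.range (ι₁ : X ⟶ X ⊗ Δ[1])).ι = Subcomplex.range (ι₀ : X ⟶ X ⊗ Δ[1]) ⊔
      Subcomplex.range (ι₁ : X ⟶ X ⊗ Δ[1]) := Subfunctor.range_ι _
  have : HasLiftingProperty (Subcomplex.range (Subcomplex.range (ι₀ : X ⟶ X ⊗ Δ[1]) ⊔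
      Subcomplex.range (ι₁ : X ⟶ X ⊗ Δ[1])).ι ⊔ Subcomplex.range (i ▷ Δ[1])).ι p := by
    rw [hr]
    exact hl
  obtain ⟨L, hL₁, hL₂, hL₃⟩ := exists_lift_glue
    (a := (Subcomplex.range (ι₀ : X ⟶ X ⊗ Δ[1]) ⊔ Subcomplex.range (ι₁ : X ⟶ X ⊗ Δ[1])).ι)
    (b := i ▷ Δ[1]) (p := p) m G (by
      rintro n ⟨x, hx⟩ z h
      obtain ⟨x, rfl⟩ | ⟨x, rfl⟩ := hx
      · exact (ConcreteCategory.congr_hom (congr_app hm₀ n) x).trans
          (cyl₀_compat i f G h₁ n x z h)
      · exact (ConcreteCategory.congr_hom (congr_app hm₁ n) x).trans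
          (cyl₁_compat i g G h₁' n x z h)) H (by
      apply glue_hom_ext
      · rw [reassoc_of% hm₀, Subcomplex.lift_ι_assoc, h₂]
      · rw [reassoc_of% hm₁, Subcomplex.lift_ι_assoc, h₂']) h₃
  refine ⟨L, ?_, ?_, hL₂, hL₃⟩
  · rw [← hm₀, ← hL₁, Subcomplex.lift_ι_assoc]
  · rw [← hm₁, ← hL₁, Subcomplex.lift_ι_assoc]

/-- trivial fibrations have the right lifting property against monomorphisms -/
lemma rlpI_hasLift {p : E ⟶ B} (hp : I.{u}.rlp p) (i : A ⟶ X) [Mono i] :
    HasLiftingProperty i p := by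
  rw [← rlp_monomorphisms] at hp
  exact hp i (MorphismProperty.monomorphisms.infer_property i)

/-- Lifting of homotopies with both ends given, against trivial fibrations. -/
lemma lift_cyl₀₁_of_rlpI (i : A ⟶ X) [Mono i] {p : E ⟶ B} (hp : I.{u}.rlp p)
    (f g : X ⟶ E)
    (G : A ⊗ Δ[1] ⟶ E) (H : X ⊗ Δ[1] ⟶ B) (h₁ : ι₀ ≫ G = i ≫ f) (h₂ : ι₀ ≫ H = f ≫ p)
    (h₁' : ι₁ ≫ G = i ≫ g) (h₂' : ι₁ ≫ H = g ≫ p)
    (h₃ : i ▷ _ ≫ H = G ≫ p) :
    ∃ L : X ⊗ Δ[1] ⟶ E, ι₀ ≫ L = f ∧ ι₁ ≫ L = g ∧ i ▷ _ ≫ L = G ∧ L ≫ p = H :=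
  lift_cyl₀₁ (hl := rlpI_hasLift hp _) i f g G H h₁ h₂ h₁' h₂' h₃

/-- Lifting of homotopies with both ends given, for an anodyne extension and a fibration. -/
lemma lift_cyl₀₁_of_anodyne (i : A ⟶ X) [Mono i] (hi : anodyneExtensions i)
    {p : E ⟶ B} (hp : kanFib p)
    (f g : X ⟶ E)
    (G : A ⊗ Δ[1] ⟶ E) (H : X ⊗ Δ[1] ⟶ B) (h₁ : ι₀ ≫ G = i ≫ f) (h₂ : ι₀ ≫ H = f ≫ p)
    (h₁' : ι₁ ≫ G = i ≫ g) (h₂' : ι₁ ≫ H = g ≫ p)
    (h₃ : i ▷ _ ≫ H = G ≫ p) :
    ∃ L : X ⊗ Δ[1] ⟶ E, ι₀ ≫ L = f ∧ ι₁ ≫ L = g ∧ i ▷ _ ≫ L = G ∧ L ≫ p = H :=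
  lift_cyl₀₁ (hl := anodyneExtensions.hasLift (anodyne_cyl₀₁ i hi) hp) i f g G H h₁ h₂ h₁' h₂' h₃

instance : MorphismProperty.IsStableUnderTransfiniteComposition.{u}
    (MorphismProperty.monomorphisms SSet.{u}) where
  isStableUnderTransfiniteCompositionOfShape _ _ _ _ _ := inferInstance

lemma anodyne_le_monomorphisms :
    anodyneExtensions.{u} ≤ MorphismProperty.monomorphisms SSet.{u} := by
  rw [anodyneExtensions_eq_retracts_transfiniteCompositions]
  refine (MorphismProperty.retracts_monotone ?_).trans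
    (MorphismProperty.retracts_le (MorphismProperty.monomorphisms SSet.{u}))
  rw [MorphismProperty.transfiniteCompositions_le_iff, MorphismProperty.pushouts_le_iff,
    MorphismProperty.coproducts_le_iff]
  exact J_le_monomorphisms

lemma anodyne_mono {i : A ⟶ X} (hi : anodyneExtensions i) : Mono i :=
  anodyne_le_monomorphisms _ hi

lemma kanFib_terminal (K : SSet.{u}) [KanComplex K] (f : K ⟶ ⊤_ _) : kanFib f := by
  have : f = terminal.from K := Subsingleton.elim _ _
  rw [this]
  exact (fibration_iff _).1 inferInstance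

/-- extension along anodyne maps -/
lemma exists_extension_of_anodyne {i : A ⟶ X} (hi : anodyneExtensions i) [KanComplex K]
    (f : A ⟶ K) : ∃ g : X ⟶ K, i ≫ g = f := by
  have := anodyneExtensions.hasLift hi (kanFib_terminal K (terminal.from K))
  have sq : CommSq f i (terminal.from K) (terminal.from X) := ⟨Subsingleton.elim _ _⟩
  exact ⟨sq.lift, sq.fac_left⟩

lemma anodyne_le_whe : anodyneExtensions.{u} ≤ whe := by
  intro A X i hi
  have := anodyne_mono hi
  rw [whe_iff]
  intro K _
  refine ⟨fun g => ?_, fun g g' ⟨h, h₀, h₁⟩ => ?_⟩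
  · obtain ⟨g', hg'⟩ := exists_extension_of_anodyne hi g
    exact ⟨g', Htpy.of_eq hg'⟩
  · obtain ⟨L, hL₀, hL₁, -, -⟩ := lift_cyl₀₁_of_anodyne i hi
      (kanFib_terminal K (terminal.from K)) g g' h (terminal.from _) h₀
      (Subsingleton.elim _ _) h₁ (Subsingleton.elim _ _) (Subsingleton.elim _ _)
    exact ⟨L, hL₀, hL₁⟩

/-- A trivial fibration has a section which is a fibrewise homotopy inverse. -/
lemma rlpI_section {p : E ⟶ B} (hp : I.{u}.rlp p) :
    ∃ (s : B ⟶ E) (h : E ⊗ Δ[1] ⟶ E), s ≫ p = 𝟙 B ∧ ι₀ ≫ h = p ≫ s ∧ ι₁ ≫ h = 𝟙 E ∧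
      h ≫ p = fst _ _ ≫ p := by
  have h₁ := rlpI_hasLift hp (initial.to B)
  have sq : CommSq (initial.to E) (initial.to B) p (𝟙 B) := ⟨Subsingleton.elim _ _⟩
  have hs := sq.fac_right
  set s := sq.lift
  obtain ⟨L, hL₀, hL₁, -, hL₂⟩ := lift_cyl₀₁_of_rlpI (initial.to E) hp (p ≫ s) (𝟙 E)
    (fst _ _ ≫ initial.to _) (fst _ _ ≫ p) (Subsingleton.elim _ _) (by simp [hs])
    (Subsingleton.elim _ _) (by simp) (by
      rw [whiskerRight_fst_assoc, Category.assoc])
  exact ⟨s, L, hs, hL₀, hL₁, hL₂⟩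

lemma rlpI_le_whe : I.{u}.rlp ≤ whe := by
  intro E B p hp
  obtain ⟨s, h, hs, h₀, h₁, -⟩ := rlpI_section hp
  exact whe_of_eqvGen p s (Htpy.toE ⟨h, h₀, h₁⟩) (by rw [hs]; exact HtpyE.refl _)

end lifting

end Vale.Agent.P213
end

section

/-!
Shared internal notions for the proof: the property Good, and the axioms on a model
of strict higher categories from which Good follows.
-/

open CategoryTheory HomotopicalAlgebra Simplicial MonoidalCategory Limits
open CartesianMonoidalCategory

universe v u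

namespace Vale.Agent.P213

section Nerves

variable {L L' : Type u} [PartialOrder L] [PartialOrder L']

/-- The map of nerves induced by a monotone map. -/
def nvMap (f : L →o L') : nerve L ⟶ nerve L' := nerveMap f.monotone.functor

/-- The simplicial homotopy attached to a pair of monotone maps `f₀ ≤ f₁`:
`(x, β) ↦ (i ↦ f₀ (x i)` if `β i = 0`, and `f₁ (x i)` if `β i = 1)`. -/
def nvHomotopy (f₀ f₁ : L →o L') (h : f₀ ≤ f₁) : nerve L ⊗ Δ[1] ⟶ nerve L' where
  app m := ↾fun p => Monotone.functor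
    (f := fun i => if (SSet.stdSimplex.objEquiv p.2) i = 0 then f₀ (p.1.obj i)
      else f₁ (p.1.obj i)) (by
      intro i j hij
      have hx : p.1.obj i ≤ p.1.obj j := leOfHom (p.1.map (homOfLE hij))
      have hβ : (SSet.stdSimplex.objEquiv p.2) i ≤ (SSet.stdSimplex.objEquiv p.2) j :=
        (SSet.stdSimplex.objEquiv p.2).toOrderHom.monotone hij
      dsimp only
      split_ifs with hi hj hj
      · exact f₀.monotone hx
      · exact (f₀.monotone hx).trans (h _)
      · rw [hj] at hβ
        exact absurd (Fin.le_zero_iff.1 hβ) hi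
      · exact f₁.monotone hx)
  naturality := by
    intro m m' f
    ext p
    rfl

end Nerves

section Good

variable {D : Type (u + 1)} [Category.{v} D] {c : SSet.{u} ⥤ D} {N : D ⥤ SSet.{u}}

/-- `Good adj i` for `i : K ⟶ L`: for every pushout square in `D`
`c Sd² K ⟶ c Sd² L`, `X ⟶ P`, the map `N X ⟶ N P` is a monomorphism and the comparison
map `N X ∪_{Sd² K} Sd² L ⟶ N P` is a weak homotopy equivalence. -/
structure Good (adj : c ⊣ N) {K L : SSet.{u}} (i : K ⟶ L) : Prop where
  mono : ∀ {X P : D} (a : c.obj (SSet.sd.obj (SSet.sd.obj K)) ⟶ X)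
    (b : c.obj (SSet.sd.obj (SSet.sd.obj L)) ⟶ P) (j : X ⟶ P),
    IsPushout (c.map (SSet.sd.map (SSet.sd.map i))) a b j → Mono (N.map j)
  whe : ∀ {X P : D} (a : c.obj (SSet.sd.obj (SSet.sd.obj K)) ⟶ X)
    (b : c.obj (SSet.sd.obj (SSet.sd.obj L)) ⟶ P) (j : X ⟶ P)
    (_ : IsPushout (c.map (SSet.sd.map (SSet.sd.map i))) a b j)
    {T : SSet.{u}} (b' : SSet.sd.obj (SSet.sd.obj L) ⟶ T) (j' : N.obj X ⟶ T)
    (_ : IsPushout (SSet.sd.map (SSet.sd.map i)) (adj.homEquiv _ _ a) b' j')
    (t : T ⟶ N.obj P) (_ : b' ≫ t = adj.homEquiv _ _ b) (_ : j' ≫ t = N.map j),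
    P213.whe t

/-- Axioms on a model of strict higher categories `D` with nerve `N` and left adjoint `c`. -/
structure ModelAxioms [HasPullbacks D] (adj : c ⊣ N) : Prop where
  /-- the nerve of the initial object is empty -/
  unit_empty : IsIso (adj.unit.app (⊥_ SSet.{u}))
  /-- `c Δ[0]` is terminal -/
  terminal_zero : Nonempty (IsTerminal (c.obj Δ[0]))
  /-- the initial object is strict -/
  strict : ∀ {X : D} (_ : X ⟶ c.obj (⊥_ SSet.{u})), Nonempty (IsInitial X)
  /-- the nerve of `c Δ[0]` is `Δ[0]` -/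
  unit_zero : IsIso (adj.unit.app Δ[0])
  /-- the nerve of `c Δ[1]` is `Δ[1]` -/
  unit_one : IsIso (adj.unit.app Δ[1])
  /-- the part of the `m`-th oriental over a vertex of `Δ[1]` is an oriental (or empty) -/
  fiber_simplex : ∀ (m : ℕ) (f : Δ[m] ⟶ Δ[1]) (ε : Fin 2) {K : SSet.{u}} (k : K ⟶ Δ[m])
    (k' : K ⟶ Δ[0]), IsPullback k k' f (SSet.stdSimplex.δ ε) →
      IsPullback (c.map k) (c.map k') (c.map f) (c.map (SSet.stdSimplex.δ ε))
  /-- the fibre functors of objects over `c Δ[1]` have right adjoints -/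
  exponentiable : ∀ ε : Fin 2,
    (Over.pullback (c.map (SSet.stdSimplex.{u}.δ (n := 0) ε))).IsLeftAdjoint
  /-- the cylinder (oplax path) object -/
  cyl : ∀ Z : D, ∃ (G : D) (θ : N.obj G ⊗ Δ[1] ⟶ N.obj Z) (e₀ e₁ : G ⟶ Z),
    (∀ {K : SSet.{u}} (k k' : K ⟶ N.obj G), k ▷ Δ[1] ≫ θ = k' ▷ Δ[1] ≫ θ → k = k') ∧
    N.map e₀ = SSet.ι₀ ≫ θ ∧ N.map e₁ = SSet.ι₁ ≫ θ ∧
    (∀ {X : D} (f : X ⟶ Z), ∃ k : X ⟶ G, k ≫ e₀ = f ∧ k ≫ e₁ = f ∧
      N.map k ▷ Δ[1] ≫ θ = fst _ _ ≫ N.map f) ∧
    (∀ {L L' : Type u} [PartialOrder L] [PartialOrder L'] [Finite L] [Finite L']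
      (f₀ f₁ : L →o L') (h : f₀ ≤ f₁)
      (_ : ∀ l l' : L, l < l' → f₀ l = f₁ l ∨ f₁ l = f₁ l') (g : nerve L' ⟶ N.obj Z),
      ∃ k : nerve L ⟶ N.obj G, k ▷ Δ[1] ≫ θ = nvHomotopy f₀ f₁ h ≫ g)

end Good

end Vale.Agent.P213
end

section

/-!
Simplices of the Street nerve indexed by arbitrary finite nonempty linear orders.
-/

open CategoryTheory Simplicial

namespace Vale.Agent.P213

universe v

/-- composition of functors, associativity -/
theorem OmegaFun.comp_assoc' {A B C D : Type*} [OmegaStr A] [OmegaStr B] [OmegaStr C]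
    [OmegaStr D] (f : OmegaFun A B) (g : OmegaFun B C) (h : OmegaFun C D) :
    h.comp (g.comp f) = (h.comp g).comp f := rfl

theorem Cell.mapFun_comp {K L M : BCx} (ψ : BCxHom L M) (φ : BCxHom K L) :
    Cell.mapFun (ψ.comp φ) = (Cell.mapFun ψ).comp (Cell.mapFun φ) := by
  apply OmegaFun.ext
  intro x
  exact Cell.map_comp ψ φ x

theorem Cell.mapFun_id (K : BCx) : Cell.mapFun (BCxHom.id K) = OmegaFun.id (Cell K) := by
  apply OmegaFun.ext
  intro x
  exact Cell.map_id x

/-- simplices of the Street nerve as strict functors -/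
noncomputable def sOf {Z : OmegaCat.{0}} {m : ℕ} (s : (streetNerve.obj Z).obj (.op ⦋m⦌)) :
    OmegaFun (Cell (simplexCx (Fin (m + 1)))) Z.carrier := s

theorem sOf_map {Z : OmegaCat.{0}} {m m' : ℕ} (θ : ⦋m'⦌ ⟶ ⦋m⦌)
    (s : (streetNerve.obj Z).obj (.op ⦋m⦌)) :
    sOf ((streetNerve.obj Z).map θ.op s) =
      (sOf s).comp (Cell.mapFun (simplexMap θ.toOrderHom)) := rfl

section EvJ

variable {L : Type} [PartialOrder L] {Z : OmegaCat.{0}} (g : nerve L ⟶ streetNerve.obj Z)

/-- value of a simplex of the Street nerve on a monotone map -/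
noncomputable def ev {m : ℕ} (y : Fin (m + 1) →o L) :
    OmegaFun (Cell (simplexCx (Fin (m + 1)))) Z.carrier :=
  sOf (g.app (.op ⦋m⦌) y.monotone.functor)

theorem ev_comp {m m' : ℕ} (y : Fin (m + 1) →o L) (θ : Fin (m' + 1) →o Fin (m + 1)) :
    ev g (y.comp θ) = (ev g y).comp (Cell.mapFun (simplexMap θ)) := by
  have h := NatTrans.naturality_apply g (show ⦋m'⦌ ⟶ ⦋m⦌ from SimplexCategory.Hom.mk θ).op
    y.monotone.functor
  exact h

/-- the order isomorphism from a finite nonempty linear order to `Fin` -/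
noncomputable def toFinIso (J : Type) [LinearOrder J] [Finite J] [Nonempty J] :
    J ≃o Fin (Nat.card J - 1 + 1) :=
  letI := Fintype.ofFinite J
  (Fintype.orderIsoFinOfCardEq J (by
    rw [← Nat.card_eq_fintype_card]
    have : 0 < Nat.card J := Nat.card_pos
    omega)).symm

/-- extension of `ev` to all finite nonempty linear orders -/
noncomputable def evJ {J : Type} [LinearOrder J] [Finite J] [Nonempty J] (y : J →o L) :
    OmegaFun (Cell (simplexCx J)) Z.carrier :=
  (ev g (y.comp (toFinIso J).symm.toOrderEmbedding.toOrderHom)).comp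
    (Cell.mapFun (simplexMap (toFinIso J).toOrderEmbedding.toOrderHom))

theorem evJ_eq_ev {m : ℕ} (y : Fin (m + 1) →o L) : evJ g y = ev g y := by
  rw [evJ, ← ev_comp]
  congr 1
  ext i
  simp

theorem evJ_comp {J J' : Type} [LinearOrder J] [Finite J] [Nonempty J] [LinearOrder J']
    [Finite J'] [Nonempty J'] (y : J →o L) (θ : J' →o J) :
    evJ g (y.comp θ) = (evJ g y).comp (Cell.mapFun (simplexMap θ)) := by
  have h1 : (y.comp θ).comp (toFinIso J').symm.toOrderEmbedding.toOrderHom =
      (y.comp (toFinIso J).symm.toOrderEmbedding.toOrderHom).comp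
        (((toFinIso J).toOrderEmbedding.toOrderHom.comp θ).comp
          (toFinIso J').symm.toOrderEmbedding.toOrderHom) := by
    ext i
    simp
  rw [evJ, evJ, h1, ev_comp, ← OmegaFun.comp_assoc', ← OmegaFun.comp_assoc',
    ← Cell.mapFun_comp, ← Cell.mapFun_comp, ← simplexMap_comp, ← simplexMap_comp]
  congr 3
  ext i
  simp

end EvJ

end Vale.Agent.P213
end

section

/-!
Total composition in strict omega-categories and basic calculus.
-/

universe u v w

namespace Vale.Agent.P213

open OmegaStr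

section Tc

variable {C : Type u} [OmegaStr C]

open Classical in
/-- Total composition (junk value `x` when the cells are not composable). -/
noncomputable def tc (n : ℕ) (x y : C) : C :=
  if h : d true n x = d false n y then comp n x y h else x

theorem tc_eq {n : ℕ} {x y : C} (h : d true n x = d false n y) : tc n x y = comp n x y h := by
  rw [tc, dif_pos h]

theorem src_tc {n : ℕ} {x y : C} (h : d true n x = d false n y) :
    d false n (tc n x y) = d false n x := by
  rw [tc_eq h, src_comp]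

theorem tgt_tc {n : ℕ} {x y : C} (h : d true n x = d false n y) :
    d true n (tc n x y) = d true n y := by
  rw [tc_eq h, tgt_comp]

theorem dd_lt {a b : Bool} {m n : ℕ} {x : C} (h : m < n) : d a m (d b n x) = d a m x :=
  d_d_of_lt a b m n x h

theorem dd_le {a b : Bool} {m n : ℕ} {x : C} (h : n ≤ m) : d a m (d b n x) = d b n x :=
  d_d_of_le a b m n x h

theorem d_tc_lt {a : Bool} {m n : ℕ} {x y : C} (h : d true n x = d false n y) (hm : m < n) :
    d a m (tc n x y) = d a m x := by
  rw [← dd_lt (b := false) hm, src_tc h, dd_lt hm]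

theorem d_tc_lt' {a : Bool} {m n : ℕ} {x y : C} (h : d true n x = d false n y) (hm : m < n) :
    d a m (tc n x y) = d a m y := by
  rw [← dd_lt (b := true) hm, tgt_tc h, dd_lt hm]

theorem composable_d {a : Bool} {m n : ℕ} {x y : C} (h : d true n x = d false n y) (hm : n < m) :
    d true n (d a m x) = d false n (d a m y) := by
  rw [dd_lt hm, dd_lt hm, h]

theorem d_eq_of_composable {a : Bool} {m n : ℕ} {x y : C} (h : d true n x = d false n y)
    (hm : m < n) : d a m x = d a m y := by
  rw [← dd_lt (b := true) hm, h, dd_lt hm]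

theorem d_tc_gt {a : Bool} {m n : ℕ} {x y : C} (h : d true n x = d false n y) (hm : n < m) :
    d a m (tc n x y) = tc n (d a m x) (d a m y) := by
  rw [tc_eq h, tc_eq (composable_d h hm), d_comp a m n x y h _ hm]

theorem src_tc_id {n : ℕ} {x : C} : tc n (d false n x) x = x := by
  have h : d true n (d false n x) = d false n x := dd_le le_rfl
  rw [tc_eq h, id_comp]

theorem tc_tgt_id {n : ℕ} {x : C} : tc n x (d true n x) = x := by
  have h : d true n x = d false n (d true n x) := (dd_le le_rfl).symm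
  rw [tc_eq h, comp_id]

theorem tc_assoc {n : ℕ} {x y z : C} (h₁ : d true n x = d false n y)
    (h₂ : d true n y = d false n z) : tc n (tc n x y) z = tc n x (tc n y z) := by
  have h₃ : d true n (tc n x y) = d false n z := by rw [tgt_tc h₁, h₂]
  have h₄ : d true n x = d false n (tc n y z) := by rw [src_tc h₂, h₁]
  rw [tc_eq h₃, tc_eq h₄]
  simp only [tc_eq h₁, tc_eq h₂]
  exact assoc n x y z h₁ h₂ _ _

theorem tc_interchange {m n : ℕ} {x y z w : C} (hmn : m < n) (h₁ : d true n x = d false n y)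
    (h₂ : d true n z = d false n w) (h₃ : d true m x = d false m z) :
    tc m (tc n x y) (tc n z w) = tc n (tc m x z) (tc m y w) := by
  have h₄ : d true m y = d false m w := by
    rw [← d_eq_of_composable h₁ hmn, h₃, d_eq_of_composable h₂ hmn]
  have h₅ : d true m (tc n x y) = d false m (tc n z w) := by
    rw [d_tc_lt h₁ hmn, d_tc_lt h₂ hmn, h₃]
  have h₆ : d true n (tc m x z) = d false n (tc m y w) := by
    rw [d_tc_gt h₃ hmn, d_tc_gt h₄ hmn, h₁, h₂]
  rw [tc_eq h₅, tc_eq h₆]
  simp only [tc_eq h₁, tc_eq h₂, tc_eq h₃, tc_eq h₄]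
  exact interchange m n x y z w hmn h₁ h₂ h₃ h₄ _ _

/-- `x` is a cell of dimension at most `n`. -/
def IsDim (n : ℕ) (x : C) : Prop := d false n x = x

theorem IsDim.d_eq {n : ℕ} {x : C} (hx : IsDim n x) (a : Bool) {m : ℕ} (h : n ≤ m) :
    d a m x = x := by
  have h1 : d false n x = x := hx
  rw [← h1, dd_le h]

theorem IsDim.mono {n m : ℕ} {x : C} (hx : IsDim n x) (h : n ≤ m) : IsDim m x :=
  hx.d_eq false h

theorem isDim_d (a : Bool) (n : ℕ) (x : C) : IsDim n (d a n x) := dd_le le_rfl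

theorem isDim_of_d {a : Bool} {n : ℕ} {x : C} (h : d a n x = x) : IsDim n x := by
  rw [← h]; exact isDim_d a n x

theorem IsDim.d {n : ℕ} {x : C} (hx : IsDim n x) (a : Bool) (m : ℕ) :
    IsDim n (OmegaStr.d a m x) := by
  rcases le_or_gt n m with h | h
  · rwa [hx.d_eq a h]
  · exact (isDim_d a m x).mono h.le

theorem IsDim.tc {n m : ℕ} {x y : C} (hx : IsDim n x) (hy : IsDim n y)
    (h : OmegaStr.d true m x = OmegaStr.d false m y) : IsDim n (tc m x y) := by
  rcases lt_or_ge m n with h1 | h1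
  · rw [IsDim, d_tc_gt h h1, hx.d_eq _ le_rfl, hy.d_eq _ le_rfl]
  · have h2 : x = y := by
      rw [← hx.d_eq true h1, h, hy.d_eq false h1]
    subst h2
    have : Vale.Agent.P213.tc m x x = x := by
      conv_lhs => rw [← hx.d_eq false h1]
      have := src_tc_id (n := m) (x := x)
      rw [hx.d_eq false h1] at this ⊢
      exact this
    rwa [this]

theorem exists_isDim (x : C) : ∃ n, IsDim n x := finite_dim x

end Tc

theorem OmegaFun.map_dd {C : Type u} {D : Type v} [OmegaStr C] [OmegaStr D] (F : OmegaFun C D)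
    (a : Bool) (n : ℕ) (x : C) : F (d a n x) = d a n (F x) := F.map_d a n x

theorem OmegaFun.composable {C : Type u} {D : Type v} [OmegaStr C] [OmegaStr D]
    (F : OmegaFun C D) {n : ℕ} {x y : C} (h : d true n x = d false n y) :
    d true n (F x) = d false n (F y) := by
  rw [← F.map_dd, ← F.map_dd, h]

theorem OmegaFun.map_tc {C : Type u} {D : Type v} [OmegaStr C] [OmegaStr D] (F : OmegaFun C D)
    {n : ℕ} {x y : C} (h : d true n x = d false n y) : F (tc n x y) = tc n (F x) (F y) := by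
  rw [tc_eq h, tc_eq (F.composable h)]
  exact F.map_comp n x y h _

theorem OmegaFun.isDim {C : Type u} {D : Type v} [OmegaStr C] [OmegaStr D] (F : OmegaFun C D)
    {n : ℕ} {x : C} (h : IsDim n x) : IsDim n (F x) := by
  rw [IsDim, ← F.map_dd, h]

/-- A functor defined on the cells of dimension `≤ n` (a total function with junk values). -/
structure PFun (C : Type u) (Z : Type v) [OmegaStr C] [OmegaStr Z] (n : ℕ) where
  toFun : C → Z
  map_d : ∀ (a : Bool) (i : ℕ) (x : C), d false n x = x → toFun (d a i x) = d a i (toFun x)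
  map_comp : ∀ (i : ℕ) (x y : C) (h : d true i x = d false i y)
    (h' : d true i (toFun x) = d false i (toFun y)), d false n x = x → d false n y = y →
    toFun (comp i x y h) = comp i (toFun x) (toFun y) h'

namespace PFun

variable {C : Type u} {Z : Type v} [OmegaStr C] [OmegaStr Z] {n : ℕ} (F : PFun C Z n)

theorem map_dd {x : C} (hx : IsDim n x) (a : Bool) (i : ℕ) :
    F.toFun (d a i x) = d a i (F.toFun x) := F.map_d a i x hx

theorem composable {i : ℕ} {x y : C} (hx : IsDim n x) (hy : IsDim n y)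
    (h : d true i x = d false i y) : d true i (F.toFun x) = d false i (F.toFun y) := by
  rw [← F.map_dd hx, ← F.map_dd hy, h]

theorem map_tc {i : ℕ} {x y : C} (hx : IsDim n x) (hy : IsDim n y)
    (h : d true i x = d false i y) : F.toFun (tc i x y) = tc i (F.toFun x) (F.toFun y) := by
  rw [tc_eq h, tc_eq (F.composable hx hy h)]
  exact F.map_comp i x y h _ hx hy

theorem isDim {m : ℕ} {x : C} (hx : IsDim n x) (h : IsDim m x) : IsDim m (F.toFun x) := by
  rw [IsDim, ← F.map_dd hx, h.d_eq _ le_rfl]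

end PFun

/-- A functor restricts to a partial functor. -/
def OmegaFun.toPFun {C : Type u} {Z : Type v} [OmegaStr C] [OmegaStr Z] (F : OmegaFun C Z)
    (n : ℕ) : PFun C Z n where
  toFun := F
  map_d a i x _ := F.map_d a i x
  map_comp i x y h h' _ _ := F.map_comp i x y h h'

section Cells

variable {K : BCx}

theorem Cell.d_eq (a : Bool) (n : ℕ) (x : Cell K) : d a n x = x.dd a n := rfl

theorem Cell.tc_val {n : ℕ} {x y : Cell K} (h : d true n x = d false n y) (b : Bool) :
    (tc n x y).val b = x.val b - (x.dd true n).val b + y.val b := by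
  rw [tc_eq h]
  rfl

theorem Cell.isDim_iff {n : ℕ} {x : Cell K} : IsDim n x ↔
    (∀ a b, n < K.dim b → x.val a b = 0) ∧ (∀ b, K.dim b = n → x.val true b = x.val false b) := by
  constructor
  · intro h
    have h1 : ∀ a b, (x.dd false n).val a b = x.val a b := fun a b =>
      congrArg (fun z : Cell K => z.val a b) h
    constructor
    · intro a b hb
      rw [← h1, Cell.dd_val_apply, if_neg (by omega), if_neg (by omega)]
    · intro b hb
      have := h1 true b
      rw [Cell.dd_val_apply, if_neg (by omega), if_pos hb] at this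
      exact this.symm
  · rintro ⟨h1, h2⟩
    apply Cell.ext
    funext a
    ext b
    change (x.dd false n).val a b = _
    rw [Cell.dd_val_apply]
    split_ifs with h3 h4
    · rfl
    · cases a
      · rfl
      · exact (h2 b h4).symm
    · exact (h1 a b (by omega)).symm

end Cells

end Vale.Agent.P213
end

section

/-!
Steiner complexes: definition, sign lemmas, the block lemma.
-/

universe u v w

namespace Vale.Agent.P213

open OmegaStr

/-- A (strong) Steiner complex: a total order on the basis such that the negative part of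
`bd b` lies below `b` and the positive part above `b`, and for every basis element `b` an
atom: a cell with top `b` whose lower source and target parts are disjoint. -/
structure Steiner (K : BCx) where
  ord : LinearOrder K.B
  lt_of_neg : ∀ b c : K.B, K.bd b c < 0 → ord.lt c b
  lt_of_pos : ∀ b c : K.B, 0 < K.bd b c → ord.lt b c
  atom : K.B → Cell K
  atom_top : ∀ (a : Bool) (b c : K.B), K.dim b ≤ K.dim c →
    ((atom b).val a c = 1 ∧ c = b) ∨ ((atom b).val a c = 0 ∧ c ≠ b)
  atom_disj : ∀ b c : K.B, K.dim c < K.dim b →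
    (atom b).val false c = 0 ∨ (atom b).val true c = 0

namespace BCx

variable {K : BCx}

theorem bdry_apply (x : K.B →₀ ℤ) (e : K.B) :
    K.bdry x e = ∑ c ∈ x.support, x c * K.bd c e := by
  rw [bdry, Finsupp.linearCombination_apply, Finsupp.sum, Finsupp.finsetSum_apply]
  rfl

theorem exists_neg {x : K.B →₀ ℤ} (hx : 0 ≤ x) {e : K.B} (h : K.bdry x e < 0) :
    ∃ c, 0 < x c ∧ K.bd c e < 0 := by
  by_contra hcon
  push Not at hcon
  apply absurd h
  rw [not_lt, bdry_apply]
  apply Finset.sum_nonneg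
  intro c hc
  have h1 : 0 ≤ x c := hx c
  have h2 : x c ≠ 0 := Finsupp.mem_support_iff.1 hc
  exact mul_nonneg h1 (hcon c (lt_of_le_of_ne h1 (Ne.symm h2)))

theorem exists_pos {x : K.B →₀ ℤ} (hx : 0 ≤ x) {e : K.B} (h : 0 < K.bdry x e) :
    ∃ c, 0 < x c ∧ 0 < K.bd c e := by
  by_contra hcon
  push Not at hcon
  apply absurd h
  rw [not_lt, bdry_apply]
  apply Finset.sum_nonpos
  intro c hc
  have h1 : 0 ≤ x c := hx c
  have h2 : x c ≠ 0 := Finsupp.mem_support_iff.1 hc
  exact mul_nonpos_of_nonneg_of_nonpos h1 (hcon c (lt_of_le_of_ne h1 (Ne.symm h2)))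

theorem bdry_eq_zero_of_dim {x : K.B →₀ ℤ} {p : ℕ} (hx : ∀ c, x c ≠ 0 → K.dim c = p + 1)
    {e : K.B} (he : K.dim e ≠ p) : K.bdry x e = 0 := by
  rw [bdry_apply]
  apply Finset.sum_eq_zero
  intro c hc
  by_cases h : K.bd c e = 0
  · rw [h, mul_zero]
  · have h1 := K.bd_dim c e h
    have h2 := hx c (Finsupp.mem_support_iff.1 hc)
    omega

end BCx

namespace Steiner

variable {K : BCx} (hK : Steiner K)

open BCx

/-- The block lemma. -/
theorem block (b : K.B) {s u m v : K.B →₀ ℤ} (hs : 0 ≤ s) (hu : 0 ≤ u) (hv : 0 ≤ v)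
    (hub : ∀ c, u c ≠ 0 → hK.ord.le c b) (hvb : ∀ c, v c ≠ 0 → hK.ord.le b c)
    (hm₀ : ∀ e, K.bdry m e < 0 → hK.ord.lt e b) (hm₁ : ∀ e, 0 < K.bdry m e → hK.ord.lt b e)
    (ht : 0 ≤ s + K.bdry u + K.bdry m + K.bdry v) :
    0 ≤ s + K.bdry u ∧ 0 ≤ s + K.bdry u + K.bdry m := by
  let _ := hK.ord
  constructor
  · intro e
    have h0 : (0 : ℤ) ≤ s e := hs e
    have ht' : (0 : ℤ) ≤ s e + K.bdry u e + K.bdry m e + K.bdry v e := ht e
    change (0 : ℤ) ≤ s e + K.bdry u e
    by_contra hcon
    have h1 : K.bdry u e < 0 := by omega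
    obtain ⟨c, hc, hce⟩ := exists_neg hu h1
    have h2 : c ≤ b := hub c (by omega)
    have h3 : e < c := hK.lt_of_neg c e hce
    have h4 : K.bdry v e ≤ 0 := by
      by_contra h
      obtain ⟨c', hc', hce'⟩ := exists_pos hv (not_le.1 h)
      have h5 : b ≤ c' := hvb c' (by omega)
      have h6 : c' < e := hK.lt_of_pos c' e hce'
      exact absurd (h6.trans (h3.trans_le h2)) (not_lt.2 h5)
    have h5 : K.bdry m e ≤ 0 := by
      by_contra h
      have h6 : b < e := hm₁ e (not_le.1 h)
      exact absurd (h6.trans h3) (not_lt.2 h2)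
    omega
  · intro e
    have h0 : (0 : ℤ) ≤ s e := hs e
    have ht' : (0 : ℤ) ≤ s e + K.bdry u e + K.bdry m e + K.bdry v e := ht e
    change (0 : ℤ) ≤ s e + K.bdry u e + K.bdry m e
    by_contra hcon
    have h1 : 0 < K.bdry v e := by omega
    obtain ⟨c, hc, hce⟩ := exists_pos hv h1
    have h2 : b ≤ c := hvb c (by omega)
    have h3 : c < e := hK.lt_of_pos c e hce
    have h4 : 0 ≤ K.bdry u e := by
      by_contra h
      obtain ⟨c', hc', hce'⟩ := exists_neg hu (not_le.1 h)
      have h5 : c' ≤ b := hub c' (by omega)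
      have h6 : e < c' := hK.lt_of_neg c' e hce'
      exact absurd (h3.trans (h6.trans_le h5)) (not_lt.2 h2)
    have h5 : 0 ≤ K.bdry m e := by
      by_contra h
      have h6 : e < b := hm₀ e (not_le.1 h)
      exact absurd (h3.trans h6) (not_lt.2 h2)
    omega

theorem atom_self (a : Bool) (b : K.B) : (hK.atom b).val a b = 1 := by
  rcases hK.atom_top a b b le_rfl with h | h
  · exact h.1
  · exact absurd rfl h.2

theorem atom_eq_zero {a : Bool} {b c : K.B} (h : K.dim b ≤ K.dim c) (hne : c ≠ b) :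
    (hK.atom b).val a c = 0 := by
  rcases hK.atom_top a b c h with h | h
  · exact absurd h.2 hne
  · exact h.1

theorem isDim_atom (b : K.B) : IsDim (K.dim b) (hK.atom b) := by
  rw [Cell.isDim_iff]
  constructor
  · intro a c hc
    exact hK.atom_eq_zero hc.le (by rintro rfl; omega)
  · intro c hc
    by_cases h : c = b
    · subst h
      rw [hK.atom_self, hK.atom_self]
    · rw [hK.atom_eq_zero hc.ge h, hK.atom_eq_zero hc.ge h]

theorem atom_bdry (a : Bool) (b e : K.B) : K.bdry ((hK.atom b).val a) e =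
    (hK.atom b).val true e - (hK.atom b).val false e := by
  rw [(hK.atom b).bdry_val]; rfl

theorem atom_lt (b : K.B) : ∀ (k : ℕ) (e : K.B), K.dim e + k + 1 = K.dim b →
    ((hK.atom b).val false e ≠ 0 → hK.ord.lt e b) ∧
    ((hK.atom b).val true e ≠ 0 → hK.ord.lt b e) := by
  let _ := hK.ord
  intro k
  induction k with
  | zero =>
    intro e he
    have hd := hK.atom_disj b e (by omega)
    constructor
    · intro h
      have h1 : (hK.atom b).val true e = 0 := by tauto
      have h2 : (0 : ℤ) ≤ (hK.atom b).val false e := (hK.atom b).nonneg false e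
      obtain ⟨c, hc, hce⟩ := exists_neg ((hK.atom b).nonneg false)
        (e := e) (by rw [hK.atom_bdry]; omega)
      have h3 := K.bd_dim c e hce.ne
      have h4 : c = b := by
        by_contra hne
        rw [hK.atom_eq_zero (by omega) hne] at hc
        exact lt_irrefl _ hc
      subst h4
      exact hK.lt_of_neg _ _ hce
    · intro h
      have h1 : (hK.atom b).val false e = 0 := by tauto
      have h2 : (0 : ℤ) ≤ (hK.atom b).val true e := (hK.atom b).nonneg true e
      obtain ⟨c, hc, hce⟩ := exists_pos ((hK.atom b).nonneg true)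
        (e := e) (by rw [hK.atom_bdry]; omega)
      have h3 := K.bd_dim c e hce.ne'
      have h4 : c = b := by
        by_contra hne
        rw [hK.atom_eq_zero (by omega) hne] at hc
        exact lt_irrefl _ hc
      subst h4
      exact hK.lt_of_pos _ _ hce
  | succ k ih =>
    intro e he
    have hd := hK.atom_disj b e (by omega)
    constructor
    · intro h
      have h1 : (hK.atom b).val true e = 0 := by tauto
      have h2 : (0 : ℤ) ≤ (hK.atom b).val false e := (hK.atom b).nonneg false e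
      obtain ⟨c, hc, hce⟩ := exists_neg ((hK.atom b).nonneg false)
        (e := e) (by rw [hK.atom_bdry]; omega)
      have h3 := K.bd_dim c e hce.ne
      exact (hK.lt_of_neg _ _ hce).trans ((ih c (by omega)).1 (by omega))
    · intro h
      have h1 : (hK.atom b).val false e = 0 := by tauto
      have h2 : (0 : ℤ) ≤ (hK.atom b).val true e := (hK.atom b).nonneg true e
      obtain ⟨c, hc, hce⟩ := exists_pos ((hK.atom b).nonneg true)
        (e := e) (by rw [hK.atom_bdry]; omega)
      have h3 := K.bd_dim c e hce.ne'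
      exact ((ih c (by omega)).2 (by omega)).trans (hK.lt_of_pos _ _ hce)

theorem atom_src_lt {b e : K.B} (he : K.dim e < K.dim b) (h : (hK.atom b).val false e ≠ 0) :
    hK.ord.lt e b :=
  (hK.atom_lt b (K.dim b - K.dim e - 1) e (by omega)).1 h

theorem atom_tgt_lt {b e : K.B} (he : K.dim e < K.dim b) (h : (hK.atom b).val true e ≠ 0) :
    hK.ord.lt b e :=
  (hK.atom_lt b (K.dim b - K.dim e - 1) e (by omega)).2 h

/-- Signs of the boundary of a homogeneous part of an atom. -/
theorem part_atom_neg {a : Bool} {b e : K.B} {p : ℕ}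
    (h : K.bdry (K.part (· = p) ((hK.atom b).val a)) e < 0) : hK.ord.lt e b := by
  rw [bdry_part, part_apply, hK.atom_bdry] at h
  split_ifs at h with h1
  · by_cases h2 : K.dim e < K.dim b
    · apply hK.atom_src_lt h2
      have h3 : (0 : ℤ) ≤ (hK.atom b).val true e := (hK.atom b).nonneg true e
      omega
    · by_cases h3 : e = b
      · subst h3
        rw [hK.atom_self, hK.atom_self] at h
        omega
      · rw [hK.atom_eq_zero (by omega) h3, hK.atom_eq_zero (by omega) h3] at h
        omega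
  · omega

theorem part_atom_pos {a : Bool} {b e : K.B} {p : ℕ}
    (h : 0 < K.bdry (K.part (· = p) ((hK.atom b).val a)) e) : hK.ord.lt b e := by
  rw [bdry_part, part_apply, hK.atom_bdry] at h
  split_ifs at h with h1
  · by_cases h2 : K.dim e < K.dim b
    · apply hK.atom_tgt_lt h2
      have h3 : (0 : ℤ) ≤ (hK.atom b).val false e := (hK.atom b).nonneg false e
      omega
    · by_cases h3 : e = b
      · subst h3
        rw [hK.atom_self, hK.atom_self] at h
        omega
      · rw [hK.atom_eq_zero (by omega) h3, hK.atom_eq_zero (by omega) h3] at h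
        omega
  · omega

end Steiner

end Vale.Agent.P213
end

section

/-!
Splitting of reduced cells.
-/

universe u v w

namespace Vale.Agent.P213

open OmegaStr

namespace BCx

variable {K : BCx}

theorem bdry_congr {x y : K.B →₀ ℤ} {c : K.B} (h : ∀ e, K.dim e = K.dim c + 1 → x e = y e) :
    K.bdry x c = K.bdry y c := by
  have h1 : ∀ z : K.B →₀ ℤ, K.bdry z c = K.bdry (K.part (· = K.dim c + 1) z) c := by
    intro z
    rw [bdry_part, part_apply, if_pos rfl]
  rw [h1 x, h1 y]
  congr 2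
  ext e
  rw [part_apply, part_apply]
  split_ifs with h2
  · exact h e h2
  · rfl

theorem aug_eq_zero {x : K.B →₀ ℤ} (h : ∀ c, x c ≠ 0 → K.dim c ≠ 0) : K.aug x = 0 := by
  have : x = K.part (· ≠ 0) x := (part_of_forall h).symm
  rw [this, aug_part]
  simp

end BCx

namespace Steiner

variable {K : BCx} (hK : Steiner K)

open BCx

/-- `w` agrees with the atom of `b` above dimension `p`. -/
def Red (b : K.B) (p : ℕ) (w : Cell K) : Prop :=
  ∀ (a : Bool) (c : K.B), p < K.dim c → w.val a c = (hK.atom b).val a c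

theorem Red.diff {b : K.B} {p : ℕ} {w : Cell K} (hw : Red hK b p w) {c : K.B}
    (hc : K.dim c = p) :
    w.val true c - w.val false c = (hK.atom b).val true c - (hK.atom b).val false c := by
  have h1 : K.bdry (w.val true) c = w.val true c - w.val false c := by rw [w.bdry_val]; rfl
  rw [← h1, ← hK.atom_bdry true]
  apply bdry_congr
  intro e he
  exact hw true e (by omega)

/-- The splitting lemma. -/
theorem split {b : K.B} {p : ℕ} (hp : p + 1 < K.dim b) {w : Cell K} (hw : Red hK b (p + 1) w) :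
    ∃ L w' R : Cell K, IsDim (p + 1) L ∧ IsDim (p + 1) R ∧ Red hK b p w' ∧
      d true p L = d false p w' ∧ d true p w' = d false p R ∧ tc p (tc p L w') R = w ∧
      (∀ c, K.dim c = p + 1 → L.val false c ≠ 0 → hK.ord.lt c b) ∧
      (∀ c, K.dim c = p + 1 → R.val false c ≠ 0 → hK.ord.le b c) := by
  classical
  let _ := hK.ord
  obtain ⟨z, hz⟩ : ∃ z : K.B →₀ ℤ, z = K.part (· = p + 1) (w.val false - (hK.atom b).val false) :=
    ⟨_, rfl⟩
  have hz0 : ∀ c, z c = if K.dim c = p + 1 then w.val false c - (hK.atom b).val false c else 0 := by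
    intro c
    rw [hz, part_apply]; rfl
  have hz1 : ∀ c, K.dim c = p + 1 → z c = w.val true c - (hK.atom b).val true c := by
    intro c hc
    have := Red.diff hK hw hc
    rw [hz0, if_pos hc]
    omega
  have hz2 : ∀ c, 0 ≤ z c := by
    intro c
    by_cases hc : K.dim c = p + 1
    · have h1 := hz1 c hc
      have h2 := hz0 c
      rw [if_pos hc] at h2
      have h3 : (0 : ℤ) ≤ w.val true c := w.nonneg true c
      have h4 : (0 : ℤ) ≤ w.val false c := w.nonneg false c
      have h5 := hK.atom_disj b c (by omega)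
      omega
    · rw [hz0, if_neg hc]
  obtain ⟨u, hu⟩ : ∃ u : K.B →₀ ℤ, u = z.filter (· < b) := ⟨_, rfl⟩
  obtain ⟨v, hv⟩ : ∃ v : K.B →₀ ℤ, v = z.filter (b ≤ ·) := ⟨_, rfl⟩
  have hu0 : ∀ c, u c = if c < b then z c else 0 := by
    intro c; rw [hu, Finsupp.filter_apply]
  have hv0 : ∀ c, v c = if b ≤ c then z c else 0 := by
    intro c; rw [hv, Finsupp.filter_apply]
  have huv : ∀ c, u c + v c = z c := by
    intro c
    rw [hu0, hv0]
    rcases lt_or_ge c b with h | h
    · rw [if_pos h, if_neg (not_le.2 h), add_zero]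
    · rw [if_neg (not_lt.2 h), if_pos h, zero_add]
  have huvz : u + v = z := by ext c; exact huv c
  have hun : ∀ c, 0 ≤ u c := by
    intro c; rw [hu0]; split_ifs
    · exact hz2 c
    · exact le_rfl
  have hvn : ∀ c, 0 ≤ v c := by
    intro c; rw [hv0]; split_ifs
    · exact hz2 c
    · exact le_rfl
  have hud : ∀ c, K.dim c ≠ p + 1 → u c = 0 := by
    intro c hc; rw [hu0, hz0, if_neg hc]; simp
  have hvd : ∀ c, K.dim c ≠ p + 1 → v c = 0 := by
    intro c hc; rw [hv0, hz0, if_neg hc]; simp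
  have hbu : ∀ c, K.dim c ≠ p → K.bdry u c = 0 := by
    intro c hc
    apply bdry_eq_zero_of_dim _ hc
    intro e he; by_contra h; exact he (hud e h)
  have hbv : ∀ c, K.dim c ≠ p → K.bdry v c = 0 := by
    intro c hc
    apply bdry_eq_zero_of_dim _ hc
    intro e he; by_contra h; exact he (hvd e h)
  have hbz : ∀ c, K.bdry z c = K.bdry u c + K.bdry v c := by
    intro c; rw [← huvz, map_add]; rfl
  -- sum at level p
  have hsum : ∀ c, K.dim c = p → K.bdry u c + K.bdry (K.part (· = p + 1) ((hK.atom b).val false)) c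
      + K.bdry v c = w.val true c - w.val false c := by
    intro c hc
    have h1 : K.bdry (w.val false) c = w.val true c - w.val false c := by rw [w.bdry_val]; rfl
    rw [← h1]
    have h2 : K.bdry (w.val false) c =
        K.bdry (z + K.part (· = p + 1) ((hK.atom b).val false)) c := by
      apply bdry_congr
      intro e he
      rw [Finsupp.add_apply, hz0, part_apply, if_pos (by omega), if_pos (by omega)]
      omega
    rw [h2, map_add, Finsupp.add_apply, hbz]
    omega
  have hblock := hK.block b (s := K.part (· = p) (w.val false)) (u := u)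
    (m := K.part (· = p + 1) ((hK.atom b).val false)) (v := v)
    (part_nonneg _ (w.nonneg false)) hun hvn
    (by intro c hc; rw [hu0] at hc; by_contra h
        rw [if_neg (fun h' => h (le_of_lt h'))] at hc; exact hc rfl)
    (by intro c hc; rw [hv0] at hc; by_contra h; rw [if_neg h] at hc; exact hc rfl)
    (fun e he => hK.part_atom_neg he) (fun e he => hK.part_atom_pos he)
    (by
      intro c
      change (0 : ℤ) ≤ K.part (· = p) (w.val false) c + K.bdry u c +
        K.bdry (K.part (· = p + 1) ((hK.atom b).val false)) c + K.bdry v c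
      rw [part_apply]
      by_cases hc : K.dim c = p
      · have h1 := hsum c hc
        have h2 : (0 : ℤ) ≤ w.val true c := w.nonneg true c
        rw [if_pos hc]
        omega
      · rw [if_neg hc, hbu c hc, hbv c hc, bdry_part, part_apply, if_neg (by omega)]
        omega)
  have hpos1 : ∀ c, K.dim c = p → 0 ≤ w.val false c + K.bdry u c := by
    intro c hc
    have h1 : (0 : ℤ) ≤ K.part (· = p) (w.val false) c + K.bdry u c := hblock.1 c
    rwa [part_apply, if_pos hc] at h1
  have hpos2 : ∀ c, K.dim c = p → 0 ≤ w.val true c - K.bdry v c := by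
    intro c hc
    have h1 : (0 : ℤ) ≤ K.part (· = p) (w.val false) c + K.bdry u c +
      K.bdry (K.part (· = p + 1) ((hK.atom b).val false)) c := hblock.2 c
    rw [part_apply, if_pos hc] at h1
    have h2 := hsum c hc
    omega
  have hau : K.aug u = 0 := aug_eq_zero (fun c hc h0 => hc (hud c (by omega)))
  have hav : K.aug v = 0 := aug_eq_zero (fun c hc h0 => hc (hvd c (by omega)))
  have haz : K.aug z = 0 := by rw [← huvz, map_add, hau, hav, add_zero]
  have hwn : ∀ a c, 0 ≤ w.val a c := fun a c => w.nonneg a c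
  obtain ⟨L, hLf, hLt⟩ : ∃ L : Cell K, L.val false = K.part (· < p + 1) (w.val false) + u ∧
      L.val true = K.part (· < p) (w.val true) + K.part (· = p) (w.val false) + K.bdry u + u := by
    refine ⟨⟨fun a => if a then K.part (· < p) (w.val true) + K.part (· = p) (w.val false) +
      K.bdry u + u else K.part (· < p + 1) (w.val false) + u, ?_, ?_, ?_⟩, rfl, rfl⟩
    · rintro (_ | _) c
      · change (0 : ℤ) ≤ K.part (· < p + 1) (w.val false) c + u c
        have := hun c
        have := hwn false c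
        rw [part_apply]
        split_ifs <;> omega
      · change (0 : ℤ) ≤ K.part (· < p) (w.val true) c + K.part (· = p) (w.val false) c +
          K.bdry u c + u c
        have := hun c
        have := hwn true c
        have := hud c
        have := hbu c
        have := hpos1 c
        rw [part_apply, part_apply]
        split_ifs <;> omega
    · rintro (_ | _)
      · simp only [map_add, bdry_part, bdry_bdry, w.bdry_val, if_true, Bool.false_eq_true, if_false]
        ext c
        simp only [Finsupp.coe_add, Finsupp.coe_sub, Pi.add_apply, Pi.sub_apply, part_apply]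
        split_ifs <;> omega
      · simp only [map_add, bdry_part, bdry_bdry, w.bdry_val, if_true, Bool.false_eq_true, if_false]
        ext c
        simp only [Finsupp.coe_add, Finsupp.coe_sub, Pi.add_apply, Pi.sub_apply, part_apply,
          Finsupp.coe_zero, Pi.zero_apply]
        split_ifs <;> omega
    · rintro (_ | _)
      · simp only [map_add, aug_part, w.aug_val, hau, Bool.false_eq_true, if_false]
        split_ifs <;> omega
      · simp only [map_add, aug_part, w.aug_val, hau, aug_bdry, if_true]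
        split_ifs <;> omega
  obtain ⟨R, hRf, hRt⟩ : ∃ R : Cell K, R.val false = K.part (· < p) (w.val false) +
      K.part (· = p) (w.val true) - K.bdry v + v ∧
      R.val true = K.part (· < p + 1) (w.val true) + v := by
    refine ⟨⟨fun a => if a then K.part (· < p + 1) (w.val true) + v else
      K.part (· < p) (w.val false) + K.part (· = p) (w.val true) - K.bdry v + v,
      ?_, ?_, ?_⟩, rfl, rfl⟩
    · rintro (_ | _) c
      · change (0 : ℤ) ≤ K.part (· < p) (w.val false) c + K.part (· = p) (w.val true) c -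
          K.bdry v c + v c
        have := hvn c
        have := hwn false c
        have := hvd c
        have := hbv c
        have := hpos2 c
        rw [part_apply, part_apply]
        split_ifs <;> omega
      · change (0 : ℤ) ≤ K.part (· < p + 1) (w.val true) c + v c
        have := hvn c
        have := hwn true c
        rw [part_apply]
        split_ifs <;> omega
    · rintro (_ | _)
      · simp only [map_add, map_sub, bdry_part, bdry_bdry, w.bdry_val, if_true,
          Bool.false_eq_true, if_false]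
        ext c
        simp only [Finsupp.coe_add, Finsupp.coe_sub, Pi.add_apply, Pi.sub_apply, part_apply,
          Finsupp.coe_zero, Pi.zero_apply]
        split_ifs <;> omega
      · simp only [map_add, map_sub, bdry_part, bdry_bdry, w.bdry_val, if_true,
          Bool.false_eq_true, if_false]
        ext c
        simp only [Finsupp.coe_add, Finsupp.coe_sub, Pi.add_apply, Pi.sub_apply, part_apply]
        split_ifs <;> omega
    · rintro (_ | _)
      · simp only [map_add, map_sub, aug_part, w.aug_val, hav, aug_bdry, Bool.false_eq_true,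
          if_false]
        split_ifs <;> omega
      · simp only [map_add, aug_part, w.aug_val, hav, if_true]
        split_ifs <;> omega
  obtain ⟨w', hwf, hwt⟩ : ∃ w' : Cell K, w'.val false = w.val false + K.bdry u - z ∧
      w'.val true = w.val true - K.bdry v - z := by
    refine ⟨⟨fun a => if a then w.val true - K.bdry v - z else w.val false + K.bdry u - z,
      ?_, ?_, ?_⟩, rfl, rfl⟩
    · rintro (_ | _) c
      · change (0 : ℤ) ≤ w.val false c + K.bdry u c - z c
        have h1 := hwn false c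
        have h2 := hbu c
        have h3 := hpos1 c
        have h4 := hz0 c
        have h5 : (0 : ℤ) ≤ (hK.atom b).val false c := (hK.atom b).nonneg false c
        split_ifs at h4 <;> omega
      · change (0 : ℤ) ≤ w.val true c - K.bdry v c - z c
        have h1 := hwn true c
        have h2 := hbv c
        have h3 := hpos2 c
        have h4 := hz0 c
        have h6 := hz1 c
        have h5 : (0 : ℤ) ≤ (hK.atom b).val true c := (hK.atom b).nonneg true c
        split_ifs at h4 <;> omega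
    · rintro (_ | _)
      · simp only [map_add, map_sub, bdry_bdry, w.bdry_val, if_true,
          Bool.false_eq_true, if_false]
        ext c
        have := hbz c
        simp only [Finsupp.coe_add, Finsupp.coe_sub, Pi.add_apply, Pi.sub_apply,
          Finsupp.coe_zero, Pi.zero_apply]
        omega
      · simp only [map_add, map_sub, bdry_bdry, w.bdry_val, if_true,
          Bool.false_eq_true, if_false]
        ext c
        have := hbz c
        simp only [Finsupp.coe_add, Finsupp.coe_sub, Pi.add_apply, Pi.sub_apply,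
          Finsupp.coe_zero, Pi.zero_apply]
        omega
    · rintro (_ | _)
      · simp only [map_add, map_sub, w.aug_val, haz, aug_bdry, Bool.false_eq_true,
          if_false]
        omega
      · simp only [map_sub, w.aug_val, haz, aug_bdry, if_true]
        omega
  have hc1 : d true p L = d false p w' := by
    apply Cell.ext
    funext a
    ext c
    rw [Cell.d_eq, Cell.d_eq, Cell.dd_val_apply, Cell.dd_val_apply]
    have h1 := hbu c
    have h2 := hbv c
    have h3 := hud c
    have h4 := hz0 c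
    cases a
    · simp only [hLf, hLt, hwf, Finsupp.coe_add, Finsupp.coe_sub, Pi.add_apply, Pi.sub_apply,
        part_apply]
      split_ifs at h4 ⊢ <;> omega
    · simp only [hLt, hwf, hwt, Finsupp.coe_add, Finsupp.coe_sub, Pi.add_apply, Pi.sub_apply,
        part_apply]
      split_ifs at h4 ⊢ <;> omega
  have hc2 : d true p w' = d false p R := by
    apply Cell.ext
    funext a
    ext c
    rw [Cell.d_eq, Cell.d_eq, Cell.dd_val_apply, Cell.dd_val_apply]
    have h1 := hbu c
    have h2 := hbv c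
    have h3 := hvd c
    have h4 := hz0 c
    cases a
    · simp only [hRf, hwf, hwt, Finsupp.coe_add, Finsupp.coe_sub, Pi.add_apply, Pi.sub_apply,
        part_apply]
      split_ifs at h4 ⊢ <;> omega
    · simp only [hRf, hRt, hwt, Finsupp.coe_add, Finsupp.coe_sub, Pi.add_apply, Pi.sub_apply,
        part_apply]
      split_ifs at h4 ⊢ <;> omega
  refine ⟨L, w', R, ?_, ?_, ?_, hc1, hc2, ?_, ?_, ?_⟩
  · rw [Cell.isDim_iff]
    constructor
    · rintro (_ | _) c hc
      · rw [hLf, Finsupp.add_apply, part_apply, if_neg (by omega), hud c (by omega)]; rfl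
      · simp only [hLt, Finsupp.coe_add, Pi.add_apply, part_apply]
        rw [if_neg (by omega), if_neg (by omega), hud c (by omega), hbu c (by omega)]; rfl
    · intro c hc
      simp only [hLt, hLf, Finsupp.coe_add, Pi.add_apply, part_apply]
      rw [if_neg (by omega), if_neg (by omega), if_neg (by omega), hbu c (by omega)]; simp
  · rw [Cell.isDim_iff]
    constructor
    · rintro (_ | _) c hc
      · simp only [hRf, Finsupp.coe_add, Finsupp.coe_sub, Pi.add_apply, Pi.sub_apply, part_apply]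
        rw [if_neg (by omega), if_neg (by omega), hvd c (by omega), hbv c (by omega)]; rfl
      · rw [hRt, Finsupp.add_apply, part_apply, if_neg (by omega), hvd c (by omega)]; rfl
    · intro c hc
      simp only [hRt, hRf, Finsupp.coe_add, Finsupp.coe_sub, Pi.add_apply, Pi.sub_apply,
        part_apply]
      rw [if_neg (by omega), if_neg (by omega), if_neg (by omega), hbv c (by omega)]; simp
  · rintro (_ | _) c hc
    · rw [hwf, Finsupp.sub_apply, Finsupp.add_apply, hbu c (by omega)]
      have h4 := hz0 c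
      have h5 := hw false c
      split_ifs at h4 <;> omega
    · rw [hwt, Finsupp.sub_apply, Finsupp.sub_apply, hbv c (by omega)]
      have h4 := hz0 c
      have h5 := hw true c
      have h6 := hz1 c
      split_ifs at h4 <;> omega
  · have hc3 : d true p (tc p L w') = d false p R := by rw [tgt_tc hc1, hc2]
    apply Cell.ext
    funext a
    ext c
    rw [Cell.tc_val hc3, ← Cell.d_eq true, tgt_tc hc1, Cell.tc_val hc1, Cell.d_eq]
    have h1 := hbu c
    have h2 := hbv c
    have h3 := hvd c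
    have h5 := hud c
    have h4 := hz0 c
    have h6 := huv c
    cases a
    · simp only [hRf, hwf, hwt, hLf, hLt, Finsupp.coe_add, Finsupp.coe_sub, Pi.add_apply,
        Pi.sub_apply, part_apply, Cell.dd_val_apply]
      split_ifs at h4 ⊢ <;> omega
    · simp only [hRt, hwt, hLt, Finsupp.coe_add, Finsupp.coe_sub, Pi.add_apply,
        Pi.sub_apply, part_apply, Cell.dd_val_apply]
      split_ifs at h4 ⊢ <;> omega
  · intro c hc h
    rw [hLf, Finsupp.add_apply, part_apply, if_neg (by omega), zero_add, hu0] at h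
    by_contra h1
    rw [if_neg h1] at h
    exact h rfl
  · intro c hc h
    simp only [hRf, Finsupp.coe_add, Finsupp.coe_sub, Pi.add_apply, Pi.sub_apply,
      part_apply] at h
    rw [if_neg (by omega), if_neg (by omega), hbv c (by omega), hv0] at h
    by_contra h1
    rw [if_neg h1] at h
    exact h rfl

/-- Splitting the top part of a cell. -/
theorem topSplit {q : ℕ} {x : Cell K} (hx : IsDim (q + 1) x) (b : K.B) {u v : K.B →₀ ℤ}
    (hu : 0 ≤ u) (hv : 0 ≤ v) (huv : u + v = K.part (· = q + 1) (x.val false))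
    (hub : ∀ c, u c ≠ 0 → hK.ord.le c b) (hvb : ∀ c, v c ≠ 0 → hK.ord.le b c) :
    ∃ L R : Cell K, IsDim (q + 1) L ∧ IsDim (q + 1) R ∧ d true q L = d false q R ∧
      tc q L R = x ∧ K.part (· = q + 1) (L.val false) = u ∧
      K.part (· = q + 1) (R.val false) = v := by
  classical
  let _ := hK.ord
  have hx1 := (Cell.isDim_iff.1 hx).1
  have hx2 := (Cell.isDim_iff.1 hx).2
  have huv0 : ∀ c, u c + v c = if K.dim c = q + 1 then x.val false c else 0 := by
    intro c
    have h1 : (u + v) c = K.part (· = q + 1) (x.val false) c := by rw [huv]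
    rwa [part_apply] at h1
  have hun : ∀ c, 0 ≤ u c := fun c => hu c
  have hvn : ∀ c, 0 ≤ v c := fun c => hv c
  have hud : ∀ c, K.dim c ≠ q + 1 → u c = 0 := by
    intro c hc
    have h1 := huv0 c
    rw [if_neg hc] at h1
    have h2 := hun c
    have h3 := hvn c
    omega
  have hvd : ∀ c, K.dim c ≠ q + 1 → v c = 0 := by
    intro c hc
    have h1 := huv0 c
    rw [if_neg hc] at h1
    have h2 := hun c
    have h3 := hvn c
    omega
  have hbu : ∀ c, K.dim c ≠ q → K.bdry u c = 0 := by
    intro c hc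
    apply bdry_eq_zero_of_dim _ hc
    intro e he; by_contra h; exact he (hud e h)
  have hbv : ∀ c, K.dim c ≠ q → K.bdry v c = 0 := by
    intro c hc
    apply bdry_eq_zero_of_dim _ hc
    intro e he; by_contra h; exact he (hvd e h)
  have hxn : ∀ a c, 0 ≤ x.val a c := fun a c => x.nonneg a c
  have hsum : ∀ c, K.dim c = q → K.bdry u c + K.bdry v c = x.val true c - x.val false c := by
    intro c hc
    have h1 : K.bdry (x.val false) c = x.val true c - x.val false c := by rw [x.bdry_val]; rfl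
    rw [← h1, ← Finsupp.add_apply, ← map_add, huv]
    apply bdry_congr
    intro e he
    rw [part_apply, if_pos (by omega)]
  have hblock := hK.block b (s := K.part (· = q) (x.val false)) (u := u)
    (m := 0) (v := v) (part_nonneg _ (x.nonneg false)) hun hvn hub hvb
    (by intro e he; simp at he) (by intro e he; simp at he)
    (by
      intro c
      change (0 : ℤ) ≤ K.part (· = q) (x.val false) c + K.bdry u c +
        K.bdry 0 c + K.bdry v c
      rw [part_apply, map_zero]
      by_cases hc : K.dim c = q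
      · have h1 := hsum c hc
        have h2 := hxn true c
        rw [if_pos hc]
        change 0 ≤ x.val false c + K.bdry u c + 0 + K.bdry v c
        omega
      · rw [if_neg hc, hbu c hc, hbv c hc]
        simp)
  have hpos1 : ∀ c, K.dim c = q → 0 ≤ x.val false c + K.bdry u c := by
    intro c hc
    have h1 : (0 : ℤ) ≤ K.part (· = q) (x.val false) c + K.bdry u c := hblock.1 c
    rwa [part_apply, if_pos hc] at h1
  have hpos2 : ∀ c, K.dim c = q → 0 ≤ x.val true c - K.bdry v c := by
    intro c hc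
    have h1 := hpos1 c hc
    have h2 := hsum c hc
    omega
  have hau : K.aug u = 0 := aug_eq_zero (fun c hc h0 => hc (hud c (by omega)))
  have hav : K.aug v = 0 := aug_eq_zero (fun c hc h0 => hc (hvd c (by omega)))
  obtain ⟨L, hLf, hLt⟩ : ∃ L : Cell K, L.val false = K.part (· < q + 1) (x.val false) + u ∧
      L.val true = K.part (· < q) (x.val true) + K.part (· = q) (x.val false) + K.bdry u + u := by
    refine ⟨⟨fun a => if a then K.part (· < q) (x.val true) + K.part (· = q) (x.val false) +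
      K.bdry u + u else K.part (· < q + 1) (x.val false) + u, ?_, ?_, ?_⟩, rfl, rfl⟩
    · rintro (_ | _) c
      · change (0 : ℤ) ≤ K.part (· < q + 1) (x.val false) c + u c
        have := hun c
        have := hxn false c
        rw [part_apply]
        split_ifs <;> omega
      · change (0 : ℤ) ≤ K.part (· < q) (x.val true) c + K.part (· = q) (x.val false) c +
          K.bdry u c + u c
        have := hun c
        have := hxn true c
        have := hud c
        have := hbu c
        have := hpos1 c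
        rw [part_apply, part_apply]
        split_ifs <;> omega
    · rintro (_ | _)
      · simp only [map_add, bdry_part, x.bdry_val, if_true, Bool.false_eq_true, if_false]
        ext c
        simp only [Finsupp.coe_add, Finsupp.coe_sub, Pi.add_apply, Pi.sub_apply, part_apply]
        split_ifs <;> omega
      · simp only [map_add, bdry_part, bdry_bdry, x.bdry_val, if_true, Bool.false_eq_true, if_false]
        ext c
        simp only [Finsupp.coe_add, Finsupp.coe_sub, Pi.add_apply, Pi.sub_apply, part_apply,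
          Finsupp.coe_zero, Pi.zero_apply]
        split_ifs <;> omega
    · rintro (_ | _)
      · simp only [map_add, aug_part, x.aug_val, hau, Bool.false_eq_true, if_false]
        split_ifs <;> omega
      · simp only [map_add, aug_part, x.aug_val, hau, aug_bdry, if_true]
        split_ifs <;> omega
  obtain ⟨R, hRf, hRt⟩ : ∃ R : Cell K, R.val false = K.part (· < q) (x.val false) +
      K.part (· = q) (x.val true) - K.bdry v + v ∧
      R.val true = K.part (· < q + 1) (x.val true) + v := by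
    refine ⟨⟨fun a => if a then K.part (· < q + 1) (x.val true) + v else
      K.part (· < q) (x.val false) + K.part (· = q) (x.val true) - K.bdry v + v,
      ?_, ?_, ?_⟩, rfl, rfl⟩
    · rintro (_ | _) c
      · change (0 : ℤ) ≤ K.part (· < q) (x.val false) c + K.part (· = q) (x.val true) c -
          K.bdry v c + v c
        have := hvn c
        have := hxn false c
        have := hvd c
        have := hbv c
        have := hpos2 c
        rw [part_apply, part_apply]
        split_ifs <;> omega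
      · change (0 : ℤ) ≤ K.part (· < q + 1) (x.val true) c + v c
        have := hvn c
        have := hxn true c
        rw [part_apply]
        split_ifs <;> omega
    · rintro (_ | _)
      · simp only [map_add, map_sub, bdry_part, bdry_bdry, x.bdry_val, if_true,
          Bool.false_eq_true, if_false]
        ext c
        simp only [Finsupp.coe_add, Finsupp.coe_sub, Pi.add_apply, Pi.sub_apply, part_apply,
          Finsupp.coe_zero, Pi.zero_apply]
        split_ifs <;> omega
      · simp only [map_add, map_sub, bdry_part, x.bdry_val, if_true,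
          Bool.false_eq_true, if_false]
        ext c
        simp only [Finsupp.coe_add, Finsupp.coe_sub, Pi.add_apply, Pi.sub_apply, part_apply]
        split_ifs <;> omega
    · rintro (_ | _)
      · simp only [map_add, map_sub, aug_part, x.aug_val, hav, aug_bdry, Bool.false_eq_true,
          if_false]
        split_ifs <;> omega
      · simp only [map_add, aug_part, x.aug_val, hav, if_true]
        split_ifs <;> omega
  have hc1 : d true q L = d false q R := by
    apply Cell.ext
    funext a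
    ext c
    rw [Cell.d_eq, Cell.d_eq, Cell.dd_val_apply, Cell.dd_val_apply]
    have h1 := hbu c
    have h2 := hbv c
    have h3 := hud c
    have h4 := hvd c
    have h5 := hsum c
    cases a
    · simp only [hLf, hLt, hRf, Finsupp.coe_add, Finsupp.coe_sub, Pi.add_apply, Pi.sub_apply,
        part_apply]
      split_ifs <;> omega
    · simp only [hLt, hRf, hRt, Finsupp.coe_add, Finsupp.coe_sub, Pi.add_apply, Pi.sub_apply,
        part_apply]
      split_ifs <;> omega
  refine ⟨L, R, ?_, ?_, hc1, ?_, ?_, ?_⟩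
  · rw [Cell.isDim_iff]
    constructor
    · rintro (_ | _) c hc
      · rw [hLf, Finsupp.add_apply, part_apply, if_neg (by omega), hud c (by omega)]; rfl
      · simp only [hLt, Finsupp.coe_add, Pi.add_apply, part_apply]
        rw [if_neg (by omega), if_neg (by omega), hud c (by omega), hbu c (by omega)]; rfl
    · intro c hc
      simp only [hLt, hLf, Finsupp.coe_add, Pi.add_apply, part_apply]
      rw [if_neg (by omega), if_neg (by omega), if_neg (by omega), hbu c (by omega)]; simp
  · rw [Cell.isDim_iff]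
    constructor
    · rintro (_ | _) c hc
      · simp only [hRf, Finsupp.coe_add, Finsupp.coe_sub, Pi.add_apply, Pi.sub_apply, part_apply]
        rw [if_neg (by omega), if_neg (by omega), hvd c (by omega), hbv c (by omega)]; rfl
      · rw [hRt, Finsupp.add_apply, part_apply, if_neg (by omega), hvd c (by omega)]; rfl
    · intro c hc
      simp only [hRt, hRf, Finsupp.coe_add, Finsupp.coe_sub, Pi.add_apply, Pi.sub_apply,
        part_apply]
      rw [if_neg (by omega), if_neg (by omega), if_neg (by omega), hbv c (by omega)]; simp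
  · apply Cell.ext
    funext a
    ext c
    rw [Cell.tc_val hc1]
    have h1 := hbu c
    have h2 := hbv c
    have h3 := hvd c
    have h5 := hud c
    have h6 := huv0 c
    have h7 := hx2 c
    have h8 := hx1 true c
    have h9 := hx1 false c
    have h10 := hsum c
    cases a
    · simp only [hRf, hLf, hLt, Finsupp.coe_add, Finsupp.coe_sub, Pi.add_apply,
        Pi.sub_apply, part_apply, Cell.dd_val_apply]
      split_ifs at h6 ⊢ <;> omega
    · simp only [hRt, hLt, Finsupp.coe_add, Finsupp.coe_sub, Pi.add_apply,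
        Pi.sub_apply, part_apply, Cell.dd_val_apply]
      split_ifs at h6 ⊢ <;> omega
  · ext c
    rw [part_apply, hLf, Finsupp.add_apply, part_apply]
    have := hud c
    split_ifs <;> omega
  · ext c
    simp only [part_apply, hRf, Finsupp.coe_add, Finsupp.coe_sub, Pi.add_apply, Pi.sub_apply]
    have := hvd c
    have := hbv c
    split_ifs <;> omega

end Steiner

end Vale.Agent.P213
end

section

/-!
Abstract interchange lemmas; evaluation of reduced cells.
-/

universe u v w

namespace Vale.Agent.P213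

open OmegaStr

section Abstract

variable {C : Type u} [OmegaStr C]

theorem isDim_tc_self {p : ℕ} {l : C} (hl : IsDim p l) : tc p l l = l := by
  have h := src_tc_id (n := p) (x := l)
  rwa [hl.d_eq false le_rfl] at h

theorem isDim_src_tgt {p : ℕ} {l : C} (hl : IsDim p l) : d true p l = d false p l := by
  rw [hl.d_eq true le_rfl, hl.d_eq false le_rfl]

/-- Interchange for three factors. -/
theorem tc3_interchange {q p : ℕ} (hqp : q < p) {l₁ l₂ b₁ b₂ r₁ r₂ : C}
    (hl : d true p l₁ = d false p l₂) (hb : d true p b₁ = d false p b₂)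
    (hr : d true p r₁ = d false p r₂) (h1 : d true q l₁ = d false q b₁)
    (h2 : d true q b₁ = d false q r₁) :
    tc p (tc q l₁ (tc q b₁ r₁)) (tc q l₂ (tc q b₂ r₂)) =
      tc q (tc p l₁ l₂) (tc q (tc p b₁ b₂) (tc p r₁ r₂)) := by
  have h3 : d true q l₁ = d false q (tc q b₁ r₁) := by rw [src_tc h2, h1]
  have h4 : d true p (tc q b₁ r₁) = d false p (tc q b₂ r₂) := by
    have h5 : d true q b₂ = d false q r₂ := by
      rw [← d_eq_of_composable hb hqp, h2, d_eq_of_composable hr hqp]
    rw [d_tc_gt h2 hqp, d_tc_gt h5 hqp, hb, hr]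
  rw [← tc_interchange hqp hl h4 h3, ← tc_interchange hqp hb hr h2]

theorem swap1 {q p : ℕ} (hqp : q < p) {l β ρ : C} (hl : IsDim p l)
    (h1 : d true q l = d false q β) (h2 : d true q β = d false q ρ) :
    tc p (tc q l (tc q (d false p β) ρ)) (tc q l (tc q β (d true p ρ))) =
      tc q l (tc q β ρ) := by
  rw [tc3_interchange hqp (isDim_src_tgt hl) (dd_le le_rfl) (dd_le le_rfl).symm (by rw [dd_lt hqp, h1])
    (by rw [dd_lt hqp, h2]), isDim_tc_self hl, src_tc_id, tc_tgt_id]

theorem swap2 {q p : ℕ} (hqp : q < p) {l β ρ : C} (hl : IsDim p l)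
    (h1 : d true q l = d false q β) (h2 : d true q β = d false q ρ) :
    tc p (tc q l (tc q β (d false p ρ))) (tc q l (tc q (d true p β) ρ)) =
      tc q l (tc q β ρ) := by
  rw [tc3_interchange hqp (isDim_src_tgt hl) (dd_le le_rfl).symm (dd_le le_rfl) h1
    (by rw [dd_lt hqp, h2]), isDim_tc_self hl, src_tc_id, tc_tgt_id]

theorem swap3 {q p : ℕ} (hqp : q < p) {l β r : C} (hr : IsDim p r)
    (h1 : d true q l = d false q β) (h2 : d true q β = d false q r) :
    tc p (tc q (d false p l) (tc q β r)) (tc q l (tc q (d true p β) r)) =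
      tc q l (tc q β r) := by
  rw [tc3_interchange hqp (dd_le le_rfl) (dd_le le_rfl).symm (isDim_src_tgt hr) (by rw [dd_lt hqp, h1])
    h2, isDim_tc_self hr, src_tc_id, tc_tgt_id]

theorem swap4 {q p : ℕ} (hqp : q < p) {l β r : C} (hr : IsDim p r)
    (h1 : d true q l = d false q β) (h2 : d true q β = d false q r) :
    tc p (tc q l (tc q (d false p β) r)) (tc q (d true p l) (tc q β r)) =
      tc q l (tc q β r) := by
  rw [tc3_interchange hqp (dd_le le_rfl).symm (dd_le le_rfl) (isDim_src_tgt hr) (by rw [dd_lt hqp, h1])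
    (by rw [dd_lt hqp, h2]), isDim_tc_self hr, src_tc_id, tc_tgt_id]

/-- Reassociation used in the normalization of decompositions. -/
theorem norm_aux {p : ℕ} {L1 L2 w' R w1 M1 Ma Mb w2 M2 : C}
    (h12 : d true p L1 = d false p L2) (h2w : d true p L2 = d false p w')
    (hwR : d true p w' = d false p R) (e1 : tc p L2 w' = tc p w1 M1)
    (h1M : d true p w1 = d false p M1) (e2 : tc p M1 R = tc p Ma Mb)
    (hab : d true p Ma = d false p Mb) (h1a : d true p w1 = d false p Ma)
    (e3 : tc p w1 Ma = tc p M2 w2) (hM2 : d true p M2 = d false p w2) :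
    tc p (tc p L1 L2) (tc p w' R) = tc p (tc p L1 M2) (tc p w2 Mb) ∧
      d true p L1 = d false p M2 ∧ d true p w2 = d false p Mb := by
  have a1 : d true p L2 = d false p (tc p w' R) := by rw [src_tc hwR, h2w]
  have a2 : d true p (tc p w1 M1) = d false p R := by rw [← e1, tgt_tc h2w, hwR]
  have a3 : d true p M1 = d false p R := by rw [← a2, tgt_tc h1M]
  have a4 : d true p w2 = d false p Mb := by rw [← tgt_tc hM2, ← e3, tgt_tc h1a, hab]
  have a5 : d true p L1 = d false p M2 := by
    rw [h12, ← src_tc h2w, e1, src_tc h1M, ← src_tc h1a, e3, src_tc hM2]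
  refine ⟨?_, a5, a4⟩
  have a6 : d true p M2 = d false p (tc p w2 Mb) := by rw [src_tc a4, hM2]
  rw [tc_assoc h12 a1, ← tc_assoc h2w hwR, e1, tc_assoc h1M a3, e2, ← tc_assoc h1a hab, e3,
    tc_assoc hM2 a4, tc_assoc a5 a6]

end Abstract

namespace Steiner

variable {K : BCx} (hK : Steiner K) {Z : Type v} [OmegaStr Z]

open BCx

/-- `Ev p w v`: the reduced cell `w` over `b` evaluates to `v`. -/
def Ev {n : ℕ} (F : PFun (Cell K) Z n) (b : K.B) (z : Z) : ℕ → Cell K → Z → Prop
  | 0, w, v => w = hK.atom b ∧ v = z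
  | p + 1, w, v => ∃ (L R w' : Cell K) (v' : Z), Ev F b z p w' v' ∧ IsDim (p + 1) L ∧
      IsDim (p + 1) R ∧ d true p L = d false p w' ∧ d true p w' = d false p R ∧
      w = tc p L (tc p w' R) ∧ v = tc p (F.toFun L) (tc p v' (F.toFun R))

/-- The standing assumptions on the value of the atom. -/
structure Good {n : ℕ} (F : PFun (Cell K) Z n) (b : K.B) (z : Z) : Prop where
  dim_b : K.dim b = n + 1
  dim_z : IsDim (n + 1) z
  d_z : ∀ a, d a n z = F.toFun (d a n (hK.atom b))

variable {n : ℕ} {F : PFun (Cell K) Z n} {b : K.B} {z : Z}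

theorem Ev.isDim (hg : Good hK F b z) : ∀ {p : ℕ} {w : Cell K} {v : Z}, p ≤ n →
    Ev hK F b z p w v → IsDim (n + 1) w ∧ IsDim (n + 1) v ∧ Red hK b p w ∧
      ∀ a, d a n v = F.toFun (d a n w)
  | 0, w, v, _, h => by
    obtain ⟨rfl, rfl⟩ := h
    refine ⟨hg.dim_b ▸ hK.isDim_atom b, hg.dim_z, fun _ _ _ => rfl, hg.d_z⟩
  | p + 1, w, v, hp, h => by
    obtain ⟨L, R, w', v', hev, hL, hR, h1, h2, rfl, rfl⟩ := h
    obtain ⟨i1, i2, i3, i4⟩ := Ev.isDim hg (by omega) hev
    have hd : ∀ a i, i ≤ n → d a i v' = F.toFun (d a i w') := by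
      intro a i hi
      rcases hi.lt_or_eq with hi | rfl
      · rw [← dd_lt (b := false) hi, i4, ← F.map_dd (isDim_d _ _ _), dd_lt hi]
      · exact i4 a
    have hLn : IsDim n L := hL.mono hp
    have hRn : IsDim n R := hR.mono hp
    have g1 : d true p (F.toFun L) = d false p v' := by
      rw [← F.map_dd hLn, h1, hd _ _ (by omega)]
    have g2 : d true p v' = d false p (F.toFun R) := by
      rw [hd _ _ (by omega), h2, F.map_dd hRn]
    have h3 : d true p L = d false p (tc p w' R) := by rw [src_tc h2, h1]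
    have g3 : d true p (F.toFun L) = d false p (tc p v' (F.toFun R)) := by rw [src_tc g2, g1]
    refine ⟨?_, ?_, ?_, ?_⟩
    · exact (hL.mono (by omega)).tc (i1.tc (hR.mono (by omega)) h2) h3
    · exact (F.isDim hLn (hL.mono hp) |>.mono (by omega)).tc
        (i2.tc (F.isDim hRn (hR.mono hp) |>.mono (by omega)) g2) g3
    · intro a c hc
      rw [Cell.tc_val h3, Cell.tc_val h2]
      simp only [Finsupp.coe_add, Finsupp.coe_sub, Pi.add_apply, Pi.sub_apply,
        Cell.dd_val_apply]
      rw [if_neg (by omega), if_neg (by omega), if_neg (by omega), if_neg (by omega),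
        (Cell.isDim_iff.1 hL).1 a c hc, (Cell.isDim_iff.1 hR).1 a c hc, i3 a c (by omega)]
      omega
    · intro a
      have hpn : p < n := by omega
      rw [d_tc_gt g3 hpn, d_tc_gt g2 hpn, d_tc_gt h3 hpn, d_tc_gt h2 hpn, hLn.d_eq a le_rfl,
        hRn.d_eq a le_rfl, (F.isDim hLn hLn).d_eq a le_rfl, (F.isDim hRn hRn).d_eq a le_rfl, i4,
        F.map_tc hLn (IsDim.tc (isDim_d _ _ _) hRn (by rw [dd_lt hpn, h2]))
          (by rw [src_tc (by rw [dd_lt hpn, h2]), dd_lt hpn, h1]),
        F.map_tc (isDim_d _ _ _) hRn (by rw [dd_lt hpn, h2])]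

theorem Ev.d_eq (hg : Good hK F b z) {p : ℕ} {w : Cell K} {v : Z} (hp : p ≤ n)
    (h : Ev hK F b z p w v) (a : Bool) {i : ℕ} (hi : i ≤ n) : d a i v = F.toFun (d a i w) := by
  obtain ⟨i1, i2, i3, i4⟩ := Ev.isDim hK hg hp h
  rcases hi.lt_or_eq with hi | rfl
  · rw [← dd_lt (b := false) hi, i4, ← F.map_dd (isDim_d _ _ _), dd_lt hi]
  · exact i4 a

/-- The cell `w` reduced down to level `0` is the atom. -/
theorem Red.eq_atom (hb : 0 < K.dim b) {w : Cell K} (hw : Red hK b 0 w) : w = hK.atom b := by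
  have h0 : ∀ c, K.dim c = 0 → 0 ≤ w.val false c - (hK.atom b).val false c := by
    intro c hc
    have h1 := Red.diff hK hw hc
    have h3 : (0 : ℤ) ≤ w.val true c := w.nonneg true c
    have h4 : (0 : ℤ) ≤ w.val false c := w.nonneg false c
    have h5 := hK.atom_disj b c (by omega)
    omega
  have h1 : w.val false = (hK.atom b).val false := by
    have h2 : 0 ≤ w.val false - (hK.atom b).val false := by
      intro c
      by_cases hc : K.dim c = 0
      · exact h0 c hc
      · change (0 : ℤ) ≤ w.val false c - (hK.atom b).val false c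
        rw [hw false c (by omega)]
        simp
    have h3 : K.aug (w.val false - (hK.atom b).val false) = 0 := by
      rw [map_sub, w.aug_val, (hK.atom b).aug_val]; rfl
    ext c
    by_cases hc : K.dim c = 0
    · by_contra hne
      have h4 : 0 < (w.val false - (hK.atom b).val false) c := by
        have := h0 c hc
        change 0 < w.val false c - (hK.atom b).val false c
        omega
      have h5 : 0 < K.aug (w.val false - (hK.atom b).val false) := by
        rw [BCx.aug, Finsupp.linearCombination_apply, Finsupp.sum]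
        apply Finset.sum_pos'
        · intro e _
          have h6 : (0 : ℤ) ≤ (w.val false - (hK.atom b).val false) e := h2 e
          split_ifs
          · simpa using h6
          · simp
        · refine ⟨c, Finsupp.mem_support_iff.2 h4.ne', ?_⟩
          rw [if_pos hc]
          simpa using h4
      omega
    · exact hw false c (by omega)
  apply Cell.ext
  funext a
  cases a
  · exact h1
  · ext c
    by_cases hc : K.dim c = 0
    · have h2 := Red.diff hK hw hc
      have h3 : w.val false c = (hK.atom b).val false c := by rw [h1]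
      omega
    · exact hw true c (by omega)

/-- Existence of values. -/
theorem Ev.exists (hg : Good hK F b z) : ∀ {p : ℕ} {w : Cell K}, p ≤ n → Red hK b p w →
    ∃ v, Ev hK F b z p w v
  | 0, w, _, hw => ⟨z, Red.eq_atom hK (by rw [hg.dim_b]; omega) hw, rfl⟩
  | p + 1, w, hp, hw => by
    obtain ⟨L, w', R, hL, hR, hw', h1, h2, h3, -, -⟩ :=
      hK.split (by rw [hg.dim_b]; omega) hw
    obtain ⟨v', hv'⟩ := Ev.exists hg (by omega) hw'
    exact ⟨_, L, R, w', v', hv', hL, hR, h1, h2, by rw [← h3, tc_assoc h1 h2], rfl⟩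

end Steiner

end Vale.Agent.P213
end
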