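import Mathlib.Data.Finite.Prod
import Mathlib.Data.Fintype.EquivFin
import Mathlib.Data.Set.Finite.List
import Mathlib.Data.Set.Finite.Basic
import Mathlib.Tactic.Linarith
import Mathlib.Tactic.Positivity
import Vale.Agent.P213.Bdl.B1

set_option linter.all false

section

/-!
Support of the cells of orientals: a cell with `0`-source `i` and `0`-target `j` only involves
simplices with vertices between `i` and `j`.
-/

universe u v w

namespace Vale.Agent.P213

section ListSupport

variable {I : Type}

/-- Two linear maps agree on `x` if they agree on the basis elements of the support of `x`. -/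
theorem lin_congr {α M : Type*} [AddCommGroup M] {f g : (α →₀ ℤ) →ₗ[ℤ] M} {x : α →₀ ℤ}
    (h : ∀ a, x a ≠ 0 → f (Finsupp.single a 1) = g (Finsupp.single a 1)) : f x = g x := by
  have key : ∀ k : (α →₀ ℤ) →ₗ[ℤ] M, k x = ∑ a ∈ x.support, x a • k (Finsupp.single a 1) := by
    intro k
    conv_lhs => rw [← Finsupp.sum_single x]
    rw [Finsupp.sum, map_sum]
    apply Finset.sum_congr rfl
    intro a _
    rw [← map_smul]
    simp
  rw [key f, key g]
  apply Finset.sum_congr rfl
  intro a ha
  rw [h a (Finsupp.mem_support_iff.1 ha)]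

/-- `tailAt m y l = y (m :: l)` -/
noncomputable def tailAt (m : I) : (List I →₀ ℤ) →ₗ[ℤ] (List I →₀ ℤ) :=
  Finsupp.lcomapDomain (fun l => m :: l) List.cons_injective

theorem tailAt_apply (m : I) (y : List I →₀ ℤ) (l : List I) : tailAt m y l = y (m :: l) := rfl

theorem tailAt_single_nil (m : I) (k : ℤ) : tailAt m (Finsupp.single [] k) = 0 := by
  classical
  ext l
  rw [tailAt_apply, Finsupp.single_apply, if_neg (by simp)]
  rfl

theorem tailAt_single_cons [DecidableEq I] (m a : I) (l : List I) (k : ℤ) :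
    tailAt m (Finsupp.single (a :: l) k) = if a = m then Finsupp.single l k else 0 := by
  classical
  ext l'
  rw [tailAt_apply, Finsupp.single_apply]
  by_cases h : a = m
  · subst h
    rw [if_pos rfl, Finsupp.single_apply]
    simp
  · rw [if_neg (by simp [h]), if_neg h]
    rfl

theorem tailAt_consL [DecidableEq I] (m a : I) (y : List I →₀ ℤ) :
    tailAt m (consL a y) = if a = m then y else 0 := by
  induction y using Finsupp.induction_linear with
  | zero => simp
  | add f g hf hg => simp only [map_add, hf, hg]; split_ifs <;> simp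
  | single l k => rw [consL_single, tailAt_single_cons]

/-- Append a vertex. -/
noncomputable def snocL (a : I) : (List I →₀ ℤ) →ₗ[ℤ] (List I →₀ ℤ) :=
  Finsupp.linearCombination ℤ (fun l => Finsupp.single (l ++ [a]) 1)

theorem snocL_single (a : I) (l : List I) (k : ℤ) :
    snocL a (Finsupp.single l k) = Finsupp.single (l ++ [a]) k := by
  simp [snocL]

theorem faces_snoc (a : I) (l : List I) :
    faces (l ++ [a]) = snocL a (faces l) + Finsupp.single l ((-1 : ℤ) ^ l.length) := by
  rw [faces, faces, List.length_append, List.length_singleton, Finset.sum_range_succ, map_sum]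
  congr 1
  · apply Finset.sum_congr rfl
    intro i hi
    rw [snocL_single, List.eraseIdx_append_of_lt_length (Finset.mem_range.1 hi)]
  · rw [List.eraseIdx_append_of_length_le le_rfl]
    simp

/-- `initAt m y l = y (l ++ [m])` -/
noncomputable def initAt (m : I) : (List I →₀ ℤ) →ₗ[ℤ] (List I →₀ ℤ) :=
  Finsupp.lcomapDomain (fun l => l ++ [m]) (fun _ _ h => List.append_cancel_right h)

theorem initAt_apply (m : I) (y : List I →₀ ℤ) (l : List I) : initAt m y l = y (l ++ [m]) := rfl

theorem initAt_single_nil (m : I) (k : ℤ) : initAt m (Finsupp.single [] k) = 0 := by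
  classical
  ext l
  rw [initAt_apply, Finsupp.single_apply, if_neg (by simp)]
  rfl

theorem initAt_single_snoc [DecidableEq I] (m a : I) (l : List I) (k : ℤ) :
    initAt m (Finsupp.single (l ++ [a]) k) = if a = m then Finsupp.single l k else 0 := by
  classical
  ext l'
  rw [initAt_apply, Finsupp.single_apply]
  by_cases h : a = m
  · subst h
    rw [if_pos rfl, Finsupp.single_apply]
    simp
  · rw [if_neg (by simp [h]), if_neg h]
    rfl

theorem initAt_snocL [DecidableEq I] (m a : I) (y : List I →₀ ℤ) :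
    initAt m (snocL a y) = if a = m then y else 0 := by
  induction y using Finsupp.induction_linear with
  | zero => simp
  | add f g hf hg => simp only [map_add, hf, hg]; split_ifs <;> simp
  | single l k => rw [snocL_single, initAt_single_snoc]

/-- The part of a chain of lists of given length. -/
noncomputable def lpart (n : ℕ) : (List I →₀ ℤ) →ₗ[ℤ] (List I →₀ ℤ) where
  toFun x := x.filter (fun l => l.length = n)
  map_add' _ _ := Finsupp.filter_add
  map_smul' _ _ := Finsupp.filter_smul

theorem lpart_apply (n : ℕ) (x : List I →₀ ℤ) (l : List I) :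
    lpart n x l = if l.length = n then x l else 0 := by
  classical
  simp [lpart, Finsupp.filter_apply]

theorem lpart_single (n : ℕ) (l : List I) (k : ℤ) :
    lpart n (Finsupp.single l k) = if l.length = n then Finsupp.single l k else 0 := by
  classical
  ext l'
  rw [lpart_apply]
  by_cases h : l = l'
  · subst h
    split_ifs <;> simp
  · have : (Finsupp.single l k) l' = 0 := by rw [Finsupp.single_apply, if_neg h]
    split_ifs <;> simp [this]

theorem dL_lpart (n : ℕ) (x : List I →₀ ℤ) : dL (lpart (n + 1) x) = lpart n (dL x) := by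
  induction x using Finsupp.induction_linear with
  | zero => simp
  | add f g hf hg => simp only [map_add, hf, hg]
  | single l k =>
    rw [lpart_single, dL_single, map_smul]
    have h1 : lpart n (faces l) = if l.length = n + 1 then faces l else 0 := by
      ext l'
      rw [lpart_apply]
      by_cases hc : faces l l' = 0
      · split_ifs <;> simp [hc]
      · have := (faces_support hc).2
        split_ifs <;> first | rfl | omega
    rw [h1]
    split_ifs
    · rw [dL_single]
    · simp

/-- sum of the coefficients -/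
noncomputable def sumL : (List I →₀ ℤ) →ₗ[ℤ] ℤ := Finsupp.linearCombination ℤ (fun _ => (1 : ℤ))

theorem sumL_eq (x : List I →₀ ℤ) : sumL x = ∑ l ∈ x.support, x l := by
  simp [sumL, Finsupp.linearCombination_apply, Finsupp.sum]

theorem dL_apply_nil {x : List I →₀ ℤ} (hx : ∀ l, x l ≠ 0 → l.length = 1) :
    (dL x) [] = sumL x := by
  have : (Finsupp.lapply ([] : List I) ∘ₗ dL : (List I →₀ ℤ) →ₗ[ℤ] ℤ) x = sumL x := by
    apply lin_congr
    intro l hl
    have hl1 := hx l hl
    obtain ⟨v, rfl⟩ := List.length_eq_one_iff.1 hl1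
    simp [dL_single, faces_cons, faces_nil, sumL]
  exact this

end ListSupport

section Order

variable {I : Type} [LinearOrder I]

theorem tailAt_dL {m : I} {x : List I →₀ ℤ}
    (hx : ∀ l, x l ≠ 0 → l.Pairwise (· < ·) ∧ ∀ v ∈ l, m ≤ v) :
    tailAt m (dL x) = - dL (tailAt m x) := by
  have : (tailAt m ∘ₗ dL) x = (-(dL ∘ₗ tailAt m)) x := by
    apply lin_congr
    intro l hl
    obtain ⟨h1, h2⟩ := hx l hl
    simp only [LinearMap.comp_apply, LinearMap.neg_apply]
    rcases l with _ | ⟨a, l⟩
    · rw [dL_single, faces_nil, tailAt_single_nil]; simp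
    · rw [dL_single, one_smul, faces_cons, map_sub, tailAt_consL, tailAt_single_cons]
      have h3 : tailAt m (Finsupp.single l (1 : ℤ)) = 0 := by
        rcases l with _ | ⟨b, l⟩
        · exact tailAt_single_nil m 1
        · rw [tailAt_single_cons, if_neg]
          rintro rfl
          rw [List.pairwise_cons] at h1
          have h4 := h1.1 b (by simp)
          have h5 := h2 a (by simp)
          exact absurd (lt_of_le_of_lt h5 h4) (lt_irrefl _)
      rw [h3, zero_sub]
      split_ifs
      · rw [dL_single, one_smul]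
      · simp
  exact this

theorem initAt_dL {m : I} {x : List I →₀ ℤ}
    (hx : ∀ l, x l ≠ 0 → l.Pairwise (· < ·) ∧ ∀ v ∈ l, v ≤ m) :
    initAt m (dL x) = dL (initAt m x) := by
  have : (initAt m ∘ₗ dL) x = (dL ∘ₗ initAt m) x := by
    apply lin_congr
    intro l hl
    obtain ⟨h1, h2⟩ := hx l hl
    simp only [LinearMap.comp_apply]
    rcases List.eq_nil_or_concat' l with rfl | ⟨l, a, rfl⟩
    · rw [dL_single, faces_nil, initAt_single_nil]; simp
    · rw [dL_single, one_smul, faces_snoc, map_add, initAt_snocL, initAt_single_snoc]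
      have h3 : initAt m (Finsupp.single l ((-1 : ℤ) ^ l.length)) = 0 := by
        rcases List.eq_nil_or_concat' l with rfl | ⟨l, b, rfl⟩
        · exact initAt_single_nil m _
        · rw [initAt_single_snoc, if_neg]
          rintro rfl
          rw [List.pairwise_append] at h1
          have h4 := h1.2.2 b (by simp) a (by simp)
          have h5 := h2 a (by simp)
          exact absurd (lt_of_lt_of_le h4 h5) (lt_irrefl _)
      rw [h3, add_zero]
      split_ifs
      · rw [dL_single, one_smul]
      · simp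
  exact this

/-- The vertices occurring in a chain. -/
def verts (x : List I →₀ ℤ) : Finset I := x.support.biUnion (fun l => l.toFinset)

theorem mem_verts {x : List I →₀ ℤ} {v : I} : v ∈ verts x ↔ ∃ l, x l ≠ 0 ∧ v ∈ l := by
  simp [verts]

/-- if `m` is a lower bound of a sorted list and occurs in it, it is its head -/
theorem exists_eq_cons {m : I} {l : List I} (hl : l.Pairwise (· < ·)) (hm : m ∈ l)
    (h : ∀ v ∈ l, m ≤ v) : ∃ l', l = m :: l' := by
  rcases l with _ | ⟨a, l⟩
  · simp at hm
  · rw [List.mem_cons] at hm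
    rcases hm with rfl | hm
    · exact ⟨l, rfl⟩
    · rw [List.pairwise_cons] at hl
      have := hl.1 m hm
      exact absurd (lt_of_lt_of_le this (h a (by simp))) (lt_irrefl _)

theorem exists_eq_snoc {m : I} {l : List I} (hl : l.Pairwise (· < ·)) (hm : m ∈ l)
    (h : ∀ v ∈ l, v ≤ m) : ∃ l', l = l' ++ [m] := by
  rcases List.eq_nil_or_concat' l with rfl | ⟨l, a, rfl⟩
  · simp at hm
  · rw [List.mem_append, List.mem_singleton] at hm
    rcases hm with hm | rfl
    · rw [List.pairwise_append] at hl
      have := hl.2.2 m hm a (by simp)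
      exact absurd (lt_of_lt_of_le this (h a (by simp))) (lt_irrefl _)
    · exact ⟨l, rfl⟩

/-- There is no nonzero nonnegative cycle. -/
theorem eq_zero_of_cycle (n : ℕ) : ∀ y : List I →₀ ℤ, 0 ≤ y →
    (∀ l, y l ≠ 0 → l.Pairwise (· < ·) ∧ l.length = n + 1) → dL y = 0 → y = 0 := by
  induction n with
  | zero =>
    intro y h0 hy hd
    have h1 : sumL y = 0 := by
      rw [← dL_apply_nil (fun l hl => (hy l hl).2), hd]; rfl
    rw [sumL_eq] at h1
    have h2 := (Finset.sum_eq_zero_iff_of_nonneg (fun l _ => h0 l)).1 h1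
    ext l
    by_contra hl
    exact hl (h2 l (Finsupp.mem_support_iff.2 hl))
  | succ n ih =>
    intro y h0 hy hd
    by_contra hne
    obtain ⟨l0, hl0⟩ := Finsupp.ne_iff.1 hne
    rw [Finsupp.coe_zero, Pi.zero_apply] at hl0
    have hV : (verts y).Nonempty := by
      have := (hy l0 hl0).2
      rcases l0 with _ | ⟨a, l⟩
      · simp at this
      · exact ⟨a, mem_verts.2 ⟨_, hl0, by simp⟩⟩
    set m := (verts y).min' hV with hm
    obtain ⟨l1, hl1, hml1⟩ := mem_verts.1 ((verts y).min'_mem hV)
    rw [← hm] at hml1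
    have hmin : ∀ l, y l ≠ 0 → ∀ v ∈ l, m ≤ v := fun l hl v hv =>
      (verts y).min'_le v (mem_verts.2 ⟨l, hl, hv⟩)
    obtain ⟨l2, rfl⟩ := exists_eq_cons (hy l1 hl1).1 hml1 (hmin l1 hl1)
    have hz : tailAt m y = 0 := by
      apply ih
      · intro l
        exact h0 (m :: l)
      · intro l hl
        have := hy _ hl
        refine ⟨this.1.of_cons, ?_⟩
        have h2 := this.2
        rw [List.length_cons] at h2
        omega
      · have := tailAt_dL (m := m) (x := y) (fun l hl => ⟨(hy l hl).1, hmin l hl⟩)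
        rw [hd, map_zero] at this
        exact neg_eq_zero.1 this.symm
    exact hl1 (by rw [← tailAt_apply, hz]; rfl)

theorem eq_zero_of_pair {Z : Bool → (List I →₀ ℤ)} (e : Bool) (h0 : ∀ a, 0 ≤ Z a)
    (hs : ∀ a, IsSorted (Z a)) (hd : ∀ a, dL (Z a) = Z e - Z (!e)) (he : Z e [] = 0) :
    ∀ a, Z a = 0 := by
  have h00 : ∀ a, 0 ≤ lpart 1 (Z a) := by
    intro a l
    rw [lpart_apply]
    split_ifs
    · exact h0 a l
    · exact le_rfl
  have hstart : Z (!e) [] = 0 := by
    have h1 : (dL (lpart 1 (Z e))) [] = sumL (lpart 1 (Z e)) := by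
      apply dL_apply_nil
      intro l hl
      rw [lpart_apply] at hl
      by_contra h
      rw [if_neg h] at hl
      exact hl rfl
    have h2 : (dL (lpart 1 (Z e))) [] = Z e [] - Z (!e) [] := by
      rw [dL_lpart, lpart_apply, if_pos List.length_nil, hd e]
      rfl
    have h3 : 0 ≤ sumL (lpart 1 (Z e)) := by
      rw [sumL_eq]
      exact Finset.sum_nonneg (fun l _ => h00 e l)
    have h4 := h0 (!e) []
    rw [Finsupp.coe_zero, Pi.zero_apply] at h4
    omega
  have key : ∀ n, ∀ a, lpart n (Z a) = 0 := by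
    intro n
    induction n with
    | zero =>
      intro a
      ext l
      rw [lpart_apply]
      split_ifs with h
      · rw [List.length_eq_zero_iff] at h
        subst h
        rcases Bool.eq_or_eq_not a e with rfl | rfl
        · exact he
        · exact hstart
      · rfl
    | succ n ih =>
      intro a
      apply eq_zero_of_cycle n
      · intro l
        rw [lpart_apply]
        split_ifs
        · exact h0 a l
        · exact le_rfl
      · intro l hl
        rw [lpart_apply] at hl
        split_ifs at hl with h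
        · exact ⟨hs a l hl, h⟩
        · exact absurd rfl hl
      · rw [dL_lpart, hd a, map_sub, ih e, ih (!e), sub_zero]
  intro a
  ext l
  have := congrArg (fun z => z l) (key l.length a)
  simp only [lpart_apply, if_true] at this
  exact this

/-- Lower bound for the vertices of a table. -/
theorem lower_support {X : Bool → (List I →₀ ℤ)} (h0 : ∀ a, 0 ≤ X a)
    (hs : ∀ a, IsSorted (X a)) (hd : ∀ a, dL (X a) = X true - X false + Finsupp.single [] 1)
    {i : I} (hi : ∀ v, X false [v] ≠ 0 → v = i) (a : Bool) (l : List I) (hl : X a l ≠ 0) :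
    ∀ v ∈ l, i ≤ v := by
  intro v hv
  by_contra hlt
  rw [not_le] at hlt
  have hV : (verts (X true) ∪ verts (X false)).Nonempty := by
    refine ⟨v, ?_⟩
    rw [Finset.mem_union, mem_verts, mem_verts]
    cases a
    · exact Or.inr ⟨l, hl, hv⟩
    · exact Or.inl ⟨l, hl, hv⟩
  set m := (verts (X true) ∪ verts (X false)).min' hV with hm
  have hmin : ∀ a l, X a l ≠ 0 → ∀ v ∈ l, m ≤ v := by
    intro a l hl v hv
    apply Finset.min'_le
    rw [Finset.mem_union, mem_verts, mem_verts]
    cases a
    · exact Or.inr ⟨l, hl, hv⟩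
    · exact Or.inl ⟨l, hl, hv⟩
  have hmi : m < i := lt_of_le_of_lt (hmin a l hl v hv) hlt
  have hz : ∀ a, tailAt m (X a) = 0 := by
    apply eq_zero_of_pair (Z := fun a => tailAt m (X a)) false
    · intro a l
      exact h0 a (m :: l)
    · intro a l hl
      exact (hs a _ hl).of_cons
    · intro a
      have h1 := tailAt_dL (m := m) (x := X a) (fun l hl => ⟨hs a l hl, hmin a l hl⟩)
      rw [hd a, map_add, map_sub, tailAt_single_nil, add_zero] at h1
      have h2 : dL (tailAt m (X a)) = -(tailAt m (X true) - tailAt m (X false)) := by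
        rw [h1, neg_neg]
      rw [h2]
      simp
    · change X false [m] = 0
      by_contra h
      exact absurd (hi m h) hmi.ne
  have hmem := (verts (X true) ∪ verts (X false)).min'_mem hV
  rw [← hm, Finset.mem_union, mem_verts, mem_verts] at hmem
  have : ∃ b l, X b l ≠ 0 ∧ m ∈ l := by
    rcases hmem with ⟨l, h1, h2⟩ | ⟨l, h1, h2⟩
    · exact ⟨true, l, h1, h2⟩
    · exact ⟨false, l, h1, h2⟩
  obtain ⟨b, l1, hl1, hml1⟩ := this
  obtain ⟨l2, rfl⟩ := exists_eq_cons (hs b l1 hl1) hml1 (hmin b l1 hl1)
  exact hl1 (by rw [← tailAt_apply, hz b]; rfl)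

/-- Upper bound for the vertices of a table. -/
theorem upper_support {X : Bool → (List I →₀ ℤ)} (h0 : ∀ a, 0 ≤ X a)
    (hs : ∀ a, IsSorted (X a)) (hd : ∀ a, dL (X a) = X true - X false + Finsupp.single [] 1)
    {i : I} (hi : ∀ v, X true [v] ≠ 0 → v = i) (a : Bool) (l : List I) (hl : X a l ≠ 0) :
    ∀ v ∈ l, v ≤ i := by
  intro v hv
  by_contra hlt
  rw [not_le] at hlt
  have hV : (verts (X true) ∪ verts (X false)).Nonempty := by
    refine ⟨v, ?_⟩
    rw [Finset.mem_union, mem_verts, mem_verts]
    cases a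
    · exact Or.inr ⟨l, hl, hv⟩
    · exact Or.inl ⟨l, hl, hv⟩
  set m := (verts (X true) ∪ verts (X false)).max' hV with hm
  have hmax : ∀ a l, X a l ≠ 0 → ∀ v ∈ l, v ≤ m := by
    intro a l hl v hv
    apply Finset.le_max'
    rw [Finset.mem_union, mem_verts, mem_verts]
    cases a
    · exact Or.inr ⟨l, hl, hv⟩
    · exact Or.inl ⟨l, hl, hv⟩
  have hmi : i < m := lt_of_lt_of_le hlt (hmax a l hl v hv)
  have hz : ∀ a, initAt m (X a) = 0 := by
    apply eq_zero_of_pair (Z := fun a => initAt m (X a)) true
    · intro a l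
      exact h0 a (l ++ [m])
    · intro a l hl
      exact (List.pairwise_append.1 (hs a _ hl)).1
    · intro a
      have h1 := initAt_dL (m := m) (x := X a) (fun l hl => ⟨hs a l hl, hmax a l hl⟩)
      rw [hd a, map_add, map_sub, initAt_single_nil, add_zero] at h1
      exact h1.symm
    · change X true [m] = 0
      by_contra h
      exact absurd (hi m h) hmi.ne'
  have hmem := (verts (X true) ∪ verts (X false)).max'_mem hV
  rw [← hm, Finset.mem_union, mem_verts, mem_verts] at hmem
  have : ∃ b l, X b l ≠ 0 ∧ m ∈ l := by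
    rcases hmem with ⟨l, h1, h2⟩ | ⟨l, h1, h2⟩
    · exact ⟨true, l, h1, h2⟩
    · exact ⟨false, l, h1, h2⟩
  obtain ⟨b, l1, hl1, hml1⟩ := this
  obtain ⟨l2, rfl⟩ := exists_eq_snoc (hs b l1 hl1) hml1 (hmax b l1 hl1)
  exact hl1 (by rw [← initAt_apply, hz b]; rfl)

end Order

end Vale.Agent.P213
end

section

/-!
Vertices of the cells of orientals.
-/

universe u v w

namespace Vale.Agent.P213

open OmegaStr

/-- the vertex `i` as a simplex -/
def vS {I : Type} [LinearOrder I] (i : I) : Smpl I := ⟨[i], by simp⟩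

theorem vS_injective {I : Type} [LinearOrder I] : Function.Injective (vS (I := I)) := by
  intro i j h
  have := congrArg (fun s : Smpl I => s.1) h
  simpa [vS] using this

theorem eq_vS {I : Type} [LinearOrder I] {s : Smpl I} (h : (simplexCx I).dim s = 0) :
    ∃ i, s = vS i := by
  obtain ⟨l, h1, h2⟩ := s
  have h3 : l.length - 1 = 0 := h
  have h4 : l.length ≠ 0 := fun h => h1 (List.length_eq_zero_iff.1 h)
  obtain ⟨v, rfl⟩ := List.length_eq_one_iff.1 (by omega : l.length = 1)
  exact ⟨v, rfl⟩

namespace Cell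

section

variable {I J : Type} [LinearOrder I] [LinearOrder J]

/-- The vertex `i` as a cell of the oriental. -/
noncomputable def vtx (i : I) : Cell (simplexCx I) where
  val _ := Finsupp.single (vS i) 1
  nonneg _ := by
    classical
    intro t
    rw [Finsupp.coe_zero, Pi.zero_apply, Finsupp.single_apply]
    split_ifs <;> simp
  bdry_val _ := by
    rw [BCx.bdry_single, sub_self, one_smul]
    change toS (faces [i]) = 0
    rw [faces_cons, faces_nil, map_zero, sub_zero]
    ext t
    rw [toS_apply, Finsupp.single_apply, if_neg (fun h => t.2.1 h.symm)]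
    rfl
  aug_val _ := by
    rw [BCx.aug_single]
    rfl

theorem vtx_val (i : I) (a : Bool) : (vtx i).val a = Finsupp.single (vS i) 1 := rfl

/-- the value on the vertex `i` of a chain -/
theorem exists_eq_vtx {x : Cell (simplexCx I)} {a : Bool} (hx : x.dd a 0 = x) :
    ∃ i, x = vtx i := by
  classical
  have hval : ∀ b s, x.val b s = if (simplexCx I).dim s = 0 then x.val a s else 0 := by
    intro b s
    have h : (x.dd a 0).val b s = _ := dd_val_apply a 0 x b s
    rw [hx] at h
    rw [h, if_neg (Nat.not_lt_zero _)]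
  have h1 := x.aug_val a
  have h2 : (simplexCx I).aug (x.val a) = ∑ s ∈ (x.val a).support, x.val a s := by
    rw [BCx.aug, Finsupp.linearCombination_apply, Finsupp.sum]
    apply Finset.sum_congr rfl
    intro s hs
    have h3 : (simplexCx I).dim s = 0 := by
      by_contra h
      have h4 := hval a s
      rw [if_neg h] at h4
      exact (Finsupp.mem_support_iff.1 hs) h4
    rw [if_pos h3]
    simp
  rw [h2] at h1
  have h3 : (x.val a).support.Nonempty := by
    by_contra h
    rw [Finset.not_nonempty_iff_eq_empty] at h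
    rw [h] at h1
    simp at h1
  obtain ⟨s, hs⟩ := h3
  have hs0 : x.val a s ≠ 0 := Finsupp.mem_support_iff.1 hs
  have hspos : 1 ≤ x.val a s := by
    have := x.nonneg a s
    rw [Finsupp.coe_zero, Pi.zero_apply] at this
    omega
  have h4 : ∑ t ∈ (x.val a).support.erase s, x.val a t + x.val a s = 1 := by
    rw [Finset.sum_erase_add _ _ hs, h1]
  have h5 : 0 ≤ ∑ t ∈ (x.val a).support.erase s, x.val a t :=
    Finset.sum_nonneg (fun t _ => x.nonneg a t)
  have h6 : x.val a s = 1 := by omega
  have h7 : ∑ t ∈ (x.val a).support.erase s, x.val a t = 0 := by omega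
  have h8 := (Finset.sum_eq_zero_iff_of_nonneg (fun t _ => x.nonneg a t)).1 h7
  have hsdim : (simplexCx I).dim s = 0 := by
    by_contra h
    have h4 := hval a s
    rw [if_neg h] at h4
    exact hs0 h4
  obtain ⟨i, rfl⟩ := eq_vS hsdim
  refine ⟨i, ?_⟩
  ext b t
  rw [vtx_val, Finsupp.single_apply, hval b t]
  by_cases ht : vS i = t
  · subst ht
    rw [if_pos hsdim, if_pos rfl, h6]
  · rw [if_neg ht]
    have h9 : x.val a t = 0 := by
      by_contra h
      exact h (h8 t (Finset.mem_erase.2 ⟨fun h => ht h.symm, Finsupp.mem_support_iff.2 h⟩))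
    rw [h9]
    simp

theorem vtx_injective : Function.Injective (vtx (I := I)) := by
  classical
  intro i j h
  have h1 := congrArg (fun z => z.val true (vS i)) h
  simp only [vtx_val, Finsupp.single_apply, if_true] at h1
  by_contra hne
  rw [if_neg (fun h => hne (vS_injective h).symm)] at h1
  exact one_ne_zero h1

theorem exists_vert (a : Bool) (x : Cell (simplexCx I)) : ∃ i, x.dd a 0 = vtx i :=
  exists_eq_vtx (dd_dd_of_le a a 0 0 x le_rfl)

/-- The `0`-source (`a = false`) and `0`-target (`a = true`) of a cell, as a vertex. -/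
noncomputable def vert (a : Bool) (x : Cell (simplexCx I)) : I := Classical.choose (exists_vert a x)

theorem dd_zero (a : Bool) (x : Cell (simplexCx I)) : x.dd a 0 = vtx (vert a x) :=
  Classical.choose_spec (exists_vert a x)

theorem d_zero (a : Bool) (x : Cell (simplexCx I)) : d a 0 x = vtx (vert a x) := dd_zero a x

theorem dd_vtx (a : Bool) (n : ℕ) (i : I) : (vtx i).dd a n = vtx i := by
  classical
  ext b s
  rw [dd_val_apply, vtx_val, Finsupp.single_apply]
  by_cases h : vS i = s
  · subst h
    have : (simplexCx I).dim (vS i) = 0 := rfl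
    rw [if_pos rfl, this]
    rcases Nat.eq_zero_or_pos n with rfl | hn
    · rw [if_neg (lt_irrefl 0), if_pos rfl, vtx_val]; simp
    · rw [if_pos hn]
  · rw [if_neg h, vtx_val, Finsupp.single_apply, if_neg h]
    simp

theorem d_vtx (a : Bool) (n : ℕ) (i : I) : d a n (vtx i) = vtx i := dd_vtx a n i

theorem vert_vtx (a : Bool) (i : I) : vert a (vtx i) = i :=
  vtx_injective (by rw [← dd_zero, dd_vtx])

theorem vert_eq_iff (a : Bool) (x : Cell (simplexCx I)) (i : I) :
    vert a x = i ↔ x.dd a 0 = vtx i := by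
  rw [dd_zero]
  exact ⟨fun h => by rw [h], fun h => vtx_injective h⟩

theorem vert_dd_zero (a b : Bool) (x : Cell (simplexCx I)) : vert b (x.dd a 0) = vert a x := by
  rw [dd_zero, vert_vtx]

theorem vert_d_zero (a b : Bool) (x : Cell (simplexCx I)) : vert b (d a 0 x) = vert a x :=
  vert_dd_zero a b x

theorem vert_dd_pos (a b : Bool) {n : ℕ} (hn : 0 < n) (x : Cell (simplexCx I)) :
    vert b (x.dd a n) = vert b x := by
  rw [vert_eq_iff, dd_dd_of_lt b a 0 n x hn, dd_zero]

theorem vert_d_pos (a b : Bool) {n : ℕ} (hn : 0 < n) (x : Cell (simplexCx I)) :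
    vert b (d a n x) = vert b x := vert_dd_pos a b hn x

theorem val_vertex (a : Bool) (x : Cell (simplexCx I)) (v : I) :
    x.val a (vS v) = if v = vert a x then 1 else 0 := by
  classical
  have h : (x.dd a 0).val a (vS v) = _ := dd_val_apply a 0 x a (vS v)
  have h0 : (simplexCx I).dim (vS v) = 0 := rfl
  rw [h0, if_neg (lt_irrefl 0), if_pos rfl, dd_zero, vtx_val, Finsupp.single_apply] at h
  rw [← h]
  by_cases hv : v = vert a x
  · rw [if_pos hv, if_pos (by rw [hv])]
  · rw [if_neg hv, if_neg (fun h => hv (vS_injective h).symm)]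

/-- The list chain underlying a cell. -/
theorem dL_ofS_val (a : Bool) (x : Cell (simplexCx I)) :
    dL (ofS (x.val a)) = ofS (x.val true) - ofS (x.val false) + Finsupp.single [] 1 := by
  have h1 : ofS (toS (dL (ofS (x.val a)))) =
      dL (ofS (x.val a)) - Finsupp.single [] ((dL (ofS (x.val a))) []) :=
    ofS_toS (isSorted_ofS (x.val a)).dL
  have h2 : toS (dL (ofS (x.val a))) = x.val true - x.val false := by
    rw [← simplexCx_bdry]; exact x.bdry_val a
  have h3 : (dL (ofS (x.val a))) [] = 1 := by
    rw [← x.aug_val a]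
    have : ∀ y : Smpl I →₀ ℤ, (dL (ofS y)) [] = (simplexCx I).aug y := by
      classical
      intro y
      have : (Finsupp.lapply ([] : List I) ∘ₗ dL ∘ₗ ofS : (Smpl I →₀ ℤ) →ₗ[ℤ] ℤ) y
          = (simplexCx I).aug y := by
        apply lin_congr
        rintro ⟨l, hl, hl2⟩ -
        have haug : (simplexCx I).aug (Finsupp.single (⟨l, hl, hl2⟩ : Smpl I) 1) =
          if l.length - 1 = 0 then (1 : ℤ) else 0 := BCx.aug_single _ _
        rw [haug]
        simp only [LinearMap.comp_apply, ofS_single, dL_single, one_smul,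
          Finsupp.lapply_apply]
        by_cases h1 : l.length = 1
        · obtain ⟨v, rfl⟩ := List.length_eq_one_iff.1 h1
          simp [faces_cons, faces_nil]
        · have h4 : l.length ≠ 0 := fun h => hl (List.length_eq_zero_iff.1 h)
          rw [if_neg (by omega)]
          by_contra h
          have := (faces_support h).2
          simp at this
          omega
      exact this
    exact this _
  rw [h2, h3, map_sub] at h1
  rw [h1]
  abel

theorem ofS_apply (y : Smpl I →₀ ℤ) (l : List I) :
    (ofS y) l = if h : l ≠ [] ∧ l.Pairwise (· < ·) then y ⟨l, h⟩ else 0 := by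
  classical
  induction y using Finsupp.induction_linear with
  | zero => simp only [map_zero, Finsupp.coe_zero, Pi.zero_apply]; split_ifs <;> rfl
  | add f g hf hg =>
    simp only [map_add, Finsupp.coe_add, Pi.add_apply, hf, hg]
    split_ifs
    · rfl
    · simp
  | single s k =>
    rw [ofS_single, Finsupp.single_apply]
    split_ifs with h1 h2 h2
    · subst h1
      exact (Finsupp.single_eq_same).symm
    · subst h1
      exact absurd s.2 h2
    · rw [Finsupp.single_apply, if_neg]
      rintro rfl
      exact h1 rfl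
    · rfl

theorem ofS_nonneg {y : Smpl I →₀ ℤ} (hy : 0 ≤ y) : 0 ≤ ofS y := by
  intro l
  rw [ofS_apply]
  split_ifs with h
  · exact hy _
  · exact le_rfl

/-- **Support lemma**: the simplices occurring in a cell with `0`-source `i` and `0`-target `j`
have all their vertices between `i` and `j`. -/
theorem support (x : Cell (simplexCx I)) (a : Bool) (s : Smpl I) (hs : x.val a s ≠ 0) :
    ∀ v ∈ s.1, vert false x ≤ v ∧ v ≤ vert true x := by
  have h0 : ∀ a, 0 ≤ ofS (x.val a) := fun a => ofS_nonneg (x.nonneg a)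
  have h1 : ∀ a, IsSorted (ofS (x.val a)) := fun a => isSorted_ofS _
  have h2 : ∀ a, dL (ofS (x.val a)) = ofS (x.val true) - ofS (x.val false)
      + Finsupp.single [] 1 := fun a => dL_ofS_val a x
  have h3 : ∀ a v, (ofS (x.val a)) [v] ≠ 0 → v = vert a x := by
    intro a v h
    rw [ofS_apply, dif_pos (by simp)] at h
    have := val_vertex a x v
    by_contra hne
    rw [if_neg hne] at this
    exact h this
  have h4 : (ofS (x.val a)) s.1 ≠ 0 := by
    rw [ofS_apply, dif_pos s.2]; exact hs
  intro v hv
  exact ⟨lower_support (X := fun a => ofS (x.val a)) h0 h1 h2 (h3 false) a s.1 h4 v hv,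
    upper_support (X := fun a => ofS (x.val a)) h0 h1 h2 (h3 true) a s.1 h4 v hv⟩

theorem vert_le (x : Cell (simplexCx I)) : vert false x ≤ vert true x := by
  have h : x.val false (vS (vert false x)) ≠ 0 := by
    rw [val_vertex, if_pos rfl]; exact one_ne_zero
  exact (support x false _ h (vert false x) (by simp [vS])).2

theorem eq_vtx_of_vert_eq {x : Cell (simplexCx I)} (h : vert false x = vert true x) :
    x = vtx (vert false x) := by
  classical
  ext a s
  rw [vtx_val, Finsupp.single_apply]
  by_cases hs : x.val a s = 0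
  · rw [hs]
    split_ifs with h1
    · rw [← h1, val_vertex] at hs
      have : vert false x = vert a x := by
        cases a
        · rfl
        · exact h
      rw [if_pos this] at hs
      exact hs.symm
    · rfl
  · have h1 := support x a s hs
    obtain ⟨l, hl, hl2⟩ := s
    rcases l with _ | ⟨b, l⟩
    · exact absurd rfl hl
    · have hb := h1 b (by simp)
      have hb' : b = vert false x := le_antisymm (by rw [h]; exact hb.2) hb.1
      rcases l with _ | ⟨c, l⟩
      · subst hb'
        have h2 : (⟨[vert false x], ⟨hl, hl2⟩⟩ : Smpl I) = vS (vert false x) := rfl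
        rw [h2, val_vertex, if_pos rfl, if_pos]
        cases a
        · rfl
        · exact h
      · have hc := h1 c (by simp)
        rw [List.pairwise_cons] at hl2
        have h3 := hl2.1 c (by simp)
        rw [hb'] at h3
        exact absurd (lt_of_lt_of_le h3 (by rw [h]; exact hc.2)) (lt_irrefl _)

theorem map_vtx (θ : I →o J) (i : I) : (vtx i).map (simplexMap θ) = vtx (θ i) := by
  ext1
  funext a
  rw [map_val, vtx_val, vtx_val, simplexMap_lin, ofS_single]
  change toS (pushL θ (Finsupp.single [i] 1)) = _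
  rw [pushL_single]
  have : (List.map θ [i]).Pairwise (· < ·) := by simp
  rw [if_pos this, ← toS_ofS (Finsupp.single (vS (θ i)) 1), ofS_single]
  rfl

theorem vert_map (θ : I →o J) (a : Bool) (x : Cell (simplexCx I)) :
    vert a (x.map (simplexMap θ)) = θ (vert a x) := by
  rw [vert_eq_iff, ← map_dd, dd_zero, map_vtx]

end

end Cell

end Vale.Agent.P213
end

section

/-!
The oriental `O_1`: its cells are determined by their source and target vertices, and the
functors into it are the monotone level functions.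
-/

universe u v w

namespace Vale.Agent.P213

open OmegaStr

/-- the edge `[i, j]` as a simplex -/
def eS {I : Type} [LinearOrder I] (i j : I) (h : i < j) : Smpl I := ⟨[i, j], by simp [h]⟩

theorem toS_single_nil {I : Type} [LinearOrder I] (k : ℤ) :
    toS (Finsupp.single ([] : List I) k) = 0 := by
  classical
  ext t
  rw [toS_apply, Finsupp.single_apply, if_neg (fun h => t.2.1 h.symm)]
  rfl

theorem toS_single {I : Type} [LinearOrder I] (s : Smpl I) (k : ℤ) :
    toS (Finsupp.single s.1 k) = Finsupp.single s k := by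
  rw [← ofS_single, toS_ofS]

theorem bdry_vS {I : Type} [LinearOrder I] (i : I) (k : ℤ) :
    (simplexCx I).bdry (Finsupp.single (vS i) k) = 0 := by
  rw [BCx.bdry_single]
  change k • toS (faces [i]) = 0
  rw [faces_cons, faces_nil, map_zero, sub_zero, toS_single_nil, smul_zero]

theorem bdry_eS {I : Type} [LinearOrder I] (i j : I) (h : i < j) (k : ℤ) :
    (simplexCx I).bdry (Finsupp.single (eS i j h) k) =
      Finsupp.single (vS j) k - Finsupp.single (vS i) k := by
  rw [BCx.bdry_single]
  change k • toS (faces [i, j]) = _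
  rw [faces_cons, faces_cons, faces_nil, map_zero, sub_zero, consL_single, map_sub]
  have h1 : toS (Finsupp.single [j] (1 : ℤ)) = Finsupp.single (vS j) 1 := toS_single (vS j) 1
  have h2 : toS (Finsupp.single [i] (1 : ℤ)) = Finsupp.single (vS i) 1 := toS_single (vS i) 1
  rw [h1, h2, smul_sub]
  simp

theorem single_nonneg' {α : Type*} (a : α) : (0 : α →₀ ℤ) ≤ Finsupp.single a 1 := by
  classical
  intro t
  rw [Finsupp.coe_zero, Pi.zero_apply, Finsupp.single_apply]
  split_ifs <;> simp

namespace Cell

section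

variable {I J : Type} [LinearOrder I] [LinearOrder J]

/-- The edge from `i` to `j` as a cell of the oriental. -/
noncomputable def edge (i j : I) (h : i < j) : Cell (simplexCx I) where
  val a := Finsupp.single (vS (bif a then j else i)) 1 + Finsupp.single (eS i j h) 1
  nonneg a := add_nonneg (single_nonneg' _) (single_nonneg' _)
  bdry_val a := by
    rw [map_add, bdry_vS, bdry_eS, zero_add]
    simp only [cond_true, cond_false, add_sub_add_right_eq_sub]
  aug_val a := by
    rw [map_add, BCx.aug_single, BCx.aug_single]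
    rfl

theorem edge_val (i j : I) (h : i < j) (a : Bool) : (edge i j h).val a =
    Finsupp.single (vS (bif a then j else i)) 1 + Finsupp.single (eS i j h) 1 := rfl

theorem vS_ne_eS (v i j : I) (h : i < j) : vS v ≠ eS i j h := by
  intro h1
  have := congrArg (fun s : Smpl I => s.1.length) h1
  simp [vS, eS] at this

theorem vert_edge (a : Bool) (i j : I) (h : i < j) :
    vert a (edge i j h) = bif a then j else i := by
  classical
  have h1 := val_vertex a (edge i j h) (bif a then j else i)
  rw [edge_val, Finsupp.add_apply, Finsupp.single_eq_same, Finsupp.single_apply,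
    if_neg (fun h1 => vS_ne_eS _ _ _ h h1.symm), add_zero] at h1
  by_contra hne
  rw [if_neg (fun h => hne h.symm)] at h1
  exact one_ne_zero h1

/-- A cell with given source and target vertices. -/
noncomputable def mk2 (i j : I) (h : i ≤ j) : Cell (simplexCx I) :=
  if h' : i = j then vtx i else edge i j (lt_of_le_of_ne h h')

theorem vert_false_mk2 (i j : I) (h : i ≤ j) : vert false (mk2 i j h) = i := by
  unfold mk2
  split_ifs with h'
  · rw [vert_vtx]
  · rw [vert_edge]; rfl

theorem vert_true_mk2 (i j : I) (h : i ≤ j) : vert true (mk2 i j h) = j := by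
  unfold mk2
  split_ifs with h'
  · rw [vert_vtx, h']
  · rw [vert_edge]; rfl

/-- Any functor between orientals (indeed, any functor out of an oriental) is monotone on
vertices. -/
theorem vert_fun_le (F : OmegaFun (Cell (simplexCx I)) (Cell (simplexCx J))) {i j : I}
    (h : i ≤ j) (a : Bool) : vert a (F (vtx i)) ≤ vert a (F (vtx j)) := by
  have h1 := vert_le (F (mk2 i j h))
  have h2 : ∀ b, d b 0 (F (mk2 i j h)) = F (d b 0 (mk2 i j h)) := fun b => (F.map_d b 0 _).symm
  have h3 : F (vtx i) = vtx (vert false (F (mk2 i j h))) := by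
    rw [← d_zero, h2, d_zero, vert_false_mk2]
  have h4 : F (vtx j) = vtx (vert true (F (mk2 i j h))) := by
    rw [← d_zero, h2, d_zero, vert_true_mk2]
  rw [h3, h4, vert_vtx, vert_vtx]
  exact h1

end

section Fin2

theorem smpl_fin2 (s : Smpl (Fin 2)) :
    s = vS 0 ∨ s = vS 1 ∨ s = eS 0 1 Fin.zero_lt_one := by
  obtain ⟨l, hl, hl2⟩ := s
  rcases l with _ | ⟨a, _ | ⟨b, _ | ⟨c, l⟩⟩⟩
  · exact absurd rfl hl
  · rcases (by omega : a = 0 ∨ a = 1) with rfl | rfl
    · exact Or.inl rfl
    · exact Or.inr (Or.inl rfl)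
  · rw [List.pairwise_cons] at hl2
    have h := hl2.1 b (by simp)
    have ha : a = 0 := by omega
    have hb : b = 1 := by omega
    subst ha hb
    exact Or.inr (Or.inr rfl)
  · rw [List.pairwise_cons, List.pairwise_cons] at hl2
    have h := hl2.1 b (by simp)
    have h' := hl2.2.1 c (by simp)
    omega

theorem bdry_fin2 (y : Smpl (Fin 2) →₀ ℤ) :
    ((simplexCx (Fin 2)).bdry y) (vS 1) = y (eS 0 1 Fin.zero_lt_one) := by
  classical
  have : (Finsupp.lapply (vS (1 : Fin 2)) ∘ₗ (simplexCx (Fin 2)).bdry) y =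
      (Finsupp.lapply (eS (0 : Fin 2) 1 Fin.zero_lt_one) : (Smpl (Fin 2) →₀ ℤ) →ₗ[ℤ] ℤ) y := by
    apply lin_congr
    intro s _
    simp only [LinearMap.comp_apply, Finsupp.lapply_apply]
    rcases smpl_fin2 s with rfl | rfl | rfl
    · rw [bdry_vS, Finsupp.single_apply, if_neg (vS_ne_eS _ _ _ _)]
      rfl
    · rw [bdry_vS, Finsupp.single_apply, if_neg (vS_ne_eS _ _ _ _)]
      rfl
    · rw [bdry_eS, Finsupp.sub_apply, Finsupp.single_eq_same, Finsupp.single_eq_same,
        Finsupp.single_apply, if_neg]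
      · rfl
      · intro h
        exact absurd (vS_injective h) (by decide)
  exact this

/-- The cells of `O_1` are determined by their source and target vertices. -/
theorem fin2_ext {x y : Cell (simplexCx (Fin 2))} (h : ∀ a, vert a x = vert a y) : x = y := by
  ext a s
  rcases smpl_fin2 s with rfl | rfl | rfl
  · rw [val_vertex, val_vertex, h a]
  · rw [val_vertex, val_vertex, h a]
  · rw [← bdry_fin2, ← bdry_fin2, x.bdry_val, y.bdry_val, Finsupp.sub_apply, Finsupp.sub_apply,
      val_vertex, val_vertex, val_vertex, val_vertex, h true, h false]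

theorem fin2_dim (x : Cell (simplexCx (Fin 2))) {n : ℕ} (hn : 0 < n) (a : Bool) :
    d a n x = x := by
  apply fin2_ext
  intro b
  rw [vert_d_pos a b hn]

variable {C : Type u} [OmegaStr C]

/-- The vertices of the image of a cell by a functor are determined by the images of
`0`-cells. -/
theorem fun_vert {I : Type} [LinearOrder I] (F : OmegaFun C (Cell (simplexCx I))) (a b : Bool)
    (x : C) : vert b (F (d a 0 x)) = vert a (F x) := by
  have : F (d a 0 x) = d a 0 (F x) := F.map_d a 0 x
  rw [this, vert_d_zero]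

/-- Functors into `O_1` are determined by their values on `0`-cells. -/
theorem fun_fin2_ext {F G : OmegaFun C (Cell (simplexCx (Fin 2)))}
    (h : ∀ x : C, d false 0 x = x → vert false (F x) = vert false (G x)) : F = G := by
  apply OmegaFun.ext
  intro x
  apply fin2_ext
  intro a
  rw [← fun_vert F a false x, ← fun_vert G a false x]
  exact h _ (d_d_of_le false a 0 0 x le_rfl)

theorem vert_comp_false {I : Type} [LinearOrder I] (n : ℕ) (x y : Cell (simplexCx I))
    (h : d true n x = d false n y) : vert false (comp n x y h) = vert false x := by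
  rw [vert_eq_iff]
  change d false 0 (comp n x y h) = _
  rcases Nat.eq_zero_or_pos n with rfl | hn
  · rw [src_comp, d_zero]
  · rw [← d_d_of_lt false false 0 n _ hn, src_comp, d_d_of_lt _ _ _ _ _ hn, d_zero]

theorem vert_comp_true {I : Type} [LinearOrder I] (n : ℕ) (x y : Cell (simplexCx I))
    (h : d true n x = d false n y) : vert true (comp n x y h) = vert true y := by
  rw [vert_eq_iff]
  change d true 0 (comp n x y h) = _
  rcases Nat.eq_zero_or_pos n with rfl | hn
  · rw [tgt_comp, d_zero]
  · rw [← d_d_of_lt true true 0 n _ hn, tgt_comp, d_d_of_lt _ _ _ _ _ hn, d_zero]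

end Fin2

end Cell

section

variable {C : Type u} [OmegaStr C]

theorem d_zero_comp_false (n : ℕ) (x y : C) (h : d true n x = d false n y) :
    d false 0 (comp n x y h) = d false 0 x := by
  rcases Nat.eq_zero_or_pos n with rfl | hn
  · rw [src_comp]
  · rw [← d_d_of_lt false false 0 n _ hn, src_comp, d_d_of_lt _ _ _ _ _ hn]

theorem d_zero_comp_true (n : ℕ) (x y : C) (h : d true n x = d false n y) :
    d true 0 (comp n x y h) = d true 0 y := by
  rcases Nat.eq_zero_or_pos n with rfl | hn
  · rw [tgt_comp]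
  · rw [← d_d_of_lt true true 0 n _ hn, tgt_comp, d_d_of_lt _ _ _ _ _ hn]

/-- The functor to `O_1` attached to a level function. -/
noncomputable def levelFun (l : C → Fin 2) (hl : ∀ x, l (d false 0 x) ≤ l (d true 0 x)) :
    OmegaFun C (Cell (simplexCx (Fin 2))) where
  toFun x := Cell.mk2 (l (d false 0 x)) (l (d true 0 x)) (hl x)
  map_d a n x := by
    apply Cell.fin2_ext
    intro b
    rcases Nat.eq_zero_or_pos n with rfl | hn
    · rw [Cell.vert_d_zero]
      cases b
      · rw [Cell.vert_false_mk2]
        cases a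
        · rw [Cell.vert_false_mk2, d_d_of_le _ _ _ _ _ le_rfl]
        · rw [Cell.vert_true_mk2, d_d_of_le _ _ _ _ _ le_rfl]
      · rw [Cell.vert_true_mk2]
        cases a
        · rw [Cell.vert_false_mk2, d_d_of_le _ _ _ _ _ le_rfl]
        · rw [Cell.vert_true_mk2, d_d_of_le _ _ _ _ _ le_rfl]
    · rw [Cell.vert_d_pos _ _ hn]
      cases b
      · rw [Cell.vert_false_mk2, Cell.vert_false_mk2, d_d_of_lt _ _ _ _ _ hn]
      · rw [Cell.vert_true_mk2, Cell.vert_true_mk2, d_d_of_lt _ _ _ _ _ hn]
  map_comp n x y h h' := by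
    apply Cell.fin2_ext
    intro b
    cases b
    · rw [Cell.vert_comp_false, Cell.vert_false_mk2, Cell.vert_false_mk2, d_zero_comp_false]
    · rw [Cell.vert_comp_true, Cell.vert_true_mk2, Cell.vert_true_mk2, d_zero_comp_true]

theorem vert_levelFun (l : C → Fin 2) (hl : ∀ x, l (d false 0 x) ≤ l (d true 0 x)) (a : Bool)
    (x : C) : Cell.vert a (levelFun l hl x) = l (d a 0 x) := by
  cases a
  · exact Cell.vert_false_mk2 _ _ (hl x)
  · exact Cell.vert_true_mk2 _ _ (hl x)

end

end Vale.Agent.P213
end

section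

/-!
One-sided cones: an omega-category with a terminal (`ε = true`) or initial (`ε = false`)
object adjoined.
-/

universe u v w

namespace Vale.Agent.P213

open OmegaStr

/-- `Z` with a terminal object (`ε = true`) or an initial object (`ε = false`) adjoined. -/
inductive Cone (ε : Bool) (Z : Type u) [OmegaStr Z] : Type u
  | mid (x : Z)
  | arr (z : Z) (hz : d false 0 z = z)
  | pt

namespace Cone

variable {ε : Bool} {Z : Type u} [OmegaStr Z]

/-- sources and targets -/
def dC (a : Bool) (n : ℕ) : Cone ε Z → Cone ε Z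
  | mid x => mid (d a n x)
  | arr z hz => if n = 0 then (if a = ε then pt else mid z) else arr z hz
  | pt => pt

theorem dC_mid (a : Bool) (n : ℕ) (x : Z) : dC a n (mid x : Cone ε Z) = mid (d a n x) := rfl
theorem dC_pt (a : Bool) (n : ℕ) : dC a n (pt : Cone ε Z) = pt := rfl
theorem dC_arr_pos (a : Bool) {n : ℕ} (hn : 0 < n) (z : Z) (hz : d false 0 z = z) :
    dC a n (arr z hz : Cone ε Z) = arr z hz := by
  simp only [dC, if_neg hn.ne']
theorem dC_arr_zero (a : Bool) (z : Z) (hz : d false 0 z = z) :
    dC a 0 (arr z hz : Cone ε Z) = if a = ε then pt else mid z := by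
  simp only [dC, if_true]

theorem d_zero_idem (a b : Bool) (n : ℕ) (x : Z) : d a n (d b 0 x) = d b 0 x :=
  d_d_of_le a b n 0 x (Nat.zero_le _)

theorem d_of_zero (a : Bool) (n : ℕ) {z : Z} (hz : d false 0 z = z) : d a n z = z := by
  rw [← hz, d_zero_idem]

/-- composition -/
def compC (n : ℕ) : (x y : Cone ε Z) → dC true n x = dC false n y → Cone ε Z
  | mid x, mid y, h => mid (comp n x y (by simpa only [dC_mid, mid.injEq] using h))
  | mid x, arr _ _, _ => arr (d (!ε) 0 x) (d_zero_idem _ _ _ _)
  | arr _ _, mid y, _ => arr (d (!ε) 0 y) (d_zero_idem _ _ _ _)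
  | mid _, pt, _ => pt
  | pt, mid _, _ => pt
  | arr z hz, arr _ _, _ => arr z hz
  | arr z hz, pt, _ => arr z hz
  | pt, arr z hz, _ => arr z hz
  | pt, pt, _ => pt

/-- the possible compositions along positive dimensional cells -/
theorem composable_pos {n : ℕ} (hn : 0 < n) {x y : Cone ε Z} (h : dC true n x = dC false n y) :
    (∃ x' y', x = mid x' ∧ y = mid y' ∧ d true n x' = d false n y') ∨
      (∃ z hz, x = arr z hz ∧ y = arr z hz) ∨ (x = pt ∧ y = pt) := by
  rcases x with x | ⟨z, hz⟩ | _ <;> rcases y with y | ⟨w, hw⟩ | _ <;>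
    simp only [dC_mid, dC_arr_pos _ hn, dC_pt, reduceCtorEq, mid.injEq, arr.injEq] at h
  · exact Or.inl ⟨x, y, rfl, rfl, h⟩
  · subst h
    exact Or.inr (Or.inl ⟨z, hz, rfl, rfl⟩)
  · exact Or.inr (Or.inr ⟨rfl, rfl⟩)

/-- the possible compositions along `0`-cells -/
theorem composable_zero {x y : Cone ε Z} (h : dC true 0 x = dC false 0 y) :
    (∃ x' y', x = mid x' ∧ y = mid y' ∧ d true 0 x' = d false 0 y') ∨
    (∃ x' z hz, ε = true ∧ x = mid x' ∧ y = arr z hz ∧ d true 0 x' = z) ∨
    (∃ y' z hz, ε = false ∧ x = arr z hz ∧ y = mid y' ∧ d false 0 y' = z) ∨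
    (∃ z hz, ε = true ∧ x = arr z hz ∧ y = pt) ∨
    (∃ z hz, ε = false ∧ x = pt ∧ y = arr z hz) ∨ (x = pt ∧ y = pt) := by
  rcases x with x | ⟨z, hz⟩ | _ <;> rcases y with y | ⟨w, hw⟩ | _ <;> cases ε <;>
    simp only [dC_mid, dC_arr_zero, dC_pt, reduceCtorEq, mid.injEq, if_true, if_false,
      Bool.false_eq_true, Bool.true_eq_false] at h
  · exact Or.inl ⟨x, y, rfl, rfl, h⟩
  · exact Or.inl ⟨x, y, rfl, rfl, h⟩
  · exact Or.inr (Or.inl ⟨x, w, hw, rfl, rfl, rfl, h⟩)
  · exact Or.inr (Or.inr (Or.inl ⟨y, z, hz, rfl, rfl, rfl, h.symm⟩))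
  · exact Or.inr (Or.inr (Or.inr (Or.inl ⟨z, hz, rfl, rfl, rfl⟩)))
  · exact Or.inr (Or.inr (Or.inr (Or.inr (Or.inl ⟨w, hw, rfl, rfl, rfl⟩))))
  · exact Or.inr (Or.inr (Or.inr (Or.inr (Or.inr ⟨rfl, rfl⟩))))
  · exact Or.inr (Or.inr (Or.inr (Or.inr (Or.inr ⟨rfl, rfl⟩))))

theorem compC_congr (n : ℕ) {x x' y y' : Cone ε Z} (hx : x = x') (hy : y = y')
    (h : dC true n x = dC false n y) (h' : dC true n x' = dC false n y') :
    compC n x y h = compC n x' y' h' := by
  subst hx hy
  rfl

theorem arr_congr {z w : Z} (h : z = w) (hz : d false 0 z = z) (hw : d false 0 w = w) :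
    (arr z hz : Cone ε Z) = arr w hw := by
  subst h
  rfl

theorem dC_dC_of_lt (a b : Bool) (m n : ℕ) (x : Cone ε Z) (h : m < n) :
    dC a m (dC b n x) = dC a m x := by
  rcases x with x | ⟨z, hz⟩ | _
  · exact congrArg mid (d_d_of_lt a b m n x h)
  · rw [dC_arr_pos b (by omega)]
  · rfl

theorem dC_dC_of_le (a b : Bool) (m n : ℕ) (x : Cone ε Z) (h : n ≤ m) :
    dC a m (dC b n x) = dC b n x := by
  rcases x with x | ⟨z, hz⟩ | _
  · exact congrArg mid (d_d_of_le a b m n x h)
  · rcases Nat.eq_zero_or_pos n with rfl | hn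
    · rw [dC_arr_zero]
      split_ifs
      · rfl
      · rw [dC_mid, d_of_zero a m hz]
    · rw [dC_arr_pos b hn, dC_arr_pos a (by omega)]
  · rfl

theorem src_compC (n : ℕ) (x y : Cone ε Z) (h : dC true n x = dC false n y) :
    dC false n (compC n x y h) = dC false n x := by
  rcases Nat.eq_zero_or_pos n with rfl | hn
  · rcases composable_zero h with ⟨x', y', rfl, rfl, h1⟩ | ⟨x', z, hz, rfl, rfl, rfl, h1⟩ |
      ⟨y', z, hz, rfl, rfl, rfl, h1⟩ | ⟨z, hz, rfl, rfl, rfl⟩ | ⟨z, hz, rfl, rfl, rfl⟩ |
      ⟨rfl, rfl⟩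
    · exact congrArg mid (src_comp 0 x' y' h1)
    · rfl
    · rfl
    · rfl
    · rfl
    · rfl
  · rcases composable_pos hn h with ⟨x', y', rfl, rfl, h1⟩ | ⟨z, hz, rfl, rfl⟩ | ⟨rfl, rfl⟩
    · exact congrArg mid (src_comp n x' y' h1)
    · rfl
    · rfl

theorem tgt_compC (n : ℕ) (x y : Cone ε Z) (h : dC true n x = dC false n y) :
    dC true n (compC n x y h) = dC true n y := by
  rcases Nat.eq_zero_or_pos n with rfl | hn
  · rcases composable_zero h with ⟨x', y', rfl, rfl, h1⟩ | ⟨x', z, hz, rfl, rfl, rfl, h1⟩ |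
      ⟨y', z, hz, rfl, rfl, rfl, h1⟩ | ⟨z, hz, rfl, rfl, rfl⟩ | ⟨z, hz, rfl, rfl, rfl⟩ |
      ⟨rfl, rfl⟩
    · exact congrArg mid (tgt_comp 0 x' y' h1)
    · rfl
    · rfl
    · rfl
    · rfl
    · rfl
  · rcases composable_pos hn h with ⟨x', y', rfl, rfl, h1⟩ | ⟨z, hz, rfl, rfl⟩ | ⟨rfl, rfl⟩
    · exact congrArg mid (tgt_comp n x' y' h1)
    · rfl
    · rfl

theorem d_compC (a : Bool) (m n : ℕ) (x y : Cone ε Z) (h : dC true n x = dC false n y)
    (h' : dC true n (dC a m x) = dC false n (dC a m y)) (hnm : n < m) :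
    dC a m (compC n x y h) = compC n (dC a m x) (dC a m y) h' := by
  have hm : 0 < m := by omega
  rcases Nat.eq_zero_or_pos n with rfl | hn
  · rcases composable_zero h with ⟨x', y', rfl, rfl, h1⟩ | ⟨x', z, hz, rfl, rfl, rfl, h1⟩ |
      ⟨y', z, hz, rfl, rfl, rfl, h1⟩ | ⟨z, hz, rfl, rfl, rfl⟩ | ⟨z, hz, rfl, rfl, rfl⟩ |
      ⟨rfl, rfl⟩
    · have h2 : d true 0 (d a m x') = d false 0 (d a m y') := by
        rw [d_d_of_lt _ _ _ _ _ hm, d_d_of_lt _ _ _ _ _ hm, h1]
      exact congrArg mid (d_comp a m 0 x' y' h1 h2 hm)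
    · have e := dC_arr_pos (ε := true) a hm z hz
      rw [compC_congr 0 rfl e h' (by rw [dC_mid, dC_mid, d_d_of_lt _ _ _ _ _ hm, h1]; rfl)]
      change dC a m (arr (d false 0 x') _) = arr (d false 0 (d a m x')) _
      rw [dC_arr_pos a hm]
      exact arr_congr (d_d_of_lt _ _ _ _ _ hm).symm _ _
    · have e := dC_arr_pos (ε := false) a hm z hz
      rw [compC_congr 0 e rfl h' (by rw [dC_mid, dC_mid, d_d_of_lt _ _ _ _ _ hm, h1]; rfl)]
      change dC a m (arr (d true 0 y') _) = arr (d true 0 (d a m y')) _
      rw [dC_arr_pos a hm]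
      exact arr_congr (d_d_of_lt _ _ _ _ _ hm).symm _ _
    · have e := dC_arr_pos (ε := true) a hm z hz
      rw [compC_congr 0 e rfl h' rfl]
      exact e
    · have e := dC_arr_pos (ε := false) a hm z hz
      rw [compC_congr 0 rfl e h' rfl]
      exact e
    · rfl
  · rcases composable_pos hn h with ⟨x', y', rfl, rfl, h1⟩ | ⟨z, hz, rfl, rfl⟩ | ⟨rfl, rfl⟩
    · have h2 : d true n (d a m x') = d false n (d a m y') := by
        rw [d_d_of_lt _ _ _ _ _ hnm, d_d_of_lt _ _ _ _ _ hnm, h1]
      exact congrArg mid (d_comp a m n x' y' h1 h2 hnm)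
    · have e := dC_arr_pos (ε := ε) a hm z hz
      rw [compC_congr n e e h' h]
      exact e
    · rfl

theorem id_compC (n : ℕ) (x : Cone ε Z) (h : dC true n (dC false n x) = dC false n x) :
    compC n (dC false n x) x h = x := by
  rcases x with x | ⟨z, hz⟩ | _
  · have h1 : d true n (d false n x) = d false n x := d_d_of_le _ _ _ _ _ le_rfl
    exact congrArg mid (id_comp n x h1)
  · rcases Nat.eq_zero_or_pos n with rfl | hn
    · cases ε
      · rfl
      · exact arr_congr (by rw [Bool.not_true, hz]) _ _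
    · have e := dC_arr_pos (ε := ε) false hn z hz
      rw [compC_congr n e rfl h (by rw [dC_arr_pos _ hn, dC_arr_pos _ hn])]
      rfl
  · rfl

theorem comp_idC (n : ℕ) (x : Cone ε Z) (h : dC true n x = dC false n (dC true n x)) :
    compC n x (dC true n x) h = x := by
  rcases x with x | ⟨z, hz⟩ | _
  · have h1 : d true n x = d false n (d true n x) := (d_d_of_le _ _ _ _ _ le_rfl).symm
    exact congrArg mid (comp_id n x h1)
  · rcases Nat.eq_zero_or_pos n with rfl | hn
    · cases ε
      · exact arr_congr (by rw [Bool.not_false, d_of_zero _ _ hz]) _ _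
      · rfl
    · have e := dC_arr_pos (ε := ε) true hn z hz
      rw [compC_congr n rfl e h (by rw [dC_arr_pos _ hn, dC_arr_pos _ hn])]
      rfl
  · rfl

theorem assocC (n : ℕ) (x y z : Cone ε Z) (h₁ : dC true n x = dC false n y)
    (h₂ : dC true n y = dC false n z) (h₃ : dC true n (compC n x y h₁) = dC false n z)
    (h₄ : dC true n x = dC false n (compC n y z h₂)) :
    compC n (compC n x y h₁) z h₃ = compC n x (compC n y z h₂) h₄ := by
  rcases Nat.eq_zero_or_pos n with rfl | hn
  · rcases composable_zero h₁ with ⟨x', y', rfl, rfl, h1⟩ | ⟨x', w, hw, rfl, rfl, rfl, h1⟩ |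
      ⟨y', w, hw, rfl, rfl, rfl, h1⟩ | ⟨w, hw, rfl, rfl, rfl⟩ | ⟨w, hw, rfl, rfl, rfl⟩ |
      ⟨rfl, rfl⟩
    · rcases z with z | ⟨u, hu⟩ | _
      · have h2 : d true 0 y' = d false 0 z := by
          simpa only [dC_mid, mid.injEq] using h₂
        have h3 : d true 0 (comp 0 x' y' h1) = d false 0 z := by rw [tgt_comp, h2]
        have h4 : d true 0 x' = d false 0 (comp 0 y' z h2) := by rw [src_comp, h1]
        exact congrArg mid (assoc 0 x' y' z h1 h2 h3 h4)
      · cases ε
        · simp [dC_mid, dC_arr_zero] at h₂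
        · exact arr_congr (by rw [Bool.not_true, src_comp]) _ _
      · simp [dC_mid, dC_pt] at h₂
    · rcases z with z | ⟨u, hu⟩ | _
      · simp [dC_mid, dC_arr_zero] at h₂
      · simp [dC_arr_zero] at h₂
      · rfl
    · rcases z with z | ⟨u, hu⟩ | _
      · have h2 : d true 0 y' = d false 0 z := by
          simpa only [dC_mid, mid.injEq] using h₂
        exact arr_congr (by rw [Bool.not_false, tgt_comp]) _ _
      · simp [dC_mid, dC_arr_zero] at h₂
      · simp [dC_mid, dC_pt] at h₂
    · rcases z with z | ⟨u, hu⟩ | _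
      · simp [dC_mid, dC_pt] at h₂
      · simp [dC_pt, dC_arr_zero] at h₂
      · rfl
    · rcases z with z | ⟨u, hu⟩ | _
      · rfl
      · simp [dC_arr_zero] at h₂
      · simp [dC_arr_zero, dC_pt] at h₂
    · rcases z with z | ⟨u, hu⟩ | _
      · simp [dC_mid, dC_pt] at h₂
      · rfl
      · rfl
  · rcases composable_pos hn h₁ with ⟨x', y', rfl, rfl, h1⟩ | ⟨w, hw, rfl, rfl⟩ | ⟨rfl, rfl⟩
    · rcases z with z | ⟨u, hu⟩ | _
      · have h2 : d true n y' = d false n z := by
          simpa only [dC_mid, mid.injEq] using h₂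
        have h3 : d true n (comp n x' y' h1) = d false n z := by rw [tgt_comp, h2]
        have h4 : d true n x' = d false n (comp n y' z h2) := by rw [src_comp, h1]
        exact congrArg mid (assoc n x' y' z h1 h2 h3 h4)
      · simp [dC_mid, dC_arr_pos _ hn] at h₂
      · simp [dC_mid, dC_pt] at h₂
    · rcases z with z | ⟨u, hu⟩ | _
      · simp [dC_mid, dC_arr_pos _ hn] at h₂
      · rfl
      · rfl
    · rcases z with z | ⟨u, hu⟩ | _
      · simp [dC_mid, dC_pt] at h₂
      · rfl
      · rfl

theorem interchangeC (m n : ℕ) (x y z w : Cone ε Z) (hmn : m < n)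
    (h₁ : dC true n x = dC false n y) (h₂ : dC true n z = dC false n w)
    (h₃ : dC true m x = dC false m z) (h₄ : dC true m y = dC false m w)
    (h₅ : dC true m (compC n x y h₁) = dC false m (compC n z w h₂))
    (h₆ : dC true n (compC m x z h₃) = dC false n (compC m y w h₄)) :
    compC m (compC n x y h₁) (compC n z w h₂) h₅ =
      compC n (compC m x z h₃) (compC m y w h₄) h₆ := by
  have hn : 0 < n := by omega
  rcases composable_pos hn h₁ with ⟨x, y, rfl, rfl, e₁⟩ | ⟨u, hu, rfl, rfl⟩ | ⟨rfl, rfl⟩ <;>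
  rcases composable_pos hn h₂ with ⟨z, w, rfl, rfl, e₂⟩ | ⟨v, hv, rfl, rfl⟩ | ⟨rfl, rfl⟩
  · have e₃ : d true m x = d false m z := by simpa only [dC_mid, mid.injEq] using h₃
    have e₄ : d true m y = d false m w := by simpa only [dC_mid, mid.injEq] using h₄
    have e₅ : d true m (comp n x y e₁) = d false m (comp n z w e₂) := by
      simpa only [compC, dC_mid, mid.injEq] using h₅
    have e₆ : d true n (comp m x z e₃) = d false n (comp m y w e₄) := by
      simpa only [compC, dC_mid, mid.injEq] using h₆
    exact congrArg mid (interchange m n x y z w hmn e₁ e₂ e₃ e₄ e₅ e₆)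
  · rcases Nat.eq_zero_or_pos m with rfl | hm
    · cases ε
      · simp [dC_mid, dC_arr_zero] at h₃
      · exact arr_congr (d_zero_comp_false n x y e₁) _ _
    · simp [dC_mid, dC_arr_pos _ hm] at h₃
  · simp [dC_mid, dC_pt] at h₃
  · rcases Nat.eq_zero_or_pos m with rfl | hm
    · cases ε
      · refine arr_congr ?_ _ _
        rw [Bool.not_false, d_zero_comp_true, ← d_d_of_lt true false 0 n w hn, ← e₂,
          d_d_of_lt true true 0 n z hn]
      · simp [dC_mid, dC_arr_zero] at h₃
    · simp [dC_mid, dC_arr_pos _ hm] at h₃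
  · rfl
  · rfl
  · simp [dC_mid, dC_pt] at h₃
  · rfl
  · rfl

theorem finite_dimC (x : Cone ε Z) : ∃ n : ℕ, dC false n x = x := by
  rcases x with x | ⟨z, hz⟩ | _
  · obtain ⟨n, hn⟩ := finite_dim x
    exact ⟨n, congrArg mid hn⟩
  · exact ⟨1, rfl⟩
  · exact ⟨0, rfl⟩

instance : OmegaStr (Cone ε Z) where
  d := dC
  comp n x y h := compC n x y h
  finite_dim := finite_dimC
  d_d_of_lt := dC_dC_of_lt
  d_d_of_le := dC_dC_of_le
  src_comp := src_compC
  tgt_comp := tgt_compC
  d_comp := d_compC
  id_comp := id_compC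
  comp_id := comp_idC
  assoc := assocC
  interchange := interchangeC

theorem d_eq (a : Bool) (n : ℕ) (x : Cone ε Z) : d a n x = dC a n x := rfl

theorem comp_eq (n : ℕ) (x y : Cone ε Z) (h : d true n x = d false n y) :
    comp n x y h = compC n x y h := rfl

/-- the inclusion of `Z` in the cone -/
def midFun (ε : Bool) (Z : Type u) [OmegaStr Z] : OmegaFun Z (Cone ε Z) where
  toFun := mid
  map_d _ _ _ := rfl
  map_comp _ _ _ _ _ := rfl

/-- cells above dimension `n` are identities -/
theorem isNCat_cone {n : ℕ} (hn : 0 < n) (hZ : ∀ x : Z, d false n x = x) (x : Cone ε Z) :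
    d false n x = x := by
  rcases x with x | ⟨z, hz⟩ | _
  · exact congrArg mid (hZ x)
  · exact dC_arr_pos false hn z hz
  · rfl

end Cone

end Vale.Agent.P213
end

section

/-!
Sub-omega-categories.
-/

universe u v w

namespace Vale.Agent.P213

open OmegaStr

/-- A sub-omega-category. -/
structure OmegaSub (C : Type u) [OmegaStr C] where
  mem : Set C
  d_mem : ∀ (a : Bool) (n : ℕ) (x : C), x ∈ mem → d a n x ∈ mem
  comp_mem : ∀ (n : ℕ) (x y : C) (h : d true n x = d false n y), x ∈ mem → y ∈ mem →
    comp n x y h ∈ mem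

namespace OmegaSub

variable {C : Type u} {D : Type v} [OmegaStr C] [OmegaStr D]

/-- The underlying type of a sub-omega-category. -/
def Carrier (S : OmegaSub C) : Type u := {x : C // x ∈ S.mem}

variable (S : OmegaSub C)

instance : OmegaStr S.Carrier where
  d a n x := ⟨d a n x.1, S.d_mem a n x.1 x.2⟩
  comp n x y h := ⟨comp n x.1 y.1 (congrArg Subtype.val h), S.comp_mem n x.1 y.1 _ x.2 y.2⟩
  finite_dim x := by
    obtain ⟨n, hn⟩ := finite_dim x.1
    exact ⟨n, Subtype.ext hn⟩
  d_d_of_lt a b m n x h := Subtype.ext (d_d_of_lt a b m n x.1 h)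
  d_d_of_le a b m n x h := Subtype.ext (d_d_of_le a b m n x.1 h)
  src_comp n x y h := Subtype.ext (src_comp n x.1 y.1 _)
  tgt_comp n x y h := Subtype.ext (tgt_comp n x.1 y.1 _)
  d_comp a m n x y h h' hnm := Subtype.ext (d_comp a m n x.1 y.1 _ (congrArg Subtype.val h') hnm)
  id_comp n x h := Subtype.ext (id_comp n x.1 (congrArg Subtype.val h))
  comp_id n x h := Subtype.ext (comp_id n x.1 (congrArg Subtype.val h))
  assoc n x y z h₁ h₂ h₃ h₄ := Subtype.ext (assoc n x.1 y.1 z.1 (congrArg Subtype.val h₁)
    (congrArg Subtype.val h₂) (congrArg Subtype.val h₃) (congrArg Subtype.val h₄))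
  interchange m n x y z w hmn h₁ h₂ h₃ h₄ h₅ h₆ := Subtype.ext (interchange m n x.1 y.1 z.1 w.1
    hmn (congrArg Subtype.val h₁) (congrArg Subtype.val h₂) (congrArg Subtype.val h₃)
    (congrArg Subtype.val h₄) (congrArg Subtype.val h₅) (congrArg Subtype.val h₆))

/-- The inclusion of a sub-omega-category. -/
def incl : OmegaFun S.Carrier C where
  toFun x := x.1
  map_d _ _ _ := rfl
  map_comp _ _ _ _ _ := rfl

theorem incl_apply (x : S.Carrier) : S.incl x = x.1 := rfl

/-- Corestriction of a functor to a sub-omega-category. -/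
def lift (F : OmegaFun D C) (hF : ∀ x, F x ∈ S.mem) : OmegaFun D S.Carrier where
  toFun x := ⟨F x, hF x⟩
  map_d a n x := Subtype.ext (F.map_d a n x)
  map_comp n x y h h' := Subtype.ext (F.map_comp n x y h (congrArg Subtype.val h'))

theorem lift_val (F : OmegaFun D C) (hF : ∀ x, F x ∈ S.mem) (x : D) :
    (S.lift F hF x).1 = F x := rfl

theorem incl_comp_lift (F : OmegaFun D C) (hF : ∀ x, F x ∈ S.mem) :
    S.incl.comp (S.lift F hF) = F := rfl

theorem carrier_ext {x y : S.Carrier} (h : x.1 = y.1) : x = y := Subtype.ext h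

theorem fun_ext {F G : OmegaFun D S.Carrier} (h : ∀ x, (F x).1 = (G x).1) : F = G :=
  OmegaFun.ext (fun x => Subtype.ext (h x))

end OmegaSub

end Vale.Agent.P213
end

section

/-!
The universal property of one-sided cones: functors `Y ⟶ Cone ε Z` over `O_1` are the
functors from the fibre of `Y` to `Z`.
-/

universe u v w

namespace Vale.Agent.P213

open OmegaStr

/-- The oriental `O_1`. -/
noncomputable abbrev O1 : Type := Cell (simplexCx (Fin 2))

/-- the level of `Z` in `Cone ε Z` -/
def lvMid (ε : Bool) : Fin 2 := bif ε then 0 else 1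

/-- the level of the adjoined point in `Cone ε Z` -/
def lvPt (ε : Bool) : Fin 2 := bif ε then 1 else 0

theorem lvMid_ne_lvPt (ε : Bool) : lvMid ε ≠ lvPt ε := by cases ε <;> decide

theorem eq_lvPt {ε : Bool} {i : Fin 2} (h : i ≠ lvMid ε) : i = lvPt ε := by
  cases ε <;> simp only [lvMid, lvPt, cond_true, cond_false] at h ⊢ <;> omega

theorem vert_mid_iff {ε : Bool} {x : O1} :
    Cell.vert ε x = lvMid ε ↔ x = Cell.vtx (lvMid ε) := by
  constructor
  · intro h
    apply Cell.fin2_ext
    intro b
    rw [Cell.vert_vtx]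
    have h1 := Cell.vert_le x
    cases ε <;> cases b <;> simp only [lvMid, cond_true, cond_false] at h ⊢ <;> omega
  · rintro rfl
    rw [Cell.vert_vtx]

theorem vert_pt_iff {ε : Bool} {x : O1} :
    Cell.vert (!ε) x = lvPt ε ↔ x = Cell.vtx (lvPt ε) := by
  constructor
  · intro h
    apply Cell.fin2_ext
    intro b
    rw [Cell.vert_vtx]
    have h1 := Cell.vert_le x
    cases ε <;> cases b <;> simp only [lvPt, cond_true, cond_false, Bool.not_true,
      Bool.not_false] at h ⊢ <;> omega
  · rintro rfl
    rw [Cell.vert_vtx]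

theorem vert_comp_le {I : Type} [LinearOrder I] (n : ℕ) (x y : Cell (simplexCx I))
    (h : d true n x = d false n y) (a : Bool) : Cell.vert a x ≤ Cell.vert a y := by
  rcases Nat.eq_zero_or_pos n with rfl | hn
  · have h1 : Cell.vert true x = Cell.vert false y := by
      rw [← Cell.vert_d_zero true true x, h, Cell.vert_d_zero]
    have h2 := Cell.vert_le x
    have h3 := Cell.vert_le y
    cases a
    · exact h2.trans h1.le
    · exact h1.le.trans h3
  · have h1 : Cell.vert a x = Cell.vert a y := by
      rw [← Cell.vert_d_pos true a hn x, h, Cell.vert_d_pos _ _ hn]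
    exact h1.le

/-- The fibre of `F : Y ⟶ O_1` over a vertex. -/
def fib {Y : Type u} [OmegaStr Y] (F : OmegaFun Y O1) (e : Fin 2) : OmegaSub Y where
  mem := {y | F y = Cell.vtx e}
  d_mem a n y hy := by
    change F (d a n y) = _
    have : F (d a n y) = d a n (F y) := F.map_d a n y
    rw [this, show F y = Cell.vtx e from hy, Cell.d_vtx]
  comp_mem n x y h hx hy := by
    change F (comp n x y h) = _
    have h' : d true n (F x) = d false n (F y) := by
      have h1 : F (d true n x) = d true n (F x) := F.map_d _ _ _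
      have h2 : F (d false n y) = d false n (F y) := F.map_d _ _ _
      rw [← h1, ← h2, h]
    have : F (comp n x y h) = comp n (F x) (F y) h' := F.map_comp n x y h h'
    rw [this]
    apply Cell.fin2_ext
    intro b
    cases b
    · rw [Cell.vert_comp_false, show F x = Cell.vtx e from hx]
    · rw [Cell.vert_comp_true, show F y = Cell.vtx e from hy]

/-- an element of the fibre -/
def fibMk {Y : Type u} [OmegaStr Y] (F : OmegaFun Y O1) {e : Fin 2} (y : Y)
    (hy : F y = Cell.vtx e) : (fib F e).Carrier := ⟨y, hy⟩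

theorem fibMk_congr {Y : Type u} [OmegaStr Y] (F : OmegaFun Y O1) {e : Fin 2} {y y' : Y}
    (h : y = y') (hy : F y = Cell.vtx e) (hy' : F y' = Cell.vtx e) :
    fibMk F y hy = fibMk F y' hy' := Subtype.ext h

theorem d_fibMk {Y : Type u} [OmegaStr Y] (F : OmegaFun Y O1) {e : Fin 2} (a : Bool) (n : ℕ)
    (y : Y) (hy : F y = Cell.vtx e) :
    d a n (fibMk F y hy) = fibMk F (d a n y) ((fib F e).d_mem a n y hy) := rfl

theorem comp_fibMk {Y : Type u} [OmegaStr Y] (F : OmegaFun Y O1) {e : Fin 2} (n : ℕ)
    (x y : Y) (hx : F x = Cell.vtx e) (hy : F y = Cell.vtx e) (h : d true n x = d false n y)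
    (h' : d true n (fibMk F x hx) = d false n (fibMk F y hy)) :
    comp n (fibMk F x hx) (fibMk F y hy) h' =
      fibMk F (comp n x y h) ((fib F e).comp_mem n x y h hx hy) := rfl

theorem OmegaFun.composable_bd351 {C : Type u} {D : Type v} [OmegaStr C] [OmegaStr D]
    (F : OmegaFun C D) {n : ℕ} {x y : C} (h : d true n x = d false n y) :
    d true n (F x) = d false n (F y) := by
  have h1 : F (d true n x) = d true n (F x) := F.map_d _ _ _
  have h2 : F (d false n y) = d false n (F y) := F.map_d _ _ _
  rw [← h1, ← h2, h]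

theorem OmegaFun.d_apply {C : Type u} {D : Type v} [OmegaStr C] [OmegaStr D]
    (F : OmegaFun C D) (a : Bool) (n : ℕ) (x : C) : F (d a n x) = d a n (F x) := F.map_d a n x

theorem OmegaFun.comp_apply' {C : Type u} {D : Type v} [OmegaStr C] [OmegaStr D]
    (F : OmegaFun C D) (n : ℕ) (x y : C) (h : d true n x = d false n y) :
    F (OmegaStr.comp n x y h) = OmegaStr.comp n (F x) (F y) (F.composable_bd351 h) :=
  F.map_comp n x y h _

namespace Cone

section

variable {ε : Bool} {Z : Type u} [OmegaStr Z]

/-- the level of a `0`-cell of the cone -/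
def lev : Cone ε Z → Fin 2
  | mid _ => lvMid ε
  | arr _ _ => lvMid ε
  | pt => lvPt ε

theorem lev_le (x : Cone ε Z) : lev (d false 0 x) ≤ lev (d true 0 x) := by
  rcases x with x | ⟨z, hz⟩ | _
  · exact le_rfl
  · cases ε
    · change lev (dC false 0 (arr z hz)) ≤ lev (dC true 0 (arr z hz))
      simp [dC_arr_zero, lev, lvMid, lvPt]
    · change lev (dC false 0 (arr z hz)) ≤ lev (dC true 0 (arr z hz))
      simp [dC_arr_zero, lev, lvMid, lvPt]
  · exact le_rfl

/-- The projection of the cone to `O_1`. -/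
noncomputable def proj (ε : Bool) (Z : Type u) [OmegaStr Z] : OmegaFun (Cone ε Z) O1 :=
  levelFun lev lev_le

theorem vert_proj (a : Bool) (x : Cone ε Z) : Cell.vert a (proj ε Z x) = lev (d a 0 x) :=
  vert_levelFun _ _ _ _

theorem proj_mid (x : Z) : proj ε Z (mid x) = Cell.vtx (lvMid ε) := by
  apply Cell.fin2_ext
  intro b
  rw [vert_proj, Cell.vert_vtx]
  rfl

theorem proj_pt : proj ε Z pt = Cell.vtx (lvPt ε) := by
  apply Cell.fin2_ext
  intro b
  rw [vert_proj, Cell.vert_vtx]
  rfl

theorem vert_proj_arr (z : Z) (hz : d false 0 z = z) (a : Bool) :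
    Cell.vert a (proj ε Z (arr z hz)) = if a = ε then lvPt ε else lvMid ε := by
  rw [vert_proj, d_eq, dC_arr_zero]
  split_ifs <;> rfl

theorem exists_mid {u : Cone ε Z} (h : proj ε Z u = Cell.vtx (lvMid ε)) : ∃ x, u = mid x := by
  rcases u with x | ⟨z, hz⟩ | _
  · exact ⟨x, rfl⟩
  · have h1 := vert_proj_arr (ε := ε) z hz ε
    rw [h, Cell.vert_vtx, if_pos rfl] at h1
    exact absurd h1 (lvMid_ne_lvPt ε)
  · rw [proj_pt] at h
    exact absurd (Cell.vtx_injective h).symm (lvMid_ne_lvPt ε)

theorem eq_pt {u : Cone ε Z} (h : proj ε Z u = Cell.vtx (lvPt ε)) : u = pt := by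
  rcases u with x | ⟨z, hz⟩ | _
  · rw [proj_mid] at h
    exact absurd (Cell.vtx_injective h) (lvMid_ne_lvPt ε)
  · have h1 := vert_proj_arr (ε := ε) z hz (!ε)
    rw [h, Cell.vert_vtx, if_neg (by cases ε <;> decide)] at h1
    exact absurd h1.symm (lvMid_ne_lvPt ε)
  · rfl

theorem cone_ext {u v : Cone ε Z} (h1 : proj ε Z u = proj ε Z v)
    (h2 : Cell.vert ε (proj ε Z u) ≠ lvMid ε) (h3 : d (!ε) 0 u = d (!ε) 0 v) : u = v := by
  have hne : (!ε) ≠ ε := by cases ε <;> decide
  have h2' : Cell.vert ε (proj ε Z v) ≠ lvMid ε := by rw [← h1]; exact h2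
  rcases u with x | ⟨z, hz⟩ | _
  · rw [proj_mid, Cell.vert_vtx] at h2
    exact absurd rfl h2
  · rcases v with y | ⟨w, hw⟩ | _
    · rw [proj_mid, Cell.vert_vtx] at h2'
      exact absurd rfl h2'
    · rw [d_eq, d_eq, dC_arr_zero, dC_arr_zero, if_neg hne, if_neg hne, mid.injEq] at h3
      exact arr_congr h3 _ _
    · rw [d_eq, d_eq, dC_arr_zero, if_neg hne, dC_pt] at h3
      cases h3
  · rcases v with y | ⟨w, hw⟩ | _
    · rw [proj_mid, Cell.vert_vtx] at h2'
      exact absurd rfl h2'
    · rw [d_eq, d_eq, dC_arr_zero, if_neg hne, dC_pt] at h3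
      cases h3
    · rfl

end

variable {ε : Bool} {Z : Type u} [OmegaStr Z] {Y : Type v} [OmegaStr Y]

/-- Two functors to the cone, over `O_1`, which agree on the fibre, are equal. -/
theorem hom_ext {G G' : OmegaFun Y (Cone ε Z)} (hp : ∀ y, proj ε Z (G y) = proj ε Z (G' y))
    (h : ∀ y, proj ε Z (G y) = Cell.vtx (lvMid ε) → G y = G' y) : G = G' := by
  apply OmegaFun.ext
  intro y
  by_cases hy : Cell.vert ε (proj ε Z (G y)) = lvMid ε
  · exact h y (vert_mid_iff.1 hy)
  · apply cone_ext (hp y) hy
    rw [← G.d_apply, ← G'.d_apply]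
    by_cases hy2 : proj ε Z (G (d (!ε) 0 y)) = Cell.vtx (lvMid ε)
    · exact h _ hy2
    · have h3 : proj ε Z (G (d (!ε) 0 y)) = Cell.vtx (lvPt ε) := by
        rw [G.d_apply, (proj ε Z).d_apply, Cell.d_zero]
        congr 1
        apply eq_lvPt
        intro h4
        apply hy2
        rw [G.d_apply, (proj ε Z).d_apply, Cell.d_zero, h4]
      have h4 : proj ε Z (G' (d (!ε) 0 y)) = Cell.vtx (lvPt ε) := by rw [← hp, h3]
      rw [eq_pt h3, eq_pt h4]

section Extend

variable (F : OmegaFun Y O1) (g : OmegaFun (fib F (lvMid ε)).Carrier Z)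

theorem fib_of_vert {y : Y} (h : Cell.vert ε (F y) = lvMid ε) :
    F y = Cell.vtx (lvMid ε) := vert_mid_iff.1 h

theorem fib_of_vert' {y : Y} (h : Cell.vert (!ε) (F y) = lvMid ε) :
    F (d (!ε) 0 y) = Cell.vtx (lvMid ε) := by
  rw [F.d_apply, Cell.d_zero, h]

theorem ext_aux {y : Y} (h : Cell.vert (!ε) (F y) = lvMid ε) :
    d false 0 (g (fibMk F (d (!ε) 0 y) (fib_of_vert' F h))) =
      g (fibMk F (d (!ε) 0 y) (fib_of_vert' F h)) := by
  rw [← g.d_apply, d_fibMk]
  congr 1
  exact fibMk_congr F (d_d_of_le _ _ _ _ _ le_rfl) _ _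

/-- The extension of a functor on the fibre to the cone. -/
noncomputable def extFun (y : Y) : Cone ε Z :=
  if h : Cell.vert ε (F y) = lvMid ε then mid (g (fibMk F y (fib_of_vert F h)))
  else if h' : Cell.vert (!ε) (F y) = lvMid ε then
    arr (g (fibMk F (d (!ε) 0 y) (fib_of_vert' F h'))) (ext_aux F g h')
  else pt

theorem extFun_of_mem {y : Y} (hy : F y = Cell.vtx (lvMid ε)) :
    extFun F g y = mid (g (fibMk F y hy)) := by
  have h : Cell.vert ε (F y) = lvMid ε := by rw [hy, Cell.vert_vtx]
  unfold extFun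
  rw [dif_pos h]

theorem extFun_of_arr {y : Y} (h : Cell.vert ε (F y) ≠ lvMid ε)
    (h' : Cell.vert (!ε) (F y) = lvMid ε) :
    extFun F g y = arr (g (fibMk F (d (!ε) 0 y) (fib_of_vert' F h'))) (ext_aux F g h') := by
  unfold extFun
  rw [dif_neg h, dif_pos h']

theorem extFun_of_pt {y : Y} (hy : F y = Cell.vtx (lvPt ε)) :
    extFun F g y = pt := by
  have h : Cell.vert ε (F y) ≠ lvMid ε := by
    rw [hy, Cell.vert_vtx]; exact (lvMid_ne_lvPt ε).symm
  have h' : Cell.vert (!ε) (F y) ≠ lvMid ε := by
    rw [hy, Cell.vert_vtx]; exact (lvMid_ne_lvPt ε).symm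
  unfold extFun
  rw [dif_neg h, dif_neg h']

theorem proj_extFun (y : Y) : proj ε Z (extFun F g y) = F y := by
  by_cases h : Cell.vert ε (F y) = lvMid ε
  · rw [extFun_of_mem F g (vert_mid_iff.1 h), proj_mid, vert_mid_iff.1 h]
  · by_cases h' : Cell.vert (!ε) (F y) = lvMid ε
    · rw [extFun_of_arr F g h h']
      apply Cell.fin2_ext
      intro b
      rw [vert_proj_arr]
      by_cases hb : b = ε
      · subst hb
        rw [if_pos rfl, eq_lvPt h]
      · rw [if_neg hb]
        have : b = !ε := by cases b <;> cases ε <;> simp_all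
        subst this
        exact h'.symm
    · have h1 : F y = Cell.vtx (lvPt ε) := vert_pt_iff.1 (eq_lvPt h')
      rw [extFun_of_pt F g h1, proj_pt, h1]

theorem extFun_d (a : Bool) (n : ℕ) (y : Y) :
    extFun F g (d a n y) = d a n (extFun F g y) := by
  by_cases h : Cell.vert ε (F y) = lvMid ε
  · have hy := vert_mid_iff.1 h
    have hy2 : F (d a n y) = Cell.vtx (lvMid ε) := by rw [F.d_apply, hy, Cell.d_vtx]
    rw [extFun_of_mem F g hy, extFun_of_mem F g hy2]
    exact congrArg mid (g.d_apply a n (fibMk F y hy))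
  · by_cases h' : Cell.vert (!ε) (F y) = lvMid ε
    · rw [extFun_of_arr F g h h']
      rcases Nat.eq_zero_or_pos n with rfl | hn
      · rw [d_eq, dC_arr_zero]
        split_ifs with ha
        · subst ha
          apply extFun_of_pt
          rw [F.d_apply, Cell.d_zero, eq_lvPt h]
        · have ha : a = !ε := by cases a <;> cases ε <;> simp_all
          subst ha
          exact extFun_of_mem F g (fib_of_vert' F h')
      · rw [d_eq, dC_arr_pos _ hn]
        have h1 : Cell.vert ε (F (d a n y)) ≠ lvMid ε := by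
          rw [F.d_apply, Cell.vert_d_pos _ _ hn]; exact h
        have h2 : Cell.vert (!ε) (F (d a n y)) = lvMid ε := by
          rw [F.d_apply, Cell.vert_d_pos _ _ hn]; exact h'
        rw [extFun_of_arr F g h1 h2]
        apply arr_congr
        congr 1
        exact fibMk_congr F (d_d_of_lt _ _ _ _ _ hn) _ _
    · have h1 : F y = Cell.vtx (lvPt ε) := vert_pt_iff.1 (eq_lvPt h')
      have h2 : F (d a n y) = Cell.vtx (lvPt ε) := by rw [F.d_apply, h1, Cell.d_vtx]
      rw [extFun_of_pt F g h1, extFun_of_pt F g h2]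
      rfl

/-- The extension of a functor on the fibre to a functor to the cone. -/
noncomputable def ext : OmegaFun Y (Cone ε Z) where
  toFun := extFun F g
  map_d := extFun_d F g
  map_comp n x y h h' := by
    by_cases hM : Cell.vert ε (F (OmegaStr.comp n x y h)) = lvMid ε
    · have hc := F.composable_bd351 h
      have hxy : F x = Cell.vtx (lvMid ε) ∧ F y = Cell.vtx (lvMid ε) := by
        rw [F.comp_apply' n x y h] at hM
        have h1 := vert_comp_le n (F x) (F y) hc
        cases ε
        · rw [Cell.vert_comp_false] at hM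
          refine ⟨vert_mid_iff.1 hM, vert_mid_iff.1 ?_⟩
          have h2 := h1 false
          rw [hM] at h2
          simp only [lvMid, cond_false] at h2 ⊢
          omega
        · rw [Cell.vert_comp_true] at hM
          refine ⟨vert_mid_iff.1 ?_, vert_mid_iff.1 hM⟩
          have h2 := h1 true
          rw [hM] at h2
          simp only [lvMid, cond_true] at h2 ⊢
          omega
      have ex := extFun_of_mem F g hxy.1
      have ey := extFun_of_mem F g hxy.2
      have hf : d true n (fibMk F x hxy.1) = d false n (fibMk F y hxy.2) := Subtype.ext h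
      have hc' : d true n (g (fibMk F x hxy.1)) = d false n (g (fibMk F y hxy.2)) :=
        g.composable_bd351 hf
      have h1 : OmegaStr.comp n (extFun F g x) (extFun F g y) h' =
          compC n (mid (g (fibMk F x hxy.1))) (mid (g (fibMk F y hxy.2))) (congrArg mid hc') :=
        compC_congr n ex ey _ _
      rw [h1, extFun_of_mem F g (vert_mid_iff.1 hM)]
      have h2 := g.comp_apply' n (fibMk F x hxy.1) (fibMk F y hxy.2) hf
      rw [comp_fibMk F n x y hxy.1 hxy.2 h] at h2
      exact congrArg mid h2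
    · apply cone_ext
      · rw [proj_extFun, (proj ε Z).comp_apply', F.comp_apply' n x y h]
        apply Cell.fin2_ext
        intro b
        cases b
        · rw [Cell.vert_comp_false, Cell.vert_comp_false, proj_extFun]
        · rw [Cell.vert_comp_true, Cell.vert_comp_true, proj_extFun]
      · rw [proj_extFun]; exact hM
      · rw [← extFun_d]
        cases ε
        · rw [Bool.not_false, d_zero_comp_true, d_zero_comp_true, ← extFun_d]
        · rw [Bool.not_true, d_zero_comp_false, d_zero_comp_false, ← extFun_d]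

theorem proj_ext (y : Y) : proj ε Z (ext F g y) = F y := proj_extFun F g y

theorem ext_of_mem {y : Y} (hy : F y = Cell.vtx (lvMid ε)) :
    ext F g y = mid (g (fibMk F y hy)) := extFun_of_mem F g hy

end Extend

end Cone

end Vale.Agent.P213
end

section

/-!
A cell with `0`-source `i` and `0`-target `j` is fixed by the retraction of the vertices on the
interval from `i` to `j`.
-/

universe u v w

namespace Vale.Agent.P213

open OmegaStr

/-- The retraction on the interval from `i` to `j`. -/
def clamp {I : Type} [LinearOrder I] (i j : I) : I →o I where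
  toFun t := max i (min t j)
  monotone' _ _ h := max_le_max le_rfl (min_le_min h le_rfl)

theorem clamp_apply {I : Type} [LinearOrder I] (i j t : I) : clamp i j t = max i (min t j) := rfl

theorem clamp_of_mem {I : Type} [LinearOrder I] {i j t : I} (h1 : i ≤ t) (h2 : t ≤ j) :
    clamp i j t = t := by
  rw [clamp_apply, min_eq_left h2, max_eq_right h1]

theorem le_clamp {I : Type} [LinearOrder I] (i j t : I) : i ≤ clamp i j t := le_max_left _ _

theorem clamp_le {I : Type} [LinearOrder I] {i j : I} (h : i ≤ j) (t : I) : clamp i j t ≤ j :=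
  max_le h (min_le_right _ _)

theorem comp_clamp {I J : Type} [LinearOrder I] [LinearOrder J] (θ : I →o J) (i j : I) :
    θ.comp (clamp i j) = (clamp (θ i) (θ j)).comp θ := by
  ext t
  change θ (max i (min t j)) = max (θ i) (min (θ t) (θ j))
  rw [θ.monotone.map_max, θ.monotone.map_min]

namespace Cell

variable {I : Type} [LinearOrder I]

theorem map_eq_self (c : I →o I) (x : Cell (simplexCx I))
    (hc : ∀ v, vert false x ≤ v → v ≤ vert true x → c v = v) : x.map (simplexMap c) = x := by
  ext1
  funext a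
  rw [map_val]
  have : (simplexMap c).lin (x.val a) = LinearMap.id (R := ℤ) (x.val a) := by
    apply lin_congr
    intro s hs
    rw [simplexMap_lin, ofS_single, pushL_single]
    have h1 : List.map c s.1 = s.1 := by
      conv_rhs => rw [← List.map_id s.1]
      apply List.map_congr_left
      intro v hv
      have h2 := support x a s hs v hv
      exact hc v h2.1 h2.2
    rw [h1, if_pos s.2.2, toS_single]
    rfl
  exact this

theorem map_clamp (x : Cell (simplexCx I)) :
    x.map (simplexMap (clamp (vert false x) (vert true x))) = x :=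
  map_eq_self _ x (fun _ h1 h2 => clamp_of_mem h1 h2)

theorem map_clamp_of_le (x : Cell (simplexCx I)) {i j : I} (hi : i ≤ vert false x)
    (hj : vert true x ≤ j) : x.map (simplexMap (clamp i j)) = x :=
  map_eq_self _ x (fun _ h1 h2 => clamp_of_mem (hi.trans h1) (h2.trans hj))

end Cell

end Vale.Agent.P213
end

section

/-!
# The orientals are finite
-/

universe u v w t

namespace Vale.Agent.P213

set_option linter.unusedSectionVars false

section

variable {I : Type} [LinearOrder I]

/-- The value of `h` at the head of a list. -/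
def hdL (h : I → ℤ) : List I → ℤ
  | [] => 0
  | a :: _ => h a

/-- Linear extension of `hdL`. -/
noncomputable def hdLin (h : I → ℤ) : (List I →₀ ℤ) →ₗ[ℤ] ℤ := Finsupp.linearCombination ℤ (hdL h)

/-- The sum of the coefficients. -/
noncomputable def cfL : (List I →₀ ℤ) →ₗ[ℤ] ℤ := Finsupp.linearCombination ℤ (fun _ => (1 : ℤ))

theorem hdLin_single (h : I → ℤ) (l : List I) (k : ℤ) :
    hdLin h (Finsupp.single l k) = k * hdL h l := by
  simp [hdLin]

theorem cfL_single (l : List I) (k : ℤ) :
    cfL (Finsupp.single l k) = k := by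
  simp [cfL]

theorem hdLin_consL (h : I → ℤ) (a : I) (x : List I →₀ ℤ) :
    hdLin h (consL a x) = h a * cfL x := by
  induction x using Finsupp.induction_linear with
  | zero => simp
  | add f g hf hg => simp only [map_add, hf, hg]; ring
  | single l k => rw [consL_single, hdLin_single, cfL_single, hdL]; ring

theorem cfL_consL (a : I) (x : List I →₀ ℤ) : cfL (consL a x) = cfL x := by
  induction x using Finsupp.induction_linear with
  | zero => simp
  | add f g hf hg => simp only [map_add, hf, hg]
  | single l k => rw [consL_single, cfL_single, cfL_single]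

theorem cfL_faces (l : List I) : cfL (faces l) = 0 ∨ cfL (faces l) = 1 := by
  induction l with
  | nil => left; simp [faces_nil]
  | cons a l ih =>
    rw [faces_cons, map_sub, cfL_single, cfL_consL]
    omega

theorem hdLin_faces {h : I → ℤ} (h0 : ∀ i, 0 ≤ h i) (h1 : StrictMono h) (a b : I) (l : List I)
    (hl : a < b) : 1 ≤ hdLin h (faces (a :: b :: l)) := by
  rw [faces_cons, map_sub, hdLin_single, hdLin_consL, hdL]
  have h2 := h0 a
  have h3 : h a + 1 ≤ h b := h1 hl
  rcases cfL_faces (b :: l) with h4 | h4 <;> rw [h4] <;> linarith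

/-- Linear extension of the value at the head, for simplices. -/
noncomputable def hdS (h : I → ℤ) : (Smpl I →₀ ℤ) →ₗ[ℤ] ℤ :=
  Finsupp.linearCombination ℤ (fun s => hdL h s.1)

theorem hdS_eq (h : I → ℤ) (x : Smpl I →₀ ℤ) : hdS h x = hdLin h (ofS x) := by
  induction x using Finsupp.induction_linear with
  | zero => simp
  | add f g hf hg => simp only [map_add, hf, hg]
  | single l k => rw [ofS_single, hdLin_single, hdS]; simp

theorem hdS_bd {h : I → ℤ} (h0 : ∀ i, 0 ≤ h i) (h1 : StrictMono h) (s : Smpl I)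
    (hs : 2 ≤ s.1.length) : 1 ≤ hdS h ((simplexCx I).bd s) := by
  change 1 ≤ hdS h (toS (faces s.1))
  have h2 : IsSorted (faces s.1) := fun l hl => s.2.2.sublist (faces_support hl).1
  rw [hdS_eq, ofS_toS h2, map_sub, hdLin_single, hdL, mul_zero, sub_zero]
  obtain ⟨l, hl, hp⟩ := s
  match l, hl, hp, hs with
  | a :: b :: l, _, hp, _ =>
    exact hdLin_faces h0 h1 a b l (by
      rw [List.pairwise_cons] at hp
      exact hp.1 b (by simp))

theorem hdS_nonneg {h : I → ℤ} (h0 : ∀ i, 0 ≤ h i) {x : Smpl I →₀ ℤ} (hx : 0 ≤ x) :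
    0 ≤ hdS h x := by
  rw [hdS, Finsupp.linearCombination_apply, Finsupp.sum]
  apply Finset.sum_nonneg
  intro s _
  apply mul_nonneg (hx s)
  cases s.1 with
  | nil => exact le_rfl
  | cons a l => exact h0 a

instance Smpl.finite [Finite I] : Finite (Smpl I) := by
  have := Fintype.ofFinite I
  have h : {l : List I | l.length ≤ Fintype.card I}.Finite := List.finite_length_le I _
  refine (h.subset ?_).to_subtype
  rintro l ⟨_, hl⟩
  have h1 : l.Nodup := hl.imp (fun h => ne_of_lt h)
  exact h1.length_le_card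

variable [Fintype I]

/-- The sum of the coefficients in a degree. -/
noncomputable def degSum (p : ℕ) (x : Smpl I →₀ ℤ) : ℤ :=
  ((simplexCx I).part (· = p) x).sum (fun _ k => k)

theorem degSum_nonneg (p : ℕ) {x : Smpl I →₀ ℤ} (hx : 0 ≤ x) : 0 ≤ degSum p x := by
  rw [degSum, Finsupp.sum]
  apply Finset.sum_nonneg
  intro s _
  exact BCx.part_nonneg (K := simplexCx I) _ hx s

theorem le_degSum {x : Smpl I →₀ ℤ} (hx : 0 ≤ x) (s : Smpl I) :
    x s ≤ degSum ((simplexCx I).dim s) x := by
  rw [degSum, Finsupp.sum]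
  have h1 : (simplexCx I).part (· = (simplexCx I).dim s) x s = x s := by
    rw [BCx.part_apply, if_pos rfl]
  by_cases hs : x s = 0
  · rw [hs]
    apply Finset.sum_nonneg
    intro s _
    exact BCx.part_nonneg (K := simplexCx I) _ hx s
  · conv_lhs => rw [← h1]
    apply Finset.single_le_sum
      (f := fun t => (simplexCx I).part (· = (simplexCx I).dim s) x t)
    · intro s _
      exact BCx.part_nonneg (K := simplexCx I) _ hx s
    · rw [Finsupp.mem_support_iff, h1]
      exact hs

theorem hdS_part_le {h : I → ℤ} {M : ℤ} (hM : ∀ i, h i ≤ M) (hM0 : 0 ≤ M) (p : ℕ)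
    {x : Smpl I →₀ ℤ} (hx : 0 ≤ x) :
    hdS h ((simplexCx I).part (· = p) x) ≤ M * degSum p x := by
  rw [hdS, Finsupp.linearCombination_apply, Finsupp.sum, degSum, Finsupp.sum, Finset.mul_sum]
  apply Finset.sum_le_sum
  intro s _
  have h1 := BCx.part_nonneg (K := simplexCx I) (· = p) hx s
  simp only [Finsupp.coe_zero, Pi.zero_apply] at h1
  rw [smul_eq_mul, mul_comm]
  apply mul_le_mul_of_nonneg_right _ h1
  cases s.1 with
  | nil => exact hM0
  | cons a l => exact hM a

theorem degSum_le {h : I → ℤ} (h0 : ∀ i, 0 ≤ h i) (h1 : StrictMono h) {M : ℤ}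
    (hM : ∀ i, h i ≤ M) (hM0 : 0 ≤ M) (x : Cell (simplexCx I)) (p : ℕ) (a : Bool) :
    degSum (p + 1) (x.val a) ≤ M * degSum p (x.val true) := by
  have e1 : (simplexCx I).bdry ((simplexCx I).part (· = p + 1) (x.val a)) =
      (simplexCx I).part (· = p) (x.val true) - (simplexCx I).part (· = p) (x.val false) := by
    rw [BCx.bdry_part, x.bdry_val, map_sub]
    congr 1 <;> exact BCx.part_congr (fun n => by omega) _
  have e2 : degSum (p + 1) (x.val a) ≤
      hdS h ((simplexCx I).bdry ((simplexCx I).part (· = p + 1) (x.val a))) := by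
    rw [degSum, BCx.bdry, Finsupp.linearCombination_apply, Finsupp.sum, Finsupp.sum, map_sum]
    apply Finset.sum_le_sum
    intro s hs
    have h2 := BCx.part_nonneg (K := simplexCx I) (· = p + 1) (x.nonneg a) s
    simp only [Finsupp.coe_zero, Pi.zero_apply] at h2
    have h3 : (simplexCx I).dim s = p + 1 := by
      by_contra h4
      rw [Finsupp.mem_support_iff, BCx.part_apply, if_neg h4] at hs
      exact hs rfl
    have h4 : 2 ≤ s.1.length := by
      change s.1.length - 1 = p + 1 at h3
      omega
    rw [map_smul, smul_eq_mul]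
    have h5 := hdS_bd h0 h1 s h4
    nlinarith
  have e3 := hdS_nonneg h0 (BCx.part_nonneg (K := simplexCx I) (· = p) (x.nonneg false))
  have e4 := hdS_part_le hM hM0 p (x.nonneg true)
  rw [e1, map_sub] at e2
  linarith

theorem degSum_zero (x : Cell (simplexCx I)) (a : Bool) : degSum 0 (x.val a) = 1 := by
  rw [← x.aug_val a, degSum, BCx.aug, Finsupp.linearCombination_apply]
  have : (simplexCx I).part (· = 0) (x.val a)
    = (x.val a).filter (fun b => (simplexCx I).dim b = 0) := rfl
  rw [this, Finsupp.sum_filter_index, Finsupp.support_filter, Finsupp.sum, Finset.sum_filter]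
  apply Finset.sum_congr rfl
  intro s _
  split_ifs <;> simp

theorem degSum_le_pow {h : I → ℤ} (h0 : ∀ i, 0 ≤ h i) (h1 : StrictMono h) {M : ℤ}
    (hM : ∀ i, h i ≤ M) (hM0 : 0 ≤ M) (x : Cell (simplexCx I)) (p : ℕ) (a : Bool) :
    degSum p (x.val a) ≤ M ^ p := by
  induction p generalizing a with
  | zero => rw [degSum_zero, pow_zero]
  | succ p ih =>
    refine (degSum_le h0 h1 hM hM0 x p a).trans ?_
    rw [pow_succ, mul_comm]
    exact mul_le_mul_of_nonneg_right (ih true) hM0

end

instance oriental_finite (m : ℕ) : Finite (Cell (simplexCx (Fin (m + 1)))) := by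
  let h : Fin (m + 1) → ℤ := fun i => (i : ℕ)
  have h0 : ∀ i, 0 ≤ h i := fun i => by positivity
  have h1 : StrictMono h := fun i j hij => by
    change ((i : ℕ) : ℤ) < ((j : ℕ) : ℤ)
    exact_mod_cast hij
  have hM : ∀ i, h i ≤ (m : ℤ) + 1 := fun i => by
    change ((i : ℕ) : ℤ) ≤ (m : ℤ) + 1
    have := i.2
    omega
  have hM0 : (0 : ℤ) ≤ (m : ℤ) + 1 := by positivity
  have hb : ∀ (x : Cell (simplexCx (Fin (m + 1)))) (a : Bool) (s : Smpl (Fin (m + 1))),
      (x.val a s).toNat < (m + 1) ^ (m + 1) + 1 := by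
    intro x a s
    have e1 := le_degSum (x.nonneg a) s
    have e2 := degSum_le_pow h0 h1 hM hM0 x ((simplexCx (Fin (m + 1))).dim s) a
    have e3 : (simplexCx (Fin (m + 1))).dim s ≤ m + 1 := by
      change s.1.length - 1 ≤ m + 1
      have h2 : s.1.Nodup := s.2.2.imp (fun h => ne_of_lt h)
      have := h2.length_le_card
      rw [Fintype.card_fin] at this
      omega
    have e4 : ((m : ℤ) + 1) ^ ((simplexCx (Fin (m + 1))).dim s) ≤ ((m : ℤ) + 1) ^ (m + 1) :=
      pow_le_pow_right₀ (by omega) e3
    have e5 : x.val a s ≤ (((m + 1) ^ (m + 1) : ℕ) : ℤ) := by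
      push_cast
      linarith
    have e6 := Int.toNat_le_toNat e5
    rw [Int.toNat_natCast] at e6
    exact Nat.lt_succ_of_le e6
  let Φ : Cell (simplexCx (Fin (m + 1))) →
      (Bool × Smpl (Fin (m + 1)) → Fin ((m + 1) ^ (m + 1) + 1)) :=
    fun x t => ⟨(x.val t.1 t.2).toNat, hb x t.1 t.2⟩
  refine Finite.of_injective Φ ?_
  intro x y hxy
  apply Cell.ext
  funext a
  ext s
  have e1 : (x.val a s).toNat = (y.val a s).toNat := by
    have := congrFun hxy (a, s)
    exact congrArg Fin.val this
  have e2 := x.nonneg a s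
  have e3 := y.nonneg a s
  simp only [Finsupp.coe_zero, Pi.zero_apply] at e2 e3
  omega

end Vale.Agent.P213
end
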