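import Mathlib.CategoryTheory.Adjunction.AdjointFunctorTheorems
import Mathlib.CategoryTheory.Limits.FunctorCategory.Basic
import Vale.Agent.P213.Bdl.B1

/-!
# Limits of strict `n`-categories
-/

universe u v w

namespace Vale.Agent.P213

open CategoryTheory Limits

namespace OmegaStr

variable {C : Type u} [OmegaStr C]

theorem d_eq_self_of_le {a : Bool} {n m : ℕ} {x : C} (h : d a n x = x) (hnm : n ≤ m) (b : Bool) :
    d b m x = x := by
  rw [← h, d_d_of_le b a m n x hnm]

theorem comp_congr {n : ℕ} {x y x' y' : C} (hx : x = x') (hy : y = y')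
    (h : d true n x = d false n y) (h' : d true n x' = d false n y') :
    comp n x y h = comp n x' y' h' := by
  subst hx hy
  rfl

theorem d_comp_self {n m : ℕ} {x y : C} (a : Bool) (h : d true n x = d false n y)
    (hx : d false m x = x) (hy : d false m y = y) : d a (max m (n + 1)) (comp n x y h)
      = comp n x y h := by
  have h1 : d a (max m (n + 1)) x = x := d_eq_self_of_le hx (le_max_left _ _) a
  have h2 : d a (max m (n + 1)) y = y := d_eq_self_of_le hy (le_max_left _ _) a
  have hn : n < max m (n + 1) := lt_of_lt_of_le (Nat.lt_succ_self n) (le_max_right _ _)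
  rw [d_comp a _ n x y h (by rw [h1, h2, h]) hn]
  exact comp_congr h1 h2 _ _

end OmegaStr

open OmegaStr

namespace NCatLim

variable {n : ℕ∞} {J : Type v} [Category.{w} J] (F : J ⥤ NCat.{max u v} n)

/-- The carrier of the limit of a diagram of `n`-categories: compatible families of cells
of bounded dimension. -/
def Carrier : Type (max u v) :=
  {x : ∀ j, (F.obj j).obj.carrier // (∀ {i j : J} (f : i ⟶ j), (F.map f).hom.toFun (x i) = x j) ∧
    ∃ m : ℕ, ∀ j, OmegaStr.d false m (x j) = x j}

variable {F}

theorem Carrier.ext {x y : Carrier F} (h : ∀ j, x.1 j = y.1 j) : x = y :=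
  Subtype.ext (funext h)

instance : OmegaStr (Carrier F) where
  d a m x := ⟨fun j => d a m (x.1 j), fun {i j} f => by
    rw [OmegaFun.map_d, x.2.1 f], m, fun j => d_d_of_le _ _ _ _ _ le_rfl⟩
  comp m x y h := ⟨fun j => comp m (x.1 j) (y.1 j) (congrFun (congrArg Subtype.val h) j),
    fun {i j} f => by
      rw [OmegaFun.map_comp _ _ _ _ _ (by
        rw [x.2.1 f, y.2.1 f]; exact congrFun (congrArg Subtype.val h) j)]
      exact comp_congr (x.2.1 f) (y.2.1 f) _ _, by
      obtain ⟨a, ha⟩ := x.2.2
      obtain ⟨b, hb⟩ := y.2.2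
      refine ⟨max (max a b) (m + 1), fun j => d_comp_self _ _ ?_ ?_⟩
      · exact d_eq_self_of_le (ha j) (le_max_left _ _) _
      · exact d_eq_self_of_le (hb j) (le_max_right _ _) _⟩
  finite_dim x := by
    obtain ⟨m, hm⟩ := x.2.2
    exact ⟨m, Carrier.ext hm⟩
  d_d_of_lt a b m n x h := Carrier.ext fun j => d_d_of_lt a b m n _ h
  d_d_of_le a b m n x h := Carrier.ext fun j => d_d_of_le a b m n _ h
  src_comp n x y h := Carrier.ext fun j => src_comp n _ _ _
  tgt_comp n x y h := Carrier.ext fun j => tgt_comp n _ _ _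
  d_comp a m n x y h h' hnm := Carrier.ext fun j => d_comp a m n _ _ _ _ hnm
  id_comp n x h := Carrier.ext fun j => id_comp n _ _
  comp_id n x h := Carrier.ext fun j => comp_id n _ _
  assoc n x y z h₁ h₂ h₃ h₄ := Carrier.ext fun j => assoc n _ _ _ _ _ _ _
  interchange m n x y z w hmn h₁ h₂ h₃ h₄ h₅ h₆ :=
    Carrier.ext fun j => interchange m n _ _ _ _ hmn _ _ _ _ _ _

theorem d_val (a : Bool) (m : ℕ) (x : Carrier F) (j : J) : (d a m x).1 j = d a m (x.1 j) := rfl

variable (F)

/-- The limit `n`-category. -/
def pt : NCat.{max u v} n where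
  obj := OmegaCat.mk (Carrier F)
  property k hk _ := Carrier.ext fun j => (F.obj j).property k hk _

/-- The limit cone. -/
def cone : Cone F where
  pt := pt F
  π :=
    { app := fun j => ObjectProperty.homMk
        { toFun := fun x => x.1 j
          map_d := fun _ _ _ => rfl
          map_comp := fun _ _ _ _ _ => rfl }
      naturality := fun i j f => by
        apply ObjectProperty.hom_ext
        apply OmegaFun.ext
        intro x
        exact (x.2.1 f).symm }

/-- The limit cone is a limit cone. -/
def isLimit : IsLimit (cone F) where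
  lift s := ObjectProperty.homMk
    { toFun := fun x => ⟨fun j => (s.π.app j).hom.toFun x, fun {i j} f => by
        have := s.w f
        exact congrArg (fun (g : s.pt ⟶ F.obj j) => g.hom.toFun x) this, by
        obtain ⟨m, hm⟩ := finite_dim x
        refine ⟨m, fun j => ?_⟩
        rw [← OmegaFun.map_d, hm]⟩
      map_d := fun a m x => Carrier.ext fun j => OmegaFun.map_d _ _ _ _
      map_comp := fun m x y h h' => Carrier.ext fun j => OmegaFun.map_comp _ _ _ _ _ _ }
  fac s j := by
    apply ObjectProperty.hom_ext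
    apply OmegaFun.ext
    intro x
    rfl
  uniq s m hm := by
    apply ObjectProperty.hom_ext
    apply OmegaFun.ext
    intro x
    apply Carrier.ext
    intro j
    have := hm j
    exact congrArg (fun (g : s.pt ⟶ F.obj j) => g.hom.toFun x) this

end NCatLim

instance NCat.hasLimitsOfShape {n : ℕ∞} {J : Type v} [Category.{w} J] :
    HasLimitsOfShape J (NCat.{max u v} n) where
  has_limit F := ⟨⟨⟨_, NCatLim.isLimit F⟩⟩⟩

instance NCat.hasLimits {n : ℕ∞} : HasLimits (NCat.{u} n) where
  has_limits_of_shape _ _ := NCat.hasLimitsOfShape.{u, u, u}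

end Vale.Agent.P213
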