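import Mathlib.CategoryTheory.Limits.ConeCategory
import Mathlib.CategoryTheory.Limits.Preserves.FunctorCategory
import Mathlib.CategoryTheory.Limits.Yoneda
import Mathlib.CategoryTheory.Filtered.Basic
import Mathlib.CategoryTheory.Limits.Types.Filtered
import Mathlib.Data.Finite.Prod
import Mathlib.Data.Fintype.EquivFin
import Mathlib.CategoryTheory.Limits.Preserves.Filtered
import Mathlib.CategoryTheory.Limits.FunctorCategory.Basic
import Mathlib.AlgebraicTopology.SimplicialSet.StdSimplex
import Mathlib.Tactic.FinCases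
import Vale.Agent.P213.St2.A
import Vale.Agent.P213.Bdl.B1
import Vale.Agent.P213.Bdl.K_Colim_Limits
import Vale.Agent.P213.Bdl.B7
import Vale.Agent.P213.Bdl.B2

set_option linter.all false

section

/-!
Tables for the second statement-level formulation: comparison with the internal cells,
closure properties.
-/

open CategoryTheory Finset

namespace Vale.Agent.P213.St2

section Functors

variable {A B C : Raw}

theorem isFun_id (A : Raw) : IsFun (fun x : A.Cel => x) :=
  ⟨fun _ _ _ => rfl, fun _ _ _ _ _ => rfl⟩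

theorem isFun_comp (F : Fun A B) (G : Fun B C) : IsFun (fun x : A.Cel => G.fn (F.fn x)) :=
  ⟨fun a n x => (congrArg G.fn (F.prf.1 a n x)).trans (G.prf.1 a n _),
    fun n x y h h' => (congrArg G.fn (F.prf.2 n x y h ((F.prf.1 true n x).symm.trans
      ((congrArg F.fn h).trans (F.prf.1 false n y))))).trans (G.prf.2 n _ _ _ h')⟩

theorem Fun.ext {F G : Fun A B} (h : ∀ x, F.fn x = G.fn x) : F = G := by
  cases F; cases G; congr; exact funext h

end Functors

variable {m k l : ℕ}

theorem Tab.ext {x y : Tab m} (h : x.ch = y.ch) : x = y := by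
  cases x; cases y; congr

/-- The coefficients of a cell, with the coefficients `0`, `1` at the empty face. -/
noncomputable def cv (c : Cell (simplexCx (Fin m))) (e : Bool) (s : Finset (Fin m)) : ℤ :=
  if s = ∅ then (if e then 1 else 0) else St.ev (c.val e) s

/-- `x` represents the cell `c`. -/
def Rep (x : Ch m) (c : Cell (simplexCx (Fin m))) : Prop := ∀ e s, (x e s : ℤ) = cv c e s

namespace Rep

variable {x y : Ch m} {c c' : Cell (simplexCx (Fin m))}

theorem eq (h : Rep x c) (h' : Rep y c) : x = y := by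
  funext e s
  have h1 := h e s
  have h2 := h' e s
  exact_mod_cast h1.trans h2.symm

theorem inj (h : Rep x c) (h' : Rep x c') : c = c' := by
  apply Cell.ext
  funext e
  apply St.ev_ext
  intro s
  by_cases hs : s = ∅
  · rw [hs, St.ev_empty, St.ev_empty]
  · have h1 := h e s
    have h2 := h' e s
    rw [cv, if_neg hs] at h1 h2
    rw [← h1, ← h2]

theorem isTab (h : Rep x c) : IsTab x := by
  refine ⟨?_, ?_, ?_⟩
  · have := h false ∅
    rw [cv, if_pos rfl] at this
    exact_mod_cast this
  · have := h true ∅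
    rw [cv, if_pos rfl] at this
    exact_mod_cast this
  · intro e t
    have h1 : ∀ i, (x e (insert i t) : ℤ) = St.ev (c.val e) (insert i t) := by
      intro i
      rw [h, cv, if_neg (Finset.insert_ne_empty _ _)]
    simp only [h1]
    by_cases ht : t = ∅
    · subst ht
      rw [h true ∅, h false ∅, cv, cv, if_pos rfl, if_pos rfl]
      have h2 := c.aug_val e
      rw [St.aug_ev] at h2
      simp only [Finset.compl_empty, Finset.filter_empty, Finset.card_empty, pow_zero, one_mul,
        insert_empty_eq, h2]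
      rfl
    · rw [h true t, h false t, cv, cv, if_neg ht, if_neg ht, ← St.ev_sub, ← c.bdry_val e,
        St.bdry_ev _ _ (Finset.nonempty_iff_ne_empty.2 ht)]

theorem sd (h : Rep x c) (e : Bool) (n : ℕ) : Rep (x.sd e n) (c.dd e n) := by
  intro e' s
  rw [Ch.sd, cv]
  by_cases hs : s = ∅
  · rw [if_pos hs, if_pos (by rw [hs, Finset.card_empty]; omega), h, cv, if_pos hs]
  · have h0 : 0 < s.card := Finset.card_pos.2 (Finset.nonempty_iff_ne_empty.2 hs)
    have h3 : ∀ e, (x e s : ℤ) = St.ev (c.val e) s := by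
      intro e
      rw [h, cv, if_neg hs]
    rw [if_neg hs]
    change _ = St.ev ((simplexCx _).part (· < n) (c.val e') + (simplexCx _).part (· = n)
      (c.val e)) s
    rw [St.ev_add, St.ev_part, St.ev_part, ← h3, ← h3]
    by_cases h1 : s.card ≤ n
    · rw [if_pos h1, if_pos (by omega), if_neg (by omega), add_zero]
    · by_cases h2 : s.card = n + 1
      · rw [if_neg h1, if_pos h2, if_neg (by omega), if_pos (by omega), zero_add]
      · rw [if_neg h1, if_neg h2, if_neg (by omega), if_neg (by omega)]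
        rfl

theorem cc (h : Rep x c) (h' : Rep y c') {n : ℕ} (hc : c.dd true n = c'.dd false n) :
    Rep (x.cc n y) (Cell.cc n c c' hc) := by
  intro e s
  have h1 := h.sd true n
  have h2 := h'.sd false n
  rw [← hc] at h2
  have h3 : x.sd true n = y.sd false n := h1.eq h2
  have h4 : x.sd true n e s ≤ x e s + y e s := by
    by_cases h5 : s.card ≤ n
    · rw [Ch.sd, if_pos h5]
      omega
    · by_cases h6 : s.card = n + 1
      · cases e
        · rw [h3, Ch.sd, if_neg h5, if_pos h6]
          omega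
        · rw [Ch.sd, if_neg h5, if_pos h6]
          omega
      · rw [Ch.sd, if_neg h5, if_neg h6]
        omega
  rw [Ch.cc, cv]
  have h5 := h1 e s
  have h6 := h e s
  have h7 := h' e s
  rw [cv] at h5 h6 h7
  by_cases hs : s = ∅
  · rw [if_pos hs] at h5 h6 h7 ⊢
    omega
  · rw [if_neg hs] at h5 h6 h7 ⊢
    change _ = St.ev (c.val e - (c.dd true n).val e + c'.val e) s
    rw [St.ev_add, St.ev_sub]
    omega

theorem push (h : Rep x c) (θ : Fin m →o Fin k) : Rep (x.push θ) (c.map (simplexMap θ)) := by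
  intro e t
  rw [Ch.push, cv]
  by_cases ht : t = ∅
  · subst ht
    rw [if_pos rfl]
    have h1 : (univ.filter fun s : Finset (Fin m) => s.image θ = ∅ ∧ #s = #(∅ : Finset (Fin k))) =
        {∅} := by
      ext s
      simp
    rw [h1, Finset.sum_singleton, h, cv, if_pos rfl]
  · rw [if_neg ht, Cell.map_val, St.push_ev, Nat.cast_sum]
    apply Finset.sum_congr rfl
    intro s hs
    rw [h, cv, if_neg]
    rintro rfl
    apply ht
    rw [Finset.mem_filter] at hs
    rw [← hs.2.1, Finset.image_empty]

end Rep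

/-- The cell of a table. -/
noncomputable def toCell (x : Tab m) : Cell (simplexCx (Fin m)) where
  val e := St.ofTab fun s => if s = ∅ then 0 else x.ch e s
  nonneg _ _ := Int.natCast_nonneg _
  bdry_val e := by
    apply St.ev_ext
    intro t
    have hev : ∀ e s, St.ev (St.ofTab fun s => if s = ∅ then 0 else x.ch e s) s =
        ((if s = ∅ then 0 else x.ch e s : ℕ) : ℤ) := fun e s =>
      St.ev_ofTab (fun s => if s = ∅ then 0 else x.ch e s) (if_pos rfl) s
    rw [St.ev_sub, hev, hev]
    by_cases ht : t = ∅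
    · rw [ht, St.ev_empty, if_pos rfl, if_pos rfl]
      rfl
    · rw [if_neg ht, if_neg ht, St.bdry_ev _ _ (Finset.nonempty_iff_ne_empty.2 ht),
        ← x.tb.2.2 e t]
      apply Finset.sum_congr rfl
      intro i _
      rw [hev, if_neg (Finset.insert_ne_empty _ _)]
  aug_val e := by
    have hev : ∀ e s, St.ev (St.ofTab fun s => if s = ∅ then 0 else x.ch e s) s =
        ((if s = ∅ then 0 else x.ch e s : ℕ) : ℤ) := fun e s =>
      St.ev_ofTab (fun s => if s = ∅ then 0 else x.ch e s) (if_pos rfl) s
    rw [St.aug_ev]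
    have h := x.tb.2.2 e ∅
    rw [x.tb.1, x.tb.2.1] at h
    simp only [Finset.compl_empty, Finset.filter_empty, Finset.card_empty, pow_zero, one_mul,
      insert_empty_eq] at h
    simp only [hev]
    rw [Finset.sum_congr rfl (fun i _ => by
      rw [if_neg (Finset.singleton_ne_empty i)])]
    rw [h]
    rfl

theorem rep_toCell (x : Tab m) : Rep x.ch (toCell x) := by
  intro e s
  rw [cv]
  by_cases hs : s = ∅
  · rw [if_pos hs, hs]
    cases e
    · rw [x.tb.1]; rfl
    · rw [x.tb.2.1]; rfl
  · rw [if_neg hs]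
    change _ = St.ev (St.ofTab fun s => if s = ∅ then 0 else x.ch e s) s
    rw [St.ev_ofTab _ (if_pos rfl), if_neg hs]

theorem exists_rep (c : Cell (simplexCx (Fin m))) : ∃ x : Ch m, Rep x c := by
  refine ⟨fun e s => (cv c e s).toNat, fun e s => ?_⟩
  rw [Int.toNat_of_nonneg]
  rw [cv]
  split_ifs
  · exact zero_le_one
  · exact le_rfl
  · exact St.ev_nonneg (c.nonneg e) s

theorem isTab_d (e : Bool) (n : ℕ) (x : Tab m) : IsTab (x.ch.sd e n) :=
  ((rep_toCell x).sd e n).isTab

theorem composable {n : ℕ} {x y : Tab m} (h : x.ch.sd true n = y.ch.sd false n) :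
    (toCell x).dd true n = (toCell y).dd false n := by
  have h1 := (rep_toCell x).sd true n
  rw [h] at h1
  exact h1.inj ((rep_toCell y).sd false n)

theorem isTab_comp (n : ℕ) (x y : Tab m) (h : IsTab (x.ch.sd true n))
    (h' : IsTab (y.ch.sd false n)) (e : Tab.mk _ h = Tab.mk _ h') :
    IsTab (x.ch.cc n y.ch) :=
  ((rep_toCell x).cc (rep_toCell y) (composable (congrArg Tab.ch e))).isTab

theorem isTab_push (θ : Fin m →o Fin k) (x : Tab m) : IsTab (x.ch.push θ) :=
  ((rep_toCell x).push θ).isTab

theorem push_d (θ : Fin m →o Fin k) (e : Bool) (n : ℕ) (x : Tab m) :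
    (x.ch.sd e n).push θ = (x.ch.push θ).sd e n := by
  have h1 := ((rep_toCell x).sd e n).push θ
  rw [Cell.map_dd] at h1
  exact h1.eq (((rep_toCell x).push θ).sd e n)

theorem push_comp (θ : Fin m →o Fin k) (n : ℕ) (x y : Tab m)
    (h : x.ch.sd true n = y.ch.sd false n) :
    (x.ch.cc n y.ch).push θ = (x.ch.push θ).cc n (y.ch.push θ) := by
  have hc := composable h
  have h1 := ((rep_toCell x).cc (rep_toCell y) hc).push θ
  have hc' : ((toCell x).map (simplexMap θ)).dd true n =
      ((toCell y).map (simplexMap θ)).dd false n := by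
    rw [← Cell.map_dd, ← Cell.map_dd, hc]
  have h2 := ((rep_toCell x).push θ).cc ((rep_toCell y).push θ) hc'
  have h3 : (Cell.cc n (toCell x) (toCell y) hc).map (simplexMap θ) =
      Cell.cc n ((toCell x).map (simplexMap θ)) ((toCell y).map (simplexMap θ)) hc' :=
    (Cell.mapFun (simplexMap θ)).map_comp n (toCell x) (toCell y) hc hc'
  rw [h3] at h1
  exact h1.eq h2

theorem push_id (x : Tab m) : x.ch.push (OrderHom.id : Fin m →o Fin m) = x.ch := by
  have h := (rep_toCell x).push OrderHom.id
  have h2 : (toCell x).map (simplexMap (OrderHom.id : Fin m →o Fin m)) = toCell x := by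
    rw [simplexMap_id]
    exact Cell.map_id _
  rw [h2] at h
  exact h.eq (rep_toCell x)

theorem push_push (θ : Fin m →o Fin k) (θ' : Fin k →o Fin l) (x : Tab m) :
    x.ch.push (θ'.comp θ) = (x.ch.push θ).push θ' := by
  have h := (rep_toCell x).push (θ'.comp θ)
  rw [simplexMap_comp, Cell.map_comp] at h
  exact h.eq (((rep_toCell x).push θ).push θ')

end Vale.Agent.P213.St2
end

section

/-!
# Sub-omega-categories, generation and a solution set lemma
-/

universe u v w

namespace Vale.Agent.P213

open CategoryTheory Limits OmegaStr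

/-- A sub-omega-category. -/
structure SubOmega (C : Type u) [OmegaStr C] where
  carrier : Set C
  d_mem : ∀ (a : Bool) (n : ℕ) (x : C), x ∈ carrier → d a n x ∈ carrier
  comp_mem : ∀ (n : ℕ) (x y : C) (h : d true n x = d false n y), x ∈ carrier → y ∈ carrier →
    comp n x y h ∈ carrier

namespace SubOmega

variable {C : Type u} [OmegaStr C] (S : SubOmega C)

instance : OmegaStr S.carrier where
  d a m x := ⟨d a m x.1, S.d_mem a m x.1 x.2⟩
  comp m x y h := ⟨comp m x.1 y.1 (congrArg Subtype.val h), S.comp_mem _ _ _ _ x.2 y.2⟩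
  finite_dim x := by
    obtain ⟨m, hm⟩ := finite_dim x.1
    exact ⟨m, Subtype.ext hm⟩
  d_d_of_lt a b m n x h := Subtype.ext (d_d_of_lt a b m n _ h)
  d_d_of_le a b m n x h := Subtype.ext (d_d_of_le a b m n _ h)
  src_comp n x y h := Subtype.ext (src_comp n _ _ _)
  tgt_comp n x y h := Subtype.ext (tgt_comp n _ _ _)
  d_comp a m n x y h h' hnm := Subtype.ext (d_comp a m n _ _ _ _ hnm)
  id_comp n x h := Subtype.ext (id_comp n _ _)
  comp_id n x h := Subtype.ext (comp_id n _ _)
  assoc n x y z h₁ h₂ h₃ h₄ := Subtype.ext (assoc n _ _ _ _ _ _ _)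
  interchange m n x y z w hmn h₁ h₂ h₃ h₄ h₅ h₆ :=
    Subtype.ext (interchange m n _ _ _ _ hmn _ _ _ _ _ _)

@[simp] theorem d_val (a : Bool) (m : ℕ) (x : S.carrier) : (d a m x).1 = d a m x.1 := rfl

/-- The inclusion functor. -/
def incl : OmegaFun S.carrier C where
  toFun x := x.1
  map_d _ _ _ := rfl
  map_comp _ _ _ _ _ := rfl

/-- Corestriction of a functor. -/
def corestrict {D : Type v} [OmegaStr D] (f : OmegaFun D C) (hf : ∀ x, f.toFun x ∈ S.carrier) :
    OmegaFun D S.carrier where
  toFun x := ⟨f.toFun x, hf x⟩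
  map_d a n x := Subtype.ext (f.map_d a n x)
  map_comp n x y h _ := Subtype.ext (f.map_comp n x y h _)

/-- The preimage of a sub-omega-category under a functor. -/
def comap {D : Type v} [OmegaStr D] (f : OmegaFun D C) : SubOmega D where
  carrier := {x | f.toFun x ∈ S.carrier}
  d_mem a n x hx := by
    rw [Set.mem_ofPred_eq, f.map_d]
    exact S.d_mem _ _ _ hx
  comp_mem n x y h hx hy := by
    rw [Set.mem_ofPred_eq, f.map_comp n x y h (by rw [← f.map_d, ← f.map_d, h])]
    exact S.comp_mem _ _ _ _ hx hy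

/-- The equalizer of two functors. -/
def eqLocus {D : Type v} [OmegaStr D] (f g : OmegaFun D C) : SubOmega D where
  carrier := {x | f.toFun x = g.toFun x}
  d_mem a n x hx := by
    have hx' : f.toFun x = g.toFun x := hx
    rw [Set.mem_ofPred_eq, f.map_d, g.map_d, hx']
  comp_mem n x y h hx hy := by
    have hx' : f.toFun x = g.toFun x := hx
    have hy' : f.toFun y = g.toFun y := hy
    rw [Set.mem_ofPred_eq, f.map_comp n x y h (by rw [← f.map_d, ← f.map_d, h]),
      g.map_comp n x y h (by rw [← g.map_d, ← g.map_d, h])]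
    exact comp_congr hx' hy' _ _

/-- The elements generated by a family. -/
inductive Closure {G : Type v} (γ : G → C) : C → Prop
  | var (g : G) : Closure γ (γ g)
  | d (a : Bool) (n : ℕ) (x : C) : Closure γ x → Closure γ (OmegaStr.d a n x)
  | comp (n : ℕ) (x y : C) (h : OmegaStr.d true n x = OmegaStr.d false n y) :
      Closure γ x → Closure γ y → Closure γ (OmegaStr.comp n x y h)

/-- The sub-omega-category generated by a family. -/
def closure {G : Type v} (γ : G → C) : SubOmega C where
  carrier := {x | Closure γ x}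
  d_mem a n x hx := Closure.d a n x hx
  comp_mem n x y h hx hy := Closure.comp n x y h hx hy

theorem mem_closure {G : Type v} (γ : G → C) (g : G) : γ g ∈ (closure γ).carrier :=
  Closure.var g

theorem closure_le {G : Type v} {γ : G → C} {T : SubOmega C} (h : ∀ g, γ g ∈ T.carrier) {x : C}
    (hx : x ∈ (closure γ).carrier) : x ∈ T.carrier := by
  induction (show Closure γ x from hx) with
  | var g => exact h g
  | d a n x _ ih => exact T.d_mem _ _ _ (ih ‹_›)
  | comp n x y h _ _ ih1 ih2 => exact T.comp_mem _ _ _ _ (ih1 ‹_›) (ih2 ‹_›)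

/-- Functors agreeing on a generating family are equal. -/
theorem ext_of_closure {D : Type v} [OmegaStr D] {G : Type w} {γ : G → D}
    (hγ : ∀ x, x ∈ (closure γ).carrier) {f g : OmegaFun D C}
    (h : ∀ i, f.toFun (γ i) = g.toFun (γ i)) : f = g :=
  OmegaFun.ext fun x => closure_le (T := eqLocus f g) h (hγ x)

/-- Formal terms over a set of generators. -/
inductive Term (G : Type v) : Type v
  | var (g : G) : Term G
  | d (a : Bool) (n : ℕ) (t : Term G) : Term G
  | comp (n : ℕ) (s t : Term G) : Term G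

/-- Evaluation relation of terms. -/
inductive Eval {G : Type v} (γ : G → C) : Term G → C → Prop
  | var (g : G) : Eval γ (Term.var g) (γ g)
  | d (a : Bool) (n : ℕ) (t : Term G) (x : C) : Eval γ t x → Eval γ (Term.d a n t) (OmegaStr.d a n x)
  | comp (n : ℕ) (s t : Term G) (x y : C) (h : OmegaStr.d true n x = OmegaStr.d false n y) :
      Eval γ s x → Eval γ t y → Eval γ (Term.comp n s t) (OmegaStr.comp n x y h)

theorem Eval.unique {G : Type v} {γ : G → C} {t : Term G} {x y : C} (h : Eval γ t x)
    (h' : Eval γ t y) : x = y := by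
  induction h generalizing y with
  | var g => cases h'; rfl
  | d a n t x _ ih =>
    cases h' with
    | d _ _ _ x' hx' => rw [ih hx']
  | comp n s t x x' h _ _ ih1 ih2 =>
    cases h' with
    | comp _ _ _ y y' _ hy hy' => exact comp_congr (ih1 hy) (ih2 hy') _ _

theorem exists_eval {G : Type v} {γ : G → C} {x : C} (hx : x ∈ (closure γ).carrier) :
    ∃ t, Eval γ t x := by
  induction (show Closure γ x from hx) with
  | var g => exact ⟨_, Eval.var g⟩
  | d a n x _ ih =>
    obtain ⟨t, ht⟩ := ih ‹_›
    exact ⟨_, Eval.d a n t x ht⟩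
  | comp n x y h _ _ ih1 ih2 =>
    obtain ⟨s, hs⟩ := ih1 ‹_›
    obtain ⟨t, ht⟩ := ih2 ‹_›
    exact ⟨_, Eval.comp n s t x y h hs ht⟩

/-- An injection from the generated sub-omega-category to the set of terms. -/
noncomputable def toTerm {G : Type v} (γ : G → C) (x : (closure γ).carrier) : Term G :=
  (exists_eval x.2).choose

theorem toTerm_injective {G : Type v} (γ : G → C) : Function.Injective (toTerm γ) := by
  intro x y h
  have hx := (exists_eval x.2).choose_spec
  have hy := (exists_eval y.2).choose_spec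
  apply Subtype.ext
  change Eval γ (toTerm γ x) x.1 at hx
  change Eval γ (toTerm γ y) y.1 at hy
  rw [h] at hx
  exact hx.unique hy

end SubOmega

/-- Transport of an omega-category structure along an equivalence. -/
@[implicit_reducible]
def OmegaStr.transport {C : Type u} [OmegaStr C] {D : Type v} (e : C ≃ D) : OmegaStr D where
  d a m x := e (d a m (e.symm x))
  comp m x y h := e (comp m (e.symm x) (e.symm y) (e.injective h))
  finite_dim x := by
    obtain ⟨m, hm⟩ := finite_dim (e.symm x)
    exact ⟨m, by rw [hm, Equiv.apply_symm_apply]⟩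
  d_d_of_lt a b m n x h := by
    rw [Equiv.symm_apply_apply, d_d_of_lt a b m n _ h]
  d_d_of_le a b m n x h := by
    rw [Equiv.symm_apply_apply, d_d_of_le a b m n _ h]
  src_comp n x y h := by
    rw [Equiv.symm_apply_apply, src_comp n _ _ _]
  tgt_comp n x y h := by
    rw [Equiv.symm_apply_apply, tgt_comp n _ _ _]
  d_comp a m n x y h h' hnm := by
    have h1 : d true n (d a m (e.symm x)) = d false n (d a m (e.symm y)) := by
      have := e.injective h'
      rwa [Equiv.symm_apply_apply, Equiv.symm_apply_apply] at this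
    rw [Equiv.symm_apply_apply, d_comp a m n _ _ _ h1 hnm]
    exact congrArg e (comp_congr (e.symm_apply_apply _).symm (e.symm_apply_apply _).symm _ _)
  id_comp n x h := by
    have h1 := e.injective h
    rw [Equiv.symm_apply_apply] at h1
    rw [comp_congr (e.symm_apply_apply _) rfl (e.injective h) h1, id_comp n _ h1,
      Equiv.apply_symm_apply]
  comp_id n x h := by
    have h1 := e.injective h
    rw [Equiv.symm_apply_apply] at h1
    rw [comp_congr rfl (e.symm_apply_apply _) (e.injective h) h1, comp_id n _ h1,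
      Equiv.apply_symm_apply]
  assoc n x y z h₁ h₂ h₃ h₄ := by
    have k₁ := e.injective h₁
    have k₂ := e.injective h₂
    have k₃ := e.injective h₃
    have k₄ := e.injective h₄
    have l₃ : d true n (comp n (e.symm x) (e.symm y) k₁) = d false n (e.symm z) := by
      rw [tgt_comp, k₂]
    have l₄ : d true n (e.symm x) = d false n (comp n (e.symm y) (e.symm z) k₂) := by
      rw [src_comp, k₁]
    rw [comp_congr (e.symm_apply_apply _) rfl k₃ l₃, assoc n _ _ _ k₁ k₂ l₃ l₄]
    exact congrArg e (comp_congr rfl (e.symm_apply_apply _).symm _ _)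
  interchange m n x y z w hmn h₁ h₂ h₃ h₄ h₅ h₆ := by
    have k₁ := e.injective h₁
    have k₂ := e.injective h₂
    have k₃ := e.injective h₃
    have k₄ := e.injective h₄
    have k₅ := e.injective h₅
    have k₆ := e.injective h₆
    have l₅ : d true m (comp n (e.symm x) (e.symm y) k₁)
        = d false m (comp n (e.symm z) (e.symm w) k₂) := by
      rwa [Equiv.symm_apply_apply, Equiv.symm_apply_apply] at k₅
    have l₆ : d true n (comp m (e.symm x) (e.symm z) k₃)
        = d false n (comp m (e.symm y) (e.symm w) k₄) := by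
      rwa [Equiv.symm_apply_apply, Equiv.symm_apply_apply] at k₆
    rw [comp_congr (e.symm_apply_apply _) (e.symm_apply_apply _) k₅ l₅,
      comp_congr (e.symm_apply_apply _) (e.symm_apply_apply _) k₆ l₆,
      interchange m n _ _ _ _ hmn k₁ k₂ k₃ k₄ l₅ l₆]

/-- A sub-omega-category of an `n`-category, as an `n`-category. -/
abbrev SubOmega.toNCat {n : ℕ∞} {X : NCat.{u} n} (S : SubOmega X.obj.carrier) : NCat.{u} n where
  obj := OmegaCat.mk S.carrier
  property k hk x := Subtype.ext (X.property k hk x.1)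

/-- The inclusion of a sub-`n`-category. -/
abbrev SubOmega.toNCatι {n : ℕ∞} {X : NCat.{u} n} (S : SubOmega X.obj.carrier) : S.toNCat ⟶ X :=
  ObjectProperty.homMk S.incl

section Adjoint

variable {n : ℕ∞} {D : Type v} [Category.{u} D] (G : NCat.{u} n ⥤ D)

/-- Solution set condition for a functor from `n`-categories: it suffices that each morphism
`A ⟶ G X` factors through `G S` for all `S` containing a family indexed by a type depending
only on `A`. -/
theorem NCat.solutionSetCondition (Gen : D → Type u)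
    (gen : ∀ {A : D} {X : NCat.{u} n}, (A ⟶ G.obj X) → Gen A → X.obj.carrier)
    (H : ∀ {A : D} {X : NCat.{u} n} (h : A ⟶ G.obj X) (S : SubOmega X.obj.carrier),
      (∀ g, gen h g ∈ S.carrier) → ∃ h' : A ⟶ G.obj S.toNCat, h' ≫ G.map S.toNCatι = h) :
    SolutionSetCondition.{u} G := by
  intro A
  let ι : Type u := Σ (s : Set (SubOmega.Term (Gen A))) (_ : OmegaStr s)
    (hs : PLift ((isNCat.{u} n) (OmegaCat.mk s))), (A ⟶ G.obj ⟨OmegaCat.mk s, hs.down⟩)
  refine ⟨ι, fun i => ⟨@OmegaCat.mk i.1 i.2.1, i.2.2.1.down⟩, fun i => i.2.2.2, ?_⟩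
  intro X h
  let S := SubOmega.closure (gen h)
  obtain ⟨h', hh'⟩ := H h S (SubOmega.mem_closure _)
  let e : S.carrier ≃ Set.range (SubOmega.toTerm (gen h)) :=
    Equiv.ofInjective _ (SubOmega.toTerm_injective (gen h))
  let _ : OmegaStr (Set.range (SubOmega.toTerm (gen h))) := OmegaStr.transport e
  have hs : (isNCat.{u} n) (OmegaCat.mk (Set.range (SubOmega.toTerm (gen h)))) := by
    intro k hk x
    change e (d false k (e.symm x)) = x
    rw [S.toNCat.property k hk, Equiv.apply_symm_apply]
  let Y : NCat.{u} n := ⟨OmegaCat.mk (Set.range (SubOmega.toTerm (gen h))), hs⟩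
  let f1 : S.toNCat ⟶ Y := ObjectProperty.homMk
    { toFun := e
      map_d := fun a m x => by
        change e _ = e (d a m (e.symm (e x)))
        rw [e.symm_apply_apply]
      map_comp := fun m x y h h' => by
        change e _ = e (comp m (e.symm (e x)) (e.symm (e y)) _)
        exact congrArg e (comp_congr (e.symm_apply_apply _).symm (e.symm_apply_apply _).symm _ _) }
  let f2 : Y ⟶ S.toNCat := ObjectProperty.homMk
    { toFun := e.symm
      map_d := fun a m x => by
        change e.symm (e _) = _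
        rw [e.symm_apply_apply]
      map_comp := fun m x y h h' => by
        change e.symm (e _) = _
        rw [e.symm_apply_apply] }
  have h12 : f1 ≫ f2 = 𝟙 _ := by
    apply ObjectProperty.hom_ext
    apply OmegaFun.ext
    intro x
    exact e.symm_apply_apply x
  refine ⟨⟨_, OmegaStr.transport e, ⟨hs⟩, h' ≫ G.map f1⟩, f2 ≫ S.toNCatι, ?_⟩
  change (h' ≫ G.map f1) ≫ G.map (f2 ≫ S.toNCatι) = h
  rw [Category.assoc, ← G.map_comp, ← Category.assoc, h12, Category.id_comp, hh']

end Adjoint

end Vale.Agent.P213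
end

section

/-!
# Colimits of strict `n`-categories, left adjoint of the Street nerve
-/

universe u v w

namespace Vale.Agent.P213

open CategoryTheory Limits OmegaStr Opposite

section Colim

variable {n : ℕ∞} {J : Type u} [Category.{u} J]

instance preservesLimits_const : PreservesLimits (Functor.const J : NCat.{u} n ⥤ (J ⥤ NCat.{u} n)) :=
  preservesLimits_of_evaluation _ fun j => by
    have : (Functor.const J : NCat.{u} n ⥤ (J ⥤ NCat.{u} n)) ⋙ (evaluation J (NCat.{u} n)).obj j
      ≅ 𝟭 _ := NatIso.ofComponents (fun X => Iso.refl _) (fun f => by simp)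
    exact preservesLimits_of_natIso this.symm

theorem solutionSet_const :
    SolutionSetCondition.{u} (Functor.const J : NCat.{u} n ⥤ (J ⥤ NCat.{u} n)) := by
  refine NCat.solutionSetCondition _ (fun F => Σ j : J, (F.obj j).obj.carrier)
    (fun {F X} h g => (h.app g.1).hom.toFun g.2) ?_
  intro F X h S hS
  refine ⟨{ app := fun j => ObjectProperty.homMk (S.corestrict (h.app j).hom fun x => hS ⟨j, x⟩)
            naturality := ?_ }, ?_⟩
  · intro i j f
    apply ObjectProperty.hom_ext
    apply OmegaFun.ext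
    intro x
    apply Subtype.ext
    have := h.naturality f
    exact congrArg (fun (g : F.obj i ⟶ X) => g.hom.toFun x) this
  · ext j
    apply OmegaFun.ext
    intro x
    rfl

instance NCat.hasColimitsOfShape : HasColimitsOfShape J (NCat.{u} n) := by
  have := isRightAdjoint_of_preservesLimits_of_solutionSetCondition
    (Functor.const J : NCat.{u} n ⥤ (J ⥤ NCat.{u} n)) solutionSet_const
  exact hasColimitsOfShape_iff_isRightAdjoint_const.2 this

instance NCat.hasColimits : HasColimits (NCat.{u} n) where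
  has_colimits_of_shape _ _ := NCat.hasColimitsOfShape

end Colim

section Nerve

variable {n : ℕ∞}

/-- The inclusion of `n`-categories in omega-categories sends the limit cone to a limit cone. -/
def NCatLim.isLimitι {J : Type v} [Category.{w} J] (F : J ⥤ NCat.{max u v} n) :
    IsLimit ((isNCat n).ι.mapCone (NCatLim.cone F)) where
  lift s :=
    { toFun := fun x => (⟨fun j => (s.π.app j).toFun x, fun {i j} f => by
        have := s.w f
        exact congrArg (fun (g : s.pt ⟶ (F.obj j).obj) => g.toFun x) this, by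
        obtain ⟨m, hm⟩ := finite_dim x
        refine ⟨m, fun j => ?_⟩
        rw [← OmegaFun.map_d, hm]⟩ : NCatLim.Carrier F)
      map_d := fun a m x => Carrier.ext fun j => OmegaFun.map_d _ _ _ _
      map_comp := fun m x y h h' => Carrier.ext fun j => OmegaFun.map_comp _ _ _ _ _ _ }
  fac s j := by
    apply OmegaFun.ext
    intro x
    rfl
  uniq s m hm := by
    apply OmegaFun.ext
    intro x
    apply Carrier.ext
    intro j
    have := hm j
    exact congrArg (fun (g : s.pt ⟶ (F.obj j).obj) => g.toFun x) this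

instance preservesLimits_ι : PreservesLimits (isNCat.{u} n).ι where
  preservesLimitsOfShape {_} _ :=
    { preservesLimit := fun {F} =>
        preservesLimit_of_preserves_limit_cone (NCatLim.isLimit.{u, u, u} F)
          (NCatLim.isLimitι.{u, u, u} F) }

instance preservesLimits_streetNerve : PreservesLimits streetNerve := by
  unfold streetNerve
  infer_instance

instance preservesLimits_nerveN : PreservesLimits (nerveN n) := by
  unfold nerveN
  infer_instance

theorem solutionSet_nerveN : SolutionSetCondition.{0} (nerveN n) := by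
  refine NCat.solutionSetCondition _
    (fun K : SSet.{0} => Σ m : SimplexCategory, K.obj (op m) × (oriental.obj m).carrier)
    (fun {K X} h g => (h.app (op g.1) g.2.1).toFun g.2.2) ?_
  intro K X h S hS
  refine ⟨{ app := fun m => TypeCat.ofHom fun k =>
              S.corestrict (h.app m k) fun x => hS ⟨m.unop, k, x⟩
            naturality := ?_ }, ?_⟩
  · intro m m' f
    ext k
    apply OmegaFun.ext
    intro x
    apply Subtype.ext
    have := ConcreteCategory.congr_hom (h.naturality f) k
    exact congrArg (fun (g : OmegaFun (oriental.obj m'.unop).carrier X.obj.carrier) => g.toFun x) this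
  · ext m k
    apply OmegaFun.ext
    intro x
    rfl

instance nerveN_isRightAdjoint : (nerveN n).IsRightAdjoint :=
  isRightAdjoint_of_preservesLimits_of_solutionSetCondition _ solutionSet_nerveN

end Nerve

end Vale.Agent.P213
end

section

/-!
# Filtered colimits of strict `n`-categories
-/

universe u v w t

namespace Vale.Agent.P213

open CategoryTheory Limits OmegaStr

namespace NCatFilt

variable {n : ℕ∞} {J : Type v} [Category.{w} J] (F : J ⥤ NCat.{max u v} n)

/-- The underlying types of the diagram. -/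
abbrev U (j : J) : Type (max u v) := (F.obj j).obj.carrier

/-- The transition maps of the diagram. -/
abbrev mp {i j : J} (f : i ⟶ j) (x : U F i) : U F j := (F.map f).hom.toFun x

theorem mp_id {i : J} (x : U F i) : mp F (𝟙 i) x = x := by
  have := F.map_id i
  exact congrArg (fun (g : F.obj i ⟶ F.obj i) => g.hom.toFun x) this

theorem mp_comp {i j k : J} (f : i ⟶ j) (g : j ⟶ k) (x : U F i) :
    mp F (f ≫ g) x = mp F g (mp F f x) := by
  have := F.map_comp f g
  exact congrArg (fun (g : F.obj i ⟶ F.obj k) => g.hom.toFun x) this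

theorem mp_d {i j : J} (f : i ⟶ j) (a : Bool) (m : ℕ) (x : U F i) :
    mp F f (d a m x) = d a m (mp F f x) := OmegaFun.map_d _ _ _ _

theorem mp_comp_aux {i j : J} (f : i ⟶ j) (m : ℕ) {x y : U F i}
    (h : d true m x = d false m y) : d true m (mp F f x) = d false m (mp F f y) := by
  rw [← mp_d, ← mp_d, h]

theorem mp_cmp {i j : J} (f : i ⟶ j) (m : ℕ) (x y : U F i) (h : d true m x = d false m y) :
    mp F f (comp m x y h) = comp m (mp F f x) (mp F f y) (mp_comp_aux F f m h) :=
  OmegaFun.map_comp _ _ _ _ _ _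

/-- The relation defining the colimit. -/
def Rel (p q : Σ j, U F j) : Prop :=
  ∃ (k : J) (f : p.1 ⟶ k) (g : q.1 ⟶ k), mp F f p.2 = mp F g q.2

variable [IsFiltered J]

/-- The setoid defining the colimit. -/
def setoid : Setoid (Σ j, U F j) where
  r := Rel F
  iseqv :=
    { refl := fun p => ⟨p.1, 𝟙 _, 𝟙 _, rfl⟩
      symm := fun {p q} ⟨k, f, g, h⟩ => ⟨k, g, f, h.symm⟩
      trans := fun {p q r} ⟨k, f, g, h⟩ ⟨k', f', g', h'⟩ => by
        obtain ⟨m, a, b, hab⟩ := IsFiltered.span g f'
        refine ⟨m, f ≫ a, g' ≫ b, ?_⟩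
        rw [mp_comp, h, ← mp_comp, hab, mp_comp, h', mp_comp] }

/-- The underlying type of the colimit. -/
def Carrier : Type (max u v) := Quotient (setoid F)

/-- The class of an element. -/
def mk (j : J) (x : U F j) : Carrier F := Quotient.mk (setoid F) ⟨j, x⟩

theorem mk_mp {i j : J} (f : i ⟶ j) (x : U F i) : mk F j (mp F f x) = mk F i x :=
  Quotient.sound (s := setoid F) ⟨j, 𝟙 _, f, mp_id F _⟩

theorem mk_eq_iff {i j : J} (x : U F i) (y : U F j) :
    mk F i x = mk F j y ↔ ∃ (k : J) (f : i ⟶ k) (g : j ⟶ k), mp F f x = mp F g y :=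
  ⟨fun h => Quotient.exact (s := setoid F) h, fun h => Quotient.sound (s := setoid F) h⟩

theorem mk_eq_same {i : J} {x y : U F i} (h : mk F i x = mk F i y) :
    ∃ (k : J) (f : i ⟶ k), mp F f x = mp F f y := by
  obtain ⟨k, f, g, hfg⟩ := (mk_eq_iff F x y).1 h
  refine ⟨IsFiltered.coeq f g, f ≫ IsFiltered.coeqHom f g, ?_⟩
  rw [mp_comp, hfg, ← mp_comp, ← IsFiltered.coeq_condition, mp_comp]

theorem exists_rep (x : Carrier F) : ∃ (j : J) (y : U F j), mk F j y = x := by
  induction x using Quotient.inductionOn with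
  | h p => exact ⟨p.1, p.2, rfl⟩

/-- A finite family of elements of the colimit comes from some stage. -/
theorem exists_stage {ι : Type*} [Finite ι] (x : ι → Carrier F) :
    ∃ (j : J) (y : ∀ _ : ι, U F j), ∀ i, mk F j (y i) = x i := by
  classical
  choose j y hy using fun i => exists_rep F (x i)
  have := Fintype.ofFinite ι
  obtain ⟨S, hS⟩ := IsFiltered.sup_objs_exists (Finset.univ.image j)
  have f : ∀ i, Nonempty (j i ⟶ S) := fun i =>
    hS (Finset.mem_image_of_mem _ (Finset.mem_univ _))
  exact ⟨S, fun i => mp F (f i).some (y i), fun i => by rw [mk_mp, hy]⟩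

/-- Finitely many equalities in the colimit hold at some stage. -/
theorem exists_eqs {κ : Type*} [Finite κ] {j : J} (a b : κ → U F j)
    (h : ∀ t, mk F j (a t) = mk F j (b t)) :
    ∃ (k : J) (f : j ⟶ k), ∀ t, mp F f (a t) = mp F f (b t) := by
  classical
  have := Fintype.ofFinite κ
  have key : ∀ s : Finset κ, ∃ (k : J) (f : j ⟶ k), ∀ t ∈ s, mp F f (a t) = mp F f (b t) := by
    intro s
    induction s using Finset.induction_on with
    | empty => exact ⟨j, 𝟙 _, by simp⟩
    | insert t s _ ih =>
      obtain ⟨k, f, hf⟩ := ih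
      have h1 : mk F k (mp F f (a t)) = mk F k (mp F f (b t)) := by
        rw [mk_mp, mk_mp, h]
      obtain ⟨l, g, hg⟩ := mk_eq_same F h1
      refine ⟨l, f ≫ g, ?_⟩
      intro t' ht'
      rw [mp_comp, mp_comp]
      rcases Finset.mem_insert.1 ht' with rfl | ht'
      · exact hg
      · rw [hf t' ht']
  obtain ⟨k, f, hf⟩ := key Finset.univ
  exact ⟨k, f, fun t => hf t (Finset.mem_univ t)⟩

/-- Sources and targets in the colimit. -/
def cd (a : Bool) (m : ℕ) : Carrier F → Carrier F :=
  Quotient.map' (s₁ := setoid F) (s₂ := setoid F) (fun p => ⟨p.1, d a m p.2⟩) (by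
    rintro p q ⟨k, f, g, h⟩
    exact ⟨k, f, g, by rw [mp_d, mp_d, h]⟩)

theorem cd_mk (a : Bool) (m : ℕ) {j : J} (x : U F j) : cd F a m (mk F j x) = mk F j (d a m x) :=
  rfl

theorem lift₁ {m : ℕ} {j : J} {x y : U F j}
    (h : cd F true m (mk F j x) = cd F false m (mk F j y)) :
    ∃ (k : J) (f : j ⟶ k), d true m (mp F f x) = d false m (mp F f y) := by
  rw [cd_mk, cd_mk] at h
  obtain ⟨k, f, hf⟩ := mk_eq_same F h
  exact ⟨k, f, by rw [← mp_d, ← mp_d, hf]⟩

theorem exists_comp_rep {m : ℕ} {x y : Carrier F} (h : cd F true m x = cd F false m y) :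
    ∃ (j : J) (x' y' : U F j) (_ : d true m x' = d false m y'), mk F j x' = x ∧ mk F j y' = y := by
  obtain ⟨j, z, hz⟩ := exists_stage F (fun b : Bool => if b then y else x)
  have hx : mk F j (z false) = x := by simpa using hz false
  have hy : mk F j (z true) = y := by simpa using hz true
  rw [← hx, ← hy] at h
  obtain ⟨k, f, hf⟩ := lift₁ F h
  exact ⟨k, _, _, hf, by rw [mk_mp, hx], by rw [mk_mp, hy]⟩

/-- Composition in the colimit. -/
noncomputable def cc (m : ℕ) (x y : Carrier F) (h : cd F true m x = cd F false m y) : Carrier F :=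
  mk F (exists_comp_rep F h).choose
    (comp m _ _ (exists_comp_rep F h).choose_spec.choose_spec.choose_spec.choose)

theorem cc_mk (m : ℕ) {j : J} (x y : U F j) (h : d true m x = d false m y)
    (h' : cd F true m (mk F j x) = cd F false m (mk F j y)) :
    cc F m (mk F j x) (mk F j y) h' = mk F j (comp m x y h) := by
  have key : ∀ (j0 : J) (x0 y0 : U F j0) (h0 : d true m x0 = d false m y0),
      mk F j0 x0 = mk F j x → mk F j0 y0 = mk F j y →
      mk F j0 (comp m x0 y0 h0) = mk F j (comp m x y h) := by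
    intro j0 x0 y0 h0 hx hy
    obtain ⟨k1, f1, g1, e1⟩ := (mk_eq_iff F _ _).1 hx
    have h2 : mk F k1 (mp F f1 y0) = mk F k1 (mp F g1 y) := by
      rw [mk_mp, mk_mp, hy]
    obtain ⟨k2, r, e2⟩ := mk_eq_same F h2
    rw [← mk_mp F (f1 ≫ r), ← mk_mp F (g1 ≫ r), mp_cmp, mp_cmp]
    congr 1
    apply comp_congr
    · rw [mp_comp, mp_comp, e1]
    · rw [mp_comp, mp_comp, e2]
  exact key _ _ _ _ (exists_comp_rep F h').choose_spec.choose_spec.choose_spec.choose_spec.1
    (exists_comp_rep F h').choose_spec.choose_spec.choose_spec.choose_spec.2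

theorem cc_congr {m : ℕ} {x y x' y' : Carrier F} (hx : x = x') (hy : y = y')
    (h : cd F true m x = cd F false m y) (h' : cd F true m x' = cd F false m y') :
    cc F m x y h = cc F m x' y' h' := by
  subst hx hy
  rfl

/-- Composition at a stage. -/
theorem cc_mk' (m : ℕ) {j : J} (x y : U F j) (h : d true m x = d false m y) :
    cc F m (mk F j x) (mk F j y) (congrArg (mk F j) h) = mk F j (comp m x y h) :=
  cc_mk F m x y h _

theorem exists_rep₃ {m : ℕ} {x y z : Carrier F} (h₁ : cd F true m x = cd F false m y)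
    (h₂ : cd F true m y = cd F false m z) :
    ∃ (j : J) (x' y' z' : U F j) (_ : d true m x' = d false m y')
      (_ : d true m y' = d false m z'), mk F j x' = x ∧ mk F j y' = y ∧ mk F j z' = z := by
  obtain ⟨j, w, hw⟩ := exists_stage F ![x, y, z]
  obtain rfl : mk F j (w 0) = x := hw 0
  obtain rfl : mk F j (w 1) = y := hw 1
  obtain rfl : mk F j (w 2) = z := hw 2
  obtain ⟨k, f, k₁⟩ := lift₁ F h₁
  have h₂' : cd F true m (mk F k (mp F f (w 1))) = cd F false m (mk F k (mp F f (w 2))) := by
    rw [mk_mp, mk_mp, h₂]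
  obtain ⟨l, g, k₂⟩ := lift₁ F h₂'
  exact ⟨l, _, _, _, mp_comp_aux F g _ k₁, k₂, by rw [mk_mp, mk_mp], by rw [mk_mp, mk_mp],
    by rw [mk_mp, mk_mp]⟩

theorem exists_rep₄ {m n : ℕ} {x y z w : Carrier F} (h₁ : cd F true n x = cd F false n y)
    (h₂ : cd F true n z = cd F false n w) (h₃ : cd F true m x = cd F false m z)
    (h₄ : cd F true m y = cd F false m w) :
    ∃ (j : J) (x' y' z' w' : U F j) (_ : d true n x' = d false n y')
      (_ : d true n z' = d false n w') (_ : d true m x' = d false m z')
      (_ : d true m y' = d false m w'),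
      mk F j x' = x ∧ mk F j y' = y ∧ mk F j z' = z ∧ mk F j w' = w := by
  obtain ⟨j, r, hr⟩ := exists_stage F ![x, y, z, w]
  obtain rfl : mk F j (r 0) = x := hr 0
  obtain rfl : mk F j (r 1) = y := hr 1
  obtain rfl : mk F j (r 2) = z := hr 2
  obtain rfl : mk F j (r 3) = w := hr 3
  obtain ⟨k, f, k₁⟩ := lift₁ F h₁
  have h₂' : cd F true n (mk F k (mp F f (r 2))) = cd F false n (mk F k (mp F f (r 3))) := by
    rw [mk_mp, mk_mp, h₂]
  obtain ⟨l, g, k₂⟩ := lift₁ F h₂'
  have h₃' : cd F true m (mk F l (mp F g (mp F f (r 0)))) =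
      cd F false m (mk F l (mp F g (mp F f (r 2)))) := by
    rw [mk_mp, mk_mp, mk_mp, mk_mp, h₃]
  obtain ⟨l', g', k₃⟩ := lift₁ F h₃'
  have h₄' : cd F true m (mk F l' (mp F g' (mp F g (mp F f (r 1))))) =
      cd F false m (mk F l' (mp F g' (mp F g (mp F f (r 3))))) := by
    rw [mk_mp, mk_mp, mk_mp, mk_mp, mk_mp, mk_mp, h₄]
  obtain ⟨l'', g'', k₄⟩ := lift₁ F h₄'
  exact ⟨l'', _, _, _, _, mp_comp_aux F g'' _ (mp_comp_aux F g' _ (mp_comp_aux F g _ k₁)),
    mp_comp_aux F g'' _ (mp_comp_aux F g' _ k₂), mp_comp_aux F g'' _ k₃, k₄,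
    by rw [mk_mp, mk_mp, mk_mp, mk_mp], by rw [mk_mp, mk_mp, mk_mp, mk_mp],
    by rw [mk_mp, mk_mp, mk_mp, mk_mp], by rw [mk_mp, mk_mp, mk_mp, mk_mp]⟩

noncomputable instance : OmegaStr (Carrier F) where
  d a m x := cd F a m x
  comp m x y h := cc F m x y h
  finite_dim x := by
    obtain ⟨j, x, rfl⟩ := exists_rep F x
    obtain ⟨m, hm⟩ := finite_dim x
    exact ⟨m, by rw [cd_mk, hm]⟩
  d_d_of_lt a b m n x h := by
    obtain ⟨j, x, rfl⟩ := exists_rep F x
    rw [cd_mk, cd_mk, cd_mk, d_d_of_lt _ _ _ _ _ h]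
  d_d_of_le a b m n x h := by
    obtain ⟨j, x, rfl⟩ := exists_rep F x
    rw [cd_mk, cd_mk, d_d_of_le _ _ _ _ _ h]
  src_comp n x y h := by
    obtain ⟨j, x, y, h1, rfl, rfl⟩ := exists_comp_rep F h
    rw [cc_mk F n x y h1, cd_mk, cd_mk, src_comp]
  tgt_comp n x y h := by
    obtain ⟨j, x, y, h1, rfl, rfl⟩ := exists_comp_rep F h
    rw [cc_mk F n x y h1, cd_mk, cd_mk, tgt_comp]
  d_comp a m n x y h h' hnm := by
    obtain ⟨j, x, y, h1, rfl, rfl⟩ := exists_comp_rep F h
    have h2 : d true n (d a m x) = d false n (d a m y) := by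
      rw [d_d_of_lt _ _ _ _ _ hnm, d_d_of_lt _ _ _ _ _ hnm, h1]
    simp only [cc_mk F n x y h1]
    rw [cd_mk, d_comp a m n _ _ _ h2 hnm]
    exact (cc_mk F n _ _ h2 _).symm
  id_comp n x h := by
    obtain ⟨j, x, rfl⟩ := exists_rep F x
    have h1 : d true n (d false n x) = d false n x := d_d_of_le _ _ _ _ _ le_rfl
    exact (cc_mk F n _ _ h1 h).trans (congrArg _ (id_comp n x h1))
  comp_id n x h := by
    obtain ⟨j, x, rfl⟩ := exists_rep F x
    have h1 : d true n x = d false n (d true n x) := (d_d_of_le _ _ _ _ _ le_rfl).symm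
    exact (cc_mk F n _ _ h1 h).trans (congrArg _ (comp_id n x h1))
  assoc n x y z h₁ h₂ h₃ h₄ := by
    obtain ⟨j, x, y, z, k₁, k₂, rfl, rfl, rfl⟩ := exists_rep₃ F h₁ h₂
    have k₃ : d true n (comp n x y k₁) = d false n z := by rw [tgt_comp, k₂]
    have k₄ : d true n x = d false n (comp n y z k₂) := by rw [src_comp, k₁]
    simp only [cc_mk F n x y k₁, cc_mk F n y z k₂]
    rw [cc_mk F n _ _ k₃, cc_mk F n _ _ k₄, assoc n x y z k₁ k₂ k₃ k₄]
  interchange m n x y z w hmn h₁ h₂ h₃ h₄ h₅ h₆ := by
    obtain ⟨j, x, y, z, w, k₁, k₂, k₃, k₄, rfl, rfl, rfl, rfl⟩ := exists_rep₄ F h₁ h₂ h₃ h₄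
    have k₅ : d true m (comp n x y k₁) = d false m (comp n z w k₂) := by
      rw [← d_d_of_lt true true m n _ hmn, tgt_comp, d_d_of_lt true true m n _ hmn, k₄,
        ← d_d_of_lt false true m n _ hmn, ← tgt_comp n z w k₂, d_d_of_lt false true m n _ hmn]
    have k₆ : d true n (comp m x z k₃) = d false n (comp m y w k₄) := by
      rw [d_comp true n m x z k₃ (by
          rw [d_d_of_lt _ _ _ _ _ hmn, d_d_of_lt _ _ _ _ _ hmn, k₃]) hmn,
        d_comp false n m y w k₄ (by
          rw [d_d_of_lt _ _ _ _ _ hmn, d_d_of_lt _ _ _ _ _ hmn, k₄]) hmn]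
      exact comp_congr k₁ k₂ _ _
    simp only [cc_mk F n x y k₁, cc_mk F n z w k₂, cc_mk F m x z k₃, cc_mk F m y w k₄]
    rw [cc_mk F m _ _ k₅, cc_mk F n _ _ k₆, interchange m n x y z w hmn k₁ k₂ k₃ k₄ k₅ k₆]

/-- The colimit `n`-category. -/
noncomputable def pt : NCat.{max u v} n where
  obj := OmegaCat.mk (Carrier F)
  property k hk x := by
    obtain ⟨j, x, rfl⟩ := exists_rep F x
    exact congrArg (mk F j) ((F.obj j).property k hk x)

/-- The canonical functors to the colimit. -/
noncomputable def inj (j : J) : OmegaFun (U F j) (Carrier F) where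
  toFun x := mk F j x
  map_d _ _ _ := rfl
  map_comp m x y h _ := (cc_mk' F m x y h).symm

/-- The colimit cocone. -/
noncomputable def cocone : Cocone F where
  pt := pt F
  ι :=
    { app := fun j => ObjectProperty.homMk (inj F j)
      naturality := fun i j f => by
        apply ObjectProperty.hom_ext
        apply OmegaFun.ext
        intro x
        exact mk_mp F f x }

/-- The functor out of the colimit. -/
noncomputable def desc {Z : Type t} [OmegaStr Z] (φ : ∀ j, OmegaFun (U F j) Z)
    (hφ : ∀ {i j : J} (f : i ⟶ j) (x : U F i), (φ j).toFun (mp F f x) = (φ i).toFun x) :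
    OmegaFun (Carrier F) Z where
  toFun := Quotient.lift (fun p => (φ p.1).toFun p.2) (by
    rintro p q ⟨k, f, g, h⟩
    rw [← hφ f, h, hφ])
  map_d a m x := by
    obtain ⟨j, x, rfl⟩ := exists_rep F x
    exact (φ j).map_d a m x
  map_comp m x y h h' := by
    obtain ⟨j, x, y, h1, rfl, rfl⟩ := exists_comp_rep F h
    change Quotient.lift _ _ (cc F m _ _ _) = _
    rw [cc_mk F m x y h1]
    exact (φ j).map_comp m x y h1 _

/-- The colimit cocone is a colimit. -/
noncomputable def isColimit : IsColimit (cocone F) where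
  desc s := ObjectProperty.homMk (desc F (Z := s.pt.obj.carrier)
      (fun j => (s.ι.app j).hom) (fun {i j} f x => by
    have := s.w f
    exact congrArg (fun (g : F.obj i ⟶ s.pt) => g.hom.toFun x) this))
  fac s j := by
    apply ObjectProperty.hom_ext
    apply OmegaFun.ext
    intro x
    rfl
  uniq s m hm := by
    apply ObjectProperty.hom_ext
    apply OmegaFun.ext
    intro x
    obtain ⟨j, x, rfl⟩ := exists_rep F x
    have := hm j
    exact congrArg (fun (g : F.obj j ⟶ s.pt) => g.hom.toFun x) this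

section FinitelyPresentable

variable {O : Type u} [OmegaStr O] [Finite O]

theorem exists_dim_bound (O : Type u) [OmegaStr O] [Finite O] :
    ∃ N : ℕ, ∀ x : O, d false N x = x := by
  classical
  choose m hm using fun x : O => finite_dim x
  have := Fintype.ofFinite O
  refine ⟨Finset.univ.sup m, fun x => d_eq_self_of_le (hm x) ?_ _⟩
  exact Finset.le_sup (Finset.mem_univ x)

/-- A functor from a finite omega-category to a filtered colimit factors through a stage. -/
theorem exists_factor (φ : OmegaFun O (Carrier F)) :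
    ∃ (j : J) (ψ : OmegaFun O (U F j)), (inj F j).comp ψ = φ := by
  obtain ⟨N, hN⟩ := exists_dim_bound O
  obtain ⟨j, y, hy⟩ := exists_stage F φ.toFun
  -- commutation with `d`
  obtain ⟨k, f, hf⟩ := exists_eqs F (κ := Bool × Fin (N + 1) × O)
    (fun t => y (d t.1 t.2.1 t.2.2)) (fun t => d t.1 t.2.1 (y t.2.2)) (by
      intro t
      rw [hy, φ.map_d, ← cd_mk, hy]
      rfl)
  have hf' : ∀ (a : Bool) (m : ℕ) (x : O), mp F f (y (d a m x)) = d a m (mp F f (y x)) := by
    intro a m x
    rcases Nat.lt_or_ge m (N + 1) with hm | hm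
    · rw [← mp_d]
      exact hf (a, ⟨m, hm⟩, x)
    · have h1 : d a m x = x := d_eq_self_of_le (hN x) (by omega) _
      have h2 := hf (false, ⟨N, by omega⟩, x)
      simp only [hN] at h2
      rw [mp_d] at h2
      rw [h1, d_eq_self_of_le h2.symm (by omega) a]
  -- commutation with `comp`
  obtain ⟨l, g, hg⟩ := exists_eqs F (j := k)
    (κ := {t : Fin N × O × O // d true (t.1 : ℕ) t.2.1 = d false (t.1 : ℕ) t.2.2})
    (fun t => mp F f (y (comp t.1.1 t.1.2.1 t.1.2.2 t.2)))
    (fun t => comp t.1.1 (mp F f (y t.1.2.1)) (mp F f (y t.1.2.2)) (by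
      rw [← hf', ← hf', t.2])) (by
      intro t
      rw [mk_mp, hy, ← cc_mk']
      have h1 : d true (t.1.1 : ℕ) (φ.toFun t.1.2.1) = d false (t.1.1 : ℕ) (φ.toFun t.1.2.2) := by
        rw [← φ.map_d, ← φ.map_d, t.2]
      rw [φ.map_comp _ _ _ _ h1]
      apply cc_congr
      · rw [mk_mp, hy]
      · rw [mk_mp, hy])
  refine ⟨l, { toFun := fun x => mp F g (mp F f (y x)), map_d := ?_, map_comp := ?_ }, ?_⟩
  · intro a m x
    rw [hf', mp_d]
  · intro m x z h h'
    rcases Nat.lt_or_ge m N with hm | hm
    · rw [hg ⟨(⟨m, hm⟩, x, z), h⟩, mp_cmp]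
    · have h1 : d true m x = x := d_eq_self_of_le (hN x) hm _
      have h2 : d false m z = z := d_eq_self_of_le (hN z) hm _
      have h3 : x = z := by rw [← h1, h, h2]
      subst h3
      have h4 : comp m x x h = x := by
        have := id_comp m x (by rw [h2]; exact h1)
        rwa [comp_congr h2 rfl _ h] at this
      have h5 : d false m (mp F g (mp F f (y x))) = mp F g (mp F f (y x)) := by
        rw [← mp_d, ← hf', h2]
      have h6 : d true m (mp F g (mp F f (y x))) = mp F g (mp F f (y x)) := by
        rw [← mp_d, ← hf', h1]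
      rw [h4]
      have := id_comp m (mp F g (mp F f (y x))) (by rw [h5, h6])
      rw [comp_congr h5 rfl _ h'] at this
      exact this.symm
  · apply OmegaFun.ext
    intro x
    change mk F l (mp F g (mp F f (y x))) = φ.toFun x
    rw [mk_mp, mk_mp, hy]

/-- Two functors from a finite omega-category to a stage which agree in the colimit agree at
a later stage. -/
theorem exists_eq_of_eq {i j : J} (φ : OmegaFun O (U F i)) (ψ : OmegaFun O (U F j))
    (h : (inj F i).comp φ = (inj F j).comp ψ) :
    ∃ (k : J) (f : i ⟶ k) (g : j ⟶ k), ∀ x, mp F f (φ.toFun x) = mp F g (ψ.toFun x) := by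
  let m := IsFiltered.max i j
  let p : i ⟶ m := IsFiltered.leftToMax i j
  let q : j ⟶ m := IsFiltered.rightToMax i j
  obtain ⟨k, r, hr⟩ := exists_eqs F (fun x : O => mp F p (φ.toFun x)) (fun x => mp F q (ψ.toFun x))
    (by
      intro x
      rw [mk_mp, mk_mp]
      exact congrArg (fun (χ : OmegaFun O (Carrier F)) => χ.toFun x) h)
  exact ⟨k, p ≫ r, q ≫ r, fun x => by rw [mp_comp, mp_comp, hr]⟩

end FinitelyPresentable

end NCatFilt

end Vale.Agent.P213
end

section

/-!
# The Street nerve preserves filtered colimits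
-/

universe u v w

namespace Vale.Agent.P213

open CategoryTheory Limits OmegaStr Opposite

variable {n : ℕ∞}

namespace NCatFilt

variable {J : Type} [Category.{0} J] [IsFiltered J] (F : J ⥤ NCat.{0} n)

/-- The nerve of the filtered colimit cocone is a colimit cocone. -/
noncomputable def isColimitNerve : IsColimit ((nerveN n).mapCocone (cocone F)) :=
  evaluationJointlyReflectsColimits _ fun m => by
    apply Types.FilteredColimit.isColimitOf
    · intro φ
      obtain ⟨j, ψ, hψ⟩ := exists_factor F (O := Cell (simplexCx (Fin (m.unop.len + 1)))) φ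
      exact ⟨j, ψ, hψ.symm⟩
    · intro i j φ ψ h
      obtain ⟨k, f, g, hfg⟩ := exists_eq_of_eq F
        (O := Cell (simplexCx (Fin (m.unop.len + 1)))) φ ψ h
      refine ⟨k, f, g, ?_⟩
      apply OmegaFun.ext
      exact hfg

end NCatFilt

instance nerveN_preservesFilteredColimits : PreservesFilteredColimits (nerveN n) where
  preserves_filtered_colimits _ _ _ :=
    { preservesColimit := fun {F} =>
        preservesColimit_of_preserves_colimit_cocone (NCatFilt.isColimit F)
          (NCatFilt.isColimitNerve F) }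

end Vale.Agent.P213
end

section

/-!
# The unit of the nerve adjunction at the initial simplicial set, `Δ[0]` and `Δ[1]`
-/

universe u v w

namespace Vale.Agent.P213.UnitAx

open CategoryTheory Limits OmegaStr Opposite Simplicial

section Cells

variable {I : Type} [LinearOrder I]

/-- The vertex as a simplex. -/
def Smpl.v (i : I) : Smpl I := ⟨[i], by simp⟩

/-- An edge as a simplex. -/
def Smpl.e (i j : I) (h : i < j) : Smpl I := ⟨[i, j], by simpa using h⟩

theorem simplexCx_bd_v (i : I) : (simplexCx I).bd (Smpl.v i) = 0 := by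
  change toS (faces [i]) = 0
  rw [faces_cons, faces_nil, map_zero, sub_zero]
  ext s
  rw [toS_apply, Finsupp.single_apply, if_neg (fun h => s.2.1 h.symm)]
  rfl

theorem simplexCx_bd_e (i j : I) (h : i < j) : (simplexCx I).bd (Smpl.e i j h) =
    Finsupp.single (Smpl.v j) 1 - Finsupp.single (Smpl.v i) 1 := by
  change toS (faces [i, j]) = _
  rw [faces_cons, faces_cons, faces_nil, map_zero, sub_zero, consL_single, map_sub]
  rw [← toS_ofS (Finsupp.single (Smpl.v j) (1 : ℤ)), ← toS_ofS (Finsupp.single (Smpl.v i) (1 : ℤ)),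
    ofS_single, ofS_single]
  rfl

theorem dim_v (i : I) : (simplexCx I).dim (Smpl.v i) = 0 := rfl

theorem dim_e (i j : I) (h : i < j) : (simplexCx I).dim (Smpl.e i j h) = 1 := rfl

/-- The vertex cell. -/
noncomputable def vtx (i : I) : Cell (simplexCx I) where
  val _ := Finsupp.single (Smpl.v i) 1
  nonneg _ := by
    classical
    intro s
    rw [Finsupp.single_apply]
    split_ifs <;> simp
  bdry_val _ := by
    rw [BCx.bdry_single, simplexCx_bd_v, smul_zero, sub_self]
  aug_val _ := by
    rw [BCx.aug_single, if_pos]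
    rfl

theorem vtx_val (i : I) (a : Bool) : (vtx i).val a = Finsupp.single (Smpl.v i) 1 := rfl

/-- The edge cell. -/
noncomputable def edge (i j : I) (h : i < j) : Cell (simplexCx I) where
  val a := Finsupp.single (Smpl.e i j h) 1 + Finsupp.single (Smpl.v (if a then j else i)) 1
  nonneg _ := by
    classical
    intro s
    simp only [Finsupp.coe_add, Pi.add_apply, Finsupp.single_apply]
    split_ifs <;> simp
  bdry_val a := by
    rw [map_add, BCx.bdry_single, BCx.bdry_single, simplexCx_bd_v, smul_zero, simplexCx_bd_e]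
    simp
  aug_val a := by
    rw [map_add, BCx.aug_single, BCx.aug_single, if_neg, if_pos]
    · rfl
    · rfl
    · change ¬ (2 - 1 = 0)
      omega

theorem edge_val (i j : I) (h : i < j) (a : Bool) : (edge i j h).val a =
    Finsupp.single (Smpl.e i j h) 1 + Finsupp.single (Smpl.v (if a then j else i)) 1 := rfl

theorem d_val_apply (x : Cell (simplexCx I)) (a b : Bool) (s : Smpl I) :
    ((d a 0 x : Cell (simplexCx I)).val b) s =
      if (simplexCx I).dim s = 0 then x.val a s else 0 := by
  change (x.dd a 0).val b s = _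
  rw [Cell.dd_val_apply, if_neg (by omega)]

theorem d_val_v (x : Cell (simplexCx I)) (a b : Bool) (i : I) :
    ((d a 0 x : Cell (simplexCx I)).val b) (Smpl.v i) = x.val a (Smpl.v i) := by
  rw [d_val_apply, if_pos (dim_v i)]

theorem d_edge (i j : I) (h : i < j) (a : Bool) :
    d a 0 (edge i j h) = vtx (if a then j else i) := by
  classical
  apply Cell.ext
  funext b
  ext s
  rw [d_val_apply, vtx_val]
  by_cases hs : (simplexCx I).dim s = 0
  · rw [if_pos hs, edge_val, Finsupp.add_apply, Finsupp.single_apply, if_neg, zero_add]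
    rintro rfl
    rw [dim_e] at hs
    omega
  · rw [if_neg hs, Finsupp.single_apply, if_neg]
    rintro rfl
    exact hs (dim_v _)

theorem dim_eq_zero {s : Smpl I} (h : (simplexCx I).dim s = 0) : ∃ i, s = Smpl.v i := by
  obtain ⟨l, hl, hp⟩ := s
  change l.length - 1 = 0 at h
  match l, hl, hp, h with
  | [a], _, _, _ => exact ⟨a, rfl⟩
  | a :: b :: l, _, _, h => simp at h

theorem v_injective : Function.Injective (Smpl.v : I → Smpl I) := by
  intro i j h
  have := congrArg Subtype.val h
  simpa [Smpl.v] using this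

theorem vtx_injective : Function.Injective (vtx : I → Cell (simplexCx I)) := by
  intro i j h
  have h1 : (vtx i).val true (Smpl.v i) = (vtx j).val true (Smpl.v i) := by rw [h]
  rw [vtx_val, vtx_val, Finsupp.single_eq_same, Finsupp.single_apply] at h1
  by_contra h2
  rw [if_neg (fun h3 => h2 (v_injective h3).symm)] at h1
  exact one_ne_zero h1

theorem d_vtx (a : Bool) (i : I) : d a 0 (vtx i) = vtx i := by
  classical
  apply Cell.ext
  funext b
  ext s
  rw [d_val_apply, vtx_val, vtx_val]
  split_ifs with h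
  · rfl
  · rw [Finsupp.single_apply, if_neg]
    rintro rfl
    exact h (dim_v i)

/-- The `0`-cells are the vertices. -/
theorem exists_vtx (x : Cell (simplexCx I)) (a : Bool) : ∃ i, d a 0 x = vtx i := by
  classical
  have h0 : ∀ b s, ((d a 0 x : Cell (simplexCx I)).val b) s =
      if (simplexCx I).dim s = 0 then x.val a s else 0 := d_val_apply x a
  have h1 := (d a 0 x : Cell (simplexCx I)).aug_val true
  have h2 : ∃ s, ((d a 0 x : Cell (simplexCx I)).val true) s ≠ 0 := by
    by_contra h3
    push Not at h3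
    have : (d a 0 x : Cell (simplexCx I)).val true = 0 := Finsupp.ext h3
    rw [this, map_zero] at h1
    exact zero_ne_one h1
  obtain ⟨s, hs⟩ := h2
  have h3 : (simplexCx I).dim s = 0 := by
    by_contra h4
    exact hs (by rw [h0, if_neg h4])
  obtain ⟨i, rfl⟩ := dim_eq_zero h3
  refine ⟨i, ?_⟩
  have h4 : (simplexCx I).aug ((d a 0 x : Cell (simplexCx I)).val true -
      Finsupp.single (Smpl.v i) 1) = 0 := by
    rw [map_sub, h1, BCx.aug_single, if_pos (dim_v i), sub_self]
  have h5 : 0 ≤ ((d a 0 x : Cell (simplexCx I)).val true - Finsupp.single (Smpl.v i) 1) := by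
    intro t
    rw [Finsupp.sub_apply, Finsupp.single_apply]
    have := (d a 0 x : Cell (simplexCx I)).nonneg true t
    simp only [Finsupp.coe_zero, Pi.zero_apply] at this ⊢
    split_ifs with h6
    · subst h6
      omega
    · omega
  have h6 : (d a 0 x : Cell (simplexCx I)).val true - Finsupp.single (Smpl.v i) 1 = 0 := by
    ext t
    by_contra h7
    have h8 : (simplexCx I).dim t = 0 := by
      by_contra h9
      apply h7
      rw [Finsupp.sub_apply, h0, if_neg h9, Finsupp.single_apply, if_neg]
      · rfl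
      · rintro rfl
        exact h9 rfl
    rw [BCx.aug, Finsupp.linearCombination_apply, Finsupp.sum] at h4
    have h9 := (Finset.sum_eq_zero_iff_of_nonneg (by
      intro s _
      have := h5 s
      simp only [Finsupp.coe_zero, Pi.zero_apply] at this
      rw [smul_eq_mul]
      split_ifs
      · omega
      · omega)).1 h4 t (Finsupp.mem_support_iff.2 h7)
    rw [if_pos h8, smul_eq_mul, mul_one] at h9
    exact h7 h9
  have h7 := sub_eq_zero.1 h6
  apply Cell.ext
  funext b
  rw [vtx_val, ← h7]
  ext s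
  rw [h0, h0]

end Cells

section FinTwo

theorem smpl_two (s : Smpl (Fin 2)) : s = Smpl.v 0 ∨ s = Smpl.v 1 ∨
    s = Smpl.e 0 1 (by simp) := by
  obtain ⟨l, hl, hp⟩ := s
  match l, hl, hp with
  | [a], _, _ =>
    fin_cases a
    · left; rfl
    · right; left; rfl
  | [a, b], _, hp =>
    right; right
    have h : a < b := by simpa using hp
    have ha : a = 0 := by omega
    have hb : b = 1 := by omega
    subst ha hb
    rfl
  | a :: b :: c :: l, _, hp =>
    exfalso
    simp only [List.pairwise_cons] at hp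
    have h1 : a < b := hp.1 b (by simp)
    have h2 : b < c := hp.2.1 c (by simp)
    omega

theorem val_e (x : Cell (simplexCx (Fin 2))) (a : Bool) :
    x.val a (Smpl.e 0 1 (by simp)) = x.val true (Smpl.v 1) - x.val false (Smpl.v 1) := by
  have h1 := congrArg (fun z => z (Smpl.v 1)) (x.bdry_val a)
  simp only [Finsupp.sub_apply] at h1
  rw [← h1]
  classical
  have h2 : x.val a = Finsupp.single (Smpl.v 0) (x.val a (Smpl.v 0)) +
      Finsupp.single (Smpl.v 1) (x.val a (Smpl.v 1)) +
      Finsupp.single (Smpl.e 0 1 (by simp)) (x.val a (Smpl.e 0 1 (by simp))) := by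
    have n1 : (Smpl.v 0 : Smpl (Fin 2)) ≠ Smpl.v 1 := fun h => by
      simpa using v_injective h
    have n2 : (Smpl.v 0 : Smpl (Fin 2)) ≠ Smpl.e 0 1 (by simp) := fun h => by
      have := congrArg (fun s => s.1.length) h
      simp [Smpl.v, Smpl.e] at this
    have n3 : (Smpl.v 1 : Smpl (Fin 2)) ≠ Smpl.e 0 1 (by simp) := fun h => by
      have := congrArg (fun s => s.1.length) h
      simp [Smpl.v, Smpl.e] at this
    ext s
    simp only [Finsupp.add_apply, Finsupp.single_apply]
    rcases smpl_two s with rfl | rfl | rfl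
    · simp [n1.symm, n2.symm]
    · simp [n1, n3.symm]
    · simp [n2, n3]
  conv_rhs => rw [h2]
  have n1 : ¬ (Smpl.v 0 : Smpl (Fin 2)) = Smpl.v 1 := fun h => by
    simpa using v_injective h
  rw [map_add, map_add, BCx.bdry_single, BCx.bdry_single, BCx.bdry_single, simplexCx_bd_v,
    simplexCx_bd_v, simplexCx_bd_e]
  simp [n1]

/-- Cells of the oriental of dimension one are determined by source and target. -/
theorem cell_two_ext {x y : Cell (simplexCx (Fin 2))}
    (h : ∀ a, (d a 0 x : Cell (simplexCx (Fin 2))) = d a 0 y) : x = y := by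
  have h1 : ∀ (i : Fin 2) (a : Bool), x.val a (Smpl.v i) = y.val a (Smpl.v i) := by
    intro i a
    rw [← d_val_v x a true i, ← d_val_v y a true i, h a]
  apply Cell.ext
  funext a
  ext s
  rcases smpl_two s with rfl | rfl | rfl
  · exact h1 0 a
  · exact h1 1 a
  · rw [val_e, val_e, h1, h1]

theorem le_of_d {x : Cell (simplexCx (Fin 2))} {i j : Fin 2} (hi : d false 0 x = vtx i)
    (hj : d true 0 x = vtx j) : i ≤ j := by
  by_contra hij
  have h1 : i = 1 := by omega
  have h2 : j = 0 := by omega
  subst h1 h2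
  have h3 : x.val false (Smpl.v 1) = 1 := by
    rw [← d_val_v x false true 1, hi, vtx_val, Finsupp.single_eq_same]
  have h4 : x.val true (Smpl.v 1) = 0 := by
    rw [← d_val_v x true true 1, hj, vtx_val, Finsupp.single_apply,
      if_neg (fun h => by simpa using v_injective h)]
  have h5 := val_e x true
  have h6 := x.nonneg true (Smpl.e 0 1 (by simp))
  simp only [Finsupp.coe_zero, Pi.zero_apply] at h6
  omega

theorem isNCat_two {n : ℕ∞} (hn : 1 ≤ n) : (isNCat.{0} n) (oriental.obj ⦋1⦌) := by
  intro k hk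
  have hk1 : 1 ≤ k := by
    have := hn.trans hk
    exact_mod_cast this
  change ∀ x : Cell (simplexCx (Fin 2)), x.dd false k = x
  intro x
  apply Cell.ext
  funext b
  ext s
  rw [Cell.dd_val_apply]
  rcases smpl_two s with rfl | rfl | rfl
  · rw [dim_v, if_pos (by omega)]
  · rw [dim_v, if_pos (by omega)]
  · rw [dim_e]
    rcases Nat.lt_or_ge 1 k with h2 | h2
    · rw [if_pos h2]
    · have : k = 1 := by omega
      subst this
      rw [if_neg (by omega), if_pos rfl, val_e, val_e]

end FinTwo

section Unit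

theorem isIso_unit_of_universal {A : Type u} [Category.{v} A] {D : Type w} [Category.{v} D]
    {c : A ⥤ D} {N : D ⥤ A} (adj : c ⊣ N) {K : A} {X : D} (can : K ⟶ N.obj X) [IsIso can]
    (H : ∀ {Y : D} (g : K ⟶ N.obj Y), ∃ f : X ⟶ Y, can ≫ N.map f = g)
    (H' : ∀ {Y : D} (f f' : X ⟶ Y), can ≫ N.map f = can ≫ N.map f' → f = f') :
    IsIso (adj.unit.app K) := by
  obtain ⟨f2, hf2⟩ := H (adj.unit.app K)
  let f1 : c.obj K ⟶ X := (adj.homEquiv K X).symm can
  have h1 : adj.unit.app K ≫ N.map f1 = can :=
    (adj.homEquiv_unit (f := f1)).symm.trans (Equiv.apply_symm_apply _ _)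
  have h21 : f2 ≫ f1 = 𝟙 X := by
    apply H'
    rw [N.map_comp, ← Category.assoc, hf2, h1, N.map_id, Category.comp_id]
  have h12 : f1 ≫ f2 = 𝟙 _ := by
    apply (adj.homEquiv _ _).injective
    rw [Adjunction.homEquiv_unit, Adjunction.homEquiv_unit, N.map_comp, ← Category.assoc, h1, hf2,
      N.map_id]
    exact (Category.comp_id _).symm
  have : IsIso f2 := ⟨f1, h21, h12⟩
  rw [← hf2]
  infer_instance

variable {n : ℕ∞}

/-- The `m`-th oriental as an `n`-category. -/
noncomputable abbrev orientalN (m : ℕ) (h : (isNCat.{0} n) (oriental.obj ⦋m⦌)) : NCat.{0} n :=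
  ⟨oriental.obj ⦋m⦌, h⟩

/-- The canonical map from the simplex to the nerve of the oriental. -/
noncomputable def canon (m : ℕ) (h : (isNCat.{0} n) (oriental.obj ⦋m⦌)) :
    (Δ[m] : SSet.{0}) ⟶ (nerveN n).obj (orientalN m h) :=
  SSet.yonedaEquiv.symm (𝟙 (oriental.obj ⦋m⦌))

theorem canon_comp (m : ℕ) (h : (isNCat.{0} n) (oriental.obj ⦋m⦌)) {Y : NCat.{0} n}
    (f : orientalN m h ⟶ Y) : SSet.yonedaEquiv (canon m h ≫ (nerveN n).map f) = f.hom := by
  rw [SSet.yonedaEquiv_comp, canon]
  erw [Equiv.apply_symm_apply]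
  exact OmegaFun.ext fun _ => rfl

theorem isIso_unit_of_canon {c : SSet.{0} ⥤ NCat.{0} n} (adj : c ⊣ nerveN n) (m : ℕ)
    (h : (isNCat.{0} n) (oriental.obj ⦋m⦌)) [IsIso (canon m h)] :
    IsIso (adj.unit.app Δ[m]) := by
  apply isIso_unit_of_universal adj (canon m h)
  · intro Y g
    refine ⟨ObjectProperty.homMk (SSet.yonedaEquiv g), ?_⟩
    apply SSet.yonedaEquiv.injective
    rw [canon_comp]
    rfl
  · intro Y f f' hf
    apply ObjectProperty.hom_ext
    rw [← canon_comp, ← canon_comp, hf]

/-- The canonical map on simplices. -/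
theorem canon_app (m : ℕ) (h : (isNCat.{0} n) (oriental.obj ⦋m⦌)) (k : SimplexCategory)
    (x : (Δ[m] : SSet.{0}).obj (op k)) :
    (canon m h).app (op k) x = oriental.map (SSet.stdSimplex.objEquiv x) := by
  exact OmegaFun.ext fun _ => rfl

theorem simplexMap_vtx {I J : Type} [LinearOrder I] [LinearOrder J] (θ : I →o J) (i : I) :
    (vtx i).map (simplexMap θ) = vtx (θ i) := by
  apply Cell.ext
  funext a
  rw [Cell.map_val, vtx_val, vtx_val, BCxHom.lin_single, one_smul]
  change toS (pushL θ (Finsupp.single [i] 1)) = _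
  rw [pushL_single, if_pos (by simp), ← toS_ofS (Finsupp.single (Smpl.v (θ i)) (1 : ℤ)), ofS_single]
  rfl

theorem isIso_canon_of_bijective (m : ℕ) (h : (isNCat.{0} n) (oriental.obj ⦋m⦌))
    (H : ∀ k : SimplexCategory, Function.Bijective
      (fun θ : (k ⟶ ⦋m⦌) => (oriental.map θ : oriental.obj k ⟶ oriental.obj ⦋m⦌))) :
    IsIso (canon m h) := by
  rw [NatTrans.isIso_iff_isIso_app]
  intro k
  rw [isIso_iff_bijective]
  have h1 : (ConcreteCategory.hom ((canon m h).app k) : _ → _) =
      (fun θ => (oriental.map θ : oriental.obj k.unop ⟶ oriental.obj ⦋m⦌)) ∘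
        SSet.stdSimplex.objEquiv := by
    funext x
    exact canon_app m h k.unop x
  rw [h1]
  exact (H k.unop).comp (Equiv.bijective _)

theorem oriental_one_bijective (k : SimplexCategory) : Function.Bijective
      (fun θ : (k ⟶ ⦋1⦌) => (oriental.map θ : oriental.obj k ⟶ oriental.obj ⦋1⦌)) := by
  constructor
  · intro θ θ' hθ
    apply SimplexCategory.Hom.ext
    apply OrderHom.ext
    funext i
    apply vtx_injective
    have h1 : ∀ θ : k ⟶ ⦋1⦌, (oriental.map θ).toFun (vtx i) = vtx (θ.toOrderHom i) :=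
      fun θ => simplexMap_vtx θ.toOrderHom i
    rw [← h1, ← h1]
    exact congrArg (fun (g : OmegaFun (Cell (simplexCx (Fin (k.len + 1))))
      (Cell (simplexCx (Fin 2)))) => g.toFun (vtx i)) hθ
  · intro f
    let f' : OmegaFun (Cell (simplexCx (Fin (k.len + 1)))) (Cell (simplexCx (Fin 2))) := f
    have hv : ∀ i : Fin (k.len + 1), ∃ j : Fin 2, f'.toFun (vtx i) = vtx j := by
      intro i
      obtain ⟨j, hj⟩ := exists_vtx (f'.toFun (vtx i)) false
      refine ⟨j, ?_⟩
      rw [← hj, ← f'.map_d, d_vtx]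
    choose θ hθ using hv
    have hmono : Monotone θ := by
      intro i j hij
      rcases hij.eq_or_lt with rfl | hij
      · exact le_rfl
      · apply le_of_d (x := f'.toFun (edge i j hij))
        · rw [← f'.map_d, d_edge]
          exact hθ i
        · rw [← f'.map_d, d_edge]
          exact hθ j
    refine ⟨SimplexCategory.Hom.mk ⟨θ, hmono⟩, ?_⟩
    have key : ∀ x : Cell (simplexCx (Fin (k.len + 1))),
        (Cell.mapFun (simplexMap ⟨θ, hmono⟩)).toFun x = f'.toFun x := by
      intro x
      apply cell_two_ext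
      intro a
      obtain ⟨i, hi⟩ := exists_vtx x a
      rw [← OmegaFun.map_d, ← OmegaFun.map_d, hi, hθ]
      exact simplexMap_vtx _ _
    exact OmegaFun.ext key

theorem cell_one_eq (x : Cell (simplexCx (Fin 1))) : x = vtx 0 := by
  have h1 : ∀ s : Smpl (Fin 1), s = Smpl.v 0 := by
    rintro ⟨l, hl, hp⟩
    match l, hl, hp with
    | [a], _, _ =>
      obtain rfl : a = 0 := Subsingleton.elim _ _
      rfl
    | a :: b :: l, _, hp =>
      exfalso
      simp only [List.pairwise_cons] at hp
      have h1 : a < b := hp.1 b (by simp)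
      omega
  obtain ⟨i, hi⟩ := exists_vtx x true
  obtain rfl : i = 0 := Subsingleton.elim _ _
  have h2 : ∀ a, x.val a (Smpl.v 0) = 1 := by
    intro a
    obtain ⟨i, hi⟩ := exists_vtx x a
    obtain rfl : i = 0 := Subsingleton.elim _ _
    rw [← d_val_v x a true 0, hi, vtx_val, Finsupp.single_eq_same]
  apply Cell.ext
  funext a
  ext s
  rw [h1 s, h2, vtx_val, Finsupp.single_eq_same]

theorem isNCat_one {n : ℕ∞} : (isNCat.{0} n) (oriental.obj ⦋0⦌) := by
  intro k hk
  change ∀ x : Cell (simplexCx (Fin 1)), x.dd false k = x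
  intro x
  rw [cell_one_eq x, cell_one_eq ((vtx 0).dd false k)]

theorem oriental_zero_bijective (k : SimplexCategory) : Function.Bijective
      (fun θ : (k ⟶ ⦋0⦌) => (oriental.map θ : oriental.obj k ⟶ oriental.obj ⦋0⦌)) := by
  constructor
  · intro θ θ' _
    apply SimplexCategory.Hom.ext
    apply OrderHom.ext
    funext i
    exact Subsingleton.elim (α := Fin 1) _ _
  · intro f
    refine ⟨SimplexCategory.Hom.mk ⟨fun _ => 0, fun _ _ _ => le_rfl⟩, ?_⟩
    apply OmegaFun.ext
    intro x
    exact (cell_one_eq _).trans (cell_one_eq _).symm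

/-- The unit is an isomorphism at `Δ[0]`. -/
theorem isIso_unit_zero {c : SSet.{0} ⥤ NCat.{0} n} (adj : c ⊣ nerveN n) :
    IsIso (adj.unit.app (Δ[0] : SSet.{0})) :=
  have := isIso_canon_of_bijective (n := n) 0 isNCat_one oriental_zero_bijective
  isIso_unit_of_canon adj 0 isNCat_one

/-- The unit is an isomorphism at `Δ[1]`. -/
theorem isIso_unit_one (hn : 1 ≤ n) {c : SSet.{0} ⥤ NCat.{0} n} (adj : c ⊣ nerveN n) :
    IsIso (adj.unit.app (Δ[1] : SSet.{0})) :=
  have := isIso_canon_of_bijective (n := n) 1 (isNCat_two hn) oriental_one_bijective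
  isIso_unit_of_canon adj 1 (isNCat_two hn)

instance : OmegaStr Empty where
  d _ _ x := x
  comp _ x _ _ := x
  finite_dim x := x.elim
  d_d_of_lt _ _ _ _ x := x.elim
  d_d_of_le _ _ _ _ x := x.elim
  src_comp _ x := x.elim
  tgt_comp _ x := x.elim
  d_comp _ _ _ x := x.elim
  id_comp _ x := x.elim
  comp_id _ x := x.elim
  assoc _ x := x.elim
  interchange _ _ x := x.elim

/-- The unit is an isomorphism at the initial simplicial set. -/
theorem isIso_unit_initial {c : SSet.{0} ⥤ NCat.{0} n} (adj : c ⊣ nerveN n) :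
    IsIso (adj.unit.app (⊥_ SSet.{0})) := by
  let E : NCat.{0} n := ⟨OmegaCat.mk Empty, fun _ _ x => x.elim⟩
  let f : (⊥_ SSet.{0}) ⟶ (nerveN n).obj E := initial.to _
  let g : c.obj (⊥_ SSet.{0}) ⟶ E := (adj.homEquiv _ _).symm f
  have h1 : ∀ k, IsEmpty (((nerveN n).obj (c.obj (⊥_ SSet.{0}))).obj k) := by
    intro k
    refine ⟨fun x => ?_⟩
    have y := ((nerveN n).map g).app k x
    exact (y.toFun (vtx (I := Fin (k.unop.len + 1)) 0)).elim
  have h2 : ∀ k, IsEmpty ((⊥_ SSet.{0}).obj k) := by
    intro k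
    refine ⟨fun x => ?_⟩
    exact (h1 k).false ((adj.unit.app (⊥_ SSet.{0})).app k x)
  rw [NatTrans.isIso_iff_isIso_app]
  intro k
  rw [isIso_iff_bijective]
  exact ⟨fun x => ((h2 k).false x).elim, fun x => ((h1 k).false x).elim⟩

/-- `c Δ[0]` is terminal. -/
theorem isTerminal_zero {c : SSet.{0} ⥤ NCat.{0} n} (adj : c ⊣ nerveN n) :
    Nonempty (IsTerminal (c.obj (Δ[0] : SSet.{0}))) := by
  let O : NCat.{0} n := orientalN 0 isNCat_one
  have hO : ∀ {X : NCat.{0} n} (f g : X ⟶ O), f = g := by
    intro X f g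
    apply ObjectProperty.hom_ext
    apply OmegaFun.ext
    intro x
    exact (cell_one_eq _).trans (cell_one_eq _).symm
  let f1 : c.obj Δ[0] ⟶ O := (adj.homEquiv _ _).symm (canon 0 isNCat_one)
  let f2 : O ⟶ c.obj Δ[0] := ObjectProperty.homMk (SSet.yonedaEquiv (adj.unit.app Δ[0]))
  have hf2 : canon 0 isNCat_one ≫ (nerveN n).map f2 = adj.unit.app Δ[0] := by
    apply SSet.yonedaEquiv.injective
    rw [canon_comp]
    rfl
  have h12 : f1 ≫ f2 = 𝟙 _ := by
    apply (adj.homEquiv _ _).injective
    have h1 : adj.unit.app Δ[0] ≫ (nerveN n).map f1 = canon 0 isNCat_one :=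
      (adj.homEquiv_unit (f := f1)).symm.trans (Equiv.apply_symm_apply _ _)
    rw [Adjunction.homEquiv_unit, Adjunction.homEquiv_unit, (nerveN n).map_comp, ← Category.assoc,
      h1, hf2, (nerveN n).map_id]
    exact (Category.comp_id _).symm
  refine ⟨IsTerminal.ofUniqueHom (fun X => ObjectProperty.homMk
    { toFun := fun _ => (vtx 0 : Cell (simplexCx (Fin 1)))
      map_d := fun a m x => (cell_one_eq _).symm
      map_comp := fun m x y h h' => cell_one_eq _ |>.symm } ≫ f2) ?_⟩
  intro X m
  rw [← Category.comp_id m, ← h12, ← Category.assoc]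
  congr 1
  exact hO _ _

/-- The initial object is strict. -/
theorem strict_initial {c : SSet.{0} ⥤ NCat.{0} n} (adj : c ⊣ nerveN n) {X : NCat.{0} n}
    (f : X ⟶ c.obj (⊥_ SSet.{0})) : Nonempty (IsInitial X) := by
  let E : NCat.{0} n := ⟨OmegaCat.mk Empty, fun _ _ x => x.elim⟩
  let g : c.obj (⊥_ SSet.{0}) ⟶ E := (adj.homEquiv _ _).symm (initial.to _)
  have hX : X.obj.carrier → False := fun x => ((f ≫ g).hom.toFun x : Empty).elim
  refine ⟨IsInitial.ofUniqueHom (fun Y => ObjectProperty.homMk
    { toFun := fun x => (hX x).elim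
      map_d := fun a m x => (hX x).elim
      map_comp := fun m x y h h' => (hX x).elim }) ?_⟩
  intro Y m
  apply ObjectProperty.hom_ext
  apply OmegaFun.ext
  intro x
  exact (hX x).elim

end Unit

end Vale.Agent.P213.UnitAx
end

section

/-!
Elementwise description of functors out of `c K`, for `c` left adjoint to the Street nerve.
-/

universe u v w

namespace Vale.Agent.P213

open CategoryTheory Limits OmegaStr Opposite Simplicial

variable {n : ℕ∞}

/-- the strict functor underlying a morphism of strict `n`-categories -/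
def fn {X Y : NCat.{0} n} (f : X ⟶ Y) : OmegaFun X.obj.carrier Y.obj.carrier := f.hom

/-- the morphism of strict `n`-categories given by a strict functor -/
def ofFun {X Y : NCat.{0} n} (f : OmegaFun X.obj.carrier Y.obj.carrier) : X ⟶ Y :=
  ObjectProperty.homMk f

section

variable {X Y Z : NCat.{0} n}

theorem fn_ofFun (f : OmegaFun X.obj.carrier Y.obj.carrier) : fn (ofFun f) = f := rfl

theorem fn_comp (f : X ⟶ Y) (g : Y ⟶ Z) (x : X.obj.carrier) : fn (f ≫ g) x = fn g (fn f x) := rfl

theorem fn_id (x : X.obj.carrier) : fn (𝟙 X) x = x := rfl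

theorem nhom_ext {f g : X ⟶ Y} (h : ∀ x, fn f x = fn g x) : f = g :=
  ObjectProperty.hom_ext _ (OmegaFun.ext h)

end

/-- the strict functor underlying a simplex of the nerve -/
def smp {Z : NCat.{0} n} {p : ℕ} (s : ((nerveN n).obj Z).obj (op ⦋p⦌)) :
    OmegaFun (Cell (simplexCx (Fin (p + 1)))) Z.obj.carrier := s

/-- the simplex of the nerve given by a strict functor -/
def ofSmp {Z : NCat.{0} n} {p : ℕ} (s : OmegaFun (Cell (simplexCx (Fin (p + 1)))) Z.obj.carrier) :
    ((nerveN n).obj Z).obj (op ⦋p⦌) := s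

theorem smp_ofSmp {Z : NCat.{0} n} {p : ℕ}
    (s : OmegaFun (Cell (simplexCx (Fin (p + 1)))) Z.obj.carrier) : smp (ofSmp s) = s := rfl

theorem smp_injective {Z : NCat.{0} n} {p : ℕ} {s t : ((nerveN n).obj Z).obj (op ⦋p⦌)}
    (h : ∀ x, smp s x = smp t x) : s = t := OmegaFun.ext h

theorem smp_map {Z Z' : NCat.{0} n} (f : Z ⟶ Z') {p : ℕ} (s : ((nerveN n).obj Z).obj (op ⦋p⦌))
    (x : Cell (simplexCx (Fin (p + 1)))) :
    smp (((nerveN n).map f).app _ s) x = fn f (smp s x) := rfl

theorem smp_pull {Z : NCat.{0} n} {p q : ℕ} (θ : ⦋q⦌ ⟶ ⦋p⦌)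
    (s : ((nerveN n).obj Z).obj (op ⦋p⦌)) (x : Cell (simplexCx (Fin (q + 1)))) :
    smp (((nerveN n).obj Z).map θ.op s) x = smp s (x.map (simplexMap θ.toOrderHom)) := rfl

section Unit

variable {c : SSet.{0} ⥤ NCat.{0} n} (adj : c ⊣ nerveN n) {K L : SSet.{0}}

/-- the simplex of `c K` given by a simplex of `K` -/
noncomputable def U {p : ℕ} (s : K.obj (op ⦋p⦌)) :
    OmegaFun (Cell (simplexCx (Fin (p + 1)))) (c.obj K).obj.carrier :=
  smp ((adj.unit.app K).app (op ⦋p⦌) s)

theorem fn_c_map (φ : K ⟶ L) {p : ℕ} (s : K.obj (op ⦋p⦌))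
    (x : Cell (simplexCx (Fin (p + 1)))) :
    fn (c.map φ) (U adj s x) = U adj (φ.app _ s) x := by
  have h := NatTrans.congr_app (adj.unit.naturality φ) (op ⦋p⦌)
  have h2 := congrArg (fun z => smp (Z := c.obj L) (z s) x) h
  exact h2.symm

theorem U_pull {p q : ℕ} (θ : ⦋q⦌ ⟶ ⦋p⦌) (s : K.obj (op ⦋p⦌))
    (x : Cell (simplexCx (Fin (q + 1)))) :
    U adj (K.map θ.op s) x = U adj s (x.map (simplexMap θ.toOrderHom)) := by
  have h := (adj.unit.app K).naturality θ.op
  have h2 := congrArg (fun z => smp (Z := c.obj K) (z s) x) h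
  exact h2

theorem c_hom_ext {Z : NCat.{0} n} {f g : c.obj K ⟶ Z}
    (h : ∀ (p : ℕ) (s : K.obj (op ⦋p⦌)) (x : Cell (simplexCx (Fin (p + 1)))),
      fn f (U adj s x) = fn g (U adj s x)) : f = g := by
  apply (adj.homEquiv _ _).injective
  rw [Adjunction.homEquiv_unit, Adjunction.homEquiv_unit]
  ext ⟨k⟩ s
  induction k using SimplexCategory.rec with | _ p
  exact smp_injective (h p s)

theorem exists_c_hom {Z : NCat.{0} n} (φ : K ⟶ (nerveN n).obj Z) : ∃ f : c.obj K ⟶ Z,
    ∀ (p : ℕ) (s : K.obj (op ⦋p⦌)) (x : Cell (simplexCx (Fin (p + 1)))),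
      fn f (U adj s x) = smp (φ.app _ s) x := by
  refine ⟨(adj.homEquiv _ _).symm φ, ?_⟩
  intro p s x
  have h : adj.unit.app K ≫ (nerveN n).map ((adj.homEquiv _ _).symm φ) = φ :=
    (adj.homEquiv_unit (f := (adj.homEquiv _ _).symm φ)).symm.trans
      (Equiv.apply_symm_apply _ _)
  have h1 := NatTrans.congr_app h (op ⦋p⦌)
  exact congrArg (fun z => smp (Z := Z) (z s) x) h1

/-- the top simplex of the standard simplex -/
def top (m : ℕ) : (Δ[m] : SSet.{0}).obj (op ⦋m⦌) := SSet.stdSimplex.objEquiv.symm (𝟙 _)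

theorem eq_map_top {m p : ℕ} (s : (Δ[m] : SSet.{0}).obj (op ⦋p⦌)) :
    s = (Δ[m] : SSet.{0}).map (SSet.stdSimplex.objEquiv s).op (top m) := by
  apply SSet.stdSimplex.objEquiv.injective
  exact (Category.comp_id _).symm

theorem U_simplex {m p : ℕ} (s : (Δ[m] : SSet.{0}).obj (op ⦋p⦌))
    (x : Cell (simplexCx (Fin (p + 1)))) :
    U adj s x = U adj (top m)
      (x.map (simplexMap (SSet.stdSimplex.objEquiv s).toOrderHom)) := by
  conv_lhs => rw [eq_map_top s]
  exact U_pull adj _ _ x

theorem c_simplex_hom_ext {m : ℕ} {Z : NCat.{0} n} {f g : c.obj Δ[m] ⟶ Z}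
    (h : ∀ x : Cell (simplexCx (Fin (m + 1))),
      fn f (U adj (top m) x) = fn g (U adj (top m) x)) : f = g := by
  apply c_hom_ext adj
  intro p s x
  rw [U_simplex adj s x]
  exact h _

theorem exists_c_simplex_hom {m : ℕ} {Z : NCat.{0} n}
    (φ : OmegaFun (Cell (simplexCx (Fin (m + 1)))) Z.obj.carrier) :
    ∃ f : c.obj Δ[m] ⟶ Z, ∀ x : Cell (simplexCx (Fin (m + 1))),
      fn f (U adj (top m) x) = φ x := by
  obtain ⟨f, hf⟩ := exists_c_hom adj (SSet.yonedaEquiv.symm (ofSmp φ))
  refine ⟨f, fun x => ?_⟩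
  rw [hf]
  have h : (SSet.yonedaEquiv.symm (ofSmp φ)).app (op ⦋m⦌) (top m) = ofSmp φ :=
    SSet.yonedaEquiv.apply_symm_apply (ofSmp φ)
  rw [h]
  rfl

end Unit

end Vale.Agent.P213
end

section

/-!
The axioms `exponentiable` and `fiber_simplex` for strict `n`-categories.
-/

universe u v w

namespace Vale.Agent.P213

open CategoryTheory Limits OmegaStr Opposite Simplicial

variable {n : ℕ∞}

/-- the fibre of `F : Y ⟶ O_1` over a vertex -/
def fibN (Y : NCat.{0} n) (F : OmegaFun Y.obj.carrier O1) (e : Fin 2) : NCat.{0} n :=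
  ⟨OmegaCat.mk (fib F e).Carrier, fun k hk x => Subtype.ext (Y.property k hk x.1)⟩

/-- the inclusion of the fibre -/
def fibι (Y : NCat.{0} n) (F : OmegaFun Y.obj.carrier O1) (e : Fin 2) : fibN Y F e ⟶ Y :=
  ofFun (X := fibN Y F e) (fib F e).incl

theorem fn_fibι (Y : NCat.{0} n) (F : OmegaFun Y.obj.carrier O1) (e : Fin 2)
    (x : (fibN Y F e).obj.carrier) : fn (fibι Y F e) x = x.1 := rfl

/-- the cone as a strict `n`-category -/
noncomputable def coneN (hn : 1 ≤ n) (ε : Bool) (Z : NCat.{0} n) : NCat.{0} n :=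
  ⟨OmegaCat.mk (Cone ε Z.obj.carrier), fun k hk x => Cone.isNCat_cone (n := k)
    (by exact_mod_cast hn.trans hk) (Z.property k hk) x⟩

section Pullback

variable {T P Y : NCat.{0} n} (hP : IsTerminal P) (q : OmegaFun T.obj.carrier O1)
  (hq : Function.Injective q) {e : Fin 2} (p : P ⟶ T) (hp : ∀ x, q (fn p x) = Cell.vtx e)
  (a : Y ⟶ T)

include hq hp in
theorem isPullback_fibAx : IsPullback (fibι Y (q.comp (fn a)) e) (hP.from _) a p := by
  have hw : ∀ s : PullbackCone a p, ∀ x, fn s.fst x ∈ (fib (q.comp (fn a)) e).mem := by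
    intro s x
    have h1 := congrArg (fun f => q (fn f x)) s.condition
    exact h1.trans (hp _)
  refine ⟨⟨?_⟩, ⟨PullbackCone.IsLimit.mk _
    (fun s => ofFun (Y := fibN Y (q.comp (fn a)) e)
      ((fib (q.comp (fn a)) e).lift (fn s.fst) (hw s))) ?_ ?_ ?_⟩⟩
  · apply nhom_ext
    intro x
    apply hq
    have h1 : q (fn a x.1) = Cell.vtx e := x.2
    exact h1.trans (hp _).symm
  · intro s
    rfl
  · intro s
    exact hP.hom_ext _ _
  · intro s m h1 h2
    apply nhom_ext
    intro x
    apply Subtype.ext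
    exact congrArg (fun f => fn f x) h1

end Pullback

namespace Cone

variable {ε : Bool} {Z : Type u} [OmegaStr Z] (F : OmegaFun (Cone ε Z) O1)
  (hF : ∀ x, F x = proj ε Z x)

theorem mid_injective : Function.Injective (mid : Z → Cone ε Z) := fun _ _ h => by
  injection h

/-- The fibre of the cone is `Z`. -/
noncomputable def unmid : OmegaFun (fib F (lvMid ε)).Carrier Z where
  toFun x := Classical.choose (exists_mid ((hF x.1).symm.trans x.2))
  map_d b m x := by
    apply mid_injective (ε := ε)
    have h1 := Classical.choose_spec (exists_mid ((hF x.1).symm.trans x.2))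
    have h2 := Classical.choose_spec (exists_mid ((hF (d b m x).1).symm.trans (d b m x).2))
    exact h2.symm.trans (congrArg (d b m) h1)
  map_comp m x y h h' := by
    apply mid_injective (ε := ε)
    have h1 := Classical.choose_spec (exists_mid ((hF x.1).symm.trans x.2))
    have h2 := Classical.choose_spec (exists_mid ((hF y.1).symm.trans y.2))
    have h3 := Classical.choose_spec (exists_mid ((hF (OmegaStr.comp m x y h).1).symm.trans
      (OmegaStr.comp m x y h).2))
    refine h3.symm.trans ?_
    exact compC_congr m h1 h2 _ (congrArg mid h')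

theorem mid_unmid (x : (fib F (lvMid ε)).Carrier) : mid (unmid F hF x) = x.1 :=
  (Classical.choose_spec (exists_mid ((hF x.1).symm.trans x.2))).symm

end Cone

section LeftAdjoint

variable (hn : 1 ≤ n) {T P : NCat.{0} n} (hP : IsTerminal P) (q : OmegaFun T.obj.carrier O1)
  (r : OmegaFun O1 T.obj.carrier) (hqr : ∀ x, q (r x) = x) (hrq : ∀ t, r (q t) = t)
  {ε : Bool} (p : P ⟶ T) (hp : ∀ x, q (fn p x) = Cell.vtx (lvMid ε))

include hn hP q r hqr hrq hp in
theorem isLeftAdjoint_pullback : (Over.pullback p).IsLeftAdjoint := by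
  have hq : Function.Injective q := fun x y h => by rw [← hrq x, ← hrq y, h]
  have : ∀ B : Over P, HasTerminal (CostructuredArrow (Over.pullback p) B) := by
    intro B
    let Z : NCat.{0} n := B.left
    let rh : coneN hn ε Z ⟶ T :=
      ofFun (X := coneN hn ε Z) (r.comp (Cone.proj ε Z.obj.carrier))
    let R : Over T := Over.mk rh
    have pb : ∀ {Y : NCat.{0} n} (a : Y ⟶ T),
        IsPullback (fibι Y (q.comp (fn a)) (lvMid ε)) (hP.from _) a p :=
      fun a => isPullback_fibAx hP q hq p hp a
    have hF : ∀ x, (q.comp (fn rh)) x = Cone.proj ε Z.obj.carrier x := fun x => hqr _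
    let um : fibN (coneN hn ε Z) (q.comp (fn rh)) (lvMid ε) ⟶ Z :=
      ofFun (X := fibN (coneN hn ε Z) (q.comp (fn rh)) (lvMid ε))
        (Cone.unmid (q.comp (fn rh)) hF)
    have hum : ∀ x, Cone.mid (fn um x) = x.1 := Cone.mid_unmid (q.comp (fn rh)) hF
    let cou : (Over.pullback p).obj R ⟶ B :=
      Over.homMk ((pb rh).isoPullback.inv ≫ um) (hP.hom_ext _ _)
    -- characterisation of the triangle
    have tri : ∀ (Y : Over T) (h : Y ⟶ R) (g : (Over.pullback p).obj Y ⟶ B),
        (Over.pullback p).map h ≫ cou = g ↔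
          ∀ x : (fibN Y.left (q.comp (fn Y.hom)) (lvMid ε)).obj.carrier,
            fn h.left x.1 = Cone.mid (fn ((pb Y.hom).isoPullback.hom ≫ g.left) x) := by
      intro Y h g
      have key : ∀ x : (fibN Y.left (q.comp (fn Y.hom)) (lvMid ε)).obj.carrier,
          Cone.mid (fn ((pb Y.hom).isoPullback.hom ≫
            ((Over.pullback p).map h ≫ cou).left) x) = fn h.left x.1 := by
        intro x
        have h1 : fn ((pb Y.hom).isoPullback.hom ≫ ((Over.pullback p).map h ≫ cou).left) x
            = fn um (fn ((pb rh).isoPullback.inv) (fn ((Over.pullback p).map h).left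
              (fn (pb Y.hom).isoPullback.hom x))) := rfl
        rw [h1, hum]
        have h2 : (pb Y.hom).isoPullback.hom ≫ ((Over.pullback p).map h).left ≫
            (pb rh).isoPullback.inv ≫ fibι _ _ _ = fibι _ _ _ ≫ h.left := by
          rw [IsPullback.isoPullback_inv_fst]
          have h3 : ((Over.pullback p).map h).left ≫ pullback.fst R.hom p =
              pullback.fst Y.hom p ≫ h.left := pullback.lift_fst _ _ _
          have h4 := congrArg (fun z => (pb Y.hom).isoPullback.hom ≫ z) h3
          refine h4.trans ?_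
          rw [← Category.assoc, IsPullback.isoPullback_hom_fst]
        exact congrArg (fun z => fn z x) h2
      constructor
      · rintro rfl x
        exact (key x).symm
      · intro hx
        apply Over.OverMorphism.ext
        rw [← cancel_epi (pb Y.hom).isoPullback.hom]
        apply nhom_ext
        intro x
        apply Cone.mid_injective (ε := ε)
        rw [← hx x]
        exact key x
    refine IsTerminal.hasTerminal (X := CostructuredArrow.mk cou)
      (IsTerminal.ofUniqueHom ?_ ?_)
    · intro W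
      let Y : Over T := W.left
      let g : (Over.pullback p).obj Y ⟶ B := W.hom
      let g' : OmegaFun (fib (q.comp (fn Y.hom)) (lvMid ε)).Carrier Z.obj.carrier :=
        fn ((pb Y.hom).isoPullback.hom ≫ g.left)
      let h : Y ⟶ R := Over.homMk (ofFun (Y := coneN hn ε Z)
        (Cone.ext (q.comp (fn Y.hom)) g')) (by
          apply nhom_ext
          intro y
          have h1 : Cone.proj ε Z.obj.carrier (Cone.ext (q.comp (fn Y.hom)) g' y) =
            q (fn Y.hom y) := Cone.proj_ext _ _ y
          exact (congrArg r h1).trans (hrq _))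
      refine CostructuredArrow.homMk h ?_
      rw [CostructuredArrow.mk_hom_eq_self]
      refine (tri Y h g).2 ?_
      intro x
      exact Cone.ext_of_mem (q.comp (fn Y.hom)) g' x.2
    · intro W m
      apply CostructuredArrow.hom_ext
      apply Over.OverMorphism.ext
      let Y : Over T := W.left
      let g : (Over.pullback p).obj Y ⟶ B := W.hom
      have hm : (Over.pullback p).map m.left ≫ cou = g := CostructuredArrow.w m
      have hm' := (tri Y m.left g).1 hm
      apply ObjectProperty.hom_ext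
      let G : OmegaFun Y.left.obj.carrier (Cone ε Z.obj.carrier) := fn m.left.left
      let g' : OmegaFun (fib (q.comp (fn Y.hom)) (lvMid ε)).Carrier Z.obj.carrier :=
        fn ((pb Y.hom).isoPullback.hom ≫ g.left)
      have hG : ∀ y, Cone.proj ε Z.obj.carrier (G y) = q (fn Y.hom y) := by
        intro y
        have h1 : r (Cone.proj ε Z.obj.carrier (G y)) = fn Y.hom y :=
          congrArg (fun z => fn z y) (Over.w m.left)
        rw [← h1, hqr]
      change G = Cone.ext (q.comp (fn Y.hom)) g'
      apply Cone.hom_ext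
      · intro y
        rw [hG, Cone.proj_ext]
        rfl
      · intro y hy
        rw [hG] at hy
        have h1 : (q.comp (fn Y.hom)) y = Cell.vtx (lvMid ε) := hy
        rw [Cone.ext_of_mem _ _ h1]
        exact hm' (fibMk _ y h1)
  exact isLeftAdjoint_of_costructuredArrowTerminals _

end LeftAdjoint

end Vale.Agent.P213
end
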