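import Mathlib

set_option linter.all false

section

/-!
Poset-level combinatorics of the subdivision of simplices, used for the strong anodyne
extension `X ⟶ Ex X` (after S. Moss).
-/

universe u

open CategoryTheory Simplicial PartialOrder

namespace Vale.Agent.P213.KQ

/-- nonempty subsets of `{0, ..., n}` -/
abbrev NF (n : ℕ) : Type u := NonemptyFiniteChains (ULift.{u} (Fin (n + 1)))

/-- membership, natural number version -/
def mem {n : ℕ} (A : NF.{u} n) (x : ℕ) : Prop := ∃ h : x < n + 1, ULift.up ⟨x, h⟩ ∈ A.finset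

lemma mem_lt {n : ℕ} {A : NF.{u} n} {x : ℕ} (h : mem A x) : x < n + 1 := h.1

lemma mem_coe_iff {n : ℕ} {A : NF.{u} n} (x : ULift.{u} (Fin (n + 1))) :
    mem A (x.down : ℕ) ↔ x ∈ A.finset := by
  obtain ⟨x⟩ := x
  exact ⟨fun ⟨_, h⟩ => h, fun h => ⟨x.2, h⟩⟩

lemma nf_ext {n : ℕ} {A B : NF.{u} n} (h : ∀ x, mem A x ↔ mem B x) : A = B := by
  apply NonemptyFiniteChains.ext
  ext x
  rw [← mem_coe_iff, ← mem_coe_iff, h]

lemma nf_le {n : ℕ} {A B : NF.{u} n} : A ≤ B ↔ ∀ x, mem A x → mem B x := by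
  constructor
  · rintro h x ⟨h1, h2⟩
    exact ⟨h1, h h2⟩
  · intro h x hx
    rw [← mem_coe_iff] at hx ⊢
    exact h _ hx

lemma exists_mem {n : ℕ} (A : NF.{u} n) : ∃ x, mem A x := by
  obtain ⟨x, hx⟩ := A.nonempty
  exact ⟨_, (mem_coe_iff x).2 hx⟩

open Classical in
/-- constructor -/
noncomputable def mkNF {n : ℕ} (p : ℕ → Prop) (h : ∃ x, x < n + 1 ∧ p x) : NF.{u} n where
  finset := Finset.univ.filter (fun x => p (x.down : ℕ))
  nonempty := by
    obtain ⟨x, h1, h2⟩ := h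
    exact ⟨ULift.up ⟨x, h1⟩, by simpa using h2⟩
  comparable a b := le_total a.1 b.1

@[simp]
lemma mem_mkNF {n : ℕ} (p : ℕ → Prop) (h : ∃ x, x < n + 1 ∧ p x) (x : ℕ) :
    mem (mkNF.{u} p h) x ↔ x < n + 1 ∧ p x := by
  constructor
  · rintro ⟨h1, h2⟩
    refine ⟨h1, ?_⟩
    simpa [mkNF] using h2
  · rintro ⟨h1, h2⟩
    refine ⟨h1, ?_⟩
    simpa [mkNF] using h2

/-- the closure `J_k`: fill below the maximum if the maximum is at least `k` -/
noncomputable def J (n k : ℕ) : NF.{u} n →o NF.{u} n where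
  toFun A := mkNF (fun x => mem A x ∨ ∃ a, mem A a ∧ k ≤ a ∧ x ≤ a) (by
    obtain ⟨x, hx⟩ := exists_mem A
    exact ⟨x, mem_lt hx, Or.inl hx⟩)
  monotone' A B h := by
    rw [nf_le] at h ⊢
    intro x
    simp only [mem_mkNF]
    rintro ⟨h1, h2 | ⟨a, h2, h3, h4⟩⟩
    · exact ⟨h1, Or.inl (h _ h2)⟩
    · exact ⟨h1, Or.inr ⟨a, h _ h2, h3, h4⟩⟩

@[simp]
lemma mem_J {n k : ℕ} (A : NF.{u} n) (x : ℕ) :
    mem (J n k A) x ↔ mem A x ∨ ∃ a, mem A a ∧ k ≤ a ∧ x ≤ a := by
  change mem (mkNF _ _) x ↔ _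
  rw [mem_mkNF]
  constructor
  · exact fun h => h.2
  · rintro (h | ⟨a, h1, h2, h3⟩)
    · exact ⟨mem_lt h, Or.inl h⟩
    · exact ⟨by have := mem_lt h1; omega, Or.inr ⟨a, h1, h2, h3⟩⟩

/-- the map `ρ_m` -/
noncomputable def rho (n m : ℕ) (hm : m < n + 1) : NF.{u} (n + 1) →o NF.{u} n where
  toFun A := mkNF (fun x => (∃ a, mem A a ∧ (if a ≤ m then a else a - 1) = x) ∨
      (mem A (m + 1) ∧ x ≤ m)) (by
    obtain ⟨x, hx⟩ := exists_mem A
    refine ⟨if x ≤ m then x else x - 1, ?_, Or.inl ⟨x, hx, rfl⟩⟩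
    have := mem_lt hx
    split_ifs <;> omega)
  monotone' A B h := by
    rw [nf_le] at h ⊢
    intro x
    simp only [mem_mkNF]
    rintro ⟨h1, ⟨a, h2, h3⟩ | ⟨h2, h3⟩⟩
    · exact ⟨h1, Or.inl ⟨a, h _ h2, h3⟩⟩
    · exact ⟨h1, Or.inr ⟨h _ h2, h3⟩⟩

@[simp]
lemma mem_rho {n m : ℕ} (hm : m < n + 1) (A : NF.{u} (n + 1)) (x : ℕ) :
    mem (rho n m hm A) x ↔ (∃ a, mem A a ∧ (if a ≤ m then a else a - 1) = x) ∨
      (mem A (m + 1) ∧ x ≤ m) := by
  change mem (mkNF _ _) x ↔ _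
  rw [mem_mkNF]
  constructor
  · exact fun h => h.2
  · rintro (⟨a, h1, h2⟩ | ⟨h1, h2⟩)
    · refine ⟨?_, Or.inl ⟨a, h1, h2⟩⟩
      have := mem_lt h1
      split_ifs at h2 <;> omega
    · exact ⟨by omega, Or.inr ⟨h1, h2⟩⟩

/-- image under a morphism of `SimplexCategory` -/
noncomputable def im {n m : ℕ} (f : ⦋n⦌ ⟶ ⦋m⦌) : NF.{u} n →o NF.{u} m :=
  ((SimplexCategory.toPartOrd ⋙ PartOrd.nonemptyFiniteChainsFunctor).map f).hom

lemma mem_im {n m : ℕ} (f : ⦋n⦌ ⟶ ⦋m⦌) (A : NF.{u} n) (x : ℕ) :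
    mem (im f A) x ↔ ∃ (a : ℕ) (h : a < n + 1), mem A a ∧ ((f ⟨a, h⟩ : Fin (m + 1)) : ℕ) = x := by
  constructor
  · rintro ⟨h1, h2⟩
    simp only [im] at h2
    erw [NonemptyFiniteChains.mem_map_iff] at h2
    obtain ⟨⟨y⟩, h3, h4⟩ := h2
    refine ⟨(y : Fin (n + 1)).1, (y : Fin (n + 1)).2, ⟨(y : Fin (n + 1)).2, h3⟩, ?_⟩
    have := congrArg (fun z : ULift.{u} (Fin (m + 1)) => (z.down : ℕ)) h4
    exact this
  · rintro ⟨a, h1, ⟨h2, h3⟩, rfl⟩
    refine ⟨(f ⟨a, h1⟩).2, ?_⟩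
    simp only [im]
    erw [NonemptyFiniteChains.mem_map_iff]
    exact ⟨_, h3, rfl⟩

lemma mem_im_δ {n : ℕ} (i : Fin (n + 2)) (A : NF.{u} n) (x : ℕ) :
    mem (im (SimplexCategory.δ i) A) x ↔
      ∃ a, mem A a ∧ (if a < (i : ℕ) then a else a + 1) = x := by
  have key : ∀ (a : ℕ) (h : a < n + 1),
      (((SimplexCategory.δ i) ⟨a, h⟩ : Fin (n + 1 + 1)) : ℕ) = if a < (i : ℕ) then a else a + 1 := by
    intro a h
    change ((Fin.succAbove i ⟨a, h⟩ : Fin (n + 2)) : ℕ) = _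
    rw [Fin.succAbove]
    split_ifs with h1 h2 h2
    · rfl
    · exact absurd (Fin.lt_def.1 h1) h2
    · exact absurd (Fin.lt_def.2 h2) h1
    · rfl
  rw [mem_im]
  constructor
  · rintro ⟨a, h, h1, h2⟩
    exact ⟨a, h1, by rw [← h2, key]⟩
  · rintro ⟨a, h1, h2⟩
    exact ⟨a, mem_lt h1, h1, by rw [key, h2]⟩

lemma mem_im_σ {n : ℕ} (i : Fin (n + 1)) (A : NF.{u} (n + 1)) (x : ℕ) :
    mem (im (SimplexCategory.σ i) A) x ↔
      ∃ a, mem A a ∧ (if a ≤ (i : ℕ) then a else a - 1) = x := by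
  have key : ∀ (a : ℕ) (h : a < n + 1 + 1),
      (((SimplexCategory.σ i) ⟨a, h⟩ : Fin (n + 1)) : ℕ) = if a ≤ (i : ℕ) then a else a - 1 := by
    intro a h
    change ((Fin.predAbove i ⟨a, h⟩ : Fin (n + 1)) : ℕ) = _
    rw [Fin.predAbove]
    split_ifs with h1 h2 h2
    · exact absurd h2 (by have := Fin.lt_def.1 h1; simp at this; omega)
    · rfl
    · rfl
    · exact absurd (Fin.lt_def.2 (by simp; omega)) h1
  rw [mem_im]
  constructor
  · rintro ⟨a, h, h1, h2⟩
    exact ⟨a, h1, by rw [← h2, key]⟩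
  · rintro ⟨a, h1, h2⟩
    exact ⟨a, mem_lt h1, h1, by rw [key, h2]⟩

lemma im_comp {a b c : ℕ} (f : ⦋a⦌ ⟶ ⦋b⦌) (g : ⦋b⦌ ⟶ ⦋c⦌) :
    im.{u} (f ≫ g) = (im g).comp (im f) := by
  simp only [im, Functor.map_comp]
  rfl

lemma im_id (a : ℕ) : im.{u} (𝟙 ⦋a⦌) = OrderHom.id := by
  unfold im
  rw [CategoryTheory.Functor.map_id]
  rfl

/-! ### identities -/

lemma J_last (n k : ℕ) (hk : n < k) : J.{u} n k = OrderHom.id := by
  ext A : 2
  apply nf_ext
  intro x
  rw [mem_J, OrderHom.id_coe, id]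
  constructor
  · rintro (h | ⟨a, h1, h2, h3⟩)
    · exact h
    · have := mem_lt h1; omega
  · exact Or.inl

lemma J_comp_J (n j k : ℕ) (h : j ≤ k) : (J.{u} n j).comp (J n k) = J n j := by
  ext A : 2
  apply nf_ext
  intro x
  simp only [OrderHom.comp_coe, Function.comp_apply, mem_J]
  constructor
  · rintro ((h1 | ⟨a, h1, h2, h3⟩) | ⟨a, (h1 | ⟨b, h1, h2, h3⟩), h4, h5⟩)
    · exact Or.inl h1
    · exact Or.inr ⟨a, h1, by omega, h3⟩
    · exact Or.inr ⟨a, h1, h4, h5⟩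
    · exact Or.inr ⟨b, h1, by omega, by omega⟩
  · rintro (h1 | ⟨a, h1, h2, h3⟩)
    · exact Or.inl (Or.inl h1)
    · exact Or.inr ⟨a, Or.inl h1, h2, h3⟩

/-- `J_{j'} ∘ θ ∘ J_j = J_{j'} ∘ θ` when `x ≥ j → θ x ≥ j'`. -/
lemma J_im_J {n m : ℕ} (f : ⦋n⦌ ⟶ ⦋m⦌) (j j' : ℕ)
    (h : ∀ (a : ℕ) (ha : a < n + 1), j ≤ a → j' ≤ ((f ⟨a, ha⟩ : Fin (m + 1)) : ℕ)) :
    (J.{u} m j').comp ((im f).comp (J n j)) = (J m j').comp (im f) := by
  ext A : 2
  apply nf_ext
  intro x
  simp only [OrderHom.comp_coe, Function.comp_apply, mem_J, mem_im]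
  have hmono : ∀ (a b : ℕ) (ha : a < n + 1) (hb : b < n + 1), a ≤ b →
      ((f ⟨a, ha⟩ : Fin (m + 1)) : ℕ) ≤ ((f ⟨b, hb⟩ : Fin (m + 1)) : ℕ) := by
    intro a b ha hb hab
    exact Fin.le_def.1 (f.toOrderHom.monotone (Fin.le_def.2 hab))
  constructor
  · rintro (⟨a, ha, (h1 | ⟨b, h1, h2, h3⟩), rfl⟩ | ⟨c, ⟨a, ha, (h1 | ⟨b, h1, h2, h3⟩), rfl⟩, h4, h5⟩)
    · exact Or.inl ⟨a, ha, h1, rfl⟩
    · exact Or.inr ⟨_, ⟨b, mem_lt h1, h1, rfl⟩, h _ _ h2, hmono _ _ _ _ h3⟩
    · exact Or.inr ⟨_, ⟨a, ha, h1, rfl⟩, h4, h5⟩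
    · exact Or.inr ⟨_, ⟨b, mem_lt h1, h1, rfl⟩, h _ _ h2,
        h5.trans (hmono _ _ _ _ h3)⟩
  · rintro (⟨a, ha, h1, rfl⟩ | ⟨c, ⟨a, ha, h1, rfl⟩, h4, h5⟩)
    · exact Or.inl ⟨a, ha, Or.inl h1, rfl⟩
    · exact Or.inr ⟨_, ⟨a, ha, Or.inl h1, rfl⟩, h4, h5⟩

lemma J_rho_J {n m : ℕ} (hm : m < n + 1) :
    (J.{u} n m).comp ((rho n m hm).comp (J (n + 1) m)) = (J n m).comp (rho n m hm) := by
  ext A : 2
  apply nf_ext
  intro x
  simp only [OrderHom.comp_coe, Function.comp_apply, mem_J, mem_rho]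
  constructor
  · rintro ((⟨a, (h1 | ⟨b, h1, h2, h3⟩), h4⟩ | ⟨(h1 | ⟨b, h1, h2, h3⟩), h4⟩) |
      ⟨c, (⟨a, (h1 | ⟨b, h1, h2, h3⟩), h4⟩ | ⟨(h1 | ⟨b, h1, h2, h3⟩), h4⟩), h5, h6⟩)
    · exact Or.inl (Or.inl ⟨a, h1, h4⟩)
    · refine Or.inr ⟨if b ≤ m then b else b - 1, Or.inl ⟨b, h1, rfl⟩, ?_, ?_⟩
      · split_ifs <;> omega
      · split_ifs at * <;> omega
    · exact Or.inl (Or.inr ⟨h1, h4⟩)
    · refine Or.inr ⟨if b ≤ m then b else b - 1, Or.inl ⟨b, h1, rfl⟩, ?_, ?_⟩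
      · split_ifs <;> omega
      · split_ifs at * <;> omega
    · exact Or.inr ⟨c, Or.inl ⟨a, h1, h4⟩, h5, h6⟩
    · refine Or.inr ⟨if b ≤ m then b else b - 1, Or.inl ⟨b, h1, rfl⟩, ?_, ?_⟩
      · split_ifs <;> omega
      · split_ifs at * <;> omega
    · exact Or.inr ⟨c, Or.inr ⟨h1, h4⟩, h5, h6⟩
    · refine Or.inr ⟨if b ≤ m then b else b - 1, Or.inl ⟨b, h1, rfl⟩, ?_, ?_⟩
      · split_ifs <;> omega
      · split_ifs at * <;> omega
  · rintro ((⟨a, h1, h4⟩ | ⟨h1, h4⟩) | ⟨c, (⟨a, h1, h4⟩ | ⟨h1, h4⟩), h5, h6⟩)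
    · exact Or.inl (Or.inl ⟨a, Or.inl h1, h4⟩)
    · exact Or.inl (Or.inr ⟨Or.inl h1, h4⟩)
    · exact Or.inr ⟨c, Or.inl ⟨a, Or.inl h1, h4⟩, h5, h6⟩
    · exact Or.inr ⟨c, Or.inr ⟨Or.inl h1, h4⟩, h5, h6⟩

lemma J_rho_J' {n m : ℕ} (hm : m < n + 1) :
    (J.{u} n (m + 1)).comp ((rho n m hm).comp (J (n + 1) (m + 1))) =
      (J n (m + 1)).comp (rho n m hm) := by
  ext A : 2
  apply nf_ext
  intro x
  simp only [OrderHom.comp_coe, Function.comp_apply, mem_J, mem_rho]
  constructor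
  · have key : ∀ b, mem A b → m + 1 ≤ b → ∀ y ≤ b - 1,
        ((∃ a, mem A a ∧ (if a ≤ m then a else a - 1) = y) ∨ mem A (m + 1) ∧ y ≤ m) ∨
        ∃ a, ((∃ a_1, mem A a_1 ∧ (if a_1 ≤ m then a_1 else a_1 - 1) = a) ∨
          mem A (m + 1) ∧ a ≤ m) ∧ m + 1 ≤ a ∧ y ≤ a := by
      intro b hb h1 y hy
      by_cases hbm : b = m + 1
      · subst hbm
        exact Or.inl (Or.inr ⟨hb, by omega⟩)
      · refine Or.inr ⟨b - 1, Or.inl ⟨b, hb, ?_⟩, by omega, hy⟩
        rw [if_neg (by omega)]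
    rintro ((⟨a, (h1 | ⟨b, h1, h2, h3⟩), h4⟩ | ⟨(h1 | ⟨b, h1, h2, h3⟩), h4⟩) |
      ⟨c, (⟨a, (h1 | ⟨b, h1, h2, h3⟩), h4⟩ | ⟨(h1 | ⟨b, h1, h2, h3⟩), h4⟩), h5, h6⟩)
    · exact Or.inl (Or.inl ⟨a, h1, h4⟩)
    · exact key b h1 h2 x (by split_ifs at h4 <;> omega)
    · exact Or.inl (Or.inr ⟨h1, h4⟩)
    · exact key b h1 h2 x (by omega)
    · exact Or.inr ⟨c, Or.inl ⟨a, h1, h4⟩, h5, h6⟩
    · exact key b h1 h2 x (by split_ifs at h4 <;> omega)
    · exact Or.inr ⟨c, Or.inr ⟨h1, h4⟩, h5, h6⟩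
    · exact key b h1 h2 x (by omega)
  · rintro ((⟨a, h1, h4⟩ | ⟨h1, h4⟩) | ⟨c, (⟨a, h1, h4⟩ | ⟨h1, h4⟩), h5, h6⟩)
    · exact Or.inl (Or.inl ⟨a, Or.inl h1, h4⟩)
    · exact Or.inl (Or.inr ⟨Or.inl h1, h4⟩)
    · exact Or.inr ⟨c, Or.inl ⟨a, Or.inl h1, h4⟩, h5, h6⟩
    · exact Or.inr ⟨c, Or.inr ⟨Or.inl h1, h4⟩, h5, h6⟩

/-- `ρ_m ∘ δ^{m+1} = id` -/
lemma rho_im_δ {n m : ℕ} (hm : m < n + 1) :
    (rho.{u} n m hm).comp (im (SimplexCategory.δ ⟨m + 1, by omega⟩)) = OrderHom.id := by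
  ext A : 2
  apply nf_ext
  intro x
  simp only [OrderHom.comp_coe, Function.comp_apply, mem_rho, mem_im_δ, OrderHom.id_coe, id]
  constructor
  · rintro (⟨a, ⟨b, h1, h2⟩, h3⟩ | ⟨⟨b, h1, h2⟩, h3⟩)
    · have : x = b := by split_ifs at * <;> omega
      rw [this]; exact h1
    · split_ifs at h2 <;> omega
  · intro h
    refine Or.inl ⟨_, ⟨x, h, rfl⟩, ?_⟩
    split_ifs <;> omega

/-- `ρ_m ∘ δ^i = δ^{i-1} ∘ ρ_m` for `i ≥ m + 2` -/
lemma rho_im_δ_gt {n m : ℕ} (hm : m < n + 1) (i : Fin (n + 2)) (hi : m + 1 ≤ (i : ℕ)) :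
    (rho.{u} (n + 1) m (by omega)).comp (im (SimplexCategory.δ i.succ)) =
      (im (SimplexCategory.δ i)).comp (rho n m hm) := by
  ext A : 2
  apply nf_ext
  intro x
  simp only [OrderHom.comp_coe, Function.comp_apply, mem_rho, mem_im_δ, Fin.val_succ]
  constructor
  · rintro (⟨a, ⟨b, h1, h2⟩, h3⟩ | ⟨⟨b, h1, h2⟩, h3⟩)
    · refine ⟨_, Or.inl ⟨b, h1, rfl⟩, ?_⟩
      split_ifs at * <;> omega
    · refine ⟨x, Or.inr ⟨?_, h3⟩, ?_⟩
      · have : b = m + 1 := by split_ifs at h2 <;> omega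
        rw [← this]; exact h1
      · split_ifs <;> omega
  · rintro ⟨a, (⟨b, h1, h2⟩ | ⟨h1, h2⟩), h3⟩
    · refine Or.inl ⟨_, ⟨b, h1, rfl⟩, ?_⟩
      split_ifs at * <;> omega
    · refine Or.inr ⟨⟨_, h1, ?_⟩, ?_⟩
      · split_ifs <;> omega
      · split_ifs at * <;> omega

/-- `ρ_m ∘ ρ_m = ρ_m ∘ σ^{m+1}` -/
lemma rho_rho {n m : ℕ} (hm : m < n + 1) :
    (rho.{u} n m hm).comp (rho (n + 1) m (by omega)) =
      (rho n m hm).comp (im (SimplexCategory.σ ⟨m + 1, by omega⟩)) := by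
  ext A : 2
  apply nf_ext
  intro x
  simp only [OrderHom.comp_coe, Function.comp_apply, mem_rho, mem_im_σ]
  constructor
  · rintro (⟨a, (⟨b, h1, h2⟩ | ⟨h1, h2⟩), h3⟩ | ⟨(⟨b, h1, h2⟩ | ⟨h1, h2⟩), h3⟩)
    · refine Or.inl ⟨_, ⟨b, h1, rfl⟩, ?_⟩
      split_ifs at * <;> omega
    · refine Or.inr ⟨⟨_, h1, ?_⟩, ?_⟩
      · split_ifs <;> omega
      · split_ifs at * <;> omega
    · refine Or.inr ⟨⟨_, h1, ?_⟩, h3⟩
      split_ifs at * <;> omega
    · omega
  · rintro (⟨a, ⟨b, h1, h2⟩, h3⟩ | ⟨⟨b, h1, h2⟩, h3⟩)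
    · refine Or.inl ⟨_, Or.inl ⟨b, h1, rfl⟩, ?_⟩
      split_ifs at * <;> omega
    · have hb : b = m + 1 ∨ b = m + 2 := by split_ifs at h2 <;> omega
      rcases hb with rfl | rfl
      · exact Or.inl ⟨x, Or.inr ⟨h1, h3⟩, if_pos h3⟩
      · refine Or.inr ⟨Or.inl ⟨_, h1, ?_⟩, h3⟩
        rw [if_neg (by omega)]
        omega

/-- `σ^i ∘ ρ_{m+1} = ρ_m ∘ σ^i` for `i ≤ m` -/
lemma σ_rho_le {n m : ℕ} (hm : m < n + 1) (i : Fin (n + 1)) (hi : (i : ℕ) ≤ m) :
    (im (SimplexCategory.σ i)).comp (rho.{u} (n + 1) (m + 1) (by omega)) =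
      (rho n m hm).comp (im (SimplexCategory.σ i.castSucc)) := by
  ext A : 2
  apply nf_ext
  intro x
  simp only [OrderHom.comp_coe, Function.comp_apply, mem_rho, mem_im_σ, Fin.val_castSucc]
  constructor
  · rintro ⟨a, (⟨b, h1, h2⟩ | ⟨h1, h2⟩), h3⟩
    · refine Or.inl ⟨_, ⟨b, h1, rfl⟩, ?_⟩
      split_ifs at * <;> omega
    · refine Or.inr ⟨⟨_, h1, ?_⟩, ?_⟩
      · split_ifs <;> omega
      · split_ifs at * <;> omega
  · rintro (⟨a, ⟨b, h1, h2⟩, h3⟩ | ⟨⟨b, h1, h2⟩, h3⟩)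
    · refine ⟨_, Or.inl ⟨b, h1, rfl⟩, ?_⟩
      split_ifs at * <;> omega
    · have hb : b = m + 2 := by split_ifs at h2 <;> omega
      subst hb
      by_cases hx : x ≤ i
      · exact ⟨x, Or.inr ⟨h1, by omega⟩, by rw [if_pos hx]⟩
      · exact ⟨x + 1, Or.inr ⟨h1, by omega⟩, by rw [if_neg (by omega)]; omega⟩

/-- `σ^i ∘ ρ_m = ρ_m ∘ σ^{i+1}` for `i > m` -/
lemma σ_rho_gt {n m : ℕ} (hm : m < n + 1) (i : Fin (n + 1)) (hi : m < (i : ℕ)) :
    (im (SimplexCategory.σ i)).comp (rho.{u} (n + 1) m (by omega)) =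
      (rho n m hm).comp (im (SimplexCategory.σ i.succ)) := by
  ext A : 2
  apply nf_ext
  intro x
  simp only [OrderHom.comp_coe, Function.comp_apply, mem_rho, mem_im_σ, Fin.val_succ]
  constructor
  · rintro ⟨a, (⟨b, h1, h2⟩ | ⟨h1, h2⟩), h3⟩
    · refine Or.inl ⟨_, ⟨b, h1, rfl⟩, ?_⟩
      split_ifs at * <;> omega
    · refine Or.inr ⟨⟨_, h1, ?_⟩, ?_⟩
      · split_ifs <;> omega
      · split_ifs at * <;> omega
  · rintro (⟨a, ⟨b, h1, h2⟩, h3⟩ | ⟨⟨b, h1, h2⟩, h3⟩)
    · refine ⟨_, Or.inl ⟨b, h1, rfl⟩, ?_⟩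
      split_ifs at * <;> omega
    · have hb : b = m + 1 := by split_ifs at h2 <;> omega
      subst hb
      refine ⟨x, Or.inr ⟨h1, h3⟩, ?_⟩
      rw [if_pos (by omega)]

end Vale.Agent.P213.KQ
end

section

/-!
Cells of `Ex X` and the operation `P` of Moss' pairing.
-/

universe u

open CategoryTheory Simplicial PartialOrder Opposite

namespace Vale.Agent.P213.KQ

/-- nerve map of an order hom between NFs -/
noncomputable def nm {n m : ℕ} (f : NF.{u} n →o NF.{u} m) :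
    (nerve (NF.{u} n) ⟶ nerve (NF.{u} m)) := nerveMap f.monotone.functor

lemma nm_comp {a b c : ℕ} (g : NF.{u} b →o NF.{u} c) (f : NF.{u} a →o NF.{u} b) :
    nm (g.comp f) = nm f ≫ nm g := rfl

lemma nm_id (a : ℕ) : nm.{u} (OrderHom.id : NF a →o NF a) = 𝟙 _ := rfl

variable {X : SSet.{u}}

/-- simplices of `Ex X` -/
def exEquiv {n : ℕ} : (SSet.ex.{u}.obj X) _⦋n⦌ ≃ (nerve (NF.{u} n) ⟶ X) where
  toFun s := s.down
  invFun t := ULift.up t
  left_inv _ := rfl
  right_inv _ := rfl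

lemma exEquiv_map {n m : ℕ} (f : ⦋n⦌ ⟶ ⦋m⦌) (s : (SSet.ex.{u}.obj X) _⦋m⦌) :
    exEquiv ((SSet.ex.obj X).map f.op s) = nm (im f) ≫ exEquiv s := rfl

/-- pull back of a simplex along an order hom -/
noncomputable def pb {n m : ℕ} (f : NF.{u} n →o NF.{u} m) (s : (SSet.ex.{u}.obj X) _⦋m⦌) :
    (SSet.ex.{u}.obj X) _⦋n⦌ := exEquiv.symm (nm f ≫ exEquiv s)

lemma pb_pb {a b c : ℕ} (f : NF.{u} a →o NF.{u} b) (g : NF.{u} b →o NF.{u} c)
    (s : (SSet.ex.{u}.obj X) _⦋c⦌) : pb f (pb g s) = pb (g.comp f) s := rfl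

lemma pb_id {a : ℕ} (s : (SSet.ex.{u}.obj X) _⦋a⦌) : pb OrderHom.id s = s := rfl

lemma map_eq_pb {n m : ℕ} (f : ⦋n⦌ ⟶ ⦋m⦌) (s : (SSet.ex.{u}.obj X) _⦋m⦌) :
    (SSet.ex.obj X).map f.op s = pb (im f) s := rfl

lemma δ_eq_pb {n : ℕ} (i : Fin (n + 2)) (s : (SSet.ex.{u}.obj X) _⦋n + 1⦌) :
    (SSet.ex.obj X).δ i s = pb (im (SimplexCategory.δ i)) s := rfl

lemma σ_eq_pb {n : ℕ} (i : Fin (n + 1)) (s : (SSet.ex.{u}.obj X) _⦋n⦌) :
    (SSet.ex.obj X).σ i s = pb (im (SimplexCategory.σ i)) s := rfl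

/-- a simplex is `k`-flat -/
def Flat {n : ℕ} (k : ℕ) (s : (SSet.ex.{u}.obj X) _⦋n⦌) : Prop := pb (J n k) s = s

lemma Flat.mono {n : ℕ} {j k : ℕ} {s : (SSet.ex.{u}.obj X) _⦋n⦌} (h : Flat j s) (hjk : j ≤ k) :
    Flat k s := by
  unfold Flat at *
  rw [← h, pb_pb, J_comp_J _ _ _ hjk]

lemma flat_last {n : ℕ} {k : ℕ} (s : (SSet.ex.{u}.obj X) _⦋n⦌) (h : n < k) : Flat k s := by
  unfold Flat
  rw [J_last _ _ h, pb_id]

lemma Flat.pb_im {n m : ℕ} (f : ⦋n⦌ ⟶ ⦋m⦌) {j j' : ℕ} {s : (SSet.ex.{u}.obj X) _⦋m⦌}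
    (hs : Flat j' s)
    (h : ∀ (a : ℕ) (ha : a < n + 1), j ≤ a → j' ≤ ((f ⟨a, ha⟩ : Fin (m + 1)) : ℕ)) :
    Flat j (pb (im f) s) := by
  unfold Flat at *
  rw [← hs, pb_pb, pb_pb, J_im_J f j j' h]
  rfl

lemma coe_δ {n : ℕ} (i : Fin (n + 2)) (a : ℕ) (h : a < n + 1) :
    (((SimplexCategory.δ i) ⟨a, h⟩ : Fin (n + 1 + 1)) : ℕ) =
      if a < (i : ℕ) then a else a + 1 := by
  change ((Fin.succAbove i ⟨a, h⟩ : Fin (n + 2)) : ℕ) = _
  rw [Fin.succAbove]
  split_ifs with h1 h2 h2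
  · rfl
  · exact absurd (Fin.lt_def.1 h1) h2
  · exact absurd (Fin.lt_def.2 h2) h1
  · rfl

lemma coe_σ {n : ℕ} (i : Fin (n + 1)) (a : ℕ) (h : a < n + 1 + 1) :
    (((SimplexCategory.σ i) ⟨a, h⟩ : Fin (n + 1)) : ℕ) =
      if a ≤ (i : ℕ) then a else a - 1 := by
  change ((Fin.predAbove i ⟨a, h⟩ : Fin (n + 1)) : ℕ) = _
  rw [Fin.predAbove]
  split_ifs with h1 h2 h2
  · exact absurd h2 (by have := Fin.lt_def.1 h1; simp at this; omega)
  · rfl
  · rfl
  · exact absurd (Fin.lt_def.2 (by simp; omega)) h1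

lemma Flat.δ {n : ℕ} {j : ℕ} {s : (SSet.ex.{u}.obj X) _⦋n + 1⦌} (hs : Flat j s)
    (i : Fin (n + 2)) : Flat j ((SSet.ex.obj X).δ i s) := by
  rw [δ_eq_pb]
  apply hs.pb_im
  intro a ha h
  rw [coe_δ]
  split_ifs <;> omega

lemma Flat.δ' {n : ℕ} {j : ℕ} {s : (SSet.ex.{u}.obj X) _⦋n + 1⦌} (hs : Flat (j + 1) s)
    (i : Fin (n + 2)) (hi : (i : ℕ) ≤ j) : Flat j ((SSet.ex.obj X).δ i s) := by
  rw [δ_eq_pb]
  apply hs.pb_im
  intro a ha h
  rw [coe_δ]
  split_ifs <;> omega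

lemma Flat.σ {n : ℕ} {j : ℕ} {s : (SSet.ex.{u}.obj X) _⦋n⦌} (hs : Flat j s)
    (i : Fin (n + 1)) : Flat (j + 1) ((SSet.ex.obj X).σ i s) := by
  rw [σ_eq_pb]
  apply hs.pb_im
  intro a ha h
  rw [coe_σ]
  split_ifs <;> omega

lemma Flat.σ' {n : ℕ} {j : ℕ} {s : (SSet.ex.{u}.obj X) _⦋n⦌} (hs : Flat j s)
    (i : Fin (n + 1)) (hi : j ≤ (i : ℕ)) : Flat j ((SSet.ex.obj X).σ i s) := by
  rw [σ_eq_pb]
  apply hs.pb_im
  intro a ha h
  rw [coe_σ]
  split_ifs <;> omega

/-- the operation `P` -/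
noncomputable def PP {n : ℕ} (m : ℕ) (hm : m < n + 1) (s : (SSet.ex.{u}.obj X) _⦋n⦌) :
    (SSet.ex.{u}.obj X) _⦋n + 1⦌ := pb (rho n m hm) s

lemma Flat.PP {n : ℕ} {m : ℕ} (hm : m < n + 1) {s : (SSet.ex.{u}.obj X) _⦋n⦌}
    (hs : Flat m s) : Flat m (PP m hm s) := by
  unfold Flat KQ.PP at *
  rw [← hs, pb_pb, pb_pb, J_rho_J hm]
  rfl

lemma Flat.PP' {n : ℕ} {m : ℕ} (hm : m < n + 1) {s : (SSet.ex.{u}.obj X) _⦋n⦌}
    (hs : Flat (m + 1) s) : Flat (m + 1) (KQ.PP m hm s) := by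
  unfold Flat KQ.PP at *
  rw [← hs, pb_pb, pb_pb, J_rho_J' hm]
  rfl

/-- `m` is the last non-flat vertex of `s` -/
def IsK {n : ℕ} (m : ℕ) (s : (SSet.ex.{u}.obj X) _⦋n⦌) : Prop := Flat (m + 1) s ∧ ¬ Flat m s

lemma IsK.lt {n m : ℕ} {s : (SSet.ex.{u}.obj X) _⦋n⦌} (h : IsK m s) : m < n + 1 := by
  by_contra h'
  exact h.2 (flat_last s (by omega))

lemma IsK.unique {n m m' : ℕ} {s : (SSet.ex.{u}.obj X) _⦋n⦌} (h : IsK m s) (h' : IsK m' s) :
    m = m' := by
  by_contra hne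
  rcases Nat.lt_or_gt_of_ne hne with h1 | h1
  · exact h'.2 (h.1.mono (by omega))
  · exact h.2 (h'.1.mono (by omega))

lemma exists_isK {n : ℕ} {s : (SSet.ex.{u}.obj X) _⦋n⦌} (h : ¬ Flat 0 s) : ∃ m, IsK m s := by
  classical
  have h1 : ∃ k, Flat k s := ⟨n + 1, flat_last s (by omega)⟩
  have h2 := Nat.find_spec h1
  have h3 : Nat.find h1 ≠ 0 := by
    intro h4
    rw [h4] at h2
    exact h h2
  refine ⟨Nat.find h1 - 1, ?_, ?_⟩
  · rwa [Nat.sub_add_cancel (by omega)]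
  · exact Nat.find_min h1 (by omega)

lemma IsK.not_flat_zero {n m : ℕ} {s : (SSet.ex.{u}.obj X) _⦋n⦌} (h : IsK m s) :
    ¬ Flat 0 s := fun h' => h.2 (h'.mono (by omega))

lemma J_one (n : ℕ) : J.{u} n 1 = J n 0 := by
  ext A : 2
  apply nf_ext
  intro x
  simp only [mem_J]
  constructor
  · rintro (h | ⟨a, h1, h2, h3⟩)
    · exact Or.inl h
    · exact Or.inr ⟨a, h1, by omega, h3⟩
  · rintro (h | ⟨a, h1, h2, h3⟩)
    · exact Or.inl h
    · by_cases ha : a = 0
      · have : x = a := by omega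
        rw [this]; exact Or.inl h1
      · exact Or.inr ⟨a, h1, by omega, h3⟩

lemma IsK.pos {n m : ℕ} {s : (SSet.ex.{u}.obj X) _⦋n⦌} (h : IsK m s) : 1 ≤ m := by
  by_contra h'
  have hm : m = 0 := by omega
  subst hm
  obtain ⟨h1, h2⟩ := h
  unfold Flat at *
  rw [zero_add, J_one] at h1
  exact h2 h1

lemma δ_PP {n : ℕ} {m : ℕ} (hm : m < n + 1) (s : (SSet.ex.{u}.obj X) _⦋n⦌) :
    (SSet.ex.obj X).δ ⟨m + 1, by omega⟩ (PP m hm s) = s := by
  rw [δ_eq_pb]
  unfold PP
  rw [pb_pb, rho_im_δ hm, pb_id]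

lemma δ_PP_gt {n : ℕ} {m : ℕ} (hm : m < n + 1) (s : (SSet.ex.{u}.obj X) _⦋n + 1⦌)
    (i : Fin (n + 2)) (hi : m + 1 ≤ (i : ℕ)) :
    (SSet.ex.obj X).δ i.succ (PP m (by omega) s) = PP m hm ((SSet.ex.obj X).δ i s) := by
  rw [δ_eq_pb, δ_eq_pb]
  unfold PP
  rw [pb_pb, pb_pb, rho_im_δ_gt hm i hi]

lemma PP_PP {n : ℕ} {m : ℕ} (hm : m < n + 1) (s : (SSet.ex.{u}.obj X) _⦋n⦌) :
    PP m (by omega) (PP m hm s) = (SSet.ex.obj X).σ ⟨m + 1, by omega⟩ (PP m hm s) := by
  rw [σ_eq_pb]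
  unfold PP
  rw [pb_pb, pb_pb, rho_rho hm]

lemma PP_σ_le {n : ℕ} {m : ℕ} (hm : m < n + 1) (s : (SSet.ex.{u}.obj X) _⦋n⦌)
    (i : Fin (n + 1)) (hi : (i : ℕ) ≤ m) :
    PP (m + 1) (by omega) ((SSet.ex.obj X).σ i s) = (SSet.ex.obj X).σ i.castSucc (PP m hm s) := by
  rw [σ_eq_pb, σ_eq_pb]
  unfold PP
  rw [pb_pb, pb_pb, σ_rho_le hm i hi]

lemma PP_σ_gt {n : ℕ} {m : ℕ} (hm : m < n + 1) (s : (SSet.ex.{u}.obj X) _⦋n⦌)
    (i : Fin (n + 1)) (hi : m < (i : ℕ)) :
    PP m (by omega) ((SSet.ex.obj X).σ i s) = (SSet.ex.obj X).σ i.succ (PP m hm s) := by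
  rw [σ_eq_pb, σ_eq_pb]
  unfold PP
  rw [pb_pb, pb_pb, σ_rho_gt hm i hi]

lemma IsK.PP {n m : ℕ} {s : (SSet.ex.{u}.obj X) _⦋n⦌} (h : IsK m s) : IsK m (PP m h.lt s) := by
  refine ⟨h.1.PP' h.lt, fun h' => h.2 ?_⟩
  have := h'.δ ⟨m + 1, by have := h.lt; omega⟩
  rwa [δ_PP] at this

lemma isK_of_PP {n m : ℕ} (hm : m < n + 1) {s : (SSet.ex.{u}.obj X) _⦋n⦌}
    (h : IsK m (KQ.PP m hm s)) : IsK m s := by
  refine ⟨?_, fun h' => h.2 (h'.PP hm)⟩
  have := h.1.δ ⟨m + 1, by omega⟩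
  rwa [δ_PP] at this

lemma δ_σ_self' {Y : SSet.{u}} {n : ℕ} (i : Fin (n + 1)) (s : Y _⦋n⦌) :
    Y.δ i.castSucc (Y.σ i s) = s := by
  simp

lemma δ_σ_succ' {Y : SSet.{u}} {n : ℕ} (i : Fin (n + 1)) (s : Y _⦋n⦌) :
    Y.δ i.succ (Y.σ i s) = s := by
  simp

lemma isK_σ_le {n m : ℕ} {s : (SSet.ex.{u}.obj X) _⦋n⦌} (h : IsK m s) (i : Fin (n + 1))
    (hi : (i : ℕ) ≤ m) : IsK (m + 1) ((SSet.ex.obj X).σ i s) := by
  refine ⟨h.1.σ i, fun h' => h.2 ?_⟩
  have := h'.δ' i.castSucc (by simpa using hi)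
  rwa [δ_σ_self'] at this

lemma isK_σ_gt {n m : ℕ} {s : (SSet.ex.{u}.obj X) _⦋n⦌} (h : IsK m s) (i : Fin (n + 1))
    (hi : m < (i : ℕ)) : IsK m ((SSet.ex.obj X).σ i s) := by
  refine ⟨h.1.σ' i (by omega), fun h' => h.2 ?_⟩
  have := h'.δ i.castSucc
  rwa [δ_σ_self'] at this

end Vale.Agent.P213.KQ
end

section

/-!
The natural map `X ⟶ Ex X`.
-/

universe u

open CategoryTheory Simplicial PartialOrder Opposite

namespace Vale.Agent.P213

namespace KQ

/-- the last vertex -/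
noncomputable def lastV (n : SimplexCategory) :
    NonemptyFiniteChains (ULift.{u} (Fin (n.len + 1))) →o ULift.{u} (Fin (n.len + 1)) where
  toFun A := A.finset.max' A.nonempty
  monotone' _ _ h := Finset.max'_subset _ h

/-- the section of the last vertex map -/
noncomputable def secV (n : SimplexCategory) :
    ULift.{u} (Fin (n.len + 1)) →o NonemptyFiniteChains (ULift.{u} (Fin (n.len + 1))) where
  toFun i := ⟨Finset.univ.filter (fun j => j ≤ i), ⟨i, by simp⟩, fun a b => le_total a.1 b.1⟩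
  monotone' i j h := by
    intro x hx
    simp only [Finset.mem_filter, Finset.mem_univ, true_and] at hx ⊢
    exact hx.trans h

lemma mem_secV (n : SimplexCategory) (i j : ULift.{u} (Fin (n.len + 1))) :
    j ∈ (secV n i).finset ↔ j ≤ i := by
  change j ∈ Finset.univ.filter (fun j => j ≤ i) ↔ _
  simp

lemma lastV_secV (n : SimplexCategory) : (lastV.{u} n).comp (secV n) = OrderHom.id := by
  ext i : 2
  simp only [OrderHom.comp_coe, Function.comp_apply, OrderHom.id_coe, id]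
  apply le_antisymm
  · exact Finset.max'_le (secV n i).finset (secV n i).nonempty i
      (fun y hy => (mem_secV n i y).1 hy)
  · exact Finset.le_max' (secV n i).finset i ((mem_secV n i i).2 le_rfl)

lemma max'_map {α β : Type u} [LinearOrder α] [LinearOrder β] (g : α →o β)
    (A : NonemptyFiniteChains α) :
    (A.map g).finset.max' (A.map g).nonempty = g (A.finset.max' A.nonempty) := by
  apply le_antisymm
  · refine Finset.max'_le _ _ _ (fun y hy => ?_)
    rw [NonemptyFiniteChains.mem_map_iff] at hy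
    obtain ⟨z, hz, rfl⟩ := hy
    exact g.monotone (Finset.le_max' _ _ hz)
  · refine Finset.le_max' _ _ ?_
    rw [NonemptyFiniteChains.mem_map_iff]
    exact ⟨_, Finset.max'_mem _ _, rfl⟩

lemma secV_lastV (n : ℕ) : (secV.{u} ⦋n⦌).comp (lastV ⦋n⦌) = J n 0 := by
  ext A : 2
  apply nf_ext
  intro x
  rw [mem_J]
  simp only [OrderHom.comp_coe, Function.comp_apply]
  have hn : (⦋n⦌ : SimplexCategory).len = n := rfl
  constructor
  · rintro ⟨h1, h2⟩
    refine Or.inr ⟨((A.finset.max' A.nonempty).down : ℕ), (mem_coe_iff _).2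
      (Finset.max'_mem _ _), by omega, ?_⟩
    exact (mem_secV _ _ _).1 h2
  · intro h
    obtain ⟨a, h1, h2⟩ : ∃ a, mem A a ∧ x ≤ a := by
      rcases h with h | ⟨a, h1, _, h2⟩
      · exact ⟨x, h, le_rfl⟩
      · exact ⟨a, h1, h2⟩
    obtain ⟨h3, h4⟩ := h1
    have h5 := Finset.le_max' _ _ h4
    have h3' : x < n + 1 := by omega
    refine ⟨h3', ?_⟩
    refine (mem_secV _ _ _).2 ?_
    refine le_trans ?_ h5
    exact h2

/-- the last vertex map `Sd Δ[n] ⟶ Δ[n]` -/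
noncomputable def lastVertex : SimplexCategory.sd.{u} ⟶ SSet.stdSimplex.{u} where
  app n := (nerveMap (lastV.{u} n).monotone.functor :
      nerve (NonemptyFiniteChains (ULift.{u} (Fin (n.len + 1)))) ⟶
        nerve (ULift.{u} (Fin (n.len + 1)))) ≫ (SSet.stdSimplex.isoNerve n.len).inv
  naturality n m f := by
    have h1 : (lastV.{u} m).comp
        (((SimplexCategory.toPartOrd ⋙ PartOrd.nonemptyFiniteChainsFunctor).map f).hom) =
        ((SimplexCategory.toPartOrd.map f).hom).comp (lastV n) := by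
      ext A : 2
      let g : ULift.{u} (Fin (n.len + 1)) →o ULift.{u} (Fin (m.len + 1)) :=
        (SimplexCategory.toPartOrd.map f).hom
      exact max'_map g A
    ext d x
    apply SSet.stdSimplex.ext
    intro i
    have h2 := congrArg (fun g : NonemptyFiniteChains (ULift.{u} (Fin (n.len + 1))) →o
        ULift.{u} (Fin (m.len + 1)) => (g (x.obj i)).down) h1
    exact h2

end KQ

open KQ

/-- the natural map `X ⟶ Ex X` -/
noncomputable def toEx : 𝟭 SSet.{u} ⟶ SSet.ex.{u} where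
  app X :=
    { app U := ↾fun x => ULift.up (lastVertex.app U.unop ≫ SSet.yonedaEquiv.symm x)
      naturality U V f := by
        ext x
        apply ULift.down_injective
        change lastVertex.app V.unop ≫ SSet.yonedaEquiv.symm (X.map f x) =
          SimplexCategory.sd.map f.unop ≫ lastVertex.app U.unop ≫ SSet.yonedaEquiv.symm x
        rw [← Category.assoc, lastVertex.naturality, Category.assoc]
        congr 1
        ext d y
        change X.map (SSet.stdSimplex.objEquiv y).op (X.map f x) =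
          X.map (SSet.stdSimplex.objEquiv (SSet.stdSimplex.map f.unop |>.app d y)).op x
        rw [← CategoryTheory.Functor.map_comp_apply]
        rfl }
  naturality X Y g := by
    ext U x
    apply ULift.down_injective
    change lastVertex.app U.unop ≫ SSet.yonedaEquiv.symm (g.app U x) =
      (lastVertex.app U.unop ≫ SSet.yonedaEquiv.symm x) ≫ g
    rw [Category.assoc, SSet.yonedaEquiv_symm_comp]

/-- the last vertex map `Sd K ⟶ K`, adjoint transpose of `toEx` -/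
noncomputable def sdLast : SSet.sd.{u} ⟶ 𝟭 SSet.{u} where
  app K := (SSet.sdExAdjunction.homEquiv K K).symm (toEx.app K)
  naturality K L f := by
    have h := toEx.naturality f
    dsimp at h ⊢
    rw [← Adjunction.homEquiv_naturality_left_symm, ← Adjunction.homEquiv_naturality_right_symm, h]

lemma toEx_transpose (K : SSet.{u}) :
    SSet.sdExAdjunction.homEquiv K K (sdLast.app K) = toEx.app K :=
  Equiv.apply_symm_apply _ _

namespace KQ

lemma exEquiv_toEx {X : SSet.{u}} {n : ℕ} (x : X _⦋n⦌) :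
    exEquiv ((toEx.app X).app (op ⦋n⦌) x) = nerveMap (lastV.{u} ⦋n⦌).monotone.functor ≫
      (SSet.stdSimplex.isoNerve n).inv ≫ SSet.yonedaEquiv.symm x := rfl

lemma flat_zero_toEx {X : SSet.{u}} {n : ℕ} (x : X _⦋n⦌) :
    Flat 0 ((toEx.app X).app (op ⦋n⦌) x) := by
  unfold Flat pb
  apply exEquiv.injective
  rw [Equiv.apply_symm_apply, exEquiv_toEx, ← secV_lastV]
  have h1 : (lastV.{u} ⦋n⦌).comp ((secV.{u} ⦋n⦌).comp (lastV ⦋n⦌)) = lastV ⦋n⦌ := by
    change ((lastV.{u} ⦋n⦌).comp (secV.{u} ⦋n⦌)).comp (lastV ⦋n⦌) = _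
    rw [lastV_secV]
    rfl
  have h2 : nm ((secV.{u} ⦋n⦌).comp (lastV ⦋n⦌)) ≫ nerveMap (lastV.{u} ⦋n⦌).monotone.functor =
      nerveMap ((lastV.{u} ⦋n⦌).comp ((secV.{u} ⦋n⦌).comp (lastV ⦋n⦌))).monotone.functor := rfl
  rw [← Category.assoc, h2, h1]

lemma flat_zero_iff {X : SSet.{u}} {n : ℕ} (s : (SSet.ex.{u}.obj X) _⦋n⦌) :
    Flat 0 s ↔ ∃ x : X _⦋n⦌, (toEx.app X).app (op ⦋n⦌) x = s := by
  constructor
  · intro h
    refine ⟨SSet.yonedaEquiv ((SSet.stdSimplex.isoNerve n).hom ≫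
      nerveMap (secV.{u} ⦋n⦌).monotone.functor ≫ exEquiv s), ?_⟩
    apply exEquiv.injective
    rw [exEquiv_toEx, Equiv.symm_apply_apply, Iso.inv_hom_id_assoc]
    unfold Flat pb at h
    rw [← secV_lastV] at h
    have h2 := congrArg exEquiv h
    rw [Equiv.apply_symm_apply] at h2
    exact h2
  · rintro ⟨x, rfl⟩
    exact flat_zero_toEx x

lemma toEx_injective {X : SSet.{u}} {n : ℕ} :
    Function.Injective ((toEx.app X).app (op ⦋n⦌)) := by
  intro x y h
  have h1 := congrArg exEquiv h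
  rw [exEquiv_toEx, exEquiv_toEx] at h1
  have h2 := congrArg (fun t => nerveMap (secV.{u} ⦋n⦌).monotone.functor ≫ t) h1
  simp only [← Category.assoc] at h2
  have h3 : nerveMap (secV.{u} ⦋n⦌).monotone.functor ≫
      nerveMap (lastV.{u} ⦋n⦌).monotone.functor = 𝟙 _ := by
    change nerveMap ((lastV.{u} ⦋n⦌).comp (secV ⦋n⦌)).monotone.functor = _
    rw [lastV_secV]
    rfl
  rw [h3, Category.id_comp] at h2
  rw [cancel_epi] at h2
  exact SSet.yonedaEquiv.symm.injective h2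

instance {X : SSet.{u}} : Mono (toEx.app X) := by
  rw [NatTrans.mono_iff_mono_app]
  rintro ⟨⟨n⟩⟩
  rw [mono_iff_injective]
  exact toEx_injective

end KQ

end Vale.Agent.P213
end

section

/-!
`X ⟶ Ex X` is a strong anodyne extension (S. Moss).
-/

universe u

open CategoryTheory Simplicial PartialOrder Opposite

namespace Vale.Agent.P213

namespace KQ

variable {X : SSet.{u}}

/-- abbreviation for `Ex X` -/
noncomputable abbrev EX (X : SSet.{u}) : SSet.{u} := SSet.ex.{u}.obj X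

lemma degenerate_σ_iff {Y : SSet.{u}} {n : ℕ} (x : Y _⦋n + 1⦌) :
    x ∈ Y.degenerate (n + 1) ↔ ∃ (i : Fin (n + 1)) (y : Y _⦋n⦌), Y.σ i y = x := by
  rw [SSet.degenerate_eq_iUnion_range_σ]
  simp

/-- `P` of a degenerate simplex is degenerate -/
lemma PP_degenerate {n m : ℕ} (s : (EX X) _⦋n⦌) (h : IsK m s) (hs : s ∈ (EX X).degenerate n) :
    PP m h.lt s ∈ (EX X).degenerate (n + 1) := by
  obtain _ | n := n
  · simp at hs
  · rw [degenerate_σ_iff] at hs
    obtain ⟨i, t, rfl⟩ := hs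
    have ht : ¬ Flat 0 t := fun h0 => h.not_flat_zero (h0.σ' i (by omega))
    obtain ⟨m', hm'⟩ := exists_isK ht
    by_cases hi : (i : ℕ) ≤ m'
    · obtain rfl : m = m' + 1 := h.unique (isK_σ_le hm' i hi)
      rw [PP_σ_le hm'.lt t i hi]
      exact SSet.σ_mem_degenerate _ _ _
    · push Not at hi
      obtain rfl : m = m' := h.unique (isK_σ_gt hm' i hi)
      rw [PP_σ_gt hm'.lt t i hi]
      exact SSet.σ_mem_degenerate _ _ _

/-- type (II) simplices -/
structure Cell (X : SSet.{u}) : Type u where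
  n : ℕ
  m : ℕ
  s : (SSet.ex.{u}.obj X) _⦋n + 1⦌
  isK : IsK m s
  nd : s ∈ (SSet.ex.{u}.obj X).nonDegenerate (n + 1)
  notP : ∀ (t : (SSet.ex.{u}.obj X) _⦋n⦌) (hm : m < n + 1), PP m hm t ≠ s

lemma Cell.lt (c : Cell X) : c.m < c.n + 1 + 1 := c.isK.lt

/-- the type (I) simplex attached to a type (II) simplex -/
noncomputable def Cell.P (c : Cell X) : (EX X) _⦋c.n + 2⦌ := PP c.m c.lt c.s

lemma Cell.δ_P (c : Cell X) : (EX X).δ ⟨c.m + 1, by have := c.lt; omega⟩ c.P = c.s := δ_PP c.lt c.s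

lemma Cell.isK_P (c : Cell X) : IsK c.m c.P := c.isK.PP

lemma Cell.δ_P_gt (c : Cell X) (i : Fin (c.n + 2)) (hi : c.m + 1 ≤ (i : ℕ)) :
    (EX X).δ i.succ c.P = PP c.m (by omega) ((EX X).δ i c.s) := δ_PP_gt (by omega) c.s i hi

/-- only one face of `P s` is `s` -/
lemma Cell.eq_of_δ_P (c : Cell X) (i : Fin (c.n + 3)) (hi : (EX X).δ i c.P = c.s) :
    (i : ℕ) = c.m + 1 := by
  by_contra hne
  rcases Nat.lt_or_gt_of_ne hne with h | h
  · have h1 := c.isK_P.1.δ' i (by omega)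
    rw [hi] at h1
    exact c.isK.2 h1
  · obtain ⟨j, rfl⟩ := Fin.exists_succ_eq.2 (show i ≠ 0 by
      intro h0; subst h0; simp at h)
    rw [Fin.val_succ] at h
    rw [c.δ_P_gt j (by omega)] at hi
    exact c.notP _ _ hi

lemma Cell.P_nonDegenerate (c : Cell X) : c.P ∈ (EX X).nonDegenerate (c.n + 2) := by
  rw [SSet.mem_nonDegenerate_iff_notMem_degenerate]
  intro hdeg
  rw [degenerate_σ_iff] at hdeg
  obtain ⟨i, t, hi⟩ := hdeg
  have h1 : (EX X).map (SimplexCategory.δ ⟨c.m + 1, by have := c.lt; omega⟩ ≫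
      SimplexCategory.σ i).op t = c.s := by
    rw [← c.δ_P, ← hi]
    rw [op_comp, Functor.map_comp_apply]
    rfl
  have h2 := (EX X).mono_of_nonDegenerate ⟨c.s, c.nd⟩ _ _ h1
  have h3 := @SimplexCategory.eq_id_of_mono _ _ h2
  rw [h3] at h1
  have h4 : t = c.s := by rw [← h1]; simp
  subst h4
  have h5 := c.eq_of_δ_P i.castSucc (by rw [← hi]; simp)
  have h6 := c.eq_of_δ_P i.succ (by rw [← hi]; simp)
  simp only [Fin.val_castSucc, Fin.val_succ] at h5 h6
  omega

lemma Cell.ext' {c c' : Cell X} (h : SSet.S.mk c.s = SSet.S.mk c'.s) : c = c' := by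
  obtain ⟨n, m, s, h1, h2, h3⟩ := c
  obtain ⟨n', m', s', h1', h2', h3'⟩ := c'
  have hn : n + 1 = n' + 1 := congrArg SSet.S.dim h
  obtain rfl : n = n' := by omega
  rw [SSet.S.mk.injEq] at h
  have hs : s = s' := eq_of_heq h.2
  subst hs
  obtain rfl : m = m' := h1.unique h1'
  rfl

lemma Cell.not_flat_zero_s (c : Cell X) : ¬ Flat 0 c.s := c.isK.not_flat_zero

lemma Cell.not_flat_zero_P (c : Cell X) : ¬ Flat 0 c.P := c.isK_P.not_flat_zero

lemma Cell.P_ne_s (c c' : Cell X) : SSet.S.mk c.P ≠ SSet.S.mk c'.s := by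
  intro h
  obtain ⟨n', m', s', h1', h2', h3'⟩ := c'
  have hn : c.n + 2 = n' + 1 := congrArg SSet.S.dim h
  obtain rfl : n' = c.n + 1 := by omega
  rw [SSet.S.mk.injEq] at h
  have hs : c.P = s' := eq_of_heq h.2
  subst hs
  obtain rfl : m' = c.m := h1'.unique c.isK_P
  exact h3' c.s c.lt rfl

/-- every nondegenerate simplex not in `X` is of type (I) or (II) -/
lemma exists_cell {n : ℕ} (s : (EX X) _⦋n⦌) (hs : s ∈ (EX X).nonDegenerate n)
    (h0 : ¬ Flat 0 s) :
    ∃ c : Cell X, SSet.S.mk s = SSet.S.mk c.P ∨ SSet.S.mk s = SSet.S.mk c.s := by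
  obtain ⟨m, hm⟩ := exists_isK h0
  obtain _ | n := n
  · have := hm.lt
    have := hm.pos
    omega
  by_cases h : ∃ (t : (EX X) _⦋n⦌) (hmn : m < n + 1), PP m hmn t = s
  · obtain ⟨t, hmn, rfl⟩ := h
    have htK : IsK m t := isK_of_PP hmn hm
    have htnd : t ∈ (EX X).nonDegenerate n := by
      by_contra h1
      rw [← SSet.mem_degenerate_iff_notMem_nonDegenerate] at h1
      exact hs (PP_degenerate t htK h1)
    obtain _ | n := n
    · have := htK.lt
      have := htK.pos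
      omega
    refine ⟨⟨n, m, t, htK, htnd, ?_⟩, Or.inl rfl⟩
    rintro t' hm' rfl
    apply hs
    have := PP_PP hm' t'
    rw [this]
    exact SSet.σ_mem_degenerate _ _ _
  · exact ⟨⟨n, m, s, hm, hs, fun t hmn h' => h ⟨t, hmn, h'⟩⟩, Or.inr rfl⟩

/-- the subcomplex `X` of `Ex X` -/
noncomputable abbrev sub (X : SSet.{u}) : (EX X).Subcomplex := SSet.Subcomplex.range (toEx.app X)

lemma mem_sub_iff {n : ℕ} (s : (EX X) _⦋n⦌) : s ∈ (sub X).obj (op ⦋n⦌) ↔ Flat 0 s := by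
  rw [flat_zero_iff]
  rfl

/-- Moss' pairing -/
noncomputable def core (X : SSet.{u}) : (sub X).PairingCore where
  ι := Cell X
  dim c := c.n + 1
  simplex c := c.P
  index c := ⟨c.m + 1, by have := c.lt; omega⟩
  nonDegenerate₁ c := c.P_nonDegenerate
  nonDegenerate₂ c := by rw [c.δ_P]; exact c.nd
  notMem₁ c := by rw [mem_sub_iff]; exact c.not_flat_zero_P
  notMem₂ c := by rw [c.δ_P, mem_sub_iff]; exact c.not_flat_zero_s
  injective_type₁' {c c'} h := by
    have hn : c.n + 2 = c'.n + 2 := congrArg SSet.S.dim h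
    obtain ⟨n, m, s, h1, h2, h3⟩ := c
    obtain ⟨n', m', s', h1', h2', h3'⟩ := c'
    obtain rfl : n = n' := by simpa using hn
    rw [SSet.S.mk.injEq] at h
    have hs := eq_of_heq h.2
    have h4 := Cell.isK_P ⟨n, m, s, h1, h2, h3⟩
    rw [hs] at h4
    obtain rfl : m = m' := h4.unique (Cell.isK_P ⟨n, m', s', h1', h2', h3'⟩)
    have h5 := Cell.δ_P ⟨n, m, s, h1, h2, h3⟩
    have h6 := Cell.δ_P ⟨n, m, s', h1', h2', h3'⟩
    rw [hs] at h5
    obtain rfl : s = s' := h5.symm.trans h6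
    rfl
  injective_type₂' {c c'} h := by
    rw [c.δ_P, c'.δ_P] at h
    exact Cell.ext' h
  type₁_ne_type₂' c c' := by
    rw [c'.δ_P]
    exact c.P_ne_s c'
  surjective' x := by
    obtain ⟨n, x, hx, hx', rfl⟩ := x.mk_surjective
    rw [mem_sub_iff] at hx'
    obtain ⟨c, hc⟩ := exists_cell x hx hx'
    refine ⟨c, ?_⟩
    rw [c.δ_P]
    exact hc

lemma core_type₂ (c : Cell X) : ((core X).type₂ c).toS = SSet.S.mk c.s :=
  congrArg SSet.S.mk c.δ_P

lemma core_type₁ (c : Cell X) : ((core X).type₁ c).toS = SSet.S.mk c.P := rfl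

instance : (core X).IsProper where
  isUniquelyCodimOneFace c := by
    have := (SSet.S.IsUniquelyCodimOneFace.iff (X := EX X) c.s c.P).2
      ⟨⟨c.m + 1, by have := c.lt; omega⟩, c.δ_P, fun i hi => Fin.ext (c.eq_of_δ_P i hi)⟩
    have h2 := core_type₂ c
    rw [← h2] at this
    exact this

/-- key estimate for the ancestrality relation -/
lemma rank_lt {n m m' : ℕ} {s s' : (EX X) _⦋n + 1⦌} (hm : IsK m s) (hm' : IsK m' s')
    (hs : ∀ (t : (EX X) _⦋n⦌) (h : m < n + 1), PP m h t ≠ s) (hne : s ≠ s')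
    (i : Fin (n + 3)) (hi : (EX X).δ i (PP m' hm'.lt s') = s) : m < m' := by
  rcases lt_trichotomy (i : ℕ) (m' + 1) with h | h | h
  · have h1 := hm'.PP.1.δ' i (by omega)
    rw [hi] at h1
    by_contra h2
    exact hm.2 (h1.mono (by omega))
  · exfalso
    apply hne
    rw [← hi]
    have : i = ⟨m' + 1, by have := hm'.lt; omega⟩ := Fin.ext h
    rw [this]
    exact δ_PP hm'.lt s'
  · obtain ⟨j, rfl⟩ := Fin.exists_succ_eq.2 (show i ≠ 0 by
      intro h0; subst h0; simp at h)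
    rw [Fin.val_succ] at h
    have hlt : m' < n + 1 := by have := j.2; omega
    rw [δ_PP_gt hlt s' j (by omega)] at hi
    have h1 : Flat (m' + 1) ((EX X).δ j s') := hm'.1.δ j
    by_cases h2 : Flat m' ((EX X).δ j s')
    · have h3 := h2.PP hlt
      rw [hi] at h3
      by_contra h4
      exact hm.2 (h3.mono (by omega))
    · exfalso
      have h3 : IsK m' (PP m' hlt ((EX X).δ j s')) := IsK.PP ⟨h1, h2⟩
      rw [hi] at h3
      obtain rfl := hm.unique h3
      exact hs _ _ hi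

/-- the weak rank function -/
noncomputable def coreRank (X : SSet.{u}) : (core X).WeakRankFunction ℕ where
  rank c := c.m
  lt {c c'} h hdim := by
    obtain ⟨hne, hlt⟩ := h
    obtain ⟨f, hf, hfs⟩ := SSet.N.le_iff_exists_mono.1 (SSet.Subcomplex.N.le_iff.1 hlt.le)
    obtain ⟨n, m, s, h1, h2, h3⟩ := c
    obtain ⟨n', m', s', h1', h2', h3'⟩ := c'
    obtain rfl : n = n' := by
      have : n + 1 = n' + 1 := hdim
      omega
    have hfs' : (EX X).map f.op (PP m' h1'.lt s') = s := by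
      refine hfs.trans ?_
      exact Cell.δ_P ⟨n, m, s, h1, h2, h3⟩
    have hf' : Mono (show ⦋n + 1⦌ ⟶ ⦋n + 1 + 1⦌ from f) := hf
    obtain ⟨i, hi⟩ := SimplexCategory.eq_δ_of_mono (show ⦋n + 1⦌ ⟶ ⦋n + 1 + 1⦌ from f)
    replace hi : f = SimplexCategory.δ i := hi
    rw [hi] at hfs'
    refine rank_lt h1 h1' h3 ?_ i hfs'
    rintro rfl
    apply hne
    obtain rfl := h1.unique h1'
    rfl

theorem toEx_strongAnodyne (X : SSet.{u}) : SSet.strongAnodyneExtensions (toEx.app X) := by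
  refine ⟨inferInstance, (core X).pairing, ?_⟩
  have : (core X).IsRegular := (coreRank X).isRegular
  infer_instance

end KQ

lemma anodyne_toEx (K : SSet.{u}) : SSet.anodyneExtensions (toEx.app K) :=
  SSet.strongAnodyneExtensions_le_anodyneExtensions _ (KQ.toEx_strongAnodyne K)

end Vale.Agent.P213
end

section

/-!
Anodyne inclusions of full subcomplexes of nerves of posets, via toggling of chains.
-/

universe u

open CategoryTheory Simplicial PartialOrder Opposite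

namespace Vale.Agent.P213.KQ

variable {B : Type u} [PartialOrder B]

/-- full subcomplex of the nerve on a set of vertices -/
def fullSub (A : Set B) : (nerve B).Subcomplex where
  obj _ := {s | ∀ i, s.obj i ∈ A}
  map _ _ hs _ := hs _

lemma mem_fullSub {A : Set B} {n : ℕ} (s : (nerve B) _⦋n⦌) :
    s ∈ (fullSub A).obj (op ⦋n⦌) ↔ ∀ i, s.obj i ∈ A := Iff.rfl

open Classical in
/-- the set of vertices of a nondegenerate simplex -/
noncomputable def verts (x : (nerve B).N) : NonemptyFiniteChains B where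
  finset := Finset.univ.image (fun i : Fin (x.dim + 1) => x.simplex.obj i)
  nonempty := ⟨x.simplex.obj 0, by simp⟩
  comparable := by
    rintro ⟨a, ha⟩ ⟨b, hb⟩
    simp only [Finset.mem_image, Finset.mem_univ, true_and] at ha hb
    obtain ⟨i, rfl⟩ := ha
    obtain ⟨j, rfl⟩ := hb
    rcases le_total i j with h | h
    · exact Or.inl (x.simplex.monotone h)
    · exact Or.inr (x.simplex.monotone h)

lemma mem_verts (x : (nerve B).N) (b : B) :
    b ∈ (verts x).finset ↔ ∃ i : Fin (x.dim + 1), x.simplex.obj i = b := by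
  simp [verts]

lemma strictMono_simplex (x : (nerve B).N) :
    StrictMono (fun i : Fin (x.dim + 1) => x.simplex.obj i) :=
  (mem_nerve_nonDegenerate_iff_strictMono x.simplex).1 x.nonDegenerate

lemma card_verts (x : (nerve B).N) : (verts x).finset.card = x.dim + 1 := by
  classical
  have := Finset.card_image_of_injective (Finset.univ : Finset (Fin (x.dim + 1)))
    (strictMono_simplex x).injective
  rw [Finset.card_univ, Fintype.card_fin] at this
  rw [← this]
  congr 1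

lemma verts_le_iff (x y : (nerve B).N) : verts x ≤ verts y ↔ x ≤ y := by
  constructor
  · intro h
    have h1 : ∀ i : Fin (x.dim + 1), ∃ j : Fin (y.dim + 1), y.simplex.obj j = x.simplex.obj i := by
      intro i
      rw [← mem_verts]
      exact h ((mem_verts _ _).2 ⟨i, rfl⟩)
    choose f hf using h1
    have hmono : Monotone f := by
      intro i j hij
      rw [← (strictMono_simplex y).le_iff_le]
      rw [hf, hf]
      exact x.simplex.monotone hij
    have hinj : Function.Injective f := by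
      intro i j hij
      apply (strictMono_simplex x).injective
      change x.simplex.obj i = x.simplex.obj j
      rw [← hf, ← hf, hij]
    rw [SSet.N.le_iff_exists_mono]
    refine ⟨SimplexCategory.Hom.mk ⟨f, hmono⟩, ?_, ?_⟩
    · rw [SimplexCategory.mono_iff_injective]
      exact hinj
    · apply nerve.ext_of_isThin
      ext i
      exact hf i
  · intro h
    rw [SSet.N.le_iff_exists_mono] at h
    obtain ⟨f, _, hf⟩ := h
    intro b hb
    rw [mem_verts] at hb ⊢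
    obtain ⟨i, rfl⟩ := hb
    exact ⟨f i, by rw [← hf]; rfl⟩

lemma verts_injective : Function.Injective (verts (B := B)) := by
  intro x y h
  exact le_antisymm ((verts_le_iff _ _).1 h.le) ((verts_le_iff _ _).1 h.ge)

lemma verts_surjective : Function.Surjective (verts (B := B)) := by
  classical
  intro c
  obtain ⟨n, hn⟩ : ∃ n, c.finset.card = n + 1 :=
    Nat.exists_eq_succ_of_ne_zero (Finset.card_ne_zero.2 c.nonempty)
  let _ : LinearOrder c.finset :=
    { (inferInstance : PartialOrder c.finset) with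
      le_total := fun a b => c.comparable a b
      toDecidableLE := Classical.decRel _ }
  let e : Fin (n + 1) ≃o c.finset := Fintype.orderIsoFinOfCardEq c.finset (by simpa using hn)
  let g : Fin (n + 1) → B := fun i => (e i : B)
  have hg : StrictMono g := fun i j hij => e.strictMono hij
  let s : (nerve B) _⦋n⦌ := (hg.monotone).functor
  have hs : s ∈ (nerve B).nonDegenerate n := by
    rw [mem_nerve_nonDegenerate_iff_strictMono]
    exact hg
  refine ⟨SSet.N.mk s hs, ?_⟩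
  apply NonemptyFiniteChains.ext
  ext b
  rw [mem_verts]
  constructor
  · rintro ⟨i, rfl⟩
    exact (e i).2
  · intro hb
    refine ⟨e.symm ⟨b, hb⟩, ?_⟩
    change ((e (e.symm ⟨b, hb⟩) : c.finset) : B) = b
    rw [OrderIso.apply_symm_apply]

/-- nondegenerate simplices of the nerve of a poset are chains -/
noncomputable def vertsEquiv : (nerve B).N ≃o NonemptyFiniteChains B where
  toEquiv := Equiv.ofBijective verts ⟨verts_injective, verts_surjective⟩
  map_rel_iff' := verts_le_iff _ _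

lemma vertsEquiv_apply (x : (nerve B).N) : vertsEquiv x = verts x := rfl

lemma notMem_fullSub_iff {A : Set B} (x : (nerve B).N) :
    x.simplex ∉ (fullSub A).obj _ ↔ ∃ b ∈ (verts x).finset, b ∉ A := by
  rw [mem_fullSub]
  push Not
  constructor
  · rintro ⟨i, hi⟩
    exact ⟨_, (mem_verts _ _).2 ⟨i, rfl⟩, hi⟩
  · rintro ⟨b, hb, hb'⟩
    obtain ⟨i, rfl⟩ := (mem_verts _ _).1 hb
    exact ⟨i, hb'⟩

/-- chains not contained in `A` -/
abbrev Bad (A : Set B) : Type u := {c : NonemptyFiniteChains B // ∃ b ∈ c.finset, b ∉ A}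

/-- nondegenerate simplices not in the full subcomplex -/
noncomputable def badEquiv (A : Set B) : (fullSub A).N ≃ Bad A where
  toFun x := ⟨verts x.toN, (notMem_fullSub_iff _).1 x.notMem⟩
  invFun c := ⟨vertsEquiv.symm c.1, by
    rw [notMem_fullSub_iff, ← vertsEquiv_apply, OrderIso.apply_symm_apply]
    exact c.2⟩
  left_inv x := by
    rw [SSet.Subcomplex.N.ext_iff]
    exact vertsEquiv.symm_apply_apply x.toN
  right_inv c := Subtype.ext (vertsEquiv.apply_symm_apply c.1)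

lemma badEquiv_symm (A : Set B) (c : Bad A) : verts ((badEquiv A).symm c).toN = c.1 :=
  congrArg Subtype.val ((badEquiv A).apply_symm_apply c)

/-- insert an element in a chain -/
noncomputable def ins (c : NonemptyFiniteChains B) (b : B)
    (h : ∀ a ∈ c.finset, a ≤ b ∨ b ≤ a) : NonemptyFiniteChains B := by
  classical
  exact {
    finset := insert b c.finset
    nonempty := Finset.insert_nonempty _ _
    comparable := by
      rintro ⟨x, hx⟩ ⟨y, hy⟩
      rcases Finset.mem_insert.1 hx with hx' | hx' <;>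
        rcases Finset.mem_insert.1 hy with hy' | hy'
      · exact Or.inl (hx'.trans hy'.symm).le
      · have := (h y hy').symm
        rwa [← hx'] at this
      · have := h x hx'
        rwa [← hy'] at this
      · exact c.comparable ⟨x, hx'⟩ ⟨y, hy'⟩ }

lemma mem_ins (c : NonemptyFiniteChains B) (b : B)
    (h : ∀ a ∈ c.finset, a ≤ b ∨ b ≤ a) (x : B) :
    x ∈ (ins c b h).finset ↔ x = b ∨ x ∈ c.finset := by
  classical
  change x ∈ insert b c.finset ↔ _
  rw [Finset.mem_insert]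

/-- erase an element from a chain -/
noncomputable def ers (c : NonemptyFiniteChains B) (b : B)
    (h : ∃ a ∈ c.finset, a ≠ b) : NonemptyFiniteChains B := by
  classical
  exact {
    finset := c.finset.erase b
    nonempty := by
      obtain ⟨a, h1, h2⟩ := h
      exact ⟨a, Finset.mem_erase.2 ⟨h2, h1⟩⟩
    comparable := by
      rintro ⟨x, hx⟩ ⟨y, hy⟩
      exact c.comparable ⟨x, (Finset.mem_erase.1 hx).2⟩ ⟨y, (Finset.mem_erase.1 hy).2⟩ }

lemma mem_ers (c : NonemptyFiniteChains B) (b : B)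
    (h : ∃ a ∈ c.finset, a ≠ b) (x : B) :
    x ∈ (ers c b h).finset ↔ x ≠ b ∧ x ∈ c.finset := by
  classical
  change x ∈ c.finset.erase b ↔ _
  rw [Finset.mem_erase]

lemma nfc_ext {c c' : NonemptyFiniteChains B} (h : ∀ x, x ∈ c.finset ↔ x ∈ c'.finset) :
    c = c' := NonemptyFiniteChains.ext (Finset.ext h)

/-- toggling data on chains not contained in `A` -/
structure Toggle (A : Set B) where
  τ : NonemptyFiniteChains B → B
  rk : NonemptyFiniteChains B → ℕ
  /-- `τ c` is comparable with the elements of `c` -/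
  cmp : ∀ c : NonemptyFiniteChains B, (∃ b ∈ c.finset, b ∉ A) → ∀ a ∈ c.finset, a ≤ τ c ∨ τ c ≤ a
  /-- `τ` does not change when toggling -/
  toggle : ∀ c c' : NonemptyFiniteChains B, (∃ b ∈ c.finset, b ∉ A) → (∃ b ∈ c'.finset, b ∉ A) →
    τ c ∉ c.finset → (∀ x, x ∈ c'.finset ↔ x = τ c ∨ x ∈ c.finset) → τ c' = τ c
  toggle' : ∀ c : NonemptyFiniteChains B, (∃ b ∈ c.finset, b ∉ A) → τ c ∈ c.finset →
    ∃ c' : NonemptyFiniteChains B, (∃ b ∈ c'.finset, b ∉ A) ∧
      (∀ x, x ∈ c'.finset ↔ x ≠ τ c ∧ x ∈ c.finset) ∧ τ c' = τ c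
  /-- rank decreases -/
  rk_lt : ∀ c c' : NonemptyFiniteChains B, (∃ b ∈ c.finset, b ∉ A) → (∃ b ∈ c'.finset, b ∉ A) →
    τ c ∉ c.finset → τ c' ∉ c'.finset → c ≠ c' →
    (∀ x, x ∈ c.finset → x = τ c' ∨ x ∈ c'.finset) → τ c' ∈ c.finset →
    c.finset.card = c'.finset.card → rk c < rk c'

namespace Toggle

variable {A : Set B} (T : Toggle A)

/-- insertion -/
noncomputable def up (c : Bad A) : Bad A :=
  ⟨ins c.1 (T.τ c.1) (T.cmp c.1 c.2), by
    obtain ⟨b, h1, h2⟩ := c.2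
    exact ⟨b, (mem_ins _ _ _ _).2 (Or.inr h1), h2⟩⟩

lemma mem_up (c : Bad A) (x : B) :
    x ∈ (T.up c).1.finset ↔ x = T.τ c.1 ∨ x ∈ c.1.finset :=
  mem_ins c.1 (T.τ c.1) (T.cmp c.1 c.2) x

lemma τ_up (c : Bad A) (hc : T.τ c.1 ∉ c.1.finset) : T.τ (T.up c).1 = T.τ c.1 :=
  T.toggle c.1 (T.up c).1 c.2 (T.up c).2 hc (T.mem_up c)

lemma up_injective {c c' : Bad A} (hc : T.τ c.1 ∉ c.1.finset) (hc' : T.τ c'.1 ∉ c'.1.finset)
    (h : T.up c = T.up c') : c = c' := by
  have h1 : T.τ c.1 = T.τ c'.1 := by rw [← T.τ_up c hc, ← T.τ_up c' hc', h]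
  apply Subtype.ext
  apply nfc_ext
  intro x
  have h2 := T.mem_up c x
  rw [h, T.mem_up c' x, ← h1] at h2
  constructor
  · intro hx
    rcases h2.2 (Or.inr hx) with h3 | h3
    · exact absurd (h3 ▸ hx) hc
    · exact h3
  · intro hx
    rcases h2.1 (Or.inr hx) with h3 | h3
    · exact absurd (h1 ▸ h3 ▸ hx) hc'
    · exact h3

lemma up_surjective (c : Bad A) (hc : T.τ c.1 ∈ c.1.finset) :
    ∃ c' : Bad A, T.τ c'.1 ∉ c'.1.finset ∧ T.up c' = c := by
  obtain ⟨c', h1, h2, h3⟩ := T.toggle' c.1 c.2 hc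
  refine ⟨⟨c', h1⟩, ?_, ?_⟩
  · change T.τ c' ∉ c'.finset
    rw [h3, h2]
    exact fun h => h.1 rfl
  · apply Subtype.ext
    apply nfc_ext
    intro x
    rw [T.mem_up]
    change x = T.τ c' ∨ x ∈ c'.finset ↔ _
    rw [h3, h2]
    constructor
    · rintro (rfl | h)
      · exact hc
      · exact h.2
    · intro h
      by_cases hx : x = T.τ c.1
      · exact Or.inl hx
      · exact Or.inr ⟨hx, h⟩

/-- type (II) chains -/
def II : Set (fullSub A).N := {x | ¬ (T.τ (badEquiv A x).1 ∈ (badEquiv A x).1.finset)}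

/-- type (I) chains -/
def I : Set (fullSub A).N := {x | T.τ (badEquiv A x).1 ∈ (badEquiv A x).1.finset}

lemma symm_up_mem_I (x : (fullSub A).N) (hx : x ∈ T.II) :
    (badEquiv A).symm (T.up (badEquiv A x)) ∈ T.I := by
  change T.τ (badEquiv A ((badEquiv A).symm (T.up (badEquiv A x)))).1 ∈
    (badEquiv A ((badEquiv A).symm (T.up (badEquiv A x)))).1.finset
  rw [Equiv.apply_symm_apply, T.τ_up _ hx, T.mem_up]
  exact Or.inl rfl

/-- the pairing -/
noncomputable def pairing : (fullSub A).Pairing where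
  I := T.I
  II := T.II
  inter := by
    ext x
    simp [I, II]
  union := by
    ext x
    simp only [Set.mem_union, Set.mem_univ, iff_true]
    exact em _
  p := Equiv.ofBijective
    (fun x : T.II => (⟨(badEquiv A).symm (T.up (badEquiv A x.1)),
      T.symm_up_mem_I x.1 x.2⟩ : T.I))
    ⟨by
      rintro ⟨x, hx⟩ ⟨y, hy⟩ h
      have h1 := (badEquiv A).symm.injective (congrArg Subtype.val h)
      have h2 := T.up_injective hx hy h1
      exact Subtype.ext ((badEquiv A).injective h2), by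
      rintro ⟨y, hy⟩
      obtain ⟨c', h1, h2⟩ := T.up_surjective (badEquiv A y) hy
      refine ⟨⟨(badEquiv A).symm c', ?_⟩, ?_⟩
      · change T.τ (badEquiv A ((badEquiv A).symm c')).1 ∉
          (badEquiv A ((badEquiv A).symm c')).1.finset
        rw [Equiv.apply_symm_apply]
        exact h1
      · apply Subtype.ext
        change (badEquiv A).symm (T.up (badEquiv A ((badEquiv A).symm c'))) = y
        rw [Equiv.apply_symm_apply, h2, Equiv.symm_apply_apply]⟩

lemma verts_p (x : T.pairing.II) :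
    verts (T.pairing.p x).1.toN = (T.up (badEquiv A x.1)).1 :=
  badEquiv_symm A _

lemma mem_verts_p (x : T.pairing.II) (b : B) :
    b ∈ (verts (T.pairing.p x).1.toN).finset ↔
      b = T.τ (verts x.1.toN) ∨ b ∈ (verts x.1.toN).finset := by
  rw [verts_p, T.mem_up]
  exact Iff.rfl

lemma notMem_II (x : T.pairing.II) : T.τ (verts x.1.toN) ∉ (verts x.1.toN).finset := x.2

lemma dim_p (x : T.pairing.II) : (T.pairing.p x).1.dim = x.1.dim + 1 := by
  classical
  have h1 := card_verts (T.pairing.p x).1.toN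
  have h2 := card_verts x.1.toN
  have h3 : (verts (T.pairing.p x).1.toN).finset =
      insert (T.τ (verts x.1.toN)) (verts x.1.toN).finset := by
    ext b
    rw [mem_verts_p, Finset.mem_insert]
  rw [h3, Finset.card_insert_of_notMem (T.notMem_II x), h2] at h1
  omega

instance : T.pairing.IsProper where
  isUniquelyCodimOneFace x := by
    refine ⟨T.dim_p x, ?_⟩
    apply SSet.N.existsUnique_of_le
    rw [← verts_le_iff]
    intro b hb
    rw [mem_verts_p]
    exact Or.inr hb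

/-- weak rank function -/
noncomputable def rankFunction : T.pairing.WeakRankFunction ℕ where
  rank x := T.rk (verts x.1.toN)
  lt {x y} h hdim := by
    obtain ⟨hne, hlt⟩ := h
    have h1 : ∀ b, b ∈ (verts x.1.toN).finset →
        b = T.τ (verts y.1.toN) ∨ b ∈ (verts y.1.toN).finset := by
      intro b hb
      rw [← mem_verts_p]
      exact (verts_le_iff _ _).2 (SSet.Subcomplex.N.le_iff.1 hlt.le) hb
    have hcard : (verts x.1.toN).finset.card = (verts y.1.toN).finset.card := by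
      rw [card_verts, card_verts]
      exact congrArg (· + 1) hdim
    have hne' : verts x.1.toN ≠ verts y.1.toN := by
      intro h
      apply hne
      apply Subtype.ext
      rw [SSet.Subcomplex.N.ext_iff]
      exact verts_injective h
    refine T.rk_lt _ _ ((notMem_fullSub_iff _).1 x.1.notMem) ((notMem_fullSub_iff _).1 y.1.notMem)
      (T.notMem_II x) (T.notMem_II y) hne' h1 ?_ hcard
    by_contra h2
    have h3 : (verts x.1.toN).finset ⊆ (verts y.1.toN).finset := by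
      intro b hb
      rcases h1 b hb with rfl | h4
      · exact absurd hb h2
      · exact h4
    exact hne' (NonemptyFiniteChains.ext (Finset.eq_of_subset_of_card_le h3 hcard.ge))

include T in
theorem strongAnodyne : SSet.strongAnodyneExtensions (fullSub A).ι := by
  have : T.pairing.IsRegular := T.rankFunction.isRegular
  exact T.pairing.strongAnodyneExtensions

include T in
theorem anodyne : SSet.anodyneExtensions (fullSub A).ι :=
  SSet.strongAnodyneExtensions_le_anodyneExtensions _ T.strongAnodyne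

end Toggle

end Vale.Agent.P213.KQ
end

section

/-!
Filtered colimits of pushouts, in a form suitable for transfinite compositions.
-/

open CategoryTheory Limits

universe w w' v u

namespace Vale.Agent.P213.AS

section

variable {C : Type u} [Category.{v} C] {J : Type w} [Category.{w'} J] [IsFiltered J]
  {F G : J ⥤ C} {cF : Cocone F} (hcF : IsColimit cF) {A X : C}
  {α : (Functor.const J).obj A ⟶ F} {a : A ⟶ X} {β : F ⟶ G} {γ : (Functor.const J).obj X ⟶ G}
  (h : ∀ j, IsPushout (α.app j) a (β.app j) (γ.app j))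
  {P : C} {s : A ⟶ cF.pt} (hs : ∀ j, α.app j ≫ cF.ι.app j = s) {b : cF.pt ⟶ P} {i : X ⟶ P}
  (sq : IsPushout s a b i)

omit [IsFiltered J] in
include hs sq in
lemma cocone_w (j : J) : α.app j ≫ cF.ι.app j ≫ b = a ≫ i := by
  rw [← Category.assoc, hs, sq.w]

/-- the components of the induced cocone -/
noncomputable def coι (j : J) : G.obj j ⟶ P :=
  (h j).desc (cF.ι.app j ≫ b) i (cocone_w hs sq j)

omit [IsFiltered J] in
@[reassoc]
lemma inl_coι (j : J) : β.app j ≫ coι h hs sq j = cF.ι.app j ≫ b :=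
  (h j).inl_desc _ _ _

omit [IsFiltered J] in
@[reassoc]
lemma inr_coι (j : J) : γ.app j ≫ coι h hs sq j = i :=
  (h j).inr_desc _ _ _

omit [IsFiltered J] in
lemma const_naturality {j j' : J} (f : j ⟶ j') : γ.app j ≫ G.map f = γ.app j' := by
  have := γ.naturality f
  simp only [Functor.const_obj_obj, Functor.const_obj_map, Category.id_comp] at this
  exact this.symm

omit [IsFiltered J] in
lemma map_coι {j j' : J} (f : j ⟶ j') : G.map f ≫ coι h hs sq j' = coι h hs sq j := by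
  apply (h j).hom_ext
  · rw [inl_coι, ← NatTrans.naturality_assoc, inl_coι, cF.w_assoc]
  · rw [inr_coι, ← Category.assoc, const_naturality, inr_coι]

/-- the induced cocone -/
noncomputable def pushoutCocone : Cocone G where
  pt := P
  ι :=
    { app := coι h hs sq
      naturality := by
        intro j j' f
        rw [map_coι]
        simp }

omit [IsFiltered J] in
@[simp] lemma pushoutCocone_pt : (pushoutCocone h hs sq).pt = P := rfl

omit [IsFiltered J] in
@[simp] lemma pushoutCocone_ι_app (j : J) :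
    (pushoutCocone h hs sq).ι.app j = coι h hs sq j := rfl

lemma const_ι' (j j' : J) (c : Cocone G) :
    γ.app j ≫ c.ι.app j = γ.app j' ≫ c.ι.app j' := by
  rw [← c.w (IsFiltered.leftToMax j j'), ← c.w (IsFiltered.rightToMax j j'),
    ← Category.assoc, ← Category.assoc, const_naturality, const_naturality]

/-- the cocone on `F` induced by a cocone on `G` -/
noncomputable def preCocone (β : F ⟶ G) (c : Cocone G) : Cocone F := ⟨c.pt, β ≫ c.ι⟩

/-- the map out of the colimit of `F` -/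
noncomputable def dsc (hcF : IsColimit cF) (β : F ⟶ G) (c : Cocone G) : cF.pt ⟶ c.pt :=
  hcF.desc (preCocone β c)

omit [IsFiltered J] in
@[reassoc]
lemma ι_dsc (β : F ⟶ G) (c : Cocone G) (j : J) :
    cF.ι.app j ≫ dsc hcF β c = β.app j ≫ c.ι.app j :=
  hcF.fac _ _

omit [IsFiltered J] in
include h hs in
lemma descAux_w (j₀ : J) (c : Cocone G) :
    s ≫ dsc hcF β c = a ≫ γ.app j₀ ≫ c.ι.app j₀ := by
  rw [← hs j₀, Category.assoc, ι_dsc, ← Category.assoc, (h _).w, Category.assoc]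

/-- the universal map -/
noncomputable def descAux (j₀ : J) (c : Cocone G) : P ⟶ c.pt :=
  sq.desc (dsc hcF β c) (γ.app j₀ ≫ c.ι.app j₀) (descAux_w hcF h hs j₀ c)

omit [IsFiltered J] in
lemma fac₁ (j₀ : J) (c : Cocone G) (j : J) :
    cF.ι.app j ≫ b ≫ descAux hcF h hs sq j₀ c = β.app j ≫ c.ι.app j := by
  rw [descAux, IsPushout.inl_desc, ι_dsc]

omit [IsFiltered J] in
lemma fac₂ (j₀ : J) (c : Cocone G) :
    i ≫ descAux hcF h hs sq j₀ c = γ.app j₀ ≫ c.ι.app j₀ := by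
  rw [descAux, IsPushout.inr_desc]

/-- the induced cocone is colimit -/
noncomputable def isColimitPushoutCocone : IsColimit (pushoutCocone h hs sq) where
  desc c := descAux hcF h hs sq (IsFiltered.nonempty (C := J)).some c
  fac c j := by
    change coι h hs sq j ≫ descAux hcF h hs sq _ c = c.ι.app j
    apply (h j).hom_ext
    · rw [inl_coι_assoc, fac₁]
    · rw [inr_coι_assoc, fac₂]
      exact const_ι' _ _ _
  uniq c m hm := by
    change P ⟶ c.pt at m
    have hm' : ∀ j, coι h hs sq j ≫ m = c.ι.app j := hm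
    apply sq.hom_ext
    · apply hcF.hom_ext
      intro j
      rw [fac₁, ← hm', inl_coι_assoc]
    · rw [fac₂, ← hm', inr_coι_assoc]

end

end Vale.Agent.P213.AS
end

section

/-!
Pushouts of transfinite sequences.
-/

open CategoryTheory Limits

universe w w' v u

namespace Vale.Agent.P213.AS

section

variable {C : Type u} [Category.{v} C] {J : Type w} [LinearOrder J] [OrderBot J]

/-- the transformation from the bottom object -/
def fromBot (F : J ⥤ C) : (Functor.const J).obj (F.obj ⊥) ⟶ F where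
  app j := F.map (homOfLE bot_le)
  naturality j j' f := by
    rw [← F.map_comp]
    simp only [Functor.const_obj_obj, Functor.const_obj_map, Category.id_comp]
    rfl

@[simp] lemma fromBot_app (F : J ⥤ C) (j : J) :
    (fromBot F).app j = F.map (homOfLE bot_le) := rfl

variable [HasPushouts C] (F : J ⥤ C) {X : C} (a : F.obj ⊥ ⟶ X)

/-- the pushout of a sequence along a map from its bottom object -/
noncomputable def poF : J ⥤ C := pushout (fromBot F) ((Functor.const J).map a)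

/-- the map from the sequence -/
noncomputable def poFinl : F ⟶ poF F a := pushout.inl _ _

/-- the map from the constant sequence -/
noncomputable def poFinr : (Functor.const J).obj X ⟶ poF F a := pushout.inr _ _

lemma poF_isPushout (j : J) :
    IsPushout (F.map (homOfLE bot_le : ⊥ ⟶ j)) a ((poFinl F a).app j) ((poFinr F a).app j) :=
  (IsPushout.of_hasPushout (fromBot F) ((Functor.const J).map a)).map ((evaluation J C).obj j)

lemma poF_isPushout_map {i j : J} (f : i ⟶ j) :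
    IsPushout (F.map f) ((poFinl F a).app i) ((poFinl F a).app j) ((poF F a).map f) := by
  have h := poF_isPushout F a j
  have e₁ : F.map (homOfLE bot_le : ⊥ ⟶ j) = F.map (homOfLE bot_le : ⊥ ⟶ i) ≫ F.map f := by
    rw [← F.map_comp]; rfl
  have e₂ : (poFinr F a).app j = (poFinr F a).app i ≫ (poF F a).map f :=
    (const_naturality (γ := poFinr F a) f).symm
  rw [e₁, e₂] at h
  exact h.of_left ((poFinl F a).naturality f) (poF_isPushout F a i)

instance isIso_poFinr_bot : IsIso ((poFinr F a).app ⊥) := by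
  have h := poF_isPushout F a ⊥
  have e : F.map (homOfLE bot_le : (⊥ : J) ⟶ ⊥) = 𝟙 _ := F.map_id _
  rw [e] at h
  exact (MorphismProperty.isomorphisms C).of_isPushout h.flip
    (MorphismProperty.isomorphisms.infer_property _)

/-- the restriction of a sequence to an initial segment `j < m` -/
abbrev restr (m : J) (G : J ⥤ C) : Set.Iio m ⥤ C := (Set.principalSegIio m).monotone.functor ⋙ G

omit [HasPushouts C] in
/-- restriction of the transformation from the bottom object -/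
def fromBotRestr (m : J) (F : J ⥤ C) : (Functor.const (Set.Iio m)).obj (F.obj ⊥) ⟶ restr m F where
  app j := F.map (homOfLE bot_le : ⊥ ⟶ j.1)
  naturality j j' f := by
    change 𝟙 _ ≫ F.map (homOfLE bot_le : ⊥ ⟶ j'.1)
      = F.map (homOfLE bot_le : ⊥ ⟶ j.1) ≫ F.map (homOfLE (leOfHom f) : j.1 ⟶ j'.1)
    rw [Category.id_comp, ← F.map_comp]
    rfl

/-- restriction of `poFinl` -/
noncomputable def inlRestr (m : J) : restr m F ⟶ restr m (poF F a) where
  app j := (poFinl F a).app j.1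
  naturality j j' f := (poFinl F a).naturality (homOfLE (leOfHom f) : j.1 ⟶ j'.1)

/-- restriction of `poFinr` -/
noncomputable def inrRestr (m : J) : (Functor.const (Set.Iio m)).obj X ⟶ restr m (poF F a) where
  app j := (poFinr F a).app j.1
  naturality j j' f := (poFinr F a).naturality (homOfLE (leOfHom f) : j.1 ⟶ j'.1)

lemma isPushoutRestr (m : J) (j : Set.Iio m) :
    IsPushout ((fromBotRestr m F).app j) a ((inlRestr F a m).app j) ((inrRestr F a m).app j) :=
  poF_isPushout F a j.1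

omit [HasPushouts C] in
lemma fac_restr (m : J) (j : Set.Iio m) :
    (fromBotRestr m F).app j ≫ ((Set.principalSegIio m).cocone F).ι.app j
      = F.map (homOfLE bot_le : ⊥ ⟶ m) := by
  change F.map (homOfLE bot_le : ⊥ ⟶ j.1) ≫ F.map (homOfLE (le_of_lt j.2) : j.1 ⟶ m) = _
  rw [← F.map_comp]
  rfl

lemma coι_restr (m : J) (j : Set.Iio m) :
    coι (cF := (Set.principalSegIio m).cocone F) (isPushoutRestr F a m) (fac_restr F m)
      (poF_isPushout F a m) j = (poF F a).map (homOfLE (le_of_lt j.2) : j.1 ⟶ m) := by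
  apply (isPushoutRestr F a m j).hom_ext
  · exact (inl_coι _ _ _ j).trans ((poFinl F a).naturality (homOfLE (le_of_lt j.2) : j.1 ⟶ m))
  · exact (inr_coι _ _ _ j).trans
      (const_naturality (γ := poFinr F a) (homOfLE (le_of_lt j.2) : j.1 ⟶ m)).symm

instance [SuccOrder J] [WellFoundedLT J] [F.IsWellOrderContinuous] :
    (poF F a).IsWellOrderContinuous where
  nonempty_isColimit m hm := by
    have hne : Nonempty (Set.Iio m) := ⟨⟨⊥, hm.bot_lt⟩⟩
    have hc := isColimitPushoutCocone (F.isColimitOfIsWellOrderContinuous m hm)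
      (isPushoutRestr F a m) (fac_restr F m) (poF_isPushout F a m)
    refine ⟨IsColimit.ofIsoColimit hc (Cocone.ext (Iso.refl _) ?_)⟩
    intro j
    change coι (cF := (Set.principalSegIio m).cocone F) (isPushoutRestr F a m) (fac_restr F m)
      (poF_isPushout F a m) j ≫ 𝟙 _ = (poF F a).map (homOfLE (le_of_lt j.2) : j.1 ⟶ m)
    rw [Category.comp_id, coι_restr]

lemma exists_isColimit_poF {cF : Cocone F} (hcF : IsColimit cF) {P : C} {b : cF.pt ⟶ P}
    {i : X ⟶ P} (sq : IsPushout (cF.ι.app ⊥) a b i) :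
    ∃ (ι : poF F a ⟶ (Functor.const J).obj P), Nonempty (IsColimit (Cocone.mk P ι)) ∧
      (∀ j, (poFinl F a).app j ≫ ι.app j = cF.ι.app j ≫ b) ∧
      (∀ j, (poFinr F a).app j ≫ ι.app j = i) := by
  have hs : ∀ j, (fromBot F).app j ≫ cF.ι.app j = cF.ι.app ⊥ := fun j ↦ cF.w _
  have h : ∀ j, IsPushout ((fromBot F).app j) a ((poFinl F a).app j) ((poFinr F a).app j) :=
    poF_isPushout F a
  exact ⟨(pushoutCocone h hs sq).ι, ⟨isColimitPushoutCocone hcF h hs sq⟩,
    inl_coι h hs sq, inr_coι h hs sq⟩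

end

end Vale.Agent.P213.AS
end

section

/-!
A class of morphisms which is stable under cobase change and transfinite composition
is stable under coproducts.
-/

open CategoryTheory Limits

universe w w' v u

namespace Vale.Agent.P213.AS

section

variable {C : Type u} [Category.{v} C]

/-- if all components but one of a coproduct of maps are isomorphisms, then the coproduct map is
a pushout of this component -/
lemma isPushout_sigma {K : Type w} {X Y : K → C} [HasCoproduct X] [HasCoproduct Y]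
    (m : ∀ k, X k ⟶ Y k) (k₀ : K) (hm : ∀ k, k ≠ k₀ → IsIso (m k)) :
    IsPushout (m k₀) (Sigma.ι X k₀) (Sigma.ι Y k₀) (Limits.Sigma.map m) := by
  have key : ∀ {Z : C} (u' : Y k₀ ⟶ Z) (v' : ∐ X ⟶ Z) (_ : m k₀ ≫ u' = Sigma.ι X k₀ ≫ v'),
      ∃ d : ∐ Y ⟶ Z, Sigma.ι Y k₀ ≫ d = u' ∧ Limits.Sigma.map m ≫ d = v' := by
    intro Z u' v' h
    have h1 : ∀ k, ∃ g : Y k ⟶ Z, m k ≫ g = Sigma.ι X k ≫ v' ∧ (k = k₀ → HEq g u') := by
      intro k
      by_cases hk : k = k₀
      · subst hk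
        exact ⟨u', h, fun _ ↦ HEq.rfl⟩
      · have := hm k hk
        exact ⟨inv (m k) ≫ Sigma.ι X k ≫ v', by simp, fun h ↦ absurd h hk⟩
    choose g hg1 hg2 using h1
    refine ⟨Sigma.desc g, ?_, ?_⟩
    · rw [Sigma.ι_desc]
      exact eq_of_heq (hg2 k₀ rfl)
    · apply Sigma.hom_ext
      intro k
      rw [Sigma.ι_map_assoc, Sigma.ι_desc, hg1]
  refine ⟨⟨by simp⟩, ⟨PushoutCocone.IsColimit.mk _ (fun s ↦ (key s.inl s.inr s.condition).choose)
    (fun s ↦ (key s.inl s.inr s.condition).choose_spec.1)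
    (fun s ↦ (key s.inl s.inr s.condition).choose_spec.2) ?_⟩⟩
  intro s d h1 h2
  have h3 := (key s.inl s.inr s.condition).choose_spec.1
  have h4 := (key s.inl s.inr s.condition).choose_spec.2
  apply Sigma.hom_ext
  intro k
  by_cases hk : k = k₀
  · subst hk
    rw [h1, h3]
  · have := hm k hk
    rw [← cancel_epi (m k), ← Sigma.ι_map_assoc, ← Sigma.ι_map_assoc, h2, h4]

variable {J : Type w} [LinearOrder J] [OrderBot J]

omit [OrderBot J] in
lemma eventually_aux {G : J ⥤ C} {m : J} (j₀ : J) (h₀ : j₀ < m)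
    (h : ∀ j (_ : j₀ ≤ j) (hj' : j ≤ m), IsIso (G.map (homOfLE hj'))) {Z : C}
    (t : ∀ j, j < m → (G.obj j ⟶ Z))
    (ht : ∀ i j (hi : i < m) (hj : j < m) (hij : i ≤ j), G.map (homOfLE hij) ≫ t j hj = t i hi) :
    ∃! d : G.obj m ⟶ Z, ∀ j (hj : j < m), G.map (homOfLE hj.le) ≫ d = t j hj := by
  have i₀ : IsIso (G.map (homOfLE h₀.le)) := h j₀ le_rfl h₀.le
  refine ⟨inv (G.map (homOfLE h₀.le)) ≫ t j₀ h₀, ?_, ?_⟩
  · intro j hj
    have i₁ := h (max j j₀) (le_max_right _ _) (max_lt hj h₀).le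
    have e₁ := ht j (max j j₀) hj (max_lt hj h₀) (le_max_left _ _)
    have e₂ := ht j₀ (max j j₀) h₀ (max_lt hj h₀) (le_max_right _ _)
    have e₃ : G.map (homOfLE hj.le) = G.map (homOfLE (le_max_left _ _) : j ⟶ max j j₀) ≫
        G.map (homOfLE (max_lt hj h₀).le) := by
      rw [← G.map_comp]; rfl
    have e₄ : G.map (homOfLE h₀.le) = G.map (homOfLE (le_max_right _ _) : j₀ ⟶ max j j₀) ≫
        G.map (homOfLE (max_lt hj h₀).le) := by
      rw [← G.map_comp]; rfl
    have e₅ : G.map (homOfLE (max_lt hj h₀).le) ≫ inv (G.map (homOfLE h₀.le)) ≫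
        t j₀ h₀ = t (max j j₀) (max_lt hj h₀) := by
      rw [← cancel_epi (inv (G.map (homOfLE (max_lt hj h₀).le)))]
      rw [IsIso.inv_hom_id_assoc, IsIso.inv_comp_eq, ← e₂, e₄]
      simp
    change G.map (homOfLE hj.le) ≫ _ = _
    rw [e₃, Category.assoc, e₅, e₁]
  · intro d hd
    change ∀ j (hj : j < m), G.map (homOfLE hj.le) ≫ d = t j hj at hd
    rw [← hd j₀ h₀, IsIso.inv_hom_id_assoc]

omit [OrderBot J] in
/-- a criterion for being a colimit cocone -/
lemma nonempty_isColimit_of_existsUnique {G : J ⥤ C} {m : J}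
    (h : ∀ {Z : C} (t : ∀ j, j < m → (G.obj j ⟶ Z))
      (_ : ∀ i j (hi : i < m) (hj : j < m) (hij : i ≤ j),
        G.map (homOfLE hij) ≫ t j hj = t i hi),
      ∃! d : G.obj m ⟶ Z, ∀ j (hj : j < m), G.map (homOfLE hj.le) ≫ d = t j hj) :
    Nonempty (IsColimit ((Set.principalSegIio m).cocone G)) := by
  have key : ∀ s : Cocone (((Set.principalSegIio m).monotone.functor) ⋙ G),
      ∃! d : G.obj m ⟶ s.pt, ∀ j (hj : j < m), G.map (homOfLE hj.le) ≫ d = s.ι.app ⟨j, hj⟩ :=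
    fun s ↦ h (fun j hj ↦ s.ι.app ⟨j, hj⟩) (fun i j hi hj hij ↦
      s.w (homOfLE hij : (⟨i, hi⟩ : Set.Iio m) ⟶ ⟨j, hj⟩))
  exact ⟨{ desc := fun s ↦ (key s).choose
           fac := fun s j ↦ (key s).choose_spec.1 j.1 j.2
           uniq := fun s d hd ↦ (key s).choose_spec.2 d (fun j hj ↦ hd ⟨j, hj⟩) }⟩

end

section

variable {C : Type u} [Category.{v} C] {K : Type w} [LinearOrder K]

open Classical in
/-- the step function of `k` -/
noncomputable def stepFun (k : K) : WithTop K →o Fin 2 where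
  toFun j := if (k : WithTop K) < j then 1 else 0
  monotone' i j hij := by
    dsimp only
    split_ifs with h1 h2
    · exact le_rfl
    · exact absurd (h1.trans_le hij) h2
    · exact Fin.zero_le _
    · exact le_rfl

lemma stepFun_of_lt {k : K} {j : WithTop K} (h : (k : WithTop K) < j) : stepFun k j = 1 :=
  if_pos h

lemma stepFun_of_not_lt {k : K} {j : WithTop K} (h : ¬ (k : WithTop K) < j) : stepFun k j = 0 :=
  if_neg h

/-- the sequence `A, …, A, B, …, B` -/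
noncomputable def stepF {A B : C} (f : A ⟶ B) (k : K) : WithTop K ⥤ C :=
  (stepFun k).monotone.functor ⋙ ComposableArrows.mk₁ f

lemma isIso_stepF {A B : C} (f : A ⟶ B) (k : K) {i j : WithTop K} (h : i ≤ j)
    (hij : stepFun k i = stepFun k j) : IsIso ((stepF f k).map (homOfLE h)) := by
  have aux : ∀ {x y : Fin 2} (g : x ⟶ y) (_ : x = y), IsIso ((ComposableArrows.mk₁ f).map g) := by
    intro x y g hxy
    subst hxy
    obtain rfl : g = 𝟙 _ := Subsingleton.elim _ _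
    rw [CategoryTheory.Functor.map_id]
    infer_instance
  exact aux ((stepFun k).monotone.functor.map (homOfLE h)) hij

lemma stepF_iso {A B : C} (f : A ⟶ B) (k : K) {i j : WithTop K} (h : i ≤ j)
    (hi : stepFun k i = 0) (hj : stepFun k j = 1) :
    Nonempty (Arrow.mk ((stepF f k).map (homOfLE h)) ≅ Arrow.mk f) := by
  have aux : ∀ {x y : Fin 2} (g : x ⟶ y) (_ : x = 0) (_ : y = 1),
      Nonempty (Arrow.mk ((ComposableArrows.mk₁ f).map g) ≅ Arrow.mk f) := by
    intro x y g hx hy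
    subst hx hy
    exact ⟨Iso.refl _⟩
  exact aux ((stepFun k).monotone.functor.map (homOfLE h)) hi hj

variable [WellFoundedLT K] [HasCoproductsOfShape K C]

/-- the sequence of coproducts -/
noncomputable def sigmaF {A B : K → C} (f : ∀ k, A k ⟶ B k) : WithTop K ⥤ C where
  obj j := ∐ fun k ↦ (stepF (f k) k).obj j
  map φ := Limits.Sigma.map fun k ↦ (stepF (f k) k).map φ
  map_id j := by
    apply Sigma.hom_ext
    intro k
    simp
  map_comp φ ψ := by
    apply Sigma.hom_ext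
    intro k
    simp

/-- the inclusions -/
noncomputable def ιF {A B : K → C} (f : ∀ k, A k ⟶ B k) (j : WithTop K) (k : K) :
    (stepF (f k) k).obj j ⟶ (sigmaF f).obj j := Sigma.ι (fun k ↦ (stepF (f k) k).obj j) k

omit [WellFoundedLT K] in
@[reassoc]
lemma ιF_map {A B : K → C} (f : ∀ k, A k ⟶ B k) {i j : WithTop K} (φ : i ⟶ j) (k : K) :
    ιF f i k ≫ (sigmaF f).map φ = (stepF (f k) k).map φ ≫ ιF f j k := by
  simp [sigmaF, ιF]

omit [WellFoundedLT K] in
lemma ιF_hom_ext {A B : K → C} (f : ∀ k, A k ⟶ B k) {j : WithTop K} {Z : C}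
    {u v : (sigmaF f).obj j ⟶ Z} (h : ∀ k, ιF f j k ≫ u = ιF f j k ≫ v) : u = v :=
  Sigma.hom_ext _ _ h

/-- maps from the coproduct -/
noncomputable def descF {A B : K → C} (f : ∀ k, A k ⟶ B k) {j : WithTop K} {Z : C}
    (u : ∀ k, (stepF (f k) k).obj j ⟶ Z) : (sigmaF f).obj j ⟶ Z := Sigma.desc u

omit [WellFoundedLT K] in
@[reassoc]
lemma ιF_descF {A B : K → C} (f : ∀ k, A k ⟶ B k) {j : WithTop K} {Z : C}
    (u : ∀ k, (stepF (f k) k).obj j ⟶ Z) (k : K) : ιF f j k ≫ descF f u = u k :=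
  Sigma.ι_desc _ _

variable [OrderBot (WithTop K)] [SuccOrder (WithTop K)]

omit [WellFoundedLT K] [HasCoproductsOfShape K C] in
lemma stepF_woc {A B : C} (f : A ⟶ B) (k : K) {m : WithTop K} (hm : Order.IsSuccLimit m) {Z : C}
    (t : ∀ j, j < m → ((stepF f k).obj j ⟶ Z))
    (ht : ∀ i j (hi : i < m) (hj : j < m) (hij : i ≤ j),
      (stepF f k).map (homOfLE hij) ≫ t j hj = t i hi) :
    ∃! d : (stepF f k).obj m ⟶ Z,
      ∀ j (hj : j < m), (stepF f k).map (homOfLE hj.le) ≫ d = t j hj := by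
  by_cases hk : (k : WithTop K) < m
  · refine eventually_aux (Order.succ (k : WithTop K)) (hm.succ_lt hk) ?_ t ht
    intro j hj hj'
    apply isIso_stepF
    rw [stepFun_of_lt hk, stepFun_of_lt]
    exact lt_of_lt_of_le (Order.lt_succ_of_not_isMax hk.not_isMax) hj
  · refine eventually_aux ⊥ hm.bot_lt ?_ t ht
    intro j hj hj'
    apply isIso_stepF
    rw [stepFun_of_not_lt hk, stepFun_of_not_lt]
    exact fun h ↦ hk (h.trans_le hj')

instance {A B : K → C} (f : ∀ k, A k ⟶ B k) : (sigmaF f).IsWellOrderContinuous where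
  nonempty_isColimit m hm := by
    apply nonempty_isColimit_of_existsUnique
    intro Z t ht
    have h1 : ∀ k, ∃! d : (stepF (f k) k).obj m ⟶ Z, ∀ j (hj : j < m),
        (stepF (f k) k).map (homOfLE hj.le) ≫ d = ιF f j k ≫ t j hj := by
      intro k
      apply stepF_woc (f k) k hm
      intro i j hi hj hij
      rw [← ht i j hi hj hij, ιF_map_assoc]
    choose d hd1 hd2 using h1
    refine ⟨descF f d, ?_, ?_⟩
    · intro j hj
      apply ιF_hom_ext
      intro k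
      rw [ιF_map_assoc, ιF_descF]
      exact hd1 k j hj
    · intro d' hd'
      apply ιF_hom_ext
      intro k
      rw [ιF_descF]
      apply hd2 k
      intro j hj
      rw [← ιF_map_assoc, hd' j hj]

/-- the transfinite composition -/
noncomputable def sigmaF_tcos {A B : K → C} (f : ∀ k, A k ⟶ B k) :
    TransfiniteCompositionOfShape (WithTop K)
      ((sigmaF f).map (homOfLE bot_le : ⊥ ⟶ (⊤ : WithTop K))) where
  F := sigmaF f
  isoBot := Iso.refl _
  incl :=
    { app := fun j ↦ (sigmaF f).map (homOfLE le_top)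
      naturality := fun i j φ ↦ by
        rw [← (sigmaF f).map_comp]
        exact (Category.comp_id _).symm }
  isColimit := colimitOfDiagramTerminal isTerminalTop _
  fac := Category.id_comp _

variable {W : MorphismProperty C} [W.IsStableUnderCobaseChange]

omit [WellFoundedLT K] [OrderBot (WithTop K)] in
lemma sigmaF_succ {A B : K → C} (f : ∀ k, A k ⟶ B k) (hf : ∀ k, W (f k)) (j : WithTop K)
    (hj : ¬ IsMax j) : W ((sigmaF f).map (homOfLE (Order.le_succ j))) := by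
  obtain ⟨k₀, rfl⟩ : ∃ k : K, (k : WithTop K) = j := by
    rw [← WithTop.ne_top_iff_exists]
    rintro rfl
    exact hj isMax_top
  have h1 : IsPushout ((stepF (f k₀) k₀).map (homOfLE (Order.le_succ (k₀ : WithTop K))))
      (ιF f _ k₀) (ιF f _ k₀) ((sigmaF f).map (homOfLE (Order.le_succ (k₀ : WithTop K)))) := by
    apply isPushout_sigma (fun k ↦ (stepF (f k) k).map (homOfLE (Order.le_succ (k₀ : WithTop K))))
    intro k hk
    apply isIso_stepF
    by_cases h : (k : WithTop K) < k₀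
    · rw [stepFun_of_lt h, stepFun_of_lt (h.trans_le (Order.le_succ _))]
    · rw [stepFun_of_not_lt h, stepFun_of_not_lt]
      rw [Order.lt_succ_iff_of_not_isMax hj, le_iff_lt_or_eq]
      rintro (h' | h')
      · exact h h'
      · exact hk (WithTop.coe_injective h')
  refine W.of_isPushout h1.flip ?_
  obtain ⟨e⟩ := stepF_iso (f k₀) k₀ (Order.le_succ (k₀ : WithTop K))
    (stepFun_of_not_lt (lt_irrefl _)) (stepFun_of_lt (Order.lt_succ_of_not_isMax hj))
  exact (W.arrow_mk_iso_iff e).2 (hf k₀)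

lemma sigma_map_mem [MorphismProperty.IsStableUnderTransfiniteComposition.{w} W] {A B : K → C}
    (f : ∀ k, A k ⟶ B k) (hf : ∀ k, W (f k)) : W (Limits.Sigma.map f) := by
  have h1 : W ((sigmaF f).map (homOfLE bot_le : ⊥ ⟶ (⊤ : WithTop K))) :=
    W.transfiniteCompositionsOfShape_le (WithTop K) _
      ⟨{ toTransfiniteCompositionOfShape := sigmaF_tcos f
         map_mem := fun j hj ↦ sigmaF_succ f hf j hj }⟩
  have h2 : ∀ k, Nonempty (Arrow.mk ((stepF (f k) k).map
      (homOfLE bot_le : ⊥ ⟶ (⊤ : WithTop K))) ≅ Arrow.mk (f k)) := fun k ↦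
    stepF_iso (f k) k _ (stepFun_of_not_lt not_lt_bot) (stepFun_of_lt (WithTop.coe_lt_top k))
  let e := fun k ↦ (h2 k).some
  refine (W.arrow_mk_iso_iff ?_).1 h1
  have hM : ∀ {X Y : K → C} (i : ∀ k, X k ≅ Y k),
      (Sigma.mapIso i).hom = Limits.Sigma.map (fun k ↦ (i k).hom) := by
    intro X Y i
    apply Sigma.hom_ext
    intro k
    simp [Sigma.mapIso]
  let L : ∀ k, (stepF (f k) k).obj ⊥ ≅ A k := fun k ↦ Arrow.leftFunc.mapIso (e k)
  let R : ∀ k, (stepF (f k) k).obj ⊤ ≅ B k := fun k ↦ Arrow.rightFunc.mapIso (e k)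
  have h3 : ∀ k, (L k).hom ≫ f k =
    (stepF (f k) k).map (homOfLE bot_le : ⊥ ⟶ (⊤ : WithTop K)) ≫ (R k).hom := fun k ↦ (e k).hom.w
  let SL : (sigmaF f).obj ⊥ ≅ ∐ A := Sigma.mapIso L
  let SR : (sigmaF f).obj ⊤ ≅ ∐ B := Sigma.mapIso R
  have hSL : ∀ k, ιF f ⊥ k ≫ SL.hom = (L k).hom ≫ Sigma.ι A k := by
    intro k
    change Sigma.ι _ k ≫ (Sigma.mapIso L).hom = _
    rw [hM, Sigma.ι_map]
  have hSR : ∀ k, ιF f ⊤ k ≫ SR.hom = (R k).hom ≫ Sigma.ι B k := by
    intro k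
    change Sigma.ι _ k ≫ (Sigma.mapIso R).hom = _
    rw [hM, Sigma.ι_map]
  have h4 : SL.hom ≫ Limits.Sigma.map f =
      (sigmaF f).map (homOfLE bot_le : ⊥ ⟶ (⊤ : WithTop K)) ≫ SR.hom := by
    apply ιF_hom_ext
    intro k
    rw [ιF_map_assoc, hSR, ← Category.assoc, hSL, Category.assoc, Sigma.ι_map,
      ← Category.assoc, h3, Category.assoc]
  exact Arrow.isoMk SL SR h4

end

theorem isStableUnderCoproducts_of_transfinite {C : Type u} [Category.{v} C]
    (W : MorphismProperty C) [W.IsStableUnderCobaseChange]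
    [MorphismProperty.IsStableUnderTransfiniteComposition.{w} W] [HasCoproducts.{w} C] :
    MorphismProperty.IsStableUnderCoproducts.{w} W where
  isStableUnderCoproductsOfShape K := by
    apply MorphismProperty.IsStableUnderCoproductsOfShape.mk
    intro A B _ _ f hf
    obtain ⟨_, _⟩ := exists_wellFoundedLT (α := K)
    let : OrderBot (WithTop K) := WellFoundedLT.toOrderBot _
    let : SuccOrder (WithTop K) := SuccOrder.ofLinearWellFoundedLT _
    exact sigma_map_mem f hf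

end Vale.Agent.P213.AS
end

section

/-!
The largest class stable under cobase change contained in a given class `V`;
it is stable under transfinite compositions if `V` is.
-/

open CategoryTheory Limits MorphismProperty

universe w w' v u

namespace Vale.Agent.P213.AS

variable {C : Type u} [Category.{v} C] (V : MorphismProperty C)

/-- the class of morphisms all of whose pushouts are in `V` -/
def univPush : MorphismProperty C := fun X Y f ↦
  ∀ ⦃X' Y' : C⦄ (a : X ⟶ X') (b : Y ⟶ Y') (j : X' ⟶ Y'), IsPushout f a b j → V j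

lemma univPush_le : univPush V ≤ V := fun _ _ _ h ↦ h (𝟙 _) (𝟙 _) _ (IsPushout.of_vert_isIso ⟨by simp⟩)

instance : (univPush V).IsStableUnderCobaseChange where
  of_isPushout sq hf _ _ _ _ _ sq' := hf _ _ _ (sq.flip.paste_vert sq')

variable {V}

lemma univPush_chain [HasPushouts C] {J : Type w} [LinearOrder J] [SuccOrder J] [OrderBot J]
    [WellFoundedLT J] [V.IsStableUnderTransfiniteCompositionOfShape J] [V.RespectsIso]
    (F : J ⥤ C) [F.IsWellOrderContinuous]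
    (hF : ∀ j : J, ¬ IsMax j → univPush V (F.map (homOfLE (Order.le_succ j))))
    {cF : Cocone F} (hcF : IsColimit cF) : univPush V (cF.ι.app ⊥) := by
  intro X Y a b j sq
  obtain ⟨ι, ⟨hι⟩, h₁, h₂⟩ := exists_isColimit_poF F a hcF sq
  have h3 : V (ι.app ⊥) := V.transfiniteCompositionsOfShape_le J _
    ⟨{ F := poF F a
       isoBot := Iso.refl _
       incl := ι
       isColimit := hι
       fac := Category.id_comp _
       map_mem := fun j hj ↦ hF j hj _ _ _ (poF_isPushout_map F a _) }⟩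
  rw [← h₂ ⊥]
  exact (MorphismProperty.cancel_left_of_respectsIso V _ _).2 h3

instance [HasPushouts C] [IsStableUnderTransfiniteComposition.{w} V] [V.RespectsIso] :
    IsStableUnderTransfiniteComposition.{w} (univPush V) where
  isStableUnderTransfiniteCompositionOfShape J _ _ _ _ :=
    { le := by
        rintro X Y f ⟨h⟩
        have h1 := univPush_chain h.F h.map_mem h.isColimit
        rw [← h.fac]
        exact (MorphismProperty.cancel_left_of_respectsIso (univPush V) _ _).2 h1 }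

end Vale.Agent.P213.AS
end
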