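import Vale.Agent.P213.Bdl.B2

/-!
# Trivial cofibrations of simplicial sets (KQ2)
-/

universe u

open CategoryTheory MonoidalCategory CartesianMonoidalCategory Simplicial
  HomotopicalAlgebra Limits SSet SSet.modelCategoryQuillen

namespace Vale.Agent.P213

variable {X Y Z K A B E S T : SSet.{u}}

lemma fibration_of_kanFib {p : E ⟶ B} (hp : kanFib p) : Fibration p := (fibration_iff _).2 hp

/-- In a Kan fibration `q : L ⟶ M`, given two edges `e, e'` of `L` with the same target and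
the same image in `M`, there is an edge from the source of `e` to the source of `e'` which
lies over a degenerate edge. -/
lemma fib_edge {L M : SSet.{u}} {q : L ⟶ M} (hq : kanFib q) (e e' : Δ[1] ⟶ L)
    (h : stdSimplex.δ 0 ≫ e = stdSimplex.δ 0 ≫ e') (h' : e ≫ q = e' ≫ q) :
    ∃ e'' : Δ[1] ⟶ L, stdSimplex.δ 1 ≫ e'' = stdSimplex.δ 1 ≫ e ∧
      stdSimplex.δ 0 ≫ e'' = stdSimplex.δ 1 ≫ e' ∧
      e'' ≫ q = stdSimplex.σ 0 ≫ stdSimplex.δ 1 ≫ e ≫ q := by
  let f : ∀ (j : Fin 3) (_ : j ≠ 2), Δ[1] ⟶ L := fun j _ => if j = 0 then e' else e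
  have hf : horn.IsCompatible f := by
    rw [horn.isCompatible_iff]
    intro j k hj hk hjk
    fin_cases j
    · fin_cases k
      · simp at hjk
      · exact h.symm
      · simp at hk
    · fin_cases k
      · simp at hjk
      · simp at hjk
      · simp at hk
    · simp at hj
  have := fibration_of_kanFib hq
  have s0 : (stdSimplex.{u}.δ 0 : Δ[1] ⟶ Δ[2]) ≫ (stdSimplex.σ 0 : Δ[2] ⟶ Δ[1]) = 𝟙 _ :=
    stdSimplex.δ_comp_σ_self (n := 1) (i := 0)
  have s1 : (stdSimplex.{u}.δ 1 : Δ[1] ⟶ Δ[2]) ≫ (stdSimplex.σ 0 : Δ[2] ⟶ Δ[1]) = 𝟙 _ :=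
    stdSimplex.δ_comp_σ_succ (n := 1) (i := 0)
  obtain ⟨φ, hφ, hφ'⟩ := hf.exists_lift q (stdSimplex.σ 0 ≫ e ≫ q) (by
    intro j hj
    fin_cases j
    · change e' ≫ q = stdSimplex.δ 0 ≫ stdSimplex.σ 0 ≫ e ≫ q
      rw [← Category.assoc, s0, Category.id_comp, h']
    · change e ≫ q = stdSimplex.δ 1 ≫ stdSimplex.σ 0 ≫ e ≫ q
      rw [← Category.assoc, s1, Category.id_comp]
    · simp at hj)
  have h0 : stdSimplex.δ 0 ≫ φ = e' := hφ 0 (by simp)
  have h1 : stdSimplex.δ 1 ≫ φ = e := hφ 1 (by simp)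
  have e1 : (stdSimplex.{u}.δ 1 : Δ[0] ⟶ Δ[1]) ≫ (stdSimplex.δ 2 : Δ[1] ⟶ Δ[2]) =
      stdSimplex.δ 1 ≫ stdSimplex.δ 1 :=
    stdSimplex.δ_comp_δ (n := 0) (i := 1) (j := 1) (by simp)
  have e0 : (stdSimplex.{u}.δ 0 : Δ[0] ⟶ Δ[1]) ≫ (stdSimplex.δ 2 : Δ[1] ⟶ Δ[2]) =
      stdSimplex.δ 1 ≫ stdSimplex.δ 0 :=
    stdSimplex.δ_comp_δ (n := 0) (i := 0) (j := 1) (by simp)
  have e2 : (stdSimplex.{u}.δ 2 : Δ[1] ⟶ Δ[2]) ≫ (stdSimplex.σ 0 : Δ[2] ⟶ Δ[1]) =
      stdSimplex.σ 0 ≫ stdSimplex.δ 1 :=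
    stdSimplex.δ_comp_σ_of_gt (n := 0) (i := 1) (j := 0) (by simp)
  refine ⟨stdSimplex.δ 2 ≫ φ, ?_, ?_, ?_⟩
  · rw [← Category.assoc, e1, Category.assoc, h1]
  · rw [← Category.assoc, e0, Category.assoc, h0]
  · rw [Category.assoc, hφ', ← Category.assoc, e2, Category.assoc]

/-- In a Kan fibration `p : E ⟶ B`, given two homotopies `H, H' : X × Δ[1] ⟶ E` with the same
end and the same image in `B`, there is a fibrewise homotopy from the start of `H` to the
start of `H'`. -/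
lemma fibrewise_htpy {p : E ⟶ B} (hp : kanFib p) (H H' : X ⊗ Δ[1] ⟶ E)
    (h₁ : ι₁ ≫ H = ι₁ ≫ H') (h₂ : H ≫ p = H' ≫ p) :
    ∃ F : X ⊗ Δ[1] ⟶ E, ι₀ ≫ F = ι₀ ≫ H ∧ ι₁ ≫ F = ι₀ ≫ H' ∧
      F ≫ p = fst _ _ ≫ ι₀ ≫ H ≫ p := by
  have := fibration_of_kanFib hp
  obtain ⟨e, he₁, he₀, hq⟩ := fib_edge (q := (ihom X).map p)
    ((fibration_iff _).1 inferInstance) (MonoidalClosed.curry H) (MonoidalClosed.curry H') (by
      rw [← MonoidalClosed.curry_natural_left, ← MonoidalClosed.curry_natural_left,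
        ← fst_ι₁, Category.assoc, Category.assoc, h₁]) (by
      rw [← MonoidalClosed.curry_natural_right, ← MonoidalClosed.curry_natural_right, h₂])
  refine ⟨MonoidalClosed.uncurry e, ?_, ?_, ?_⟩
  · rw [← cancel_epi (fst X Δ[0]), ← Category.assoc, fst_ι₀,
        ← MonoidalClosed.uncurry_natural_left, he₁, MonoidalClosed.uncurry_natural_left,
        MonoidalClosed.uncurry_curry, ← fst_ι₀, Category.assoc]
  · rw [← cancel_epi (fst X Δ[0]), ← Category.assoc, fst_ι₁,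
        ← MonoidalClosed.uncurry_natural_left, he₀, MonoidalClosed.uncurry_natural_left,
        MonoidalClosed.uncurry_curry, ← fst_ι₀, Category.assoc]
  · rw [← MonoidalClosed.uncurry_natural_right, hq, MonoidalClosed.uncurry_natural_left,
      MonoidalClosed.uncurry_natural_left, ← MonoidalClosed.curry_natural_right,
      MonoidalClosed.uncurry_curry, ← fst_ι₀]
    simp only [Category.assoc]
    rfl

lemma isEmpty_initial (n : SimplexCategoryᵒᵖ) : IsEmpty ((⊥_ SSet.{u}).obj n) :=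
  ⟨fun x => ((initial.to ((⊥ : Subcomplex (⊥_ SSet.{u})) : SSet.{u})).app n x).2⟩

lemma initial_tensor_hom_ext (f g : (⊥_ SSet.{u}) ⊗ X ⟶ Y) : f = g := by
  ext n ⟨x, y⟩
  exact (isEmpty_initial n).elim x

/-- A Kan fibration with a section `s` such that `p ≫ s` is fibrewise homotopic to the
identity is a trivial fibration. -/
lemma rlpI_of_shrinkable {p : E ⟶ B} (hp : kanFib p) (s : B ⟶ E) (hs : s ≫ p = 𝟙 B)
    (F : E ⊗ Δ[1] ⟶ E) (hF₀ : ι₀ ≫ F = 𝟙 E) (hF₁ : ι₁ ≫ F = p ≫ s)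
    (hF : F ≫ p = fst _ _ ≫ p) : I.{u}.rlp p := by
  rw [← rlp_monomorphisms]
  intro A X i (hi : Mono i)
  refine ⟨fun {u v} sq => ?_⟩
  have hsq := sq.w
  obtain ⟨L, hL₁, hL₂, hL₃⟩ := lift_cyl₁ i hp (v ≫ s) (u ▷ _ ≫ F) (fst _ _ ≫ v)
    (by rw [ι₁_comp_assoc, hF₁, reassoc_of% hsq]) (by simp [hs])
    (by rw [Category.assoc, hF, whiskerRight_fst_assoc, whiskerRight_fst_assoc, hsq])
  refine ⟨⟨⟨ι₀ ≫ L, ?_, ?_⟩⟩⟩
  · rw [← ι₀_comp_assoc, hL₂, ι₀_comp_assoc, hF₀, Category.comp_id]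
  · rw [Category.assoc, hL₃, ι₀_fst_assoc]

/-- a Kan fibration between Kan complexes which is a weak equivalence is a trivial fibration -/
lemma rlpI_of_kanFib_of_whe_of_kanComplex {X Y : SSet.{u}} (p : X ⟶ Y) [SSet.KanComplex X]
    [SSet.KanComplex Y] (hp : kanFib p) (hw : whe p) : I.rlp p := by
  obtain ⟨g, hg⟩ := hw.surj (𝟙 X)
  have hg' : Htpy (g ≫ p) (𝟙 Y) := hw.inj (by simpa using hg.postcomp p)
  obtain ⟨h, h₀, h₁⟩ := hg'
  obtain ⟨L, hL₀, -, hL⟩ := lift_cyl₀ (initial.to Y) hp g (fst _ _ ≫ initial.to _) h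
    (Subsingleton.elim _ _) h₀ (initial_tensor_hom_ext _ _)
  set s := ι₁ ≫ L with hs_def
  have hs : s ≫ p = 𝟙 Y := by rw [hs_def, Category.assoc, hL, h₁]
  have hgs : Htpy g s := ⟨L, hL₀, rfl⟩
  obtain ⟨H, hH₀, hH₁⟩ : Htpy (𝟙 X) (p ≫ s) := hg.symm.trans (hgs.precomp p)
  obtain ⟨F, hF₀, hF₁, hF⟩ := fibrewise_htpy hp H (H ≫ p ≫ s) (by
    rw [reassoc_of% hH₁, hH₁, reassoc_of% hs]) (by simp [hs])
  refine rlpI_of_shrinkable hp s hs F (by rw [hF₀, hH₀]) ?_ ?_
  · rw [hF₁, reassoc_of% hH₀]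
  · rw [hF, reassoc_of% hH₀]

lemma htpy_curry_iff {f g : T ⊗ X ⟶ K} :
    Htpy (MonoidalClosed.curry f) (MonoidalClosed.curry g) ↔ Htpy f g := by
  constructor
  · rintro ⟨h, h₀, h₁⟩
    refine ⟨(α_ _ _ _).hom ≫ MonoidalClosed.uncurry h, ?_, ?_⟩
    · have : (ι₀ : T ⊗ X ⟶ (T ⊗ X) ⊗ Δ[1]) ≫ (α_ _ _ _).hom = T ◁ ι₀ := rfl
      rw [← Category.assoc, this, ← MonoidalClosed.uncurry_natural_left, h₀,
        MonoidalClosed.uncurry_curry]
    · have : (ι₁ : T ⊗ X ⟶ (T ⊗ X) ⊗ Δ[1]) ≫ (α_ _ _ _).hom = T ◁ ι₁ := rfl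
      rw [← Category.assoc, this, ← MonoidalClosed.uncurry_natural_left, h₁,
        MonoidalClosed.uncurry_curry]
  · rintro ⟨h, rfl, rfl⟩
    refine ⟨MonoidalClosed.curry ((α_ _ _ _).inv ≫ h), ?_, ?_⟩
    · rw [← MonoidalClosed.curry_natural_left]
      rfl
    · rw [← MonoidalClosed.curry_natural_left]
      rfl

lemma whe.whiskerLeft {f : X ⟶ Y} (hf : whe f) (T : SSet.{u}) : whe (T ◁ f) := by
  rw [whe_iff]
  intro K _
  refine ⟨fun g => ?_, fun a b h => ?_⟩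
  · obtain ⟨g', hg'⟩ := hf.surj (MonoidalClosed.curry g)
    refine ⟨MonoidalClosed.uncurry g', ?_⟩
    rw [← htpy_curry_iff, MonoidalClosed.curry_natural_left, MonoidalClosed.curry_uncurry]
    exact hg'
  · rw [← htpy_curry_iff, MonoidalClosed.curry_natural_left,
      MonoidalClosed.curry_natural_left] at h
    exact htpy_curry_iff.1 (hf.inj h)

lemma whe.whiskerRight {f : X ⟶ Y} (hf : whe f) (T : SSet.{u}) : whe (f ▷ T) := by
  have : f ▷ T = (β_ _ _).hom ≫ T ◁ f ≫ (β_ _ _).inv := by simp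
  rw [this]
  exact (whe_of_isIso _).comp ((hf.whiskerLeft T).comp (whe_of_isIso _))

/-- A map which induces bijections on homotopy classes of maps from every simplicial set is
a weak equivalence. -/
lemma whe_of_bijective_right (p : X ⟶ Y)
    (h₁ : ∀ (T : SSet.{u}) (f : T ⟶ Y), ∃ g : T ⟶ X, Htpy (g ≫ p) f)
    (h₂ : ∀ (T : SSet.{u}) (f g : T ⟶ X), Htpy (f ≫ p) (g ≫ p) → Htpy f g) : whe p := by
  obtain ⟨g, hg⟩ := h₁ Y (𝟙 Y)
  have hg' : Htpy (p ≫ g) (𝟙 X) := h₂ _ _ _ (by simpa using hg.precomp p)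
  exact whe_of_eqvGen p g hg'.toE hg.toE

lemma htpy_uncurry_iff {f g : X ⟶ (ihom T).obj K} :
    Htpy (MonoidalClosed.uncurry f) (MonoidalClosed.uncurry g) ↔ Htpy f g := by
  rw [← htpy_curry_iff, MonoidalClosed.curry_uncurry, MonoidalClosed.curry_uncurry]

lemma whe.pre {i : A ⟶ B} (hi : whe i) (K : SSet.{u}) [KanComplex K] :
    whe ((MonoidalClosed.pre i).app K) := by
  apply whe_of_bijective_right
  · intro T f
    obtain ⟨g, hg⟩ := (hi.whiskerRight T).surj (MonoidalClosed.uncurry f)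
    refine ⟨MonoidalClosed.curry g, ?_⟩
    rw [← htpy_uncurry_iff, MonoidalClosed.uncurry_pre_app, MonoidalClosed.uncurry_curry]
    exact hg
  · intro T f g h
    rw [← htpy_uncurry_iff, MonoidalClosed.uncurry_pre_app,
      MonoidalClosed.uncurry_pre_app] at h
    exact htpy_uncurry_iff.1 ((hi.whiskerRight T).inj h)

/-- For a monomorphism which is a weak equivalence, restriction of maps to a Kan complex
is a trivial fibration. -/
lemma rlpI_pre {i : A ⟶ B} [Mono i] (hi : whe i) (K : SSet.{u}) [KanComplex K] :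
    I.{u}.rlp ((MonoidalClosed.pre i).app K) :=
  rlpI_of_kanFib_of_whe_of_kanComplex _ ((fibration_iff _).1 inferInstance) (hi.pre K)

lemma htpy_fst_iff {f g : X ⟶ K} :
    Htpy (fst X Δ[0] ≫ f) (fst X Δ[0] ≫ g) ↔ Htpy f g := by
  constructor
  · intro h
    simpa using h.precomp (inv (fst X Δ[0]))
  · intro h
    exact h.precomp _

lemma whe_of_rlpI_pre {i : A ⟶ B} (h : ∀ (K : SSet.{u}) [KanComplex K],
    I.{u}.rlp ((MonoidalClosed.pre i).app K)) : whe i := by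
  rw [whe_iff]
  intro K _
  refine ⟨fun g => ?_, fun f g hfg => ?_⟩
  · have := rlpI_hasLift (h K) (initial.to (Δ[0] : SSet.{u}))
    have sq : CommSq (initial.to _) (initial.to (Δ[0] : SSet.{u})) ((MonoidalClosed.pre i).app K)
      (MonoidalClosed.curry (fst A Δ[0] ≫ g)) := ⟨Subsingleton.elim _ _⟩
    have hl := congrArg MonoidalClosed.uncurry sq.fac_right
    rw [MonoidalClosed.uncurry_pre_app, MonoidalClosed.uncurry_curry] at hl
    refine ⟨inv (fst B Δ[0]) ≫ MonoidalClosed.uncurry sq.lift, Htpy.of_eq ?_⟩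
    rw [← cancel_epi (fst A Δ[0]), ← whiskerRight_fst_assoc, IsIso.hom_inv_id_assoc]
    exact hl
  · obtain ⟨s, H, hs, hH₀, hH₁, -⟩ := rlpI_section (h K)
    have := (kanFib_terminal K (terminal.from K))
    have h1 : Htpy (MonoidalClosed.curry (fst B Δ[0] ≫ f) ≫ (MonoidalClosed.pre i).app K)
        (MonoidalClosed.curry (fst B Δ[0] ≫ g) ≫ (MonoidalClosed.pre i).app K) := by
      rw [← htpy_uncurry_iff, MonoidalClosed.uncurry_pre_app, MonoidalClosed.uncurry_pre_app,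
        MonoidalClosed.uncurry_curry, MonoidalClosed.uncurry_curry,
        whiskerRight_fst_assoc, whiskerRight_fst_assoc, htpy_fst_iff]
      exact hfg
    have h2 : Htpy ((MonoidalClosed.pre i).app K ≫ s) (𝟙 _) := ⟨H, hH₀, hH₁⟩
    have h3 := (h2.precomp (MonoidalClosed.curry (fst B Δ[0] ≫ f))).symm.trans
      ((h1.postcomp s).trans (by
        simpa using h2.precomp (MonoidalClosed.curry (fst B Δ[0] ≫ g))))
    rw [← htpy_fst_iff, ← htpy_curry_iff]
    simpa using h3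

/-- exchange of the two variables in the lifting problem for pushout-products against a
Kan complex. -/
lemma hasLift_pre_iff {i : A ⟶ B} {j : X ⟶ Y} {K : SSet.{u}} :
    HasLiftingProperty j ((MonoidalClosed.pre i).app K) ↔
      HasLiftingProperty i ((MonoidalClosed.pre j).app K) := by
  let sq₁₂ := Functor.PushoutObjObj.ofHasPushout (curriedTensor SSet) i j
  have h₁ := MonoidalClosed.internalHomAdjunction₂.hasLiftingProperty_iff sq₁₂
    (Functor.PullbackObjObj.ofIsTerminal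
      MonoidalClosed.internalHom i (terminal.from K) terminalIsTerminal)
  have h₂ := MonoidalClosed.internalHomAdjunction₂.hasLiftingProperty_iff sq₁₂.flipTensor
    (Functor.PullbackObjObj.ofIsTerminal
      MonoidalClosed.internalHom j (terminal.from K) terminalIsTerminal)
  refine h₁.symm.trans (Iff.trans ?_ h₂)
  exact HasLiftingProperty.iff_of_arrow_iso_left
    (show Arrow.mk sq₁₂.ι ≅ Arrow.mk sq₁₂.flipTensor.ι from
      Arrow.isoMk (Iso.refl _) (β_ _ _)) _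

/-- Restriction maps `K^Δ[m] ⟶ K^∂Δ[m]` for Kan complexes `K`. -/
inductive kanPre : MorphismProperty SSet.{u}
  | mk (K : SSet.{u}) [KanComplex K] (m : ℕ) :
    kanPre ((MonoidalClosed.pre (∂Δ[m] : Subcomplex.{u} Δ[m]).ι).app K)

/-- Trivial cofibrations. -/
def trivCof : MorphismProperty SSet.{u} := MorphismProperty.monomorphisms _ ⊓ whe

lemma trivCof_iff {i : A ⟶ B} : trivCof i ↔ Mono i ∧ whe i := Iff.rfl

lemma trivCof_eq_llp : trivCof.{u} = MorphismProperty.monomorphisms _ ⊓ kanPre.llp := by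
  ext A B i
  constructor
  · rintro ⟨(h₁ : Mono i), h₂⟩
    refine ⟨h₁, ?_⟩
    rintro _ _ _ ⟨K, m⟩
    rw [← hasLift_pre_iff]
    exact rlpI_pre h₂ K _ (boundary_ι_mem_I m)
  · rintro ⟨h₁, h₂⟩
    refine ⟨h₁, whe_of_rlpI_pre fun K _ => ?_⟩
    rintro _ _ _ ⟨m⟩
    rw [hasLift_pre_iff]
    exact h₂ _ ⟨K, m⟩

instance : trivCof.{u}.IsStableUnderCobaseChange := by
  rw [trivCof_eq_llp]
  infer_instance
instance : trivCof.{u}.IsMultiplicative := by
  rw [trivCof_eq_llp]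
  infer_instance
instance : trivCof.{u}.IsStableUnderRetracts := by
  rw [trivCof_eq_llp]
  infer_instance

lemma isStableUnderColimitsOfShape_inf {C : Type*} [Category C] (W W' : MorphismProperty C)
    (J : Type*) [Category J] [W.IsStableUnderColimitsOfShape J]
    [W'.IsStableUnderColimitsOfShape J] : (W ⊓ W').IsStableUnderColimitsOfShape J where
  condition X₁ X₂ c₁ c₂ h₁ h₂ f hf φ hφ :=
    ⟨MorphismProperty.IsStableUnderColimitsOfShape.condition X₁ X₂ c₁ c₂ h₁ h₂ f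
      (fun j => (hf j).1) φ hφ,
    MorphismProperty.IsStableUnderColimitsOfShape.condition X₁ X₂ c₁ c₂ h₁ h₂ f
      (fun j => (hf j).2) φ hφ⟩

instance : MorphismProperty.IsStableUnderCoproducts.{u} trivCof.{u} where
  isStableUnderCoproductsOfShape J := by
    rw [trivCof_eq_llp]
    exact isStableUnderColimitsOfShape_inf _ _ _

instance : MorphismProperty.IsStableUnderTransfiniteComposition.{u} trivCof.{u} where
  isStableUnderTransfiniteCompositionOfShape J _ _ _ _ := by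
    rw [trivCof_eq_llp]
    refine ⟨?_⟩
    rintro X Y f ⟨hf⟩
    exact ⟨MorphismProperty.transfiniteCompositionsOfShape_le _ J _
        ⟨{ hf with map_mem := fun j hj => (hf.map_mem j hj).1 }⟩,
      MorphismProperty.transfiniteCompositionsOfShape_le _ J _
        ⟨{ hf with map_mem := fun j hj => (hf.map_mem j hj).2 }⟩⟩

end Vale.Agent.P213
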