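import Mathlib.CategoryTheory.Types.Monomorphisms
import Mathlib.CategoryTheory.MorphismProperty.FunctorCategory
import Mathlib.AlgebraicTopology.SimplicialSet.AnodyneExtensions.Basic
import Mathlib.AlgebraicTopology.SimplicialSet.Monomorphisms
import Mathlib.AlgebraicTopology.SimplicialSet.FiniteColimits
import Mathlib.AlgebraicTopology.SimplicialSet.Nonempty
import Vale.Agent.P213.Bdl.B10
import Vale.Agent.P213.Bdl.K_KQ_TrivCof
import Vale.Agent.P213.Bdl.B2
import Vale.Agent.P213.Bdl.K_KQ_SdNerve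
import Vale.Agent.P213.Bdl.B8
import Vale.Agent.P213.Bdl.B1

set_option linter.all false

section

/-!
The axioms `exponentiable` and `fiber_simplex` for strict `n`-categories, end.
-/

universe u v w

namespace Vale.Agent.P213

open CategoryTheory Limits OmegaStr Opposite Simplicial

variable {n : ℕ∞} (hn : 1 ≤ n) {c : SSet.{0} ⥤ NCat.{0} n} (adj : c ⊣ nerveN n)

include hn in
/-- the identification of `c Δ[1]` with `O_1` -/
theorem exists_q : ∃ q : OmegaFun (c.obj Δ[1]).obj.carrier O1,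
    (∀ x, q (U adj (top 1) x) = x) ∧ ∀ t, U adj (top 1) (q t) = t := by
  let T : NCat.{0} n := UnitAx.orientalN 1 (UnitAx.isNCat_two hn)
  obtain ⟨q, hq⟩ := exists_c_simplex_hom adj (m := 1) (Z := T) (OmegaFun.id O1)
  refine ⟨fn q, fun x => hq x, ?_⟩
  have h : q ≫ ofFun (X := T) (U adj (top 1)) = 𝟙 _ := by
    apply c_simplex_hom_ext adj
    intro x
    exact congrArg (U adj (top 1)) (hq x)
  intro t
  exact congrArg (fun z => fn z t) h

/-- the level function of a map to `Δ[1]` -/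
def lv {m : ℕ} (f : Δ[m] ⟶ (Δ[1] : SSet.{0})) : Fin (m + 1) →o Fin 2 :=
  (SSet.stdSimplex.objEquiv (f.app _ (top m))).toOrderHom

section

variable (q : OmegaFun (c.obj Δ[1]).obj.carrier O1) (hq : ∀ x, q (U adj (top 1) x) = x)

include hq in
theorem q_map {m : ℕ} (f : Δ[m] ⟶ (Δ[1] : SSet.{0})) (x : Cell (simplexCx (Fin (m + 1)))) :
    q (fn (c.map f) (U adj (top m) x)) = x.map (simplexMap (lv f)) := by
  rw [fn_c_map adj, U_simplex adj, hq]
  rfl

include hn hq in
theorem q_point (ε : Fin 2) (x : (c.obj Δ[0]).obj.carrier) :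
    q (fn (c.map (SSet.stdSimplex.{0}.δ (n := 0) ε)) x) = Cell.vtx (ε.succAbove 0) := by
  let T : NCat.{0} n := UnitAx.orientalN 1 (UnitAx.isNCat_two hn)
  let g1 : c.obj Δ[0] ⟶ T := ofFun (Y := T) (q.comp (fn (c.map (SSet.stdSimplex.{0}.δ ε))))
  let g2 : c.obj Δ[0] ⟶ T := ofFun (Y := T)
    (levelFun (fun _ => ε.succAbove 0) (fun _ => le_rfl))
  have h : g1 = g2 := by
    apply c_simplex_hom_ext adj
    intro y
    have h1 : fn g1 (U adj (top 0) y) = y.map (simplexMap (lv (SSet.stdSimplex.{0}.δ ε))) :=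
      q_map adj q hq _ y
    rw [h1]
    apply Cell.fin2_ext
    intro a
    rw [Cell.vert_map]
    have h2 := vert_levelFun (C := (c.obj Δ[0]).obj.carrier) (fun _ => ε.succAbove 0)
      (fun _ => le_rfl) a (U adj (top 0) y)
    refine Eq.trans ?_ h2.symm
    have h3 : Cell.vert a y = (0 : Fin 1) := Subsingleton.elim (α := Fin 1) _ _
    rw [h3]
    rfl
  have h1 := congrArg (fun z => fn z x) h
  refine h1.trans ?_
  apply Cell.fin2_ext
  intro a
  rw [Cell.vert_vtx]
  exact vert_levelFun (C := (c.obj Δ[0]).obj.carrier) (fun _ => ε.succAbove 0)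
      (fun _ => le_rfl) a x

end

theorem exists_lvMid (ε : Fin 2) : ∃ b : Bool, ε.succAbove (0 : Fin 1) = lvMid b := by
  match ε with
  | 0 => exact ⟨false, rfl⟩
  | 1 => exact ⟨true, rfl⟩

include hn adj in
/-- The axiom `exponentiable`. -/
theorem exponentiable_NCat (ε : Fin 2) :
    (Over.pullback (c.map (SSet.stdSimplex.{0}.δ (n := 0) ε))).IsLeftAdjoint := by
  obtain ⟨q, hq1, hq2⟩ := exists_q hn adj
  obtain ⟨hP⟩ := UnitAx.isTerminal_zero adj
  obtain ⟨b, hb⟩ := exists_lvMid ε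
  refine isLeftAdjoint_pullback hn hP q (U adj (top 1)) hq1 hq2 (ε := b) _ ?_
  intro x
  rw [← hb]
  exact q_point hn adj q hq1 ε x

theorem vert_false_d_le {I : Type} [LinearOrder I] (a : Bool) (m : ℕ) (x : Cell (simplexCx I)) :
    Cell.vert false x ≤ Cell.vert false (d a m x) := by
  rcases Nat.eq_zero_or_pos m with rfl | hm
  · rw [Cell.vert_d_zero]
    cases a
    · exact le_rfl
    · exact Cell.vert_le x
  · rw [Cell.vert_d_pos _ _ hm]

theorem vert_true_d_le {I : Type} [LinearOrder I] (a : Bool) (m : ℕ) (x : Cell (simplexCx I)) :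
    Cell.vert true (d a m x) ≤ Cell.vert true x := by
  rcases Nat.eq_zero_or_pos m with rfl | hm
  · rw [Cell.vert_d_zero]
    cases a
    · exact Cell.vert_le x
    · exact le_rfl
  · rw [Cell.vert_d_pos _ _ hm]

section Fiber

variable {m : ℕ} {f : Δ[m] ⟶ (Δ[1] : SSet.{0})} {ε : Fin 2} {K : SSet.{0}} {k : K ⟶ Δ[m]}
  {k' : K ⟶ Δ[0]} (sq : IsPullback k k' f (SSet.stdSimplex.δ ε))

/-- the vertices of a simplex of `K` -/
def vts (k : K ⟶ Δ[m]) {p : ℕ} (s : K.obj (op ⦋p⦌)) : Fin (p + 1) →o Fin (m + 1) :=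
  (SSet.stdSimplex.objEquiv (k.app _ s)).toOrderHom

theorem vts_map {p p' : ℕ} (s : K.obj (op ⦋p⦌)) (θ : ⦋p'⦌ ⟶ ⦋p⦌) :
    vts k (K.map θ.op s) = (vts k s).comp θ.toOrderHom := by
  unfold vts
  have h : k.app _ (K.map θ.op s) = (Δ[m] : SSet.{0}).map θ.op (k.app _ s) :=
    NatTrans.naturality_apply k θ.op s
  rw [h]
  rfl

include sq in
theorem vts_injective {p : ℕ} {s t : K.obj (op ⦋p⦌)} (h : vts k s = vts k t) : s = t := by
  have h1 : k.app _ s = k.app _ t := by
    apply SSet.stdSimplex.objEquiv.injective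
    exact SimplexCategory.Hom.ext _ _ h
  apply SSet.yonedaEquiv.symm.injective
  apply sq.hom_ext
  · apply SSet.yonedaEquiv.injective
    rw [SSet.yonedaEquiv_comp, SSet.yonedaEquiv_comp, Equiv.apply_symm_apply,
      Equiv.apply_symm_apply, h1]
  · exact SSet.stdSimplex.isTerminalObj₀.hom_ext _ _

theorem lv_comp {p : ℕ} (g : Δ[p] ⟶ (Δ[m] : SSet.{0})) :
    lv (g ≫ f) = (lv f).comp (SSet.stdSimplex.objEquiv (g.app _ (top p))).toOrderHom := by
  unfold lv
  have h : (g ≫ f).app _ (top p) = (Δ[1] : SSet.{0}).map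
      (SSet.stdSimplex.objEquiv (g.app _ (top p))).op (f.app _ (top m)) := by
    have h1 : (g ≫ f).app _ (top p) = f.app _ (g.app _ (top p)) := rfl
    rw [h1]
    conv_lhs => rw [eq_map_top (g.app _ (top p))]
    exact NatTrans.naturality_apply f _ _
  rw [h]
  rfl

theorem lv_injective {f g : Δ[m] ⟶ (Δ[1] : SSet.{0})} (h : lv f = lv g) : f = g := by
  apply SSet.yonedaEquiv.injective
  apply SSet.stdSimplex.objEquiv.injective
  exact SimplexCategory.Hom.ext _ _ h

theorem lv_point {p : ℕ} (g : Δ[p] ⟶ (Δ[0] : SSet.{0})) (i : Fin (p + 1)) :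
    lv (g ≫ SSet.stdSimplex.δ ε) i = ε.succAbove 0 := by
  rw [lv_comp]
  have h3 : (SSet.stdSimplex.objEquiv (g.app _ (top p))).toOrderHom i = (0 : Fin 1) :=
    Subsingleton.elim (α := Fin 1) _ _
  exact congrArg (lv (SSet.stdSimplex.{0}.δ (n := 0) ε)) h3

include sq in
theorem lv_vts {p : ℕ} (s : K.obj (op ⦋p⦌)) (i : Fin (p + 1)) :
    lv f (vts k s i) = ε.succAbove 0 := by
  let g : Δ[p] ⟶ K := SSet.yonedaEquiv.symm s
  have h1 : g ≫ k ≫ f = g ≫ k' ≫ SSet.stdSimplex.δ ε := by rw [sq.w]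
  have h2 : lv (g ≫ k ≫ f) i = ε.succAbove 0 := by
    rw [h1, ← Category.assoc, lv_point]
  rw [← Category.assoc, lv_comp] at h2
  have h3 : (g ≫ k).app _ (top p) = k.app _ s := by
    have : g.app _ (top p) = s := SSet.yonedaEquiv.apply_symm_apply s
    rw [← this]
    rfl
  rw [h3] at h2
  exact h2

include sq in
theorem exists_simplex {p : ℕ} (θ : Fin (p + 1) →o Fin (m + 1))
    (hθ : ∀ i, lv f (θ i) = ε.succAbove 0) : ∃ s : K.obj (op ⦋p⦌), vts k s = θ := by
  let t : (Δ[m] : SSet.{0}).obj (op ⦋p⦌) :=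
    SSet.stdSimplex.objEquiv.symm (SimplexCategory.Hom.mk θ)
  let g : Δ[p] ⟶ (Δ[m] : SSet.{0}) := SSet.yonedaEquiv.symm t
  let g' : Δ[p] ⟶ (Δ[0] : SSet.{0}) := SSet.stdSimplex.isTerminalObj₀.from _
  have hg : g.app _ (top p) = t := SSet.yonedaEquiv.apply_symm_apply t
  have hc : g ≫ f = g' ≫ SSet.stdSimplex.δ ε := by
    apply lv_injective
    apply OrderHom.ext
    funext i
    rw [lv_point, lv_comp, hg]
    have : (SSet.stdSimplex.objEquiv t).toOrderHom = θ := by
      rw [Equiv.apply_symm_apply]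
      rfl
    rw [this]
    exact hθ i
  refine ⟨SSet.yonedaEquiv (sq.lift g g' hc), ?_⟩
  unfold vts
  have h1 : k.app _ (SSet.yonedaEquiv (sq.lift g g' hc)) = t := by
    rw [← SSet.yonedaEquiv_comp, sq.lift_fst, Equiv.apply_symm_apply]
  rw [h1, Equiv.apply_symm_apply]
  rfl

end Fiber

end Vale.Agent.P213
end

section

/-!
The axiom `fiber_simplex` for strict `n`-categories.
-/

universe u v w

namespace Vale.Agent.P213

open CategoryTheory Limits OmegaStr Opposite Simplicial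

variable {n : ℕ∞} (hn : 1 ≤ n) {c : SSet.{0} ⥤ NCat.{0} n} (adj : c ⊣ nerveN n)

/-- a monotone map as a morphism of the simplex category -/
def hm {p m : ℕ} (θ : Fin (p + 1) →o Fin (m + 1)) : ⦋p⦌ ⟶ ⦋m⦌ := SimplexCategory.Hom.mk θ

theorem hm_toOrderHom {p m : ℕ} (θ : Fin (p + 1) →o Fin (m + 1)) : (hm θ).toOrderHom = θ := rfl

section Restrict

variable {m : ℕ} {f : Δ[m] ⟶ (Δ[1] : SSet.{0})} {ε : Fin 2} {K : SSet.{0}} {k : K ⟶ Δ[m]}
  {k' : K ⟶ Δ[0]} (sq : IsPullback k k' f (SSet.stdSimplex.δ ε)) {e : Fin 2}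
  (he : ε.succAbove 0 = e)

/-- the functor `O_m ⟶ O_1` -/
noncomputable def Fm (f : Δ[m] ⟶ (Δ[1] : SSet.{0})) :
    OmegaFun (Cell (simplexCx (Fin (m + 1)))) O1 := Cell.mapFun (simplexMap (lv f))

theorem vert_Fm (a : Bool) (x : Cell (simplexCx (Fin (m + 1)))) :
    Cell.vert a (Fm f x) = lv f (Cell.vert a x) := Cell.vert_map _ _ _

/-- the interval spanned by a cell -/
noncomputable def cl (x : Cell (simplexCx (Fin (m + 1)))) : Fin (m + 1) →o Fin (m + 1) :=
  clamp (Cell.vert false x) (Cell.vert true x)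

theorem lv_cl {x : Cell (simplexCx (Fin (m + 1)))} (hx : Fm f x = Cell.vtx e)
    (i : Fin (m + 1)) : lv f (cl x i) = e := by
  have h0 : lv f (Cell.vert false x) = e := by rw [← vert_Fm, hx, Cell.vert_vtx]
  have h1 : lv f (Cell.vert true x) = e := by rw [← vert_Fm, hx, Cell.vert_vtx]
  apply le_antisymm
  · rw [← h1]
    exact (lv f).monotone (clamp_le (Cell.vert_le x) i)
  · rw [← h0]
    exact (lv f).monotone (le_clamp _ _ i)

include sq he in
theorem exists_sx {x : Cell (simplexCx (Fin (m + 1)))} (hx : Fm f x = Cell.vtx e) :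
    ∃ s : K.obj (op ⦋m⦌), vts k s = cl x :=
  exists_simplex sq (cl x) (fun i => by rw [lv_cl hx, he])

/-- the simplex of `K` spanned by a cell -/
noncomputable def sx {x : Cell (simplexCx (Fin (m + 1)))} (hx : Fm f x = Cell.vtx e) :
    K.obj (op ⦋m⦌) := Classical.choose (exists_sx sq he hx)

theorem vts_sx {x : Cell (simplexCx (Fin (m + 1)))} (hx : Fm f x = Cell.vtx e) :
    vts k (sx sq he hx) = cl x := Classical.choose_spec (exists_sx sq he hx)

include sq he in
theorem Fm_map_vts {p : ℕ} (s : K.obj (op ⦋p⦌)) (x : Cell (simplexCx (Fin (p + 1)))) :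
    Fm f (x.map (simplexMap (vts k s))) = Cell.vtx e := by
  apply Cell.fin2_ext
  intro a
  rw [vert_Fm, Cell.vert_map, Cell.vert_vtx, lv_vts sq, he]

variable {Z : NCat.{0} n} (w : c.obj K ⟶ Z)

/-- the simplices of `Z` given by those of `K` -/
noncomputable def W {p : ℕ} (s : K.obj (op ⦋p⦌)) :
    OmegaFun (Cell (simplexCx (Fin (p + 1)))) Z.obj.carrier := (fn w).comp (U adj s)

theorem W_apply {p : ℕ} (s : K.obj (op ⦋p⦌)) (x : Cell (simplexCx (Fin (p + 1)))) :
    W adj w s x = fn w (U adj s x) := rfl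

theorem W_pull {p q : ℕ} (θ : ⦋q⦌ ⟶ ⦋p⦌) (s : K.obj (op ⦋p⦌))
    (x : Cell (simplexCx (Fin (q + 1)))) :
    W adj w (K.map θ.op s) x = W adj w s (x.map (simplexMap θ.toOrderHom)) := by
  rw [W_apply, W_apply, U_pull]

/-- the value of `w` on a cell of the fibre -/
noncomputable def gO {x : Cell (simplexCx (Fin (m + 1)))} (hx : Fm f x = Cell.vtx e) :
    Z.obj.carrier := W adj w (sx sq he hx) x

theorem gO_congr {x y : Cell (simplexCx (Fin (m + 1)))} (h : x = y) (hx : Fm f x = Cell.vtx e)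
    (hy : Fm f y = Cell.vtx e) : gO adj sq he w hx = gO adj sq he w hy := by
  subst h
  rfl

theorem W_eq_gO {p : ℕ} (s : K.obj (op ⦋p⦌)) (x : Cell (simplexCx (Fin (p + 1)))) :
    W adj w s x = gO adj sq he w (Fm_map_vts sq he s x) := by
  have h1 : W adj w s x = W adj w (K.map
      (hm (clamp (Cell.vert false x) (Cell.vert true x))).op s) x := by
    rw [W_pull]
    congr 1
    exact (Cell.map_clamp x).symm
  have h2 : gO adj sq he w (Fm_map_vts sq he s x) =
      W adj w (K.map (hm (vts k s)).op (sx sq he (Fm_map_vts sq he s x))) x := by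
    rw [W_pull]
    rfl
  rw [h1, h2]
  congr 2
  apply vts_injective sq
  rw [vts_map, vts_map, vts_sx]
  have h3 := comp_clamp (vts k s) (Cell.vert false x) (Cell.vert true x)
  refine h3.trans ?_
  unfold cl
  rw [Cell.vert_map, Cell.vert_map]
  rfl

theorem W_sx {x y : Cell (simplexCx (Fin (m + 1)))} (hx : Fm f x = Cell.vtx e)
    (hy : Fm f y = Cell.vtx e) (h1 : Cell.vert false x ≤ Cell.vert false y)
    (h2 : Cell.vert true y ≤ Cell.vert true x) :
    W adj w (sx sq he hx) y = gO adj sq he w hy := by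
  rw [W_eq_gO adj sq he w]
  apply gO_congr
  rw [vts_sx]
  exact Cell.map_clamp_of_le y h1 h2

theorem fm_mem {x : Cell (simplexCx (Fin (m + 1)))}
    (hx : x ∈ (fib (Fm f) e).mem) : Fm f x = Cell.vtx e := hx

/-- the functor on the fibre of `O_m` -/
noncomputable def gF : OmegaFun (fib (Fm f) e).Carrier Z.obj.carrier where
  toFun x := gO adj sq he w (fm_mem x.2)
  map_d a i x := by
    have h1 := W_sx adj sq he w (fm_mem x.2) (fm_mem (d a i x).2)
      (vert_false_d_le a i x.1) (vert_true_d_le a i x.1)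
    rw [← h1]
    exact (W adj w (sx sq he (fm_mem x.2))).map_d a i x.1
  map_comp i x y h h' := by
    have h0 : d true i x.1 = d false i y.1 := congrArg Subtype.val h
    have hv := vert_comp_le i x.1 y.1 h0
    let z := comp i x y h
    have hz : z.1 = comp i x.1 y.1 h0 := rfl
    have hz0 : Cell.vert false z.1 = Cell.vert false x.1 := by rw [hz, Cell.vert_comp_false]
    have hz1 : Cell.vert true z.1 = Cell.vert true y.1 := by rw [hz, Cell.vert_comp_true]
    have hx := W_sx adj sq he w (fm_mem z.2) (fm_mem x.2) hz0.le ((hv true).trans hz1.ge)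
    have hy := W_sx adj sq he w (fm_mem z.2) (fm_mem y.2) (hz0.le.trans (hv false)) hz1.ge
    have hc := (W adj w (sx sq he (fm_mem z.2))).comp_apply' i x.1 y.1 h0
    change W adj w (sx sq he (fm_mem z.2)) (comp i x.1 y.1 h0) = _
    rw [hc]
    have key : ∀ {a b a' b' : Z.obj.carrier} (ha : a = a') (hb : b = b')
        (h : d true i a = d false i b) (h' : d true i a' = d false i b'),
        comp i a b h = comp i a' b' h' := by
      intro a b a' b' ha hb h h'
      subst ha hb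
      rfl
    exact key hx hy _ _

theorem gF_apply (x : Cell (simplexCx (Fin (m + 1)))) (hx : Fm f x = Cell.vtx e) :
    gF adj sq he w (fibMk (Fm f) x hx) = gO adj sq he w hx := rfl

end Restrict

section Main

variable {m : ℕ} {f : Δ[m] ⟶ (Δ[1] : SSet.{0})} {ε : Fin 2} {K : SSet.{0}} {k : K ⟶ Δ[m]}
  {k' : K ⟶ Δ[0]} (sq : IsPullback k k' f (SSet.stdSimplex.δ ε)) {b : Bool}
  (he : ε.succAbove 0 = lvMid b)
  (q : OmegaFun (c.obj Δ[1]).obj.carrier O1) (hq : ∀ x, q (U adj (top 1) x) = x)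

/-- the constant functor to `O_1` -/
noncomputable def constFun (C : Type u) [OmegaStr C] (e : Fin 2) : OmegaFun C O1 :=
  levelFun (fun _ => e) (fun _ => le_rfl)

theorem constFun_apply {C : Type u} [OmegaStr C] (e : Fin 2) (x : C) :
    constFun C e x = Cell.vtx e := by
  apply Cell.fin2_ext
  intro a
  rw [Cell.vert_vtx]
  exact vert_levelFun (fun _ => e) (fun _ => le_rfl) a x

theorem fn_ck {p : ℕ} (s : K.obj (op ⦋p⦌)) (x : Cell (simplexCx (Fin (p + 1)))) :
    fn (c.map k) (U adj s x) = U adj (top m) (x.map (simplexMap (vts k s))) := by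
  rw [fn_c_map adj, U_simplex adj]
  rfl

include hn sq he hq in
theorem mem_fib_c (x : (c.obj K).obj.carrier) :
    (q.comp (fn (c.map f))) (fn (c.map k) x) = Cell.vtx (lvMid b) := by
  let T : NCat.{0} n := UnitAx.orientalN 1 (UnitAx.isNCat_two hn)
  let g1 : c.obj K ⟶ T := ofFun (Y := T) (q.comp (fn (c.map k ≫ c.map f)))
  let g2 : c.obj K ⟶ T := ofFun (Y := T) (constFun _ (lvMid b))
  have h : g1 = g2 := by
    apply c_hom_ext adj
    intro p s y
    have h1 : fn g1 (U adj s y) = q (fn (c.map f) (fn (c.map k) (U adj s y))) := rfl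
    have h2 : fn g2 (U adj s y) = Cell.vtx (lvMid b) := constFun_apply _ _
    rw [h1, h2, fn_ck adj, q_map adj q hq]
    exact Fm_map_vts sq he s y
  have h1 := congrArg (fun z => fn z x) h
  exact h1.trans (constFun_apply _ _)

/-- the comparison map to the fibre -/
noncomputable def kap : c.obj K ⟶ fibN (c.obj Δ[m]) (q.comp (fn (c.map f))) (lvMid b) :=
  ofFun (Y := fibN (c.obj Δ[m]) (q.comp (fn (c.map f))) (lvMid b))
    ((fib _ _).lift (fn (c.map k)) (mem_fib_c hn adj sq he q hq))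

theorem kap_val (x : (c.obj K).obj.carrier) :
    (fn (kap hn adj sq he q hq) x).1 = fn (c.map k) x := rfl

theorem kap_surj {Z : NCat.{0} n} (w : c.obj K ⟶ Z) :
    ∃ g, kap hn adj sq he q hq ≫ g = w := by
  let H : OmegaFun (Cell (simplexCx (Fin (m + 1)))) (Cone b Z.obj.carrier) :=
    Cone.ext (Fm f) (gF adj sq he w)
  obtain ⟨h, hh⟩ := exists_c_simplex_hom adj (Z := coneN hn b Z) H
  have hproj : ∀ t, Cone.proj b Z.obj.carrier (fn h t) = q (fn (c.map f) t) := by
    let T : NCat.{0} n := UnitAx.orientalN 1 (UnitAx.isNCat_two hn)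
    let g1 : c.obj Δ[m] ⟶ T := ofFun (Y := T) ((Cone.proj b Z.obj.carrier).comp (fn h))
    let g2 : c.obj Δ[m] ⟶ T := ofFun (Y := T) (q.comp (fn (c.map f)))
    have h12 : g1 = g2 := by
      apply c_simplex_hom_ext adj
      intro x
      have e1 : fn g1 (U adj (top m) x) = Cone.proj b Z.obj.carrier (fn h (U adj (top m) x)) :=
        rfl
      have e2 : fn g2 (U adj (top m) x) = q (fn (c.map f) (U adj (top m) x)) := rfl
      rw [e1, e2, hh, q_map adj q hq]
      exact Cone.proj_ext _ _ _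
    intro t
    exact congrArg (fun z => fn z t) h12
  let F : OmegaFun (Cone b Z.obj.carrier) O1 := Cone.proj b Z.obj.carrier
  let S := fib (q.comp (fn (c.map f))) (lvMid b)
  let g : fibN (c.obj Δ[m]) (q.comp (fn (c.map f))) (lvMid b) ⟶ Z :=
    ofFun (X := fibN (c.obj Δ[m]) (q.comp (fn (c.map f))) (lvMid b))
      ((Cone.unmid F (fun _ => rfl)).comp
        ((fib F (lvMid b)).lift ((fn h).comp S.incl)
          (fun x => (hproj x.1).trans x.2)))
  have hg : ∀ t, Cone.mid (fn g t) = fn h t.1 := fun t =>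
    Cone.mid_unmid F (fun _ => rfl) _
  refine ⟨g, ?_⟩
  apply c_hom_ext adj
  intro p s x
  apply Cone.mid_injective (ε := b)
  have e1 : fn (kap hn adj sq he q hq ≫ g) (U adj s x) =
    fn g (fn (kap hn adj sq he q hq) (U adj s x)) := rfl
  rw [e1, hg, kap_val, fn_ck adj, hh]
  have e2 : Fm f (x.map (simplexMap (vts k s))) = Cell.vtx (lvMid b) := Fm_map_vts sq he s x
  have e3 : H (x.map (simplexMap (vts k s))) = Cone.mid (gF adj sq he w (fibMk _ _ e2)) :=
    Cone.ext_of_mem _ _ e2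
  refine e3.trans ?_
  rw [gF_apply, ← W_eq_gO adj sq he w s x]
  rfl

theorem kap_epi {Z : NCat.{0} n}
    (g₁ g₂ : fibN (c.obj Δ[m]) (q.comp (fn (c.map f))) (lvMid b) ⟶ Z)
    (hg : kap hn adj sq he q hq ≫ g₁ = kap hn adj sq he q hq ≫ g₂) : g₁ = g₂ := by
  let Q : OmegaFun (c.obj Δ[m]).obj.carrier O1 := q.comp (fn (c.map f))
  let G₁ : OmegaFun (fib Q (lvMid b)).Carrier Z.obj.carrier := fn g₁
  let G₂ : OmegaFun (fib Q (lvMid b)).Carrier Z.obj.carrier := fn g₂
  let h₁ : c.obj Δ[m] ⟶ coneN hn b Z := ofFun (Y := coneN hn b Z) (Cone.ext Q G₁)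
  let h₂ : c.obj Δ[m] ⟶ coneN hn b Z := ofFun (Y := coneN hn b Z) (Cone.ext Q G₂)
  have hQ : ∀ x, Q (U adj (top m) x) = Fm f x := fun x => q_map adj q hq f x
  have key : h₁ = h₂ := by
    apply c_simplex_hom_ext adj
    intro x
    have e : (Cone.ext Q G₁).comp (U adj (top m)) = (Cone.ext Q G₂).comp (U adj (top m)) := by
      apply Cone.hom_ext
      · intro y
        have e1 : Cone.proj b Z.obj.carrier (Cone.ext Q G₁ (U adj (top m) y)) = _ :=
          Cone.proj_ext _ _ _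
        have e2 : Cone.proj b Z.obj.carrier (Cone.ext Q G₂ (U adj (top m) y)) = _ :=
          Cone.proj_ext _ _ _
        exact e1.trans e2.symm
      · intro y hy
        have e1 : Cone.proj b Z.obj.carrier (Cone.ext Q G₁ (U adj (top m) y)) =
          Q (U adj (top m) y) := Cone.proj_ext _ _ _
        have hy1 : Q (U adj (top m) y) = Cell.vtx (lvMid b) := e1.symm.trans hy
        have hy2 : Fm f y = Cell.vtx (lvMid b) := (hQ y).symm.trans hy1
        have e2 : Cone.ext Q G₁ (U adj (top m) y) = Cone.mid (G₁ (fibMk Q _ hy1)) :=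
          Cone.ext_of_mem _ _ hy1
        have e3 : Cone.ext Q G₂ (U adj (top m) y) = Cone.mid (G₂ (fibMk Q _ hy1)) :=
          Cone.ext_of_mem _ _ hy1
        change Cone.ext Q G₁ (U adj (top m) y) = Cone.ext Q G₂ (U adj (top m) y)
        rw [e2, e3]
        congr 1
        -- the cell comes from `c K`
        have e4 : fn (kap hn adj sq he q hq) (U adj (sx sq he hy2) y) = fibMk Q _ hy1 := by
          apply Subtype.ext
          change fn (c.map k) (U adj (sx sq he hy2) y) = U adj (top m) y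
          rw [fn_ck adj, vts_sx]
          congr 1
          exact Cell.map_clamp y
        rw [← e4]
        exact congrArg (fun z => fn z (U adj (sx sq he hy2) y)) hg
    exact congrArg (fun z => z x) e
  apply nhom_ext
  intro t
  apply Cone.mid_injective (ε := b)
  have e1 : Cone.ext Q G₁ t.1 = Cone.mid (G₁ (fibMk Q t.1 t.2)) := Cone.ext_of_mem _ _ t.2
  have e2 : Cone.ext Q G₂ t.1 = Cone.mid (G₂ (fibMk Q t.1 t.2)) := Cone.ext_of_mem _ _ t.2
  have e3 : Cone.ext Q G₁ t.1 = Cone.ext Q G₂ t.1 := congrArg (fun z => fn z t.1) key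
  exact e1.symm.trans (e3.trans e2)

theorem isIso_kap : IsIso (kap hn adj sq he q hq) := by
  apply isIso_of_coyoneda_map_bijective
  intro Z
  exact ⟨fun g₁ g₂ h => kap_epi hn adj sq he q hq g₁ g₂ h,
    fun w => kap_surj hn adj sq he q hq w⟩

end Main

include hn adj in
/-- The axiom `fiber_simplex`. -/
theorem fiber_simplex_NCat (m : ℕ) (f : Δ[m] ⟶ (Δ[1] : SSet.{0})) (ε : Fin 2) {K : SSet.{0}}
    (k : K ⟶ Δ[m]) (k' : K ⟶ Δ[0]) (sq : IsPullback k k' f (SSet.stdSimplex.δ ε)) :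
    IsPullback (c.map k) (c.map k') (c.map f) (c.map (SSet.stdSimplex.δ ε)) := by
  obtain ⟨q, hq1, hq2⟩ := exists_q hn adj
  obtain ⟨hP⟩ := UnitAx.isTerminal_zero adj
  obtain ⟨b, hb⟩ := exists_lvMid ε
  have hq : Function.Injective q := fun x y h => by rw [← hq2 x, ← hq2 y, h]
  have hp : ∀ x, q (fn (c.map (SSet.stdSimplex.{0}.δ (n := 0) ε)) x) = Cell.vtx (lvMid b) := by
    intro x
    rw [← hb]
    exact q_point hn adj q hq1 ε x
  have pb := isPullback_fibAx hP q hq (c.map (SSet.stdSimplex.{0}.δ (n := 0) ε)) hp (c.map f)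
  have := isIso_kap hn adj sq hb q hq1
  refine IsPullback.of_iso pb (asIso (kap hn adj sq hb q hq1)).symm (Iso.refl _) (Iso.refl _)
    (Iso.refl _) ?_ (hP.hom_ext _ _) (by simp) (by simp)
  rw [Iso.symm_hom, asIso_inv, Iso.refl_hom, Category.comp_id, IsIso.eq_inv_comp]
  rfl

end Vale.Agent.P213
end

section

/-!
# Left properness and the gluing lemma for simplicial sets (KQ3)
-/

universe u

open CategoryTheory MonoidalCategory CartesianMonoidalCategory Simplicial
  HomotopicalAlgebra Limits SSet SSet.modelCategoryQuillen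

namespace Vale.Agent.P213

variable {X Y Z K A B C E S T : SSet.{u}}

lemma anodyne_ι₀ : anodyneExtensions (ι₀ : X ⟶ X ⊗ Δ[1]) := by
  intro E Y p hp
  refine ⟨fun {u v} sq => ?_⟩
  obtain ⟨L, hL₁, -, hL₃⟩ := lift_cyl₀ (initial.to X) hp u (fst _ _ ≫ initial.to _) v
    (Subsingleton.elim _ _) sq.w.symm (initial_tensor_hom_ext _ _)
  exact ⟨⟨⟨L, hL₁, hL₃⟩⟩⟩

lemma anodyne_ι₁ : anodyneExtensions (ι₁ : X ⟶ X ⊗ Δ[1]) := by
  intro E Y p hp
  refine ⟨fun {u v} sq => ?_⟩
  obtain ⟨L, hL₁, -, hL₃⟩ := lift_cyl₁ (initial.to X) hp u (fst _ _ ≫ initial.to _) v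
    (Subsingleton.elim _ _) sq.w.symm (initial_tensor_hom_ext _ _)
  exact ⟨⟨⟨L, hL₁, hL₃⟩⟩⟩

lemma mono_of_isPushout {A B A' B' : SSet.{u}} {i : A ⟶ B} {f : A ⟶ A'} {g : B ⟶ B'}
    {i' : A' ⟶ B'} (sq : IsPushout i f g i') [hi : Mono i] : Mono i' :=
  MorphismProperty.of_isPushout (P := MorphismProperty.monomorphisms SSet.{u}) sq.flip hi

lemma ι₀_app_ne_ι₁_app {n} (x y : X.obj n) :
    (ι₀ : X ⟶ X ⊗ Δ[1]).app n x ≠ (ι₁ : X ⟶ X ⊗ Δ[1]).app n y := by
  obtain ⟨⟨n⟩⟩ := n
  intro h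
  have h3 : (ι₀.app _ x).2 = (ι₁.app _ y).2 := congrArg Prod.snd h
  have h4 := ι₀_app_snd_apply (m := n) x 0
  have h5 := ι₁_app_snd_apply (m := n) y 0
  have h6 : (ι₀.app _ x).2 0 = (ι₁.app _ y).2 0 :=
    congrArg (fun (t : (Δ[1] : SSet.{u}) _⦋n⦌) => t 0) h3
  exact absurd (h4.symm.trans (h6.trans h5)) (by simp)

/-- The start of a mapping cylinder is a monomorphism. -/
lemma mono_mapCyl {A A' M : SSet.{u}} {f : A ⟶ A'} {l : A ⊗ Δ[1] ⟶ M} {r : A' ⟶ M}
    (sq : IsPushout (ι₁ : A ⟶ A ⊗ Δ[1]) f l r) : Mono (ι₀ ≫ l) := by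
  rw [NatTrans.mono_iff_mono_app]
  intro n
  rw [mono_iff_injective]
  have sq' := sq.map ((evaluation _ _).obj n)
  classical
  let φ : (A ⊗ Δ[1]).obj n ⟶ Option (A.obj n) :=
    ↾fun x => if x = (ι₀ : A ⟶ A ⊗ Δ[1]).app n x.1 then some x.1 else none
  let ψ : A'.obj n ⟶ Option (A.obj n) := ↾fun _ => none
  obtain ⟨d, hd₁, hd₂⟩ : ∃ d : M.obj n ⟶ Option (A.obj n), l.app n ≫ d = φ ∧ r.app n ≫ d = ψ := by
    refine ⟨sq'.desc φ ψ ?_, sq'.inl_desc _ _ _, sq'.inr_desc _ _ _⟩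
    apply ConcreteCategory.hom_ext
    intro x
    exact if_neg (ι₀_app_ne_ι₁_app _ _).symm
  intro x y hxy
  have key : ∀ x : A.obj n, d ((ι₀ ≫ l).app n x) = some x := fun x => by
    have := ConcreteCategory.congr_hom hd₁ ((ι₀ : A ⟶ A ⊗ Δ[1]).app n x)
    exact this.trans (if_pos rfl)
  exact Option.some_injective _ ((key x).symm.trans ((congrArg d hxy).trans (key y)))

/-- left properness -/
lemma whe_of_isPushout {A B A' B' : SSet.{u}} {i : A ⟶ B} {f : A ⟶ A'} {g : B ⟶ B'}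
    {i' : A' ⟶ B'} (sq : IsPushout i f g i') [Mono i] (hf : whe f) : whe g := by
  -- the mapping cylinder of `f`
  let l : A ⊗ Δ[1] ⟶ pushout (ι₁ : A ⟶ A ⊗ Δ[1]) f := pushout.inl _ _
  let r : A' ⟶ pushout (ι₁ : A ⟶ A ⊗ Δ[1]) f := pushout.inr _ _
  have sqM : IsPushout (ι₁ : A ⟶ A ⊗ Δ[1]) f l r := IsPushout.of_hasPushout _ _
  let q : pushout (ι₁ : A ⟶ A ⊗ Δ[1]) f ⟶ A' := sqM.desc (fst _ _ ≫ f) (𝟙 _) (by simp)
  have hlq : l ≫ q = fst _ _ ≫ f := sqM.inl_desc _ _ _
  have hrq : r ≫ q = 𝟙 _ := sqM.inr_desc _ _ _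
  have hr : whe r := anodyne_le_whe _ (MorphismProperty.of_isPushout sqM.flip anodyne_ι₁)
  have hq : whe q := hr.cancel_pre (by rw [hrq]; exact whe_of_isIso _)
  have : Mono (ι₀ ≫ l) := mono_mapCyl sqM
  have hk : whe (ι₀ ≫ l) := hq.cancel_post (by rw [Category.assoc, hlq, ι₀_fst_assoc]; exact hf)
  -- `D = B ∪_A M`
  let jB : B ⟶ pushout i (ι₀ ≫ l) := pushout.inl _ _
  let jM : pushout (ι₁ : A ⟶ A ⊗ Δ[1]) f ⟶ pushout i (ι₀ ≫ l) := pushout.inr _ _
  have sqD : IsPushout i (ι₀ ≫ l) jB jM := IsPushout.of_hasPushout _ _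
  have hjB : whe jB :=
    (MorphismProperty.of_isPushout (P := trivCof) sqD ⟨‹_›, hk⟩).2
  -- `D' = (B × Δ[1]) ∪_A A'`
  let dB : B ⊗ Δ[1] ⟶ pushout (i ≫ ι₁) f := pushout.inl _ _
  let dA : A' ⟶ pushout (i ≫ ι₁) f := pushout.inr _ _
  have sqD' : IsPushout (i ≫ ι₁) f dB dA := IsPushout.of_hasPushout _ _
  let m : pushout (ι₁ : A ⟶ A ⊗ Δ[1]) f ⟶ pushout (i ≫ ι₁) f :=
    sqM.desc (i ▷ _ ≫ dB) dA (by rw [ι₁_comp_assoc, ← Category.assoc, sqD'.w])
  have hlm : l ≫ m = i ▷ _ ≫ dB := sqM.inl_desc _ _ _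
  have hrm : r ≫ m = dA := sqM.inr_desc _ _ _
  let δ : pushout i (ι₀ ≫ l) ⟶ pushout (i ≫ ι₁) f :=
    sqD.desc (ι₀ ≫ dB) m (by rw [Category.assoc, hlm, ι₀_comp_assoc])
  have hBδ : jB ≫ δ = ι₀ ≫ dB := sqD.inl_desc _ _ _
  have hMδ : jM ≫ δ = m := sqD.inr_desc _ _ _
  let ρ : pushout (i ≫ ι₁) f ⟶ B' := sqD'.desc (fst _ _ ≫ g) i' (by simp [sq.w])
  have hBρ : dB ≫ ρ = fst _ _ ≫ g := sqD'.inl_desc _ _ _
  have hAρ : dA ≫ ρ = i' := sqD'.inr_desc _ _ _
  let σ : B' ⟶ pushout (i ≫ ι₁) f := sq.desc (ι₁ ≫ dB) dA (by rw [← sqD'.w, Category.assoc])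
  have hgσ : g ≫ σ = ι₁ ≫ dB := sq.inl_desc _ _ _
  have hiσ : i' ≫ σ = dA := sq.inr_desc _ _ _
  have hσρ : σ ≫ ρ = 𝟙 _ := by
    apply sq.hom_ext
    · rw [reassoc_of% hgσ, hBρ, ι₁_fst_assoc, Category.comp_id]
    · rw [reassoc_of% hiσ, hAρ, Category.comp_id]
  have hσ : whe σ := anodyne_le_whe _ (by
    intro E Y p hp
    refine ⟨fun {u v} sq' => ?_⟩
    obtain ⟨L, hL₁, -, hL₃⟩ := lift_cyl₁ (initial.to B) hp (g ≫ u)
      (fst _ _ ≫ initial.to _) (dB ≫ v)
      (Subsingleton.elim _ _) (by rw [Category.assoc, sq'.w, reassoc_of% hgσ])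
      (initial_tensor_hom_ext _ _)
    refine ⟨⟨⟨sqD'.desc L (i' ≫ u) (by rw [Category.assoc, hL₁, sq.w_assoc]), ?_, ?_⟩⟩⟩
    · apply sq.hom_ext
      · rw [reassoc_of% hgσ, sqD'.inl_desc, hL₁]
      · rw [reassoc_of% hiσ, sqD'.inr_desc]
    · apply sqD'.hom_ext
      · rw [sqD'.inl_desc_assoc, hL₃]
      · rw [sqD'.inr_desc_assoc, Category.assoc, sq'.w, reassoc_of% hiσ])
  have hρ : whe ρ := hσ.cancel_pre (by rw [hσρ]; exact whe_of_isIso _)
  have hδ : whe δ := anodyne_le_whe _ (by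
    intro E Y p hp
    refine ⟨fun {u v} sq' => ?_⟩
    obtain ⟨L, hL₁, hL₂, hL₃⟩ := lift_cyl₀ i hp (jB ≫ u) (l ≫ jM ≫ u) (dB ≫ v)
      (by rw [← Category.assoc, ← sqD.w_assoc])
      (by rw [Category.assoc, sq'.w, reassoc_of% hBδ])
      (by rw [Category.assoc, Category.assoc, sq'.w, reassoc_of% hMδ, reassoc_of% hlm])
    refine ⟨⟨⟨sqD'.desc L (r ≫ jM ≫ u) (by
        rw [Category.assoc, ← ι₁_comp_assoc, hL₂, sqM.w_assoc]), ?_, ?_⟩⟩⟩
    · apply sqD.hom_ext
      · rw [reassoc_of% hBδ, sqD'.inl_desc, hL₁]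
      · rw [reassoc_of% hMδ]
        apply sqM.hom_ext
        · rw [reassoc_of% hlm, sqD'.inl_desc, hL₂]
        · rw [reassoc_of% hrm, sqD'.inr_desc]
    · apply sqD'.hom_ext
      · rw [sqD'.inl_desc_assoc, hL₃]
      · rw [sqD'.inr_desc_assoc, Category.assoc, Category.assoc, sq'.w, reassoc_of% hMδ,
          reassoc_of% hrm])
  have : g = jB ≫ δ ≫ ρ := by rw [reassoc_of% hBδ, hBρ, ι₀_fst_assoc]
  rw [this]
  exact hjB.comp (hδ.comp hρ)

section gluing

variable {R Q P : SSet.{u}}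

/-- Factorization of a map as a monomorphism followed by a weak equivalence. -/
lemma exists_factorization_mono_whe (f : A ⟶ B) :
    ∃ (M : SSet.{u}) (k : A ⟶ M) (q : M ⟶ B), Mono k ∧ whe q ∧ k ≫ q = f := by
  let l : A ⊗ Δ[1] ⟶ pushout (ι₁ : A ⟶ A ⊗ Δ[1]) f := pushout.inl _ _
  let r : B ⟶ pushout (ι₁ : A ⟶ A ⊗ Δ[1]) f := pushout.inr _ _
  have sqM : IsPushout (ι₁ : A ⟶ A ⊗ Δ[1]) f l r := IsPushout.of_hasPushout _ _
  let q : pushout (ι₁ : A ⟶ A ⊗ Δ[1]) f ⟶ B := sqM.desc (fst _ _ ≫ f) (𝟙 _) (by simp)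
  have hlq : l ≫ q = fst _ _ ≫ f := sqM.inl_desc _ _ _
  have hrq : r ≫ q = 𝟙 _ := sqM.inr_desc _ _ _
  have hr : whe r := anodyne_le_whe _ (MorphismProperty.of_isPushout sqM.flip anodyne_ι₁)
  exact ⟨_, ι₀ ≫ l, q, mono_mapCyl sqM,
    hr.cancel_pre (by rw [hrq]; exact whe_of_isIso _), by
      rw [Category.assoc, hlq, ι₀_fst_assoc]⟩

/-- Pushouts along a monomorphism preserve weak equivalences between objects under `A`. -/
lemma whe_pushout_of_mono {a : A ⟶ R} {c : A ⟶ C} {r : R ⟶ Q} {s : C ⟶ Q}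
    (sq : IsPushout a c r s) {a' : A ⟶ B} {r' : B ⟶ P} {s' : C ⟶ P}
    (sq' : IsPushout a' c r' s') [Mono c] (w : R ⟶ B) (hw : whe w) (haw : a ≫ w = a')
    (q : Q ⟶ P) (hq₁ : r ≫ q = w ≫ r') (hq₂ : s ≫ q = s') : whe q := by
  subst haw hq₂
  have h : IsPushout w r r' q := IsPushout.of_left sq' hq₁.symm sq
  have : Mono r := mono_of_isPushout sq.flip
  exact whe_of_isPushout h.flip hw

/-- Pushouts preserve weak equivalences between cofibrant objects under `A`. -/
lemma whe_pushout {a : A ⟶ R} {c : A ⟶ C} {r : R ⟶ Q} {s : C ⟶ Q}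
    (sq : IsPushout a c r s) {a' : A ⟶ B} {r' : B ⟶ P} {s' : C ⟶ P}
    (sq' : IsPushout a' c r' s') [Mono a] [Mono a'] (w : R ⟶ B) (hw : whe w)
    (haw : a ≫ w = a')
    (q : Q ⟶ P) (hq₁ : r ≫ q = w ≫ r') (hq₂ : s ≫ q = s') : whe q := by
  obtain ⟨M, k, m, hk, hm, rfl⟩ := exists_factorization_mono_whe c
  have sq₁ : IsPushout a k (pushout.inl a k) (pushout.inr a k) := IsPushout.of_hasPushout _ _
  have sq₂ : IsPushout a' k (pushout.inl a' k) (pushout.inr a' k) := IsPushout.of_hasPushout _ _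
  obtain ⟨w₁, hw₁, hw₁'⟩ : ∃ w₁ : pushout a k ⟶ pushout a' k,
      pushout.inl a k ≫ w₁ = w ≫ pushout.inl a' k ∧ pushout.inr a k ≫ w₁ = pushout.inr a' k :=
    ⟨sq₁.desc (w ≫ pushout.inl a' k) (pushout.inr a' k) (by
      rw [reassoc_of% haw, sq₂.w]), sq₁.inl_desc _ _ _, sq₁.inr_desc _ _ _⟩
  have hwe₁ : whe w₁ := whe_pushout_of_mono sq₁ sq₂ w hw haw w₁ hw₁ hw₁'
  have key : ∀ {R Q : SSet.{u}} {a : A ⟶ R} {r : R ⟶ Q} {s : C ⟶ Q}
      (_ : IsPushout a (k ≫ m) r s) [Mono a],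
      ∃ z : pushout a k ⟶ Q, whe z ∧ pushout.inl a k ≫ z = r ∧ pushout.inr a k ≫ z = m ≫ s := by
    intro R Q a r s sq _
    have sq₁ : IsPushout a k (pushout.inl a k) (pushout.inr a k) := IsPushout.of_hasPushout _ _
    let z : pushout a k ⟶ Q := sq₁.desc r (m ≫ s) (by rw [sq.w, Category.assoc])
    have hz₁ : pushout.inl a k ≫ z = r := sq₁.inl_desc _ _ _
    have hz₂ : pushout.inr a k ≫ z = m ≫ s := sq₁.inr_desc _ _ _
    refine ⟨z, ?_, hz₁, hz₂⟩
    have h : IsPushout (pushout.inr a k) m z s :=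
      IsPushout.of_top (by rw [hz₁]; exact sq) hz₂ sq₁
    have : Mono (pushout.inr a k) := mono_of_isPushout sq₁
    exact whe_of_isPushout h hm
  obtain ⟨z, hz, hz₁, hz₂⟩ := key sq
  obtain ⟨z', hz', hz₁', hz₂'⟩ := key sq'
  have : z ≫ q = w₁ ≫ z' := by
    apply sq₁.hom_ext
    · rw [reassoc_of% hz₁, hq₁, reassoc_of% hw₁, hz₁']
    · rw [reassoc_of% hz₂, hq₂, reassoc_of% hw₁', hz₂']
  exact hz.cancel_pre (by rw [this]; exact hwe₁.comp hz')

/-- gluing lemma -/
lemma whe_gluing {A B C P A' B' C' P' : SSet.{u}} {i : A ⟶ B} {f : A ⟶ C} {g : B ⟶ P}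
    {j : C ⟶ P} {i' : A' ⟶ B'} {f' : A' ⟶ C'} {g' : B' ⟶ P'} {j' : C' ⟶ P'}
    (sq : IsPushout i f g j) (sq' : IsPushout i' f' g' j') [Mono i] [Mono i']
    (a : A ⟶ A') (b : B ⟶ B') (c : C ⟶ C') (p : P ⟶ P') (h₁ : i ≫ b = a ≫ i')
    (h₂ : f ≫ c = a ≫ f') (h₃ : g ≫ p = b ≫ g') (h₄ : j ≫ p = c ≫ j')
    (ha : whe a) (hb : whe b) (hc : whe c) : whe p := by
  -- `R = B ∪_A A'`
  have sqR : IsPushout i a (pushout.inl i a) (pushout.inr i a) := IsPushout.of_hasPushout _ _
  have hR : whe (pushout.inl i a) := whe_of_isPushout sqR ha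
  have : Mono (pushout.inr i a) := mono_of_isPushout sqR
  let w : pushout i a ⟶ B' := sqR.desc b i' h₁
  have hw₁ : pushout.inl i a ≫ w = b := sqR.inl_desc _ _ _
  have hw₂ : pushout.inr i a ≫ w = i' := sqR.inr_desc _ _ _
  have hw : whe w := hR.cancel_pre (by rw [hw₁]; exact hb)
  -- `Q = P ∪_C C'`
  have : Mono j := mono_of_isPushout sq
  have sqQ : IsPushout j c (pushout.inl j c) (pushout.inr j c) := IsPushout.of_hasPushout _ _
  have hQ : whe (pushout.inl j c) := whe_of_isPushout sqQ hc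
  let q : pushout j c ⟶ P' := sqQ.desc p j' h₄
  have hq₁ : pushout.inl j c ≫ q = p := sqQ.inl_desc _ _ _
  have hq₂ : pushout.inr j c ≫ q = j' := sqQ.inr_desc _ _ _
  -- `Q = R ∪_{A'} C'`
  have sqiQ : IsPushout i (a ≫ f') (g ≫ pushout.inl j c) (pushout.inr j c) := by
    rw [← h₂]
    exact sq.paste_vert sqQ
  let r : pushout i a ⟶ pushout j c := sqR.desc (g ≫ pushout.inl j c) (f' ≫ pushout.inr j c)
    (by rw [sqiQ.w, Category.assoc])
  have hr₁ : pushout.inl i a ≫ r = g ≫ pushout.inl j c := sqR.inl_desc _ _ _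
  have hr₂ : pushout.inr i a ≫ r = f' ≫ pushout.inr j c := sqR.inr_desc _ _ _
  have sqQ' : IsPushout (pushout.inr i a) f' r (pushout.inr j c) :=
    IsPushout.of_top (by rw [hr₁]; exact sqiQ) hr₂ sqR
  have hq : whe q := whe_pushout sqQ' sq' w hw hw₂ q (by
    apply sqR.hom_ext
    · rw [reassoc_of% hr₁, hq₁, h₃, reassoc_of% hw₁]
    · rw [reassoc_of% hr₂, hq₂, reassoc_of% hw₂, sq'.w]) hq₂
  rw [← hq₁]
  exact hQ.comp hq

end gluing

end Vale.Agent.P213
end

section

/-!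
KQ8: weak equivalences and transfinite chains of monomorphisms.
-/

open CategoryTheory HomotopicalAlgebra Simplicial MonoidalCategory Limits MorphismProperty
open SSet.modelCategoryQuillen CartesianMonoidalCategory SSet

universe w v u

namespace Vale.Agent.P213

namespace Sequence

/-- the minimum map on the interval, as a contraction of `X ⊗ Δ[1]` to `X` -/
noncomputable def minHtpy (X : SSet.{u}) : (X ⊗ Δ[1]) ⊗ Δ[1] ⟶ X ⊗ Δ[1] where
  app m := ↾fun p => (p.1.1, SSet.stdSimplex.objEquiv.symm (SimplexCategory.Hom.mk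
    ((SSet.stdSimplex.objEquiv p.1.2).toOrderHom ⊓ (SSet.stdSimplex.objEquiv p.2).toOrderHom)))
  naturality := by
    intro m m' f
    ext p
    · rfl

lemma whe_fst (X : SSet.{u}) : whe (fst X Δ[1]) := by
  refine whe_of_eqvGen (fst X Δ[1]) SSet.ι₀ ?_ ?_
  · refine Relation.EqvGen.rel _ _ ⟨minHtpy X, ?_, ?_⟩
    · ext ⟨m⟩ p
      · rfl
      · apply SSet.stdSimplex.objEquiv.injective
        apply SimplexCategory.Hom.ext
        ext k : 2
        exact min_eq_right (Fin.zero_le _)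
    · ext ⟨m⟩ p
      · rfl
      · apply SSet.stdSimplex.objEquiv.injective
        apply SimplexCategory.Hom.ext
        ext k : 2
        exact min_eq_left (Fin.le_last _)
  · exact Relation.EqvGen.refl _

lemma whe_ι₀ (X : SSet.{u}) : whe (SSet.ι₀ : X ⟶ _) :=
  whe.of_postcomp (SSet.ι₀ : X ⟶ _) (fst X Δ[1]) (whe_fst X) (by
    rw [SSet.ι₀_fst]; exact whe_of_isIso _)

lemma whe_ι₁ (X : SSet.{u}) : whe (SSet.ι₁ : X ⟶ _) :=
  whe.of_postcomp (SSet.ι₁ : X ⟶ _) (fst X Δ[1]) (whe_fst X) (by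
    rw [SSet.ι₁_fst]; exact whe_of_isIso _)

instance mono_ι₀ (X : SSet.{u}) : Mono (SSet.ι₀ : X ⟶ _) :=
  mono_of_mono_fac (SSet.ι₀_fst X)

instance mono_ι₁ (X : SSet.{u}) : Mono (SSet.ι₁ : X ⟶ _) :=
  mono_of_mono_fac (SSet.ι₁_fst X)

/-- colimit injections of chains of monomorphisms are monomorphisms -/
lemma mono_ι_app {J : Type w} [UnivLE.{w, u}] [LinearOrder J] [Nonempty J] {F : J ⥤ SSet.{u}}
    (hF : ∀ (i j : J) (f : i ⟶ j), Mono (F.map f)) {c : Cocone F} (hc : IsColimit c) (j : J) :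
    Mono (c.ι.app j) := by
  rw [NatTrans.mono_iff_mono_app]
  intro n
  rw [mono_iff_injective]
  intro x y h
  have hc' := isColimitOfPreserves ((evaluation _ _).obj n) hc
  obtain ⟨k, f, hk⟩ := (Types.FilteredColimit.isColimit_eq_iff' hc' x y).1 h
  have := hF j k f
  rw [NatTrans.mono_iff_mono_app] at this
  exact (mono_iff_injective _).1 (this n) hk

lemma exists_ι_app {J : Type w} [UnivLE.{w, u}] [Category.{w} J] {F : J ⥤ SSet.{u}}
    {c : Cocone F} (hc : IsColimit c) {n : SimplexCategoryᵒᵖ} (x : c.pt.obj n) :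
    ∃ (j : J) (y : (F.obj j).obj n), (c.ι.app j).app n y = x :=
  Types.jointly_surjective_of_isColimit (isColimitOfPreserves ((evaluation _ _).obj n) hc) x

/-- two simplices of a pushout identified -/
lemma eq_or_of_isPushout {X₁ X₂ X₃ X₄ : Type u} {t : X₁ ⟶ X₂} {r : X₂ ⟶ X₄}
    {l : X₁ ⟶ X₃} {b : X₃ ⟶ X₄} (h : IsPushout t l r b) (ht : Function.Injective t)
    (x y : X₂) (hxy : r x = r y) : x = y ∨ ∃ (a a' : X₁), t a = x ∧ t a' = y ∧ l a = l a' := by
  have : Mono t := (mono_iff_injective _).2 ht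
  have h1 : (Types.Pushout.inl t l) x = (Types.Pushout.inl t l) y := by
    have h2 : r ≫ h.desc (Types.Pushout.inl t l) (Types.Pushout.inr t l)
        (Types.Pushout.condition t l) = Types.Pushout.inl t l := h.inl_desc _ _ _
    rw [← h2, types_comp_apply, types_comp_apply, hxy]
  rw [Types.Pushout.inl] at h1
  have h3 := (Types.Pushout.quot_mk_eq_iff t l _ _).1 h1
  rw [Types.Pushout.inl_rel'_inl_iff] at h3
  obtain h3 | ⟨a, a', h, rfl, rfl⟩ := h3
  · exact Or.inl h3
  · exact Or.inr ⟨a, a', rfl, rfl, h⟩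

/-- a square of simplicial sets which is levelwise `isPushout_of_isPullback_of_mono'` -/
lemma isPushout_of_levelwise {X₁ X₂ X₃ X₄ : SSet.{u}} {t : X₁ ⟶ X₂} {r : X₂ ⟶ X₄}
    {l : X₁ ⟶ X₃} {b : X₃ ⟶ X₄} (w : t ≫ r = l ≫ b)
    (hr : ∀ n (x y : X₂.obj n), r.app n x = r.app n y → x = y)
    (hl : ∀ n (x y : X₁.obj n), l.app n x = l.app n y → x = y)
    (hp : ∀ n (x : X₂.obj n) (y : X₃.obj n), r.app n x = b.app n y → ∃ z, l.app n z = y)
    (hs : ∀ n (x : X₄.obj n), (∃ y, r.app n y = x) ∨ ∃ y, b.app n y = x)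
    (hb : ∀ n (x y : X₃.obj n), (¬ ∃ z, l.app n z = x) → (¬ ∃ z, l.app n z = y) →
      b.app n x = b.app n y → x = y) : IsPushout t l r b where
  w := w
  isColimit' := ⟨evaluationJointlyReflectsColimits _ (fun n ↦ by
    refine (isColimitMapCoconePushoutCoconeEquiv _ _).2
      (IsPushout.isColimit ?_)
    have : Mono (((evaluation SimplexCategoryᵒᵖ (Type u)).obj n).map r) :=
      (mono_iff_injective _).2 (fun x y h => hr n x y h)
    refine Types.isPushout_of_isPullback_of_mono' ?_ ?_ ?_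
    · rw [Types.isPullback_iff]
      refine ⟨NatTrans.congr_app w n, fun x₁ x₂ ⟨_, h⟩ ↦ hl n _ _ h, fun x y h => ?_⟩
      obtain ⟨z, hz⟩ := hp n x y h
      refine ⟨z, hr n _ _ ?_, hz⟩
      have := ConcreteCategory.congr_hom (NatTrans.congr_app w n) z
      exact this.trans ((congrArg _ hz).trans h.symm)
    · ext x
      simp only [Set.sup_eq_union, Set.mem_union, Set.mem_range, Set.mem_univ, iff_true]
      exact hs n x
    · intro x y hx hy h
      exact hb n x y hx hy h)⟩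

section Main

set_option linter.unusedSectionVars false

variable {J : Type w} [UnivLE.{w, u}] [LinearOrder J] [SuccOrder J] [OrderBot J] [WellFoundedLT J]
  {F G : J ⥤ SSet.{u}} (τ : F ⟶ G)
  {cF : Cocone F} {cG : Cocone G}
  (t : cF.pt ⟶ cG.pt)
  {M : SSet.{u}} (p : cF.pt ⊗ Δ[1] ⟶ M) (q : cG.pt ⟶ M)

/-- the union of the bottom and of the cylinder on `F j` -/
noncomputable def cylU (cF : Cocone F) (j : J) : (cF.pt ⊗ Δ[1] : SSet.{u}).Subcomplex :=
  Subcomplex.range (SSet.ι₀ : cF.pt ⟶ _) ⊔ Subcomplex.range (cF.ι.app j ▷ Δ[1])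

/-- the filtration of the mapping cylinder -/
noncomputable def cylH (j : J) : M.Subcomplex :=
  (cylU cF j).image p ⊔ Subcomplex.range (cG.ι.app j ≫ q)

lemma cylU_mono {i j : J} (h : i ≤ j) : cylU cF i ≤ cylU cF j := by
  refine sup_le le_sup_left ?_
  refine le_trans ?_ le_sup_right
  have : cF.ι.app i ▷ Δ[1] = F.map (homOfLE h) ▷ Δ[1] ≫ cF.ι.app j ▷ Δ[1] := by
    rw [← comp_whiskerRight, cF.w]
  rw [this]
  intro n x hx
  obtain ⟨y, rfl⟩ := hx
  exact ⟨_, rfl⟩

lemma cylH_mono : Monotone (cylH (cF := cF) (cG := cG) p q) := by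
  intro i j h
  refine sup_le ?_ ?_
  · exact le_trans (Subcomplex.image_monotone p (cylU_mono h)) le_sup_left
  · refine le_trans ?_ le_sup_right
    rw [← cG.w (homOfLE h), Category.assoc]
    intro n x hx
    obtain ⟨y, rfl⟩ := hx
    exact ⟨_, rfl⟩

lemma ι₀_ne_ι₁ {X : SSet.{u}} {n : SimplexCategoryᵒᵖ} (x y : X.obj n) :
    (SSet.ι₀ : X ⟶ _).app n x ≠ (SSet.ι₁ : X ⟶ _).app n y := by
  intro h
  have h2 := congrArg Prod.snd h
  have h3 : (0 : Fin 2) = 1 :=
    congrArg (fun s : (Δ[1] : SSet.{u}).obj n => (SSet.stdSimplex.objEquiv s).toOrderHom 0) h2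
  exact absurd h3 (by decide)

lemma mem_of_ι₁_mem {j : J} {n : SimplexCategoryᵒᵖ} {x : cF.pt.obj n}
    (h : (SSet.ι₁ : cF.pt ⟶ _).app n x ∈ (cylU cF j).obj n) :
    ∃ f, (cF.ι.app j).app n f = x := by
  obtain ⟨y, hy⟩ | ⟨⟨f, s⟩, hf⟩ := h
  · exact absurd hy (ι₀_ne_ι₁ _ _)
  · exact ⟨f, congrArg Prod.fst hf⟩

/-- bottom inclusion in `cylU` -/
noncomputable def botU (cF : Cocone F) (j : J) : cF.pt ⟶ (cylU cF j : SSet.{u}) :=
  Subcomplex.lift SSet.ι₀ le_sup_left

/-- top inclusion in `cylU` -/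
noncomputable def topU (cF : Cocone F) (j : J) : F.obj j ⟶ (cylU cF j : SSet.{u}) :=
  Subcomplex.lift (cF.ι.app j ≫ SSet.ι₁) (by
    refine le_trans ?_ le_sup_right
    intro n x hx
    obtain ⟨y, rfl⟩ := hx
    exact ⟨SSet.ι₁.app _ y, rfl⟩)

lemma whe_botU (hF : ∀ (i j : J) (f : i ⟶ j), Mono (F.map f)) (hcF : IsColimit cF) (j : J) :
    whe (botU cF j) := by
  have hm := mono_ι_app hF hcF j
  have hinj : ∀ n (x y : (F.obj j).obj n), (cF.ι.app j).app n x = (cF.ι.app j).app n y → x = y := by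
    intro n x y h
    rw [NatTrans.mono_iff_mono_app] at hm
    exact (mono_iff_injective _).1 (hm n) h
  have sq : IsPushout (cF.ι.app j) (SSet.ι₀ : F.obj j ⟶ _) (botU cF j)
      (Subcomplex.lift (cF.ι.app j ▷ Δ[1]) le_sup_right) := by
    apply isPushout_of_levelwise
    · rfl
    · intro n x y h
      exact congrArg (fun z => z.1.1) h
    · intro n x y h
      exact congrArg (fun z => z.1) h
    · intro n x y h
      refine ⟨y.1, ?_⟩
      have h1 := congrArg (fun z => z.1.2) h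
      exact Prod.ext rfl h1
    · rintro n ⟨z, hz | hz⟩
      · obtain ⟨y, rfl⟩ := hz
        exact Or.inl ⟨y, rfl⟩
      · obtain ⟨y, rfl⟩ := hz
        exact Or.inr ⟨y, rfl⟩
    · intro n x y _ _ h
      have h1 := congrArg (fun z => z.1.1) h
      have h2 := congrArg (fun z => z.1.2) h
      exact Prod.ext (hinj _ _ _ h1) h2
  exact whe_of_isPushout sq (whe_ι₀ _)

/-- the map from `cylU` to `cylH` -/
noncomputable def UtoH (j : J) :
    (cylU cF j : SSet.{u}) ⟶ (cylH (cF := cF) (cG := cG) p q j : SSet.{u}) :=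
  Subcomplex.lift ((cylU cF j).ι ≫ p) (by
    refine le_trans ?_ le_sup_left
    intro n x hx
    obtain ⟨y, rfl⟩ := hx
    exact ⟨y.1, y.2, rfl⟩)

lemma trivCof_of_sq {X Y M : SSet.{u}} {t : X ⟶ Y} {p : X ⊗ Δ[1] ⟶ M} (q : Y ⟶ M)
    (sq : IsPushout (SSet.ι₁ : X ⟶ _) t p q) : trivCof q :=
  trivCof.of_isPushout sq.flip ⟨mono_ι₁ _, whe_ι₁ _⟩

lemma whe_UtoH (hF : ∀ (i j : J) (f : i ⟶ j), Mono (F.map f))
    (hG : ∀ (i j : J) (f : i ⟶ j), Mono (G.map f)) (hτ : ∀ j, whe (τ.app j))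
    (hcF : IsColimit cF) (hcG : IsColimit cG)
    (ht : ∀ j, cF.ι.app j ≫ t = τ.app j ≫ cG.ι.app j)
    (sq : IsPushout (SSet.ι₁ : cF.pt ⟶ _) t p q) (j : J) :
    whe (UtoH (cF := cF) (cG := cG) p q j) := by
  have hmF := mono_ι_app hF hcF j
  have hmG := mono_ι_app hG hcG j
  have hq : Mono q := (trivCof_of_sq q sq).1
  have sqn : ∀ n, IsPushout ((SSet.ι₁ : cF.pt ⟶ _).app n) (t.app n) (p.app n) (q.app n) :=
    fun n => sq.map ((evaluation _ _).obj n)
  have hi1 : ∀ n, Function.Injective ((SSet.ι₁ : cF.pt ⟶ _).app n) := fun n =>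
    (mono_iff_injective _).1 ((NatTrans.mono_iff_mono_app _).1 (mono_ι₁ _) n)
  have hqn : ∀ n, Function.Injective (q.app n) := fun n =>
    (mono_iff_injective _).1 ((NatTrans.mono_iff_mono_app _).1 hq n)
  have hmFn : ∀ n, Function.Injective ((cF.ι.app j).app n) := fun n =>
    (mono_iff_injective _).1 ((NatTrans.mono_iff_mono_app _).1 hmF n)
  have hmGn : ∀ n, Function.Injective ((cG.ι.app j).app n) := fun n =>
    (mono_iff_injective _).1 ((NatTrans.mono_iff_mono_app _).1 hmG n)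
  have sq2 : IsPushout (τ.app j) (topU cF j) (Subcomplex.lift (cG.ι.app j ≫ q) le_sup_right)
      (UtoH (cF := cF) (cG := cG) p q j) := by
    apply isPushout_of_levelwise
    · rw [← cancel_mono (Subcomplex.ι _)]
      change τ.app j ≫ cG.ι.app j ≫ q = cF.ι.app j ≫ SSet.ι₁ ≫ p
      rw [sq.w, ← Category.assoc, ← Category.assoc, ht]
    · intro n x y h
      exact hmGn n (hqn n (congrArg Subtype.val h))
    · intro n x y h
      exact hmFn n (hi1 n (congrArg Subtype.val h))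
    · intro n x y h
      have h1 : q.app n ((cG.ι.app j).app n x) = p.app n y.1 := congrArg Subtype.val h
      obtain ⟨a, ha1, ha2⟩ := (Types.pushoutCocone_inl_eq_inr_iff_of_isColimit (sqn n).isColimit
        (hi1 n) y.1 ((cG.ι.app j).app n x)).1 h1.symm
      have h3 := y.2
      rw [← ha1] at h3
      obtain ⟨f, rfl⟩ := mem_of_ι₁_mem h3
      exact ⟨f, Subtype.ext ha1⟩
    · rintro n ⟨z, hz | hz⟩
      · obtain ⟨y, hy, rfl⟩ := hz
        exact Or.inr ⟨⟨y, hy⟩, rfl⟩
      · obtain ⟨y, rfl⟩ := hz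
        exact Or.inl ⟨y, rfl⟩
    · intro n x y hx hy h
      have h1 : p.app n x.1 = p.app n y.1 := congrArg Subtype.val h
      obtain h2 | ⟨a, a', ha, ha', _⟩ := eq_or_of_isPushout (sqn n) (hi1 n) _ _ h1
      · exact Subtype.ext h2
      · exfalso
        apply hx
        have h3 := x.2
        rw [← ha] at h3
        obtain ⟨f, rfl⟩ := mem_of_ι₁_mem h3
        exact ⟨f, Subtype.ext ha⟩
  have : Mono (topU cF j) := by
    have : Mono (cF.ι.app j ≫ (SSet.ι₁ : cF.pt ⟶ _)) := mono_comp _ _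
    exact mono_of_mono_fac (show topU cF j ≫ (cylU cF j).ι = cF.ι.app j ≫ SSet.ι₁ from rfl)
  exact whe_of_isPushout sq2.flip (hτ j)

lemma iSup_cylH (hcF : IsColimit cF) (hcG : IsColimit cG)
    (sq : IsPushout (SSet.ι₁ : cF.pt ⟶ _) t p q) :
    (⨆ j, cylH (cF := cF) (cG := cG) p q j) = ⊤ := by
  rw [← top_le_iff]
  intro n x _
  have sqn : IsPushout ((SSet.ι₁ : cF.pt ⟶ _).app n) (t.app n) (p.app n) (q.app n) :=
    sq.map ((evaluation _ _).obj n)
  rw [Subfunctor.iSup_obj, Set.mem_iUnion]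
  obtain ⟨⟨y, s⟩, rfl⟩ | ⟨y, rfl⟩ := Types.eq_or_eq_of_isPushout sqn x
  · obtain ⟨j, f, rfl⟩ := exists_ι_app hcF y
    exact ⟨j, Or.inl ⟨_, Or.inr ⟨(f, s), rfl⟩, rfl⟩⟩
  · obtain ⟨j, g, rfl⟩ := exists_ι_app hcG y
    exact ⟨j, Or.inr ⟨g, rfl⟩⟩

lemma isLUB_cylH [F.IsWellOrderContinuous] [G.IsWellOrderContinuous] (m : J)
    (hm : Order.IsSuccLimit m) :
    (⨆ (i : Set.Iio m), cylH (cF := cF) (cG := cG) p q i.1) = cylH p q m := by
  apply le_antisymm
  · exact iSup_le (fun i => cylH_mono p q i.2.le)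
  · intro n x hx
    rw [Subfunctor.iSup_obj, Set.mem_iUnion]
    obtain ⟨y, hy, rfl⟩ | ⟨y, rfl⟩ := hx
    · obtain ⟨z, rfl⟩ | ⟨⟨f, s⟩, rfl⟩ := hy
      · exact ⟨⟨⊥, hm.bot_lt⟩, Or.inl ⟨_, Or.inl ⟨z, rfl⟩, rfl⟩⟩
      · obtain ⟨j, g, rfl⟩ := exists_ι_app (F.isColimitOfIsWellOrderContinuous m hm) f
        refine ⟨j, Or.inl ⟨_, Or.inr ⟨(g, s), rfl⟩, ?_⟩⟩
        have h1 := cF.w (homOfLE (show j.1 ≤ m from j.2.le))
        have h2 := ConcreteCategory.congr_hom (NatTrans.congr_app h1 n) g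
        exact congrArg (fun z => p.app n (z, s)) h2.symm
    · obtain ⟨j, g, rfl⟩ := exists_ι_app (G.isColimitOfIsWellOrderContinuous m hm) y
      refine ⟨j, Or.inr ⟨g, ?_⟩⟩
      have h1 := cG.w (homOfLE (show j.1 ≤ m from j.2.le))
      have h2 := ConcreteCategory.congr_hom (NatTrans.congr_app h1 n) g
      exact congrArg (fun z => q.app n z) h2.symm

/-- `cylH` at `j` is weakly equivalent to the bottom -/
lemma trivCof_homOfLE (hF : ∀ (i j : J) (f : i ⟶ j), Mono (F.map f))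
    (hG : ∀ (i j : J) (f : i ⟶ j), Mono (G.map f)) (hτ : ∀ j, whe (τ.app j))
    (hcF : IsColimit cF) (hcG : IsColimit cG)
    (ht : ∀ j, cF.ι.app j ≫ t = τ.app j ≫ cG.ι.app j)
    (sq : IsPushout (SSet.ι₁ : cF.pt ⟶ _) t p q) {i j : J} (h : i ≤ j) :
    trivCof (Subcomplex.homOfLE (cylH_mono (cF := cF) (cG := cG) p q h)) := by
  refine ⟨Subcomplex.mono_homOfLE _, ?_⟩
  have h1 := whe.comp_mem _ _ (whe_botU hF hcF i) (whe_UtoH τ t p q hF hG hτ hcF hcG ht sq i)
  have h2 := whe.comp_mem _ _ (whe_botU hF hcF j) (whe_UtoH τ t p q hF hG hτ hcF hcG ht sq j)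
  refine whe.of_precomp (botU cF i ≫ UtoH (cF := cF) (cG := cG) p q i) _ h1 ?_
  exact h2

/-- the transfinite composition -/
noncomputable def transf [F.IsWellOrderContinuous] [G.IsWellOrderContinuous]
    (hF : ∀ (i j : J) (f : i ⟶ j), Mono (F.map f))
    (hG : ∀ (i j : J) (f : i ⟶ j), Mono (G.map f)) (hτ : ∀ j, whe (τ.app j))
    (hcF : IsColimit cF) (hcG : IsColimit cG)
    (ht : ∀ j, cF.ι.app j ≫ t = τ.app j ≫ cG.ι.app j)
    (sq : IsPushout (SSet.ι₁ : cF.pt ⟶ _) t p q) :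
    trivCof.TransfiniteCompositionOfShape J (cylH (cF := cF) (cG := cG) p q ⊥).ι where
  F := (cylH_mono (cF := cF) (cG := cG) p q).functor ⋙ Subcomplex.toSSetFunctor
  isoBot := Iso.refl _
  isColimit :=
    IsColimit.ofIsoColimit (isColimitOfPreserves Subcomplex.toSSetFunctor
      (Preorder.colimitCoconeOfIsLUB (cylH_mono (cF := cF) (cG := cG) p q).functor (pt := ⊤)
        (by rw [← iSup_cylH t p q hcF hcG sq]; apply isLUB_iSup)).isColimit)
        (Cocone.ext (Subcomplex.topIso _))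
  isWellOrderContinuous :=
    have : (cylH_mono (cF := cF) (cG := cG) p q).functor.IsWellOrderContinuous :=
      ⟨fun m hm => ⟨Preorder.isColimitOfIsLUB _ _ (by
        change IsLUB (Set.range (fun i : Set.Iio m => cylH (cF := cF) (cG := cG) p q i.1))
          (cylH (cF := cF) (cG := cG) p q m)
        rw [← isLUB_cylH p q m hm]
        apply isLUB_iSup)⟩⟩
    ⟨fun m hm ↦ ⟨isColimitOfPreserves Subcomplex.toSSetFunctor
      (Functor.isColimitOfIsWellOrderContinuous
        (cylH_mono (cF := cF) (cG := cG) p q).functor m hm)⟩⟩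
  incl := { app := fun i ↦ (cylH (cF := cF) (cG := cG) p q i).ι }
  map_mem j _ := trivCof_homOfLE τ t p q hF hG hτ hcF hcG ht sq (Order.le_succ j)

end Main

end Sequence

lemma whe_of_transfinite' {J : Type w} [UnivLE.{w, u}] [LinearOrder J] [SuccOrder J]
    [OrderBot J] [WellFoundedLT J] [trivCof.{u}.IsStableUnderTransfiniteCompositionOfShape J]
    {F G : J ⥤ SSet.{u}} (τ : F ⟶ G) [F.IsWellOrderContinuous]
    [G.IsWellOrderContinuous] (hF : ∀ (i j : J) (f : i ⟶ j), Mono (F.map f))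
    (hG : ∀ (i j : J) (f : i ⟶ j), Mono (G.map f)) (hτ : ∀ j, whe (τ.app j))
    {cF : Cocone F} {cG : Cocone G} (hcF : IsColimit cF) (hcG : IsColimit cG)
    (t : cF.pt ⟶ cG.pt) (ht : ∀ j, cF.ι.app j ≫ t = τ.app j ≫ cG.ι.app j) : whe t := by
  have sq : IsPushout (SSet.ι₁ : cF.pt ⟶ _) t (pushout.inl SSet.ι₁ t) (pushout.inr SSet.ι₁ t) :=
    IsPushout.of_hasPushout _ _
  have h1 : trivCof (Sequence.cylH (cF := cF) (cG := cG) (pushout.inl SSet.ι₁ t)
      (pushout.inr SSet.ι₁ t) ⊥).ι :=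
    trivCof.transfiniteCompositionsOfShape_le J _
      (Sequence.transf τ t _ _ hF hG hτ hcF hcG ht sq).mem
  have h2 := whe.comp_mem _ _ (Sequence.whe_botU hF hcF ⊥)
    (Sequence.whe_UtoH τ t _ _ hF hG hτ hcF hcG ht sq ⊥)
  have h3 := whe.comp_mem _ _ h2 h1.2
  have h4 : whe (pushout.desc (fst _ _ ≫ t) (𝟙 _) (by
      rw [← Category.assoc, SSet.ι₁_fst, Category.id_comp, Category.comp_id]) :
        pushout (SSet.ι₁ : cF.pt ⟶ _) t ⟶ cG.pt) := by
    refine whe.of_precomp (pushout.inr SSet.ι₁ t) _ (Sequence.trivCof_of_sq _ sq).2 ?_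
    rw [pushout.inr_desc]
    exact whe_of_isIso _
  have h5 := whe.comp_mem _ _ h3 h4
  have h6 : ((Sequence.botU cF ⊥ ≫ Sequence.UtoH (cF := cF) (cG := cG) (pushout.inl SSet.ι₁ t)
      (pushout.inr SSet.ι₁ t) ⊥) ≫ (Sequence.cylH (cF := cF) (cG := cG) (pushout.inl SSet.ι₁ t)
      (pushout.inr SSet.ι₁ t) ⊥).ι) ≫ (pushout.desc (fst _ _ ≫ t) (𝟙 _) (by
      rw [← Category.assoc, SSet.ι₁_fst, Category.id_comp, Category.comp_id])) = t := by
    change SSet.ι₀ ≫ pushout.inl SSet.ι₁ t ≫ pushout.desc _ _ _ = t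
    rw [pushout.inl_desc, ← Category.assoc, SSet.ι₀_fst, Category.id_comp]
  rw [h6] at h5
  exact h5

lemma whe_of_transfinite {J : Type u} [LinearOrder J] [SuccOrder J] [OrderBot J]
    [WellFoundedLT J] {F G : J ⥤ SSet.{u}} (τ : F ⟶ G) [F.IsWellOrderContinuous]
    [G.IsWellOrderContinuous] (hF : ∀ (i j : J) (f : i ⟶ j), Mono (F.map f))
    (hG : ∀ (i j : J) (f : i ⟶ j), Mono (G.map f)) (hτ : ∀ j, whe (τ.app j))
    {cF : Cocone F} {cG : Cocone G} (hcF : IsColimit cF) (hcG : IsColimit cG)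
    (t : cF.pt ⟶ cG.pt) (ht : ∀ j, cF.ι.app j ≫ t = τ.app j ≫ cG.ι.app j) : whe t :=
  whe_of_transfinite' τ hF hG hτ hcF hcG t ht

/-- the version for sequences -/
lemma whe_of_sequence {F G : ℕ ⥤ SSet.{u}} (τ : F ⟶ G)
    (hF : ∀ (i j : ℕ) (f : i ⟶ j), Mono (F.map f))
    (hG : ∀ (i j : ℕ) (f : i ⟶ j), Mono (G.map f)) (hτ : ∀ j, whe (τ.app j))
    {cF : Cocone F} {cG : Cocone G} (hcF : IsColimit cF) (hcG : IsColimit cG)
    (t : cF.pt ⟶ cG.pt) (ht : ∀ j, cF.ι.app j ≫ t = τ.app j ≫ cG.ι.app j) : whe t :=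
  have : IsStableUnderTransfiniteComposition.{0} trivCof.{u} :=
    IsStableUnderTransfiniteComposition.shrink₀.{u} trivCof.{u}
  whe_of_transfinite' τ hF hG hτ hcF hcG t ht

end Vale.Agent.P213
end

section

/-!
KQ5a (ii): the subdivision functor preserves monomorphisms.
-/

open CategoryTheory Simplicial Limits PartialOrder Opposite MorphismProperty HomotopicalAlgebra
open SSet.modelCategoryQuillen

universe u

namespace Vale.Agent.P213

namespace SdMono

lemma mono_nvMap {P Q : Type u} [PartialOrder P] [PartialOrder Q] (f : P →o Q)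
    (hf : Function.Injective f) : Mono (nvMap f) := by
  rw [NatTrans.mono_iff_mono_app]
  intro m
  rw [mono_iff_injective]
  intro x y hxy
  apply nerve.ext_of_isThin
  funext i
  apply hf
  exact congrArg (fun z : (nerve Q).obj m => z.obj i) hxy

/-- `sd` of a monomorphism to the nerve of a poset is a monomorphism -/
lemma mono_sd_map_nerve {P : Type u} [PartialOrder P] {X : SSet.{u}} (i : X ⟶ nerve P) [Mono i] :
    Mono (SSet.sd.map i) := by
  have : X.Nonsingular := SSet.Nonsingular.of_mono i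
  have h1 : Mono (nvMap (SdNerve.incl (SdNerve.chainSet i))) :=
    mono_nvMap _ (fun a b h => Subtype.ext h)
  have h2 := SdNerve.isoNerve_hom_incl i
  have h3 : Mono (SSet.sd.map i ≫ (SdNerve.sdNerveIso P).hom) := by
    rw [← h2]
    infer_instance
  exact mono_of_mono _ (SdNerve.sdNerveIso P).hom

lemma mono_sd_map_stdSimplex {n : ℕ} {X : SSet.{u}} (i : X ⟶ Δ[n]) [Mono i] :
    Mono (SSet.sd.map i) := by
  have h := mono_sd_map_nerve (i ≫ (SSet.stdSimplex.isoNerve n).hom)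
  rw [Functor.map_comp] at h
  exact mono_of_mono _ (SSet.sd.map (SSet.stdSimplex.isoNerve n).hom)

section SmallObject

attribute [local instance] Cardinal.fact_isRegular_aleph0
  Cardinal.orderBotAleph0OrdToType

instance isSmall_I : MorphismProperty.IsSmall.{u} I.{u} :=
  isSmall_ofHoms ..

instance isCardinal_I : IsCardinalForSmallObjectArgument I.{u} Cardinal.aleph0.{u} where
  preservesColimit {A B X Y} i hi f hf := by
    have : IsFinitelyPresentable.{u} A := by
      simp only [I, ofHoms_iff] at hi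
      obtain ⟨n, hn⟩ := hi
      have h2 := congrArg (fun t : Arrow SSet.{u} => t.left) hn
      dsimp at h2
      subst h2
      infer_instance
    infer_instance

instance hasSmallObjectArgument_I : HasSmallObjectArgument.{u} I.{u} :=
  ⟨.aleph0, inferInstance, inferInstance, inferInstance⟩

end SmallObject

lemma I_rlp_llp_le : I.{u}.rlp.llp ≤ monomorphisms SSet.{u} := by
  rw [llp_rlp_of_hasSmallObjectArgument]
  refine (retracts_monotone ?_).trans (retracts_le _)
  refine (transfiniteCompositions_monotone.{u} ?_).trans (transfiniteCompositions_le.{u} _)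
  rw [pushouts_le_iff, coproducts_le_iff]
  exact I_le_monomorphisms

lemma ex_rlp {X Y : SSet.{u}} (p : X ⟶ Y) (hp : I.{u}.rlp p) : I.{u}.rlp (SSet.ex.map p) := by
  intro A B i hi
  rw [← Adjunction.hasLiftingProperty_iff SSet.sdExAdjunction]
  have h1 : Mono (SSet.sd.map i) := by
    obtain ⟨n⟩ := hi
    exact mono_sd_map_stdSimplex (∂Δ[n].ι)
  rw [← SSet.rlp_monomorphisms] at hp
  exact hp _ h1

end SdMono

open SdMono

instance mono_sd {X Y : SSet.{u}} (f : X ⟶ Y) [Mono f] : Mono (SSet.sd.map f) := by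
  apply I_rlp_llp_le
  intro A B p hp
  rw [Adjunction.hasLiftingProperty_iff SSet.sdExAdjunction]
  have h1 := ex_rlp p hp
  rw [← SSet.rlp_monomorphisms] at h1
  exact h1 f inferInstance

end Vale.Agent.P213
end

section

/-!
The subdivision of a horn inclusion is anodyne.
-/

open CategoryTheory Simplicial PartialOrder Opposite

universe u

namespace Vale.Agent.P213.KQ

/-- the faces of a horn -/
def hornSet {n : ℕ} (k : Fin (n + 2)) :
    Set (NonemptyFiniteChains (ULift.{u} (Fin (n + 1 + 1)))) :=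
  {S | ∃ j : ULift.{u} (Fin (n + 2)), j.down ≠ k ∧ j ∉ S.finset}

/-- faces of the simplex -/
abbrev EE (n : ℕ) : Type u := NonemptyFiniteChains (ULift.{u} (Fin (n + 1 + 1)))

section

variable {n : ℕ} (k : Fin (n + 2))


open Classical in
/-- the element to toggle -/
noncomputable def tau (c : NonemptyFiniteChains (EE.{u} n)) : EE.{u} n where
  finset := Finset.univ.filter (fun x => x.down = k ∨ ∃ σ ∈ c.finset, ULift.up k ∉ σ.finset ∧
    x ∈ σ.finset)
  nonempty := ⟨ULift.up k, by simp⟩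
  comparable a b := le_total a.1 b.1

lemma mem_tau (c : NonemptyFiniteChains (EE.{u} n)) (x : ULift.{u} (Fin (n + 2))) :
    x ∈ (tau k c).finset ↔ x.down = k ∨ ∃ σ ∈ c.finset, ULift.up k ∉ σ.finset ∧
      x ∈ σ.finset := by
  simp [tau]

lemma k_mem_tau (c : NonemptyFiniteChains (EE.{u} n)) : ULift.up k ∈ (tau k c).finset := by
  rw [mem_tau]
  exact Or.inl rfl

lemma tau_congr {c c' : NonemptyFiniteChains (EE.{u} n)}
    (h : ∀ σ : EE.{u} n, ULift.up k ∉ σ.finset → (σ ∈ c.finset ↔ σ ∈ c'.finset)) :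
    tau k c = tau k c' := by
  apply NonemptyFiniteChains.ext
  ext x
  rw [mem_tau, mem_tau]
  constructor
  · rintro (h1 | ⟨σ, h1, h2, h3⟩)
    · exact Or.inl h1
    · exact Or.inr ⟨σ, (h σ h2).1 h1, h2, h3⟩
  · rintro (h1 | ⟨σ, h1, h2, h3⟩)
    · exact Or.inl h1
    · exact Or.inr ⟨σ, (h σ h2).2 h1, h2, h3⟩

lemma notMem_hornSet {S : EE.{u} n} : S ∉ hornSet k ↔ ∀ j : ULift.{u} (Fin (n + 2)),
    j.down ≠ k → j ∈ S.finset := by
  change ¬ (∃ j : ULift.{u} (Fin (n + 2)), j.down ≠ k ∧ j ∉ S.finset) ↔ _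
  push Not
  rfl

/-- after erasing `τ c` a bad chain is still bad -/
lemma bad_erase (c : NonemptyFiniteChains (EE.{u} n)) (hc : ∃ b ∈ c.finset, b ∉ hornSet k)
    : ∃ b ∈ c.finset, b ∉ hornSet k ∧ b ≠ tau k c := by
  obtain ⟨b, hb, hb'⟩ := hc
  by_cases h : b = tau k c
  · rw [notMem_hornSet] at hb'
    obtain ⟨j₀, hj₀⟩ : ∃ j₀ : ULift.{u} (Fin (n + 2)), j₀.down ≠ k := by
      by_cases hk : k = 0
      · exact ⟨ULift.up 1, by rw [hk]; simp⟩
      · exact ⟨ULift.up 0, fun h => hk h.symm⟩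
    have h1 : ∀ j : ULift.{u} (Fin (n + 2)), j.down ≠ k →
        ∃ σ ∈ c.finset, ULift.up k ∉ σ.finset ∧ j ∈ σ.finset := by
      intro j hj
      have := hb' j hj
      rw [h, mem_tau] at this
      exact this.resolve_left hj
    classical
    let T := c.finset.filter (fun σ => ULift.up k ∉ σ.finset)
    have hT : T.Nonempty := by
      obtain ⟨σ, h2, h3, _⟩ := h1 j₀ hj₀
      exact ⟨σ, Finset.mem_filter.2 ⟨h2, h3⟩⟩
    obtain ⟨σ, hσ, hmax⟩ := T.exists_maximal hT
    rw [Finset.mem_filter] at hσ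
    refine ⟨σ, hσ.1, ?_, ?_⟩
    · rw [notMem_hornSet]
      intro j hj
      obtain ⟨σ', h2, h3, h4⟩ := h1 j hj
      have h5 : σ' ∈ T := Finset.mem_filter.2 ⟨h2, h3⟩
      rcases c.comparable ⟨σ, hσ.1⟩ ⟨σ', h2⟩ with h6 | h6
      · exact hmax h5 h6 h4
      · exact h6 h4
    · intro h2
      apply hσ.2
      rw [h2]
      exact k_mem_tau k c
  · exact ⟨b, hb, hb', h⟩

/-- the toggling structure for the subdivided horn -/
noncomputable def hornToggle : Toggle (hornSet.{u} k) where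
  τ := tau k
  rk c := (tau k c).finset.card
  cmp c _ a ha := by
    by_cases hk : ULift.up k ∈ a.finset
    · right
      intro x hx
      rcases (mem_tau k c x).1 hx with h1 | ⟨σ, h1, h2, h3⟩
      · have : x = ULift.up k := ULift.ext _ _ h1
        rw [this]; exact hk
      · rcases c.comparable ⟨σ, h1⟩ ⟨a, ha⟩ with h4 | h4
        · exact h4 h3
        · exact absurd (h4 hk) h2
    · left
      intro x hx
      exact (mem_tau k c x).2 (Or.inr ⟨a, ha, hk, hx⟩)
  toggle c c' _ _ _ h := by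
    apply tau_congr
    intro σ hσ
    rw [h]
    constructor
    · rintro (rfl | h1)
      · exact absurd (k_mem_tau k c) hσ
      · exact h1
    · exact Or.inr
  toggle' c hc _ := by
    obtain ⟨b, h1, h2, h3⟩ := bad_erase k c hc
    refine ⟨ers c (tau k c) ⟨b, h1, h3⟩, ⟨b, (mem_ers _ _ _ _).2 ⟨h3, h1⟩, h2⟩,
      fun x => mem_ers _ _ _ _, ?_⟩
    apply tau_congr
    intro σ hσ
    rw [mem_ers]
    constructor
    · exact fun h => h.2
    · intro h
      refine ⟨?_, h⟩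
      rintro rfl
      exact hσ (k_mem_tau k c)
  rk_lt c c' _ _ h1 _ _ h4 h5 _ := by
    apply Finset.card_lt_card
    rw [Finset.ssubset_iff_subset_ne]
    constructor
    · intro x hx
      rcases (mem_tau k c x).1 hx with h6 | ⟨σ, h6, h7, h8⟩
      · exact (mem_tau k c' x).2 (Or.inl h6)
      · refine (mem_tau k c' x).2 (Or.inr ⟨σ, ?_, h7, h8⟩)
        rcases h4 σ h6 with rfl | h9
        · exact absurd (k_mem_tau k c') h7
        · exact h9
    · intro h6
      apply h1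
      rw [NonemptyFiniteChains.ext h6]
      exact h5

end

section

variable {E : Type u} [PartialOrder E] (S : Set E)

lemma range_nvMap_incl : SSet.Subcomplex.range (nvMap (SdNerve.incl S)) = fullSub S := by
  ext m x
  constructor
  · rintro ⟨y, rfl⟩ i
    exact (y.obj i).2
  · intro hx
    refine ⟨Monotone.functor (f := fun i => (⟨x.obj i, hx i⟩ : S)) (fun i j hij =>
      x.monotone hij), ?_⟩
    rfl

instance mono_nvMap_incl : Mono (nvMap (SdNerve.incl S)) := by
  rw [NatTrans.mono_iff_mono_app]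
  intro m
  rw [mono_iff_injective]
  intro x y h
  refine nerve.ext_of_isThin (funext fun j => Subtype.ext ?_)
  exact congrArg (fun z : (nerve E).obj m => z.obj j) h

variable {S}

lemma Toggle.strongAnodyne_nvMap_incl (T : Toggle S) :
    SSet.strongAnodyneExtensions (nvMap (SdNerve.incl S)) := by
  refine ⟨inferInstance, ?_⟩
  rw [range_nvMap_incl]
  exact (SSet.strongAnodyneExtensions_ι_iff _).1 T.strongAnodyne

end

/-- the horn inside the nerve -/
noncomputable def hornIncl {n : ℕ} (k : Fin (n + 2)) :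
    (Λ[n + 1, k] : SSet.{u}) ⟶ nerve (ULift.{u} (Fin (n + 1 + 1))) :=
  Λ[n + 1, k].ι ≫ (SSet.stdSimplex.isoNerve (n + 1)).hom

instance {n : ℕ} (k : Fin (n + 2)) : Mono (hornIncl.{u} k) := by
  unfold hornIncl
  infer_instance

lemma chainSet_horn {n : ℕ} (k : Fin (n + 2)) :
    SdNerve.chainSet (hornIncl.{u} k) = hornSet k := by
  ext c
  constructor
  · rintro ⟨m, x, hx⟩
    have hx2 := x.2
    rw [SSet.mem_horn_iff, Ne, Set.eq_univ_iff_forall] at hx2
    push Not at hx2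
    obtain ⟨j, hj⟩ := hx2
    rw [Set.mem_union, not_or] at hj
    refine ⟨ULift.up j, fun h => hj.2 h, fun h => hj.1 ?_⟩
    rw [← Finset.mem_coe, ← hx] at h
    obtain ⟨a, ha⟩ := h
    exact ⟨a.down, congrArg ULift.down ha⟩
  · rintro ⟨j, hj, hj'⟩
    obtain ⟨m, f, hf, hfr⟩ := SdNerve.exists_enum c
    let g : ⦋m⦌ ⟶ ⦋n + 1⦌ := SimplexCategory.mkHom
      ⟨fun a => (f a).down, fun a b h => f.monotone h⟩
    refine ⟨m, ⟨SSet.stdSimplex.objEquiv.symm g, ?_⟩, ?_⟩
    · rw [SSet.mem_horn_iff, Ne, Set.eq_univ_iff_forall]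
      push Not
      refine ⟨j.down, ?_⟩
      rw [Set.mem_union, not_or]
      refine ⟨?_, hj⟩
      rintro ⟨a, ha⟩
      apply hj'
      rw [← Finset.mem_coe, ← hfr]
      exact ⟨a, ULift.ext _ _ ha⟩
    · refine Eq.trans ?_ hfr
      ext y
      constructor
      · rintro ⟨a, rfl⟩
        exact ⟨a.down, rfl⟩
      · rintro ⟨a, rfl⟩
        exact ⟨ULift.up a, rfl⟩

lemma anodyne_sd_hornIncl {n : ℕ} (k : Fin (n + 2)) :
    SSet.anodyneExtensions (SSet.sd.map (hornIncl.{u} k)) := by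
  have h1 : SSet.anodyneExtensions (nvMap (SdNerve.incl (SdNerve.chainSet (hornIncl.{u} k)))) := by
    have h2 := (hornToggle.{u} k).strongAnodyne_nvMap_incl
    rw [chainSet_horn]
    exact SSet.strongAnodyneExtensions_le_anodyneExtensions _ h2
  exact (SSet.anodyneExtensions.arrow_mk_iso_iff (SdNerve.sdArrowIso (hornIncl.{u} k))).2 h1

lemma anodyne_sd_horn {n : ℕ} (k : Fin (n + 2)) :
    SSet.anodyneExtensions (SSet.sd.map (Λ[n + 1, k] : (Δ[n + 1] : SSet.{u}).Subcomplex).ι) := by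
  have h := anodyne_sd_hornIncl.{u} k
  have h2 : SSet.sd.map (hornIncl.{u} k) = SSet.sd.map Λ[n + 1, k].ι ≫
      SSet.sd.map (SSet.stdSimplex.isoNerve (n + 1)).hom := Functor.map_comp _ _ _
  rw [h2] at h
  exact (MorphismProperty.cancel_right_of_respectsIso SSet.anodyneExtensions
    (SSet.sd.map Λ[n + 1, k].ι) (SSet.sd.map (SSet.stdSimplex.isoNerve (n + 1)).hom)).1 h

end Vale.Agent.P213.KQ
end

section

/-!
The extension property `Λ ⟶ Ex X ⟶ Ex² X`.
-/

open CategoryTheory Simplicial PartialOrder Opposite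

universe u

namespace Vale.Agent.P213.KQ

set_option backward.isDefEq.respectTransparency false in
lemma homEquiv_apply {K Y : SSet.{u}} (f : SSet.sd.obj K ⟶ Y) {n : SimplexCategory}
    (x : K.obj (op n)) :
    (SSet.sdExAdjunction.homEquiv K Y f).app (op n) x =
      ULift.up (SSet.stdSimplex.sdIso.inv.app n ≫ SSet.sd.map (SSet.yonedaEquiv.symm x) ≫ f) :=
  Presheaf.uliftYonedaAdjunction_homEquiv_app.{0, 0, u, 0, u + 1}
    (SSet.stdSimplex.{u}.leftKanExtension SimplexCategory.sd.{u})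
    (SSet.stdSimplex.{u}.leftKanExtensionUnit SimplexCategory.sd.{u}) f x

lemma sdLast_simplex {K : SSet.{u}} {n : ℕ} (x : K _⦋n⦌) :
    SSet.sd.map (SSet.yonedaEquiv.symm x) ≫ sdLast.app K =
      SSet.stdSimplex.sdIso.hom.app ⦋n⦌ ≫ lastVertex.app ⦋n⦌ ≫ SSet.yonedaEquiv.symm x := by
  have h1 : (SSet.sdExAdjunction.homEquiv K K (sdLast.app K)).app (op ⦋n⦌) x =
      (toEx.app K).app (op ⦋n⦌) x := by rw [toEx_transpose]
  rw [homEquiv_apply] at h1
  have h2 : SSet.stdSimplex.sdIso.inv.app ⦋n⦌ ≫ SSet.sd.map (SSet.yonedaEquiv.symm x) ≫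
      sdLast.app K = lastVertex.app ⦋n⦌ ≫ SSet.yonedaEquiv.symm x := congrArg ULift.down h1
  rw [← h2]
  exact (Iso.hom_inv_id_app_assoc SSet.stdSimplex.sdIso ⦋n⦌ _).symm

lemma inv_yoneda {P : Type u} [PartialOrder P] {m : ℕ} (y : (nerve P) _⦋m⦌) :
    (SSet.stdSimplex.isoNerve m).inv ≫ SSet.yonedaEquiv.symm y = nvMap (SdNerve.hom y) := by
  refine NatTrans.ext (funext fun d => ?_)
  refine ConcreteCategory.hom_ext _ _ (fun z => ?_)
  refine nerve.ext_of_isThin (C := P) (funext fun j => ?_)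
  rfl

/-- the last vertex of a chain -/
noncomputable def topV {X : SSet.{u}} {m : ℕ} (i : X ⟶ nerve (ULift.{u} (Fin (m + 1)))) :
    SdNerve.chainSet i →o ULift.{u} (Fin (m + 1)) :=
  (lastV ⦋m⦌).comp (SdNerve.incl (SdNerve.chainSet i))

lemma isoNerve_topV {X : SSet.{u}} [X.Nonsingular] {m : ℕ}
    (i : X ⟶ nerve (ULift.{u} (Fin (m + 1)))) [Mono i] :
    (SdNerve.isoNerve i).hom ≫ nvMap (topV i) = sdLast.app X ≫ i := by
  apply SdNerve.sd_hom_ext
  intro d x
  have h1 := SdNerve.isoNerve_simplex i x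
  have h2 := sdLast_simplex x
  rw [← Category.assoc, h1, ← Category.assoc, h2, Category.assoc, Category.assoc, Category.assoc]
  congr 1
  have h3 : SSet.yonedaEquiv.symm x ≫ i = SSet.yonedaEquiv.symm (i.app _ x) :=
    SSet.yonedaEquiv_symm_comp _ _
  rw [h3]
  have h4 := inv_yoneda (i.app _ x)
  have h5 : lastVertex.app ⦋d⦌ ≫ SSet.yonedaEquiv.symm (i.app _ x) =
    nerveMap (lastV.{u} ⦋d⦌).monotone.functor ≫ nvMap (SdNerve.hom (i.app _ x)) := by
    rw [← h4]
    rfl
  refine Eq.trans ?_ h5.symm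
  have key : (topV i).comp (SdNerve.kap i x) = (SdNerve.hom (i.app _ x)).comp (lastV ⦋d⦌) := by
    refine OrderHom.ext _ _ (funext fun c => ?_)
    exact max'_map (SdNerve.hom (i.app _ x)) c
  exact congrArg nvMap key

section

variable {n : ℕ} (k : Fin (n + 2))

instance nonsingular_sd_horn : (SSet.sd.obj (Λ[n + 1, k] : SSet.{u})).Nonsingular :=
  SSet.Nonsingular.of_iso (SdNerve.isoNerve (hornIncl.{u} k)).symm

instance nonsingular_sd_simplex : (SSet.sd.obj (Δ[n] : SSet.{u})).Nonsingular := by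
  have : (nerve (NonemptyFiniteChains (ULift.{u} (Fin (n + 1))))).Nonsingular := inferInstance
  exact SSet.Nonsingular.of_iso (X := nerve (NonemptyFiniteChains (ULift.{u} (Fin (n + 1)))))
    (SSet.stdSimplex.sdIso.{u}.app ⦋n⦌).symm

open Classical in
/-- the retraction on faces -/
noncomputable def retF (S : EE.{u} n) : ULift.{u} (Fin (n + 2)) :=
  if S ∈ hornSet k then S.finset.max' S.nonempty else ULift.up k

open Classical in
/-- the retraction on chains of faces -/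
noncomputable def retC : NonemptyFiniteChains (EE.{u} n) →o EE.{u} n where
  toFun c := ⟨c.finset.image (retF k), c.nonempty.image _, fun a b => le_total a.1 b.1⟩
  monotone' _ _ h := Finset.image_subset_image h

lemma mem_retC (c : NonemptyFiniteChains (EE.{u} n)) (x : ULift.{u} (Fin (n + 2))) :
    x ∈ (retC k c).finset ↔ ∃ S ∈ c.finset, retF k S = x := by
  change x ∈ Finset.image (retF k) c.finset ↔ _
  simp

lemma retC_mem (c : NonemptyFiniteChains (EE.{u} n)) : retC k c ∈ hornSet k := by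
  by_contra hc
  rw [notMem_hornSet] at hc
  have h1 : ∀ j : ULift.{u} (Fin (n + 2)), j.down ≠ k →
      ∃ S ∈ c.finset, S ∈ hornSet k ∧ j ∈ S.finset := by
    intro j hj
    obtain ⟨S, hS, hS'⟩ := (mem_retC k c j).1 (hc j hj)
    unfold retF at hS'
    split_ifs at hS' with h2
    · refine ⟨S, hS, h2, ?_⟩
      rw [← hS']
      exact Finset.max'_mem _ _
    · exact absurd (congrArg ULift.down hS').symm hj
  obtain ⟨j₀, hj₀⟩ : ∃ j₀ : ULift.{u} (Fin (n + 2)), j₀.down ≠ k := by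
    by_cases hk : k = 0
    · exact ⟨ULift.up 1, by rw [hk]; simp⟩
    · exact ⟨ULift.up 0, fun h => hk h.symm⟩
  classical
  let T := c.finset.filter (fun σ => σ ∈ hornSet k)
  have hT : T.Nonempty := by
    obtain ⟨σ, h2, h3, _⟩ := h1 j₀ hj₀
    exact ⟨σ, Finset.mem_filter.2 ⟨h2, h3⟩⟩
  obtain ⟨σ, hσ, hmax⟩ := T.exists_maximal hT
  rw [Finset.mem_filter] at hσ
  refine (notMem_hornSet k).2 ?_ hσ.2
  intro j hj
  obtain ⟨σ', h2, h3, h4⟩ := h1 j hj
  have h5 : σ' ∈ T := Finset.mem_filter.2 ⟨h2, h3⟩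
  rcases c.comparable ⟨σ, hσ.1⟩ ⟨σ', h2⟩ with h6 | h6
  · exact hmax h5 h6 h4
  · exact h6 h4

/-- the subdivided simplex inside a nerve -/
noncomputable def sdIncl (n : ℕ) : SSet.sd.obj (Δ[n + 1] : SSet.{u}) ⟶ nerve (EE.{u} n) :=
  SSet.sd.map (SSet.stdSimplex.isoNerve (n + 1)).hom ≫ (SdNerve.sdNerveIso _).hom

instance : Mono (sdIncl.{u} n) := by
  unfold sdIncl
  infer_instance

lemma isoNerve_sdIncl :
    (SdNerve.isoNerve (hornIncl.{u} k)).hom ≫
      nvMap (SdNerve.incl (SdNerve.chainSet (hornIncl.{u} k))) =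
    SSet.sd.map Λ[n + 1, k].ι ≫ sdIncl n := by
  rw [SdNerve.isoNerve_hom_incl]
  unfold hornIncl sdIncl
  rw [Functor.map_comp, Category.assoc]

/-- the retraction -/
noncomputable def retH : SdNerve.chainSet (sdIncl.{u} n) →o SdNerve.chainSet (hornIncl.{u} k) where
  toFun c := ⟨retC k c.1, by rw [chainSet_horn]; exact retC_mem k c.1⟩
  monotone' _ _ h := (retC k).monotone h

lemma retH_comp :
    (retH k).comp (SdNerve.chMap (SdNerve.isoNerve (hornIncl.{u} k)).hom (sdIncl.{u} n)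
      (SdNerve.incl (SdNerve.chainSet (hornIncl.{u} k))) (SSet.sd.map Λ[n + 1, k].ι)
      (isoNerve_sdIncl k)) =
    SdNerve.chMap (SdNerve.isoNerve (hornIncl.{u} k)).hom (hornIncl.{u} k)
      (topV (hornIncl.{u} k)) (sdLast.app _) (isoNerve_topV _) := by
  refine OrderHom.ext _ _ (funext fun c => Subtype.ext (NonemptyFiniteChains.ext
    (Finset.ext fun y => ?_)))
  show y ∈ (retC k (c.1.map (SdNerve.incl (SdNerve.chainSet (hornIncl.{u} k))))).finset ↔
    y ∈ (c.1.map (topV (hornIncl.{u} k))).finset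
  rw [mem_retC, NonemptyFiniteChains.mem_map_iff]
  have h1 : ∀ S : SdNerve.chainSet (hornIncl.{u} k), retF k S.1 = topV (hornIncl.{u} k) S := by
    intro S
    have h2 : S.1 ∈ hornSet k := by
      rw [← chainSet_horn]
      exact S.2
    exact if_pos h2
  constructor
  · rintro ⟨S, hS, rfl⟩
    obtain ⟨T, hT, rfl⟩ := (NonemptyFiniteChains.mem_map_iff _ _ _).1 hS
    exact ⟨T, hT, (h1 T).symm⟩
  · rintro ⟨T, hT, rfl⟩
    exact ⟨T.1, (NonemptyFiniteChains.mem_map_iff _ _ _).2 ⟨T, hT, rfl⟩, h1 T⟩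

/-- the extension of the last vertex map of the horn -/
lemma exists_ext_sdLast : ∃ r : SSet.sd.obj (SSet.sd.obj (Δ[n + 1] : SSet.{u})) ⟶
    SSet.sd.obj (Λ[n + 1, k] : SSet.{u}),
    SSet.sd.map (SSet.sd.map Λ[n + 1, k].ι) ≫ r = SSet.sd.map (sdLast.app _) := by
  refine ⟨(SdNerve.isoNerve (sdIncl.{u} n)).hom ≫ nvMap (retH k) ≫
    (SdNerve.isoNerve (hornIncl.{u} k)).inv, ?_⟩
  have h1 := SdNerve.isoNerve_naturality (SdNerve.isoNerve (hornIncl.{u} k)).hom (sdIncl.{u} n)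
      (SdNerve.incl (SdNerve.chainSet (hornIncl.{u} k))) (SSet.sd.map Λ[n + 1, k].ι)
      (isoNerve_sdIncl k)
  have h2 := SdNerve.isoNerve_naturality (SdNerve.isoNerve (hornIncl.{u} k)).hom (hornIncl.{u} k)
      (topV (hornIncl.{u} k)) (sdLast.app _) (isoNerve_topV _)
  rw [← Category.assoc, ← Category.assoc, Iso.comp_inv_eq, h2, h1, Category.assoc,
    SdNerve.nvMap_comp, retH_comp]

end

end Vale.Agent.P213.KQ

namespace Vale.Agent.P213

/-- every horn of `Ex X` is filled in `Ex² X` -/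
lemma horn_extension {X : SSet.{u}} {n : ℕ} (k : Fin (n + 2))
    (a : (Λ[n + 1, k] : SSet.{u}) ⟶ SSet.ex.obj X) :
    ∃ b : Δ[n + 1] ⟶ SSet.ex.obj (SSet.ex.obj X),
      Λ[n + 1, k].ι ≫ b = a ≫ toEx.app (SSet.ex.obj X) := by
  obtain ⟨r, hr⟩ := KQ.exists_ext_sdLast.{u} k
  let a' := (SSet.sdExAdjunction.homEquiv _ _).symm a
  refine ⟨SSet.sdExAdjunction.homEquiv _ _ (SSet.sdExAdjunction.homEquiv _ _ (r ≫ a')), ?_⟩
  have h1 := sdLast.naturality a
  rw [← toEx_transpose, ← Adjunction.homEquiv_naturality_left,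
    ← Adjunction.homEquiv_naturality_left, ← Adjunction.homEquiv_naturality_left,
    ← Category.assoc, hr, Adjunction.homEquiv_naturality_left]
  have h2 : SSet.sdExAdjunction.homEquiv _ _ a' = a := Equiv.apply_symm_apply _ _
  refine congrArg _ ?_
  refine Eq.trans ?_ h1.symm
  exact congrArg (fun z => sdLast.app _ ≫ z) h2

end Vale.Agent.P213
end

section

/-!
`Ex` preserves Kan fibrations; the extension property `Λ ⟶ Ex X ⟶ Ex² X` is
`horn_extension` in `KQ/HornExt.lean`.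
-/

open CategoryTheory HomotopicalAlgebra Simplicial MonoidalCategory Limits MorphismProperty
open SSet.modelCategoryQuillen

universe v u

namespace Vale.Agent.P213

/-- sd preserves anodyne extensions, equivalently ex preserves Kan fibrations -/
lemma kanFib_ex {X Y : SSet.{u}} (f : X ⟶ Y) (hf : kanFib f) : kanFib (SSet.ex.map f) := by
  intro _ _ _ hi
  simp only [J, MorphismProperty.iSup_iff] at hi
  obtain ⟨n, ⟨k⟩⟩ := hi
  rw [← SSet.sdExAdjunction.hasLiftingProperty_iff]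
  exact KQ.anodyne_sd_horn k _ hf

end Vale.Agent.P213
end

section

/-!
KQ7: the last vertex map is a weak equivalence, and consequences for `sd` and `ex`.
-/

open CategoryTheory HomotopicalAlgebra Simplicial MonoidalCategory Limits MorphismProperty
open SSet.modelCategoryQuillen CartesianMonoidalCategory SSet

universe v u

namespace Vale.Agent.P213

namespace SdWhe

/-- the map to the point -/
noncomputable def toPt (X : SSet.{u}) : X ⟶ Δ[0] := stdSimplex.isTerminalObj₀.from X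

lemma toPt_comp {X Y : SSet.{u}} (f : X ⟶ Y) : f ≫ toPt Y = toPt X :=
  stdSimplex.isTerminalObj₀.hom_ext _ _

/-- weakly contractible simplicial sets -/
def Contr (X : SSet.{u}) : Prop := whe (toPt X)

lemma Contr.whe {X Y : SSet.{u}} (hX : Contr X) (hY : Contr Y) (f : X ⟶ Y) : whe f :=
  P213.whe.of_postcomp f (toPt Y) hY (by rw [toPt_comp]; exact hX)

lemma contr_point : Contr (Δ[0] : SSet.{u}) := by
  have : toPt (Δ[0] : SSet.{u}) = 𝟙 _ := stdSimplex.isTerminalObj₀.hom_ext _ _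
  rw [Contr, this]
  exact whe_of_isIso _

lemma Contr.of_iso {X Y : SSet.{u}} (hX : Contr X) (e : X ≅ Y) : Contr Y := by
  refine P213.whe.of_precomp e.hom _ (whe_of_isIso _) ?_
  rw [toPt_comp]
  exact hX

lemma contr_of_top {L : Type u} [PartialOrder L] (v : L) (hv : ∀ l, l ≤ v) :
    Contr (nerve L) := by
  let c : L →o L := ⟨fun _ => v, fun _ _ _ => le_refl _⟩
  refine whe_of_eqvGen (toPt (nerve L)) (SSet.const (nerveEquiv.symm v)) ?_ ?_
  · apply Relation.EqvGen.symm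
    apply Relation.EqvGen.rel
    refine ⟨nvHomotopy OrderHom.id c (fun l => hv l), ?_, ?_⟩
    · ext n x i
      rfl
    · ext n x i
      rfl
  · have : SSet.const (nerveEquiv.symm v) ≫ toPt (nerve L) = 𝟙 (Δ[0] : SSet.{u}) :=
      stdSimplex.isTerminalObj₀.hom_ext _ _
    rw [this]
    exact Relation.EqvGen.refl _

lemma contr_stdSimplex (m : ℕ) : Contr (Δ[m] : SSet.{u}) := by
  let h : (Δ[m] : SSet.{u}) ⊗ Δ[1] ⟶ Δ[m] :=
    { app := fun n => ↾fun p => SSet.stdSimplex.objEquiv.symm (SimplexCategory.Hom.mk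
        { toFun := fun k => if (SSet.stdSimplex.objEquiv p.2).toOrderHom k = 0 then
            (SSet.stdSimplex.objEquiv p.1).toOrderHom k else Fin.last m
          monotone' := by
            intro i j hij
            have h1 := (SSet.stdSimplex.objEquiv p.1).toOrderHom.monotone hij
            have h2 := (SSet.stdSimplex.objEquiv p.2).toOrderHom.monotone hij
            dsimp only
            split_ifs with hi hj hj
            · exact h1
            · exact Fin.le_last _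
            · rw [hj] at h2
              exact absurd (Fin.le_zero_iff.1 h2) hi
            · exact le_refl _ })
      naturality := by
        intro n n' f
        ext p
        rfl }
  refine whe_of_eqvGen (toPt Δ[m]) (SSet.const (stdSimplex.obj₀Equiv.symm (Fin.last m))) ?_ ?_
  · apply Relation.EqvGen.symm
    apply Relation.EqvGen.rel
    refine ⟨h, ?_, ?_⟩
    · ext n x
      apply SSet.stdSimplex.objEquiv.injective
      apply SimplexCategory.Hom.ext
      ext k : 2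
      rfl
    · ext n x
      rfl
  · have : SSet.const (stdSimplex.obj₀Equiv.symm (Fin.last m)) ≫ toPt Δ[m]
        = 𝟙 (Δ[0] : SSet.{u}) :=
      stdSimplex.isTerminalObj₀.hom_ext _ _
    rw [this]
    exact Relation.EqvGen.refl _

/-- `sd Δ[m]` as the nerve of a poset -/
noncomputable def sdNerve (m : ℕ) :
    nerve (PartialOrder.NonemptyFiniteChains (ULift.{u} (Fin (m + 1)))) ≅
      SSet.sd.obj (Δ[m] : SSet.{u}) := (stdSimplex.sdIso.app ⦋m⦌).symm

/-- the greatest chain -/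
def topChain (m : ℕ) : PartialOrder.NonemptyFiniteChains (ULift.{u} (Fin (m + 1))) :=
  ⟨Finset.univ, ⟨⟨0⟩, Finset.mem_univ _⟩, fun _ _ => le_total _ _⟩

lemma contr_sd_stdSimplex (m : ℕ) : Contr (SSet.sd.obj (Δ[m] : SSet.{u})) := by
  refine Contr.of_iso ?_ (sdNerve m)
  refine contr_of_top (topChain m) ?_
  intro l x _
  exact Finset.mem_univ _

lemma mono_of_point {X : SSet.{u}} (v : Δ[0] ⟶ X) : Mono v :=
  mono_of_mono_fac (show v ≫ toPt X = 𝟙 _ from stdSimplex.isTerminalObj₀.hom_ext _ _)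

lemma trivCof_point {X : SSet.{u}} (hX : Contr X) (v : Δ[0] ⟶ X) : trivCof v :=
  ⟨mono_of_point v, contr_point.whe hX v⟩

/-- coproducts of contractible simplicial sets -/
lemma whe_coprod {ι : Type u} {X Y : SSet.{u}} {K L : ι → SSet.{u}} (hK : ∀ i, Contr (K i))
    (hL : ∀ i, Contr (L i)) (v : ∀ i, Δ[0] ⟶ K i) {a : ∀ i, K i ⟶ X} {b : ∀ i, L i ⟶ Y}
    (ha : IsColimit (Cofan.mk X a)) (hb : IsColimit (Cofan.mk Y b)) (f : ∀ i, K i ⟶ L i)
    (t : X ⟶ Y) (ht : ∀ i, a i ≫ t = f i ≫ b i) : P213.whe t := by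
  let pc : Cofan (fun _ : ι => (Δ[0] : SSet.{u})) := Cofan.mk (∐ fun _ => Δ[0]) (Sigma.ι _)
  have hpc : IsColimit pc := coproductIsCoproduct _
  have h1 : trivCof (Sigma.desc (fun i => v i ≫ a i) : (∐ fun _ : ι => (Δ[0] : SSet.{u})) ⟶ X) :=
    IsStableUnderColimitsOfShape.condition (W := trivCof.{u}) (J := Discrete ι) _ _ _ _ hpc ha
      (Discrete.natTrans (fun i => v i.as)) (fun i => trivCof_point (hK _) _) _
      (fun i => by simp [pc])
  have h2 : trivCof (Sigma.desc (fun i => (v i ≫ f i) ≫ b i) :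
      (∐ fun _ : ι => (Δ[0] : SSet.{u})) ⟶ Y) :=
    IsStableUnderColimitsOfShape.condition (W := trivCof.{u}) (J := Discrete ι) _ _ _ _ hpc hb
      (Discrete.natTrans (fun i => v i.as ≫ f i.as)) (fun i => trivCof_point (hL _) _) _
      (fun i => by simp [pc])
  refine whe.of_precomp _ t h1.2 ?_
  have h3 : (Sigma.desc (fun i => v i ≫ a i) : (∐ fun _ : ι => (Δ[0] : SSet.{u})) ⟶ X) ≫ t =
      Sigma.desc (fun i => (v i ≫ f i) ≫ b i) := by
    apply Sigma.hom_ext
    intro i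
    simp [ht]
  rw [h3]
  exact h2.2

lemma whe_sdLast_sigma (ι : Type u) (d : ℕ) :
    P213.whe (sdLast.app (∐ fun (_ : ι) ↦ (Δ[d] : SSet.{u}))) := by
  have hb : IsColimit (Cofan.mk (∐ fun (_ : ι) ↦ (Δ[d] : SSet.{u})) (Sigma.ι _)) :=
    coproductIsCoproduct _
  have ha := isColimitCofanMkObjOfIsColimit SSet.sd.{u} _ _ hb
  refine whe_coprod (fun _ => contr_sd_stdSimplex d) (fun _ => contr_stdSimplex d)
    (fun _ => SSet.const (nerveEquiv.symm (topChain d)) ≫ (sdNerve d).hom) ha hb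
    (fun _ => sdLast.app _) _ (fun i => ?_)
  exact sdLast.naturality _

lemma hasDimensionLT_skeleton (K : SSet.{u}) (d : ℕ) :
    HasDimensionLT (K.skeleton d : SSet.{u}) d := by
  change HasDimensionLT (⨆ (i : Fin d) (x : K.nonDegenerate i), Subcomplex.ofSimplex x.1 :
    K.Subcomplex).toSSet d
  simp only [hasDimensionLT_iSup_iff]
  intro i x
  have : HasDimensionLT (Subcomplex.ofSimplex x.1 : SSet.{u}) (i.1 + 1) := by
    obtain ⟨f, hf⟩ := SSet.yonedaEquiv.surjective x.1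
    rw [← hf, ← Subcomplex.range_eq_ofSimplex]
    infer_instance
  exact hasDimensionLT_of_le _ (i.1 + 1) _ (by omega)

lemma whe_sdLast_empty (K : SSet.{u}) (hK : K.HasDimensionLT 0) : P213.whe (sdLast.app K) := by
  have h1 : IsInitial K := isInitialOfNotNonempty ((notNonempty_iff_hasDimensionLT_zero K).2 hK)
  have h2 : IsInitial (SSet.sd.obj K) := IsInitial.isInitialObj SSet.sd K h1
  have : IsIso (sdLast.app K) := isIso_of_isInitial h2 h1 _
  exact whe_of_isIso _

open SSet.relativeCellComplexOfMono in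
lemma whe_sdLast_of_dim (d : ℕ) : ∀ (K : SSet.{u}) [K.HasDimensionLT d],
    P213.whe (sdLast.app K) := by
  induction d with
  | zero =>
    intro K hK
    exact whe_sdLast_empty K hK
  | succ d hd =>
    intro K hK
    let i := (Subcomplex.ι (⊥ : K.Subcomplex))
    have sq := relativeCellComplexOfMono.isPushout i d
    have sq' := sq.map SSet.sd
    have h1 : P213.whe (sdLast.app (skeletonOfMono i (d + 1) : SSet.{u})) := by
      refine whe_gluing (i := SSet.sd.map (l i d)) (i' := l i d) sq'.flip sq.flip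
        (sdLast.app _) (sdLast.app _) (sdLast.app _) (sdLast.app _) ?_ ?_ ?_ ?_ ?_ ?_ ?_
      · exact sdLast.naturality _
      · exact sdLast.naturality _
      · exact sdLast.naturality _
      · exact sdLast.naturality _
      · have : (sigmaBoundary i d).HasDimensionLT d := by
          apply hasDimensionLT_of_isColimit (coproductIsCoproduct _)
          rintro ⟨j⟩
          exact inferInstanceAs (HasDimensionLT (∂Δ[d] : SSet.Subcomplex.{u} _) d)
        exact hd _
      · exact whe_sdLast_sigma _ _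
      · have : (skeletonOfMono i d : SSet.{u}).HasDimensionLT d := by
          have h2 : skeletonOfMono i d = K.skeleton d := by
            apply le_antisymm
            · refine sup_le ?_ (le_refl _)
              intro n x hx
              obtain ⟨y, rfl⟩ := hx
              exact y.2.elim
            · exact le_sup_right
          rw [h2]
          exact hasDimensionLT_skeleton K d
        exact hd _
    have h2 : skeletonOfMono i (d + 1) = ⊤ := by
      rw [Subcomplex.eq_top_iff_of_hasDimensionLT _ (d + 1)]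
      intro j hj x hx
      exact Or.inr (K.mem_skeleton x hj)
    have h3 : IsIso (skeletonOfMono i (d + 1)).ι := by
      rw [h2]
      exact inferInstanceAs (IsIso (Subcomplex.topIso K).hom)
    have h4 : SSet.sd.map (skeletonOfMono i (d + 1)).ι ≫ sdLast.app K =
      sdLast.app _ ≫ (skeletonOfMono i (d + 1)).ι := sdLast.naturality _
    refine whe.of_precomp (SSet.sd.map (skeletonOfMono i (d + 1)).ι) _
      (@whe_of_isIso _ _ _ (SSet.sd.map_isIso _)) ?_
    rw [h4]
    exact whe.comp_mem _ _ h1 (@whe_of_isIso _ _ _ h3)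

end SdWhe


lemma whe_sdLast (K : SSet.{u}) : whe (sdLast.app K) := by
  let G : ℕ ⥤ SSet.{u} := K.skeleton.monotone.functor ⋙ Subcomplex.toSSetFunctor
  let cG : Cocone G := ⟨K, { app := fun d => (K.skeleton d).ι }⟩
  have hcG : IsColimit cG :=
    IsColimit.ofIsoColimit (isColimitOfPreserves Subcomplex.toSSetFunctor
      (Preorder.colimitCoconeOfIsLUB K.skeleton.monotone.functor (pt := ⊤)
        (by rw [← K.iSup_skeleton]; apply isLUB_iSup)).isColimit)
        (Cocone.ext (Subcomplex.topIso _))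
  have hcF : IsColimit (SSet.sd.mapCocone cG) := isColimitOfPreserves SSet.sd hcG
  have hG : ∀ (i j : ℕ) (f : i ⟶ j), Mono (G.map f) := fun i j f =>
    Subcomplex.mono_homOfLE (K.skeleton.monotone (leOfHom f))
  exact whe_of_sequence (F := G ⋙ SSet.sd) (G := G) (Functor.whiskerLeft G sdLast)
    (fun i j f => by
      have := hG i j f
      exact mono_sd _) hG
    (fun j => @SdWhe.whe_sdLast_of_dim j _ (SdWhe.hasDimensionLT_skeleton K j)) hcF hcG (sdLast.app K) (fun j => sdLast.naturality _)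

lemma whe_toEx (K : SSet.{u}) : whe (toEx.app K) := anodyne_le_whe _ (anodyne_toEx K)

lemma whe_ex_iff {X Y : SSet.{u}} (f : X ⟶ Y) : whe (SSet.ex.map f) ↔ whe f := by
  have h := toEx.naturality f
  constructor
  · intro hf
    refine whe.of_postcomp f (toEx.app Y) (whe_toEx Y) ?_
    have h2 : f ≫ toEx.app Y = toEx.app X ≫ SSet.ex.map f := h
    rw [h2]
    exact whe.comp_mem _ _ (whe_toEx X) hf
  · intro hf
    refine whe.of_precomp (toEx.app X) _ (whe_toEx X) ?_
    have h2 : toEx.app X ≫ SSet.ex.map f = f ≫ toEx.app Y := h.symm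
    rw [h2]
    exact whe.comp_mem _ _ hf (whe_toEx Y)

lemma whe_sd_iff {X Y : SSet.{u}} (f : X ⟶ Y) : whe (SSet.sd.map f) ↔ whe f := by
  have h : SSet.sd.map f ≫ sdLast.app Y = sdLast.app X ≫ f := sdLast.naturality f
  constructor
  · intro hf
    refine whe.of_precomp (sdLast.app X) _ (whe_sdLast X) ?_
    rw [← h]
    exact whe.comp_mem _ _ hf (whe_sdLast Y)
  · intro hf
    refine whe.of_postcomp _ (sdLast.app Y) (whe_sdLast Y) ?_
    rw [h]
    exact whe.comp_mem _ _ (whe_sdLast X) hf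

lemma whe_unit_sdEx (K : SSet.{u}) : whe (SSet.sdExAdjunction.unit.app K) := by
  have h := toEx_transpose K
  rw [Adjunction.homEquiv_unit] at h
  refine whe.of_postcomp _ (SSet.ex.map (sdLast.app K)) ((whe_ex_iff _).2 (whe_sdLast K)) ?_
  rw [h]
  exact whe_toEx K


end Vale.Agent.P213
end
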