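import Mathlib.AlgebraicTopology.SimplicialSet.NonsingularColimit
import Vale.Agent.P213.Bdl.B2

/-!
Subdivision of simplicial sets that embed in the nerve of a poset.
-/

open CategoryTheory Simplicial Limits PartialOrder Opposite

universe u

namespace Vale.Agent.P213

namespace SdNerve

/-- A criterion for a cocone in types to be a colimit. -/
lemma isColimit_types {J : Type u} [Category.{u} J] (F : J ⥤ Type u) (c : Cocone F)
    (j : c.pt → J) (e : ∀ s, F.obj (j s)) (he : ∀ s, c.ι.app (j s) (e s) = s)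
    (h : ∀ s (k : J) (y : F.obj k), c.ι.app k y = s → ∃ g : j s ⟶ k, F.map g (e s) = y) :
    Nonempty (IsColimit c) := by
  refine ⟨{ desc := fun t => ↾fun s => t.ι.app (j s) (e s), fac := ?_, uniq := ?_ }⟩
  · intro t k
    ext y
    obtain ⟨g, hg⟩ := h _ k y rfl
    have h1 := ConcreteCategory.congr_hom (t.w g) (e (c.ι.app k y))
    simp only [types_comp_apply] at h1 ⊢
    rw [hg] at h1
    exact h1.symm
  · intro t m hm
    ext s
    have h1 := ConcreteCategory.congr_hom (hm (j s)) (e s)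
    simp only [types_comp_apply, he] at h1
    exact h1

section Chains

variable {P : Type u} [PartialOrder P]

/-- Every chain can be enumerated. -/
lemma exists_enum (c : NonemptyFiniteChains P) : ∃ (k : ℕ) (f : Fin (k + 1) →o P),
    Function.Injective f ∧ Set.range f = (c.finset : Set P) := by
  classical
  let _ : LinearOrder c.finset :=
    { (inferInstance : PartialOrder c.finset) with
      le_total := c.comparable
      toDecidableLE := Classical.decRel _ }
  obtain ⟨k, hk⟩ : ∃ k, Fintype.card c.finset = k + 1 := by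
    have : 0 < Fintype.card c.finset := by
      rw [Fintype.card_coe]
      exact c.nonempty.card_pos
    exact ⟨_, (Nat.succ_pred_eq_of_pos this).symm⟩
  let e : Fin (k + 1) ≃o c.finset := Fintype.orderIsoFinOfCardEq _ hk
  refine ⟨k, ⟨fun j => (e j : P), fun a b h => e.monotone h⟩, fun a b h => ?_, ?_⟩
  · exact e.injective (Subtype.ext h)
  · ext x
    constructor
    · rintro ⟨a, rfl⟩
      exact (e a).2
    · intro hx
      refine ⟨e.symm ⟨x, hx⟩, ?_⟩
      show ((e (e.symm ⟨x, hx⟩) : c.finset) : P) = x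
      rw [e.apply_symm_apply]

/-- The monotone map attached to a simplex of the nerve. -/
def hom {n : ℕ} (x : (nerve P) _⦋n⦌) : ULift.{u} (Fin (n + 1)) →o P :=
  ⟨fun j => x.obj j.down, fun _ _ h => x.monotone h⟩

variable {X : SSet.{u}} (i : X ⟶ nerve P)

/-- The chains that underlie a simplex of `X`. -/
def chainSet : Set (NonemptyFiniteChains P) :=
  {c | ∃ (n : ℕ) (x : X _⦋n⦌), Set.range (hom (i.app _ x)) = (c.finset : Set P)}

/-- The simplex of the nerve attached to a monotone map. -/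
def ofHom {n : ℕ} (f : Fin (n + 1) →o P) : (nerve P) _⦋n⦌ := f.monotone.functor

lemma hom_map {n m : ℕ} (f : ⦋n⦌ ⟶ ⦋m⦌) (x : (nerve P) _⦋m⦌) :
    hom ((nerve P).map f.op x) =
      (hom x).comp (SimplexCategory.toPartOrd.{u}.map f).hom := rfl

/-- The chain of `X` attached to a simplex of `X` and a nonempty subset. -/
lemma map_mem_chainSet {n : ℕ} (x : X _⦋n⦌) (c : NonemptyFiniteChains (ULift.{u} (Fin (n + 1)))) :
    c.map (hom (i.app _ x)) ∈ chainSet i := by
  obtain ⟨k, f, _, hf⟩ := exists_enum c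
  let g : ⦋k⦌ ⟶ ⦋n⦌ := SimplexCategory.mkHom
    ⟨fun j => (f j).down, fun a b h => f.monotone h⟩
  refine ⟨k, X.map g.op x, ?_⟩
  have h1 : i.app _ (X.map g.op x) = (nerve P).map g.op (i.app _ x) :=
    NatTrans.naturality_apply i g.op x
  rw [h1, hom_map]
  ext y
  constructor
  · rintro ⟨a, rfl⟩
    rw [Finset.mem_coe, NonemptyFiniteChains.mem_map_iff]
    refine ⟨f a.down, ?_, rfl⟩
    have : f a.down ∈ Set.range f := ⟨_, rfl⟩
    rwa [hf] at this
  · intro hy
    rw [Finset.mem_coe, NonemptyFiniteChains.mem_map_iff] at hy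
    obtain ⟨z, hz, rfl⟩ := hy
    have hz' : z ∈ Set.range f := by rw [hf]; exact hz
    obtain ⟨a, rfl⟩ := hz'
    exact ⟨ULift.up a, rfl⟩

/-- The monotone map from subsets to chains attached to a simplex of `X`. -/
noncomputable def kap {n : ℕ} (x : X _⦋n⦌) :
    NonemptyFiniteChains (ULift.{u} (Fin (n + 1))) →o chainSet i where
  toFun c := ⟨c.map (hom (i.app _ x)), map_mem_chainSet i x c⟩
  monotone' _ _ h := (NonemptyFiniteChains.orderHomMap (hom (i.app _ x))).monotone h

lemma kap_map {n m : ℕ} (f : ⦋n⦌ ⟶ ⦋m⦌) (x : X _⦋m⦌) :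
    kap i (X.map f.op x) = (kap i x).comp
      (NonemptyFiniteChains.orderHomMap (SimplexCategory.toPartOrd.{u}.map f).hom) := by
  have h1 : i.app _ (X.map f.op x) = (nerve P).map f.op (i.app _ x) :=
    NatTrans.naturality_apply i f.op x
  refine OrderHom.ext _ _ (funext fun c => Subtype.ext (NonemptyFiniteChains.ext
    (Finset.ext fun y => ?_)))
  show y ∈ (c.map (hom (i.app _ (X.map f.op x)))).finset ↔
    y ∈ ((c.map (SimplexCategory.toPartOrd.{u}.map f).hom).map (hom (i.app _ x))).finset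
  rw [h1, hom_map]
  refine (NonemptyFiniteChains.mem_map_iff _ _ _).trans
    (Iff.trans ?_ (NonemptyFiniteChains.mem_map_iff _ _ _).symm)
  constructor
  · rintro ⟨a, ha, rfl⟩
    exact ⟨_, (NonemptyFiniteChains.mem_map_iff _ _ _).2 ⟨a, ha, rfl⟩, rfl⟩
  · rintro ⟨z, hz, rfl⟩
    obtain ⟨a, ha, rfl⟩ := (NonemptyFiniteChains.mem_map_iff _ _ _).1 hz
    exact ⟨a, ha, rfl⟩

end Chains

section Colimit

variable {P : Type u} [PartialOrder P] {X : SSet.{u}} (i : X ⟶ nerve P)

/-- The diagram of the subdivisions of the nondegenerate simplices. -/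
noncomputable abbrev diag (X : SSet.{u}) [X.Nonsingular] : X.N ⥤ SSet.{u} :=
  SSet.N.toSemiSimplexCategory X ⋙ SemiSimplexCategory.toSimplexCategory ⋙
    SimplexCategory.sd.{u}

/-- The map of nerves induced by `kap`. -/
noncomputable def leg {n : ℕ} (x : X _⦋n⦌) :
    SimplexCategory.sd.{u}.obj ⦋n⦌ ⟶ nerve (chainSet i) := nvMap (kap i x)

lemma leg_map {n m : ℕ} (f : ⦋n⦌ ⟶ ⦋m⦌) (x : X _⦋m⦌) :
    SimplexCategory.sd.{u}.map f ≫ leg i x = leg i (X.map f.op x) := by
  rw [leg, leg, kap_map]
  rfl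

/-- The cocone with point the nerve of the poset of chains. -/
noncomputable def cocone [X.Nonsingular] : Cocone (diag X) where
  pt := nerve (chainSet i)
  ι :=
    { app := fun x => leg i x.simplex
      naturality := fun x y f => by
        have h1 := leg_map i (SSet.N.monoOfLE (leOfHom f)) y.simplex
        rw [SSet.N.map_monoOfLE] at h1
        exact h1.trans (Category.comp_id _).symm }

lemma hom_injective {n : ℕ} (x : (nerve P) _⦋n⦌) (hx : x ∈ (nerve P).nonDegenerate n) :
    Function.Injective (hom x) := by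
  rw [PartialOrder.mem_nerve_nonDegenerate_iff_injective] at hx
  rintro ⟨a⟩ ⟨b⟩ h
  exact congrArg ULift.up (hx h)

lemma kap_injective [Mono i] {n : ℕ} (x : X _⦋n⦌) (hx : x ∈ X.nonDegenerate n) :
    Function.Injective (kap i x) := by
  intro c d h
  have hinj := hom_injective (i.app _ x) ((SSet.nonDegenerate_iff_of_mono i x).2 hx)
  have h1 : (c.map (hom (i.app _ x))).finset = (d.map (hom (i.app _ x))).finset :=
    congrArg (fun z => z.1.finset) h
  refine NonemptyFiniteChains.ext (Finset.ext fun y => ?_)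
  have h2 := Finset.ext_iff.1 h1 (hom (i.app _ x) y)
  rw [NonemptyFiniteChains.mem_map_iff, NonemptyFiniteChains.mem_map_iff] at h2
  constructor
  · intro hy
    obtain ⟨z, hz, e⟩ := h2.1 ⟨y, hy, rfl⟩
    exact hinj e ▸ hz
  · intro hy
    obtain ⟨z, hz, e⟩ := h2.2 ⟨y, hy, rfl⟩
    exact hinj e ▸ hz

lemma leg_injective [Mono i] {n : ℕ} (x : X _⦋n⦌) (hx : x ∈ X.nonDegenerate n)
    (m : SimplexCategoryᵒᵖ) : Function.Injective ((leg i x).app m) := by
  intro s t h
  refine nerve.ext_of_isThin (funext fun j => ?_)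
  have h1 := congrArg (fun z : (nerve (chainSet i)).obj m => z.obj j) h
  exact kap_injective i x hx h1

lemma exists_nonDegenerate_of_mem (c : NonemptyFiniteChains P) (hc : c ∈ chainSet i) :
    ∃ x : X.N, Set.range (hom (i.app _ x.simplex)) = (c.finset : Set P) := by
  obtain ⟨n, x, hx⟩ := hc
  obtain ⟨k, f, hf, y, rfl⟩ := X.exists_nonDegenerate x
  refine ⟨SSet.N.mk _ y.2, ?_⟩
  rw [← hx]
  have h1 : i.app _ (X.map f.op y.1) = (nerve P).map f.op (i.app _ y.1) :=
    NatTrans.naturality_apply i f.op y.1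
  rw [h1]
  have hs : Function.Surjective f := SimplexCategory.epi_iff_surjective.1 hf
  ext z
  constructor
  · rintro ⟨⟨a⟩, rfl⟩
    obtain ⟨b, rfl⟩ := hs a
    exact ⟨⟨b⟩, rfl⟩
  · rintro ⟨⟨a⟩, rfl⟩
    exact ⟨⟨f a⟩, rfl⟩

/-- The nondegenerate simplex that supports a simplex of the nerve of chains. -/
noncomputable def supp {m : SimplexCategoryᵒᵖ} (s : (nerve (chainSet i)).obj m) : X.N :=
  (exists_nonDegenerate_of_mem i (s.obj (Fin.last _)).1 (s.obj (Fin.last _)).2).choose

lemma range_supp {m : SimplexCategoryᵒᵖ} (s : (nerve (chainSet i)).obj m) :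
    Set.range (hom (i.app _ (supp i s).simplex)) =
      ((s.obj (Fin.last _)).1.finset : Set P) :=
  (exists_nonDegenerate_of_mem i (s.obj (Fin.last _)).1 (s.obj (Fin.last _)).2).choose_spec

/-- The subset of the support. -/
noncomputable def liftChain {m : SimplexCategoryᵒᵖ} (s : (nerve (chainSet i)).obj m)
    (j : Fin (m.unop.len + 1)) :
    NonemptyFiniteChains (ULift.{u} (Fin ((supp i s).dim + 1))) := by
  classical
  exact
  { finset := Finset.univ.filter fun a => hom (i.app _ (supp i s).simplex) a ∈ (s.obj j).1.finset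
    nonempty := by
      obtain ⟨z, hz⟩ := (s.obj j).1.nonempty
      have h1 : (s.obj j).1 ≤ (s.obj (Fin.last _)).1 := s.monotone (Fin.le_last j)
      have h2 : z ∈ Set.range (hom (i.app _ (supp i s).simplex)) := by
        rw [range_supp]
        exact h1 hz
      obtain ⟨a, rfl⟩ := h2
      exact ⟨a, by simpa using hz⟩
    comparable := fun a b => le_total a b }

lemma mem_liftChain {m : SimplexCategoryᵒᵖ} (s : (nerve (chainSet i)).obj m)
    (j : Fin (m.unop.len + 1)) (a : ULift.{u} (Fin ((supp i s).dim + 1))) :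
    a ∈ (liftChain i s j).finset ↔ hom (i.app _ (supp i s).simplex) a ∈ (s.obj j).1.finset := by
  simp [liftChain]

lemma liftChain_mono {m : SimplexCategoryᵒᵖ} (s : (nerve (chainSet i)).obj m) :
    Monotone (liftChain i s) := by
  intro j k h a ha
  rw [mem_liftChain] at ha ⊢
  have h1 : (s.obj j).1 ≤ (s.obj k).1 := s.monotone h
  exact h1 ha

/-- The lifted simplex. -/
noncomputable def lift {m : SimplexCategoryᵒᵖ} (s : (nerve (chainSet i)).obj m) :
    (SimplexCategory.sd.{u}.obj ⦋(supp i s).dim⦌).obj m :=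
  (liftChain_mono i s).functor

lemma leg_lift {m : SimplexCategoryᵒᵖ} (s : (nerve (chainSet i)).obj m) :
    (leg i (supp i s).simplex).app m (lift i s) = s := by
  refine nerve.ext_of_isThin (funext fun j => Subtype.ext (NonemptyFiniteChains.ext
    (Finset.ext fun y => ?_)))
  show y ∈ ((liftChain i s j).map (hom (i.app _ (supp i s).simplex))).finset ↔
    y ∈ (s.obj j).1.finset
  rw [NonemptyFiniteChains.mem_map_iff]
  constructor
  · rintro ⟨a, ha, rfl⟩
    exact (mem_liftChain i s j a).1 ha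
  · intro hy
    have h1 : (s.obj j).1 ≤ (s.obj (Fin.last _)).1 := s.monotone (Fin.le_last j)
    have h2 : y ∈ Set.range (hom (i.app _ (supp i s).simplex)) := by
      rw [range_supp]
      exact h1 hy
    obtain ⟨a, rfl⟩ := h2
    exact ⟨a, (mem_liftChain i s j a).2 hy, rfl⟩

lemma supp_le [Mono i] {m : SimplexCategoryᵒᵖ} (s : (nerve (chainSet i)).obj m) (k : X.N)
    (y : (SimplexCategory.sd.{u}.obj ⦋k.dim⦌).obj m) (hy : (leg i k.simplex).app m y = s) :
    supp i s ≤ k := by
  have hinj := hom_injective (i.app _ k.simplex)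
    ((SSet.nonDegenerate_iff_of_mono i k.simplex).2 k.nonDegenerate)
  have hlast : (y.obj (Fin.last _)).map (hom (i.app _ k.simplex)) = (s.obj (Fin.last _)).1 := by
    rw [← hy]
    rfl
  have h1 : ∀ a : Fin ((supp i s).dim + 1), ∃ b : Fin (k.dim + 1),
      hom (i.app _ k.simplex) ⟨b⟩ = hom (i.app _ (supp i s).simplex) ⟨a⟩ := by
    intro a
    have h2 : hom (i.app _ (supp i s).simplex) ⟨a⟩ ∈ ((s.obj (Fin.last _)).1.finset : Set P) := by
      rw [← range_supp]
      exact ⟨_, rfl⟩
    rw [← hlast, Finset.mem_coe] at h2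
    obtain ⟨⟨b⟩, _, hb⟩ := (NonemptyFiniteChains.mem_map_iff _ _ _).1 h2
    exact ⟨b, hb⟩
  choose f hf using h1
  have hmono : Monotone f := by
    intro a b h
    rcases le_total (f a) (f b) with h' | h'
    · exact h'
    · have e1 : hom (i.app _ k.simplex) ⟨f b⟩ ≤ hom (i.app _ k.simplex) ⟨f a⟩ :=
        (hom (i.app _ k.simplex)).monotone h'
      have e2 : hom (i.app _ k.simplex) ⟨f a⟩ ≤ hom (i.app _ k.simplex) ⟨f b⟩ := by
        rw [hf, hf]
        exact (hom (i.app _ (supp i s).simplex)).monotone h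
      have e3 := hinj (le_antisymm e2 e1)
      exact (congrArg ULift.down e3).le
  rw [SSet.N.le_iff, SSet.Subcomplex.ofSimplex_le_iff, SSet.Subcomplex.mem_ofSimplex_obj_iff]
  refine ⟨SimplexCategory.mkHom ⟨f, hmono⟩, ?_⟩
  have hi : Function.Injective (i.app (op ⦋(supp i s).dim⦌)) := by
    rw [← mono_iff_injective]
    infer_instance
  apply hi
  refine (NatTrans.naturality_apply i _ _).trans ?_
  refine nerve.ext_of_isThin (funext fun a => ?_)
  exact hf a

/-- The nerve of the poset of chains is the colimit of the subdivisions of the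
nondegenerate simplices. -/
noncomputable def isColimitCocone [X.Nonsingular] [Mono i] : IsColimit (cocone i) :=
  evaluationJointlyReflectsColimits _ fun m => (isColimit_types
    (diag X ⋙ (evaluation _ _).obj m) (((evaluation _ _).obj m).mapCocone (cocone i))
    (fun s => supp i s) (fun s => lift i s) (fun s => leg_lift i s) (fun s k y hy => by
      refine ⟨homOfLE (supp_le i s k y hy), ?_⟩
      apply leg_injective i k.simplex k.nonDegenerate m
      have h1 := ConcreteCategory.congr_hom (NatTrans.congr_app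
        ((cocone i).w (homOfLE (supp_le i s k y hy))) m) (lift i s)
      exact (h1.trans (leg_lift i s)).trans hy.symm)).some

end Colimit

section Iso

open SSet

/-- The diagram of the subdivisions of the nondegenerate simplices. -/
noncomputable def diagIso (X : SSet.{u}) [X.Nonsingular] : X.functorN' ⋙ sd ≅ diag X :=
  Functor.isoWhiskerLeft (N.toSemiSimplexCategory X ⋙ SemiSimplexCategory.toSimplexCategory)
    stdSimplex.sdIso.{u}

lemma sd_hom_ext {X : SSet.{u}} [X.Nonsingular] {Z : SSet.{u}} {u v : sd.obj X ⟶ Z}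
    (h : ∀ (n : ℕ) (x : X _⦋n⦌), sd.map (yonedaEquiv.symm x) ≫ u = sd.map (yonedaEquiv.symm x) ≫ v) :
    u = v :=
  (isColimitOfPreserves sd X.isColimitCoconeN').hom_ext fun x => h _ x.simplex

variable {P : Type u} [PartialOrder P] {X : SSet.{u}} (i : X ⟶ nerve P)

/-- The subdivision of `X`, embedded in the nerve of `P`, is the nerve of the poset of
chains of `P` that underlie a simplex of `X`. -/
noncomputable def isoNerve [X.Nonsingular] [Mono i] : sd.obj X ≅ nerve (chainSet i) :=
  (isColimitOfPreserves sd X.isColimitCoconeN').coconePointsIsoOfNatIso (isColimitCocone i)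
    (diagIso X)

lemma isoNerve_N [X.Nonsingular] [Mono i] (x : X.N) :
    sd.map (yonedaEquiv.symm x.simplex) ≫ (isoNerve i).hom =
      stdSimplex.sdIso.hom.app ⦋x.dim⦌ ≫ leg i x.simplex :=
  IsColimit.comp_coconePointsIsoOfNatIso_hom
    (isColimitOfPreserves sd X.isColimitCoconeN') (isColimitCocone i) (diagIso X) x

lemma isoNerve_simplex [X.Nonsingular] [Mono i] {n : ℕ} (x : X _⦋n⦌) :
    sd.map (yonedaEquiv.symm x) ≫ (isoNerve i).hom =
      stdSimplex.sdIso.hom.app ⦋n⦌ ≫ leg i x := by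
  obtain ⟨k, f, hf, y, rfl⟩ := X.exists_nonDegenerate x
  have h1 := isoNerve_N i (N.mk _ y.2)
  have h2 : SSet.yonedaEquiv.symm (X.map f.op y.1) =
      stdSimplex.map f ≫ SSet.yonedaEquiv.symm y.1 :=
    (SSet.yonedaEquiv_symm_naturality_left f y.1).symm
  rw [h2, Functor.map_comp, Category.assoc]
  have h3 : sd.map (stdSimplex.{u}.map f) ≫ stdSimplex.sdIso.hom.app ⦋k⦌ =
    stdSimplex.sdIso.hom.app ⦋n⦌ ≫ SimplexCategory.sd.map f :=
    stdSimplex.sdIso.{u}.hom.naturality f
  calc sd.map (stdSimplex.map f) ≫ sd.map (SSet.yonedaEquiv.symm y.1) ≫ (isoNerve i).hom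
      = sd.map (stdSimplex.map f) ≫ (stdSimplex.sdIso.hom.app ⦋k⦌ ≫ leg i y.1) :=
        congrArg (fun z => sd.map (stdSimplex.map f) ≫ z) h1
    _ = (sd.map (stdSimplex.map f) ≫ stdSimplex.sdIso.hom.app ⦋k⦌) ≫ leg i y.1 :=
        (Category.assoc _ _ _).symm
    _ = (stdSimplex.sdIso.hom.app ⦋n⦌ ≫ SimplexCategory.sd.map f) ≫ leg i y.1 :=
        congrArg (· ≫ leg i y.1) h3
    _ = stdSimplex.sdIso.hom.app ⦋n⦌ ≫ leg i (X.map f.op y.1) :=
        (Category.assoc _ _ _).trans
          (congrArg (fun z => stdSimplex.sdIso.hom.app ⦋n⦌ ≫ z) (leg_map i f y.1))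

lemma nvMap_comp {P Q R : Type u} [PartialOrder P] [PartialOrder Q] [PartialOrder R]
    (f : P →o Q) (g : Q →o R) : nvMap f ≫ nvMap g = nvMap (g.comp f) := rfl

lemma nvMap_id (P : Type u) [PartialOrder P] : nvMap (OrderHom.id : P →o P) = 𝟙 (nerve P) := rfl

section Naturality

variable {Q : Type u} [PartialOrder Q] {X' : SSet.{u}} (i' : X' ⟶ nerve Q) (g : P →o Q)
  (φ : X ⟶ X') (h : i ≫ nvMap g = φ ≫ i')

include h in
lemma hom_naturality {n : ℕ} (x : X _⦋n⦌) :
    hom (i'.app _ (φ.app _ x)) = g.comp (hom (i.app _ x)) := by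
  have h1 := ConcreteCategory.congr_hom (NatTrans.congr_app h (op ⦋n⦌)) x
  exact (congrArg hom h1).symm

include h in
lemma map_mem_chainSet' (c : NonemptyFiniteChains P) (hc : c ∈ chainSet i) :
    c.map g ∈ chainSet i' := by
  obtain ⟨n, x, hx⟩ := hc
  refine ⟨n, φ.app _ x, ?_⟩
  rw [hom_naturality i i' g φ h]
  ext y
  constructor
  · rintro ⟨a, rfl⟩
    rw [Finset.mem_coe, NonemptyFiniteChains.mem_map_iff]
    refine ⟨hom (i.app _ x) a, ?_, rfl⟩
    rw [← Finset.mem_coe, ← hx]
    exact ⟨a, rfl⟩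
  · intro hy
    rw [Finset.mem_coe, NonemptyFiniteChains.mem_map_iff] at hy
    obtain ⟨z, hz, rfl⟩ := hy
    rw [← Finset.mem_coe, ← hx] at hz
    obtain ⟨a, rfl⟩ := hz
    exact ⟨a, rfl⟩

/-- The map of posets of chains. -/
noncomputable def chMap : chainSet i →o chainSet i' where
  toFun c := ⟨c.1.map g, map_mem_chainSet' i i' g φ h c.1 c.2⟩
  monotone' _ _ hcd := (NonemptyFiniteChains.orderHomMap g).monotone hcd

lemma isoNerve_naturality [X.Nonsingular] [X'.Nonsingular] [Mono i] [Mono i'] :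
    sd.map φ ≫ (isoNerve i').hom = (isoNerve i).hom ≫ nvMap (chMap i i' g φ h) := by
  apply sd_hom_ext
  intro n x
  rw [← Category.assoc, ← Category.assoc, isoNerve_simplex, ← Functor.map_comp,
    SSet.yonedaEquiv_symm_comp, isoNerve_simplex, Category.assoc]
  congr 1
  have key : kap i' (φ.app _ x) = (chMap i i' g φ h).comp (kap i x) := ?_
  · exact congrArg nvMap key
  refine OrderHom.ext _ _ (funext fun c => Subtype.ext
    (NonemptyFiniteChains.ext (Finset.ext fun y => ?_)))
  show y ∈ (c.map (hom (i'.app _ (φ.app _ x)))).finset ↔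
    y ∈ ((c.map (hom (i.app _ x))).map g).finset
  rw [hom_naturality i i' g φ h]
  refine (NonemptyFiniteChains.mem_map_iff _ _ _).trans
    (Iff.trans ?_ (NonemptyFiniteChains.mem_map_iff _ _ _).symm)
  constructor
  · rintro ⟨a, ha, rfl⟩
    exact ⟨_, (NonemptyFiniteChains.mem_map_iff _ _ _).2 ⟨a, ha, rfl⟩, rfl⟩
  · rintro ⟨z, hz, rfl⟩
    obtain ⟨a, ha, rfl⟩ := (NonemptyFiniteChains.mem_map_iff _ _ _).1 hz
    exact ⟨a, ha, rfl⟩

end Naturality

/-- Inclusion of a set of chains. -/
def incl {E : Type u} [PartialOrder E] (S : Set E) : S →o E := ⟨Subtype.val, fun _ _ h => h⟩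

lemma mem_chainSet_id (c : NonemptyFiniteChains P) : c ∈ chainSet (𝟙 (nerve P)) := by
  obtain ⟨k, f, _, hf⟩ := exists_enum c
  refine ⟨k, ofHom f, ?_⟩
  rw [← hf]
  ext y
  constructor
  · rintro ⟨⟨a⟩, rfl⟩
    exact ⟨a, rfl⟩
  · rintro ⟨a, rfl⟩
    exact ⟨⟨a⟩, rfl⟩

variable (P) in
/-- The nerve of all chains. -/
noncomputable def chainIso : nerve (chainSet (𝟙 (nerve P))) ≅ nerve (NonemptyFiniteChains P) where
  hom := nvMap (incl _)
  inv := nvMap ⟨fun c => ⟨c, mem_chainSet_id c⟩, fun _ _ h => h⟩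
  hom_inv_id := rfl
  inv_hom_id := rfl

variable (P) in
/-- `sd (nerve P)` is the nerve of the poset of nonempty finite chains of `P`. -/
noncomputable def sdNerveIso : sd.obj (nerve P) ≅ nerve (NonemptyFiniteChains P) :=
  isoNerve (𝟙 (nerve P)) ≪≫ chainIso P

lemma sdNerveIso_simplex {n : ℕ} (x : (nerve P) _⦋n⦌) :
    sd.map (yonedaEquiv.symm x) ≫ (sdNerveIso P).hom =
      stdSimplex.sdIso.hom.app ⦋n⦌ ≫
        (show SimplexCategory.sd.{u}.obj ⦋n⦌ ⟶ _ from
          nvMap (NonemptyFiniteChains.orderHomMap (hom x))) := by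
  have h1 := isoNerve_simplex (𝟙 (nerve P)) x
  rw [sdNerveIso, Iso.trans_hom, ← Category.assoc, h1]
  rfl

lemma isoNerve_hom_incl [X.Nonsingular] [Mono i] :
    (isoNerve i).hom ≫ nvMap (incl (chainSet i)) = sd.map i ≫ (sdNerveIso P).hom := by
  have h : i ≫ nvMap (OrderHom.id : P →o P) = i ≫ 𝟙 (nerve P) := rfl
  have h1 := isoNerve_naturality i (𝟙 (nerve P)) OrderHom.id i h
  rw [sdNerveIso, Iso.trans_hom, ← Category.assoc, h1, Category.assoc]
  congr 1
  have key : incl (chainSet i) = (incl (chainSet (𝟙 (nerve P)))).comp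
      (chMap i (𝟙 (nerve P)) OrderHom.id i h) := ?_
  · exact congrArg nvMap key
  refine OrderHom.ext _ _ (funext fun c =>
    (NonemptyFiniteChains.ext (Finset.ext fun y => ?_)))
  show y ∈ c.1.finset ↔ y ∈ (c.1.map OrderHom.id).finset
  rw [NonemptyFiniteChains.mem_map_iff]
  simp

lemma sdNerveIso_naturality {Q : Type u} [PartialOrder Q] (g : P →o Q) :
    sd.map (nvMap g) ≫ (sdNerveIso Q).hom =
      (sdNerveIso P).hom ≫ nvMap (NonemptyFiniteChains.orderHomMap g) := by
  have h : 𝟙 (nerve P) ≫ nvMap g = nvMap g ≫ 𝟙 (nerve Q) := rfl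
  have h1 := isoNerve_naturality (𝟙 (nerve P)) (𝟙 (nerve Q)) g (nvMap g) h
  rw [sdNerveIso, sdNerveIso, Iso.trans_hom, Iso.trans_hom, ← Category.assoc, h1, Category.assoc,
    Category.assoc]
  rfl

/-- The subdivision of a monomorphism to the nerve of a poset is the nerve of the inclusion of
a set of chains. -/
noncomputable def sdArrowIso [X.Nonsingular] [Mono i] :
    Arrow.mk (sd.map i) ≅ Arrow.mk (nvMap (incl (chainSet i))) :=
  Arrow.isoMk (isoNerve i) (sdNerveIso P) (isoNerve_hom_incl i)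

/-- `chainSet i` is a lower set. -/
lemma isLowerSet_chainSet : IsLowerSet (chainSet i) := by
  rintro c d hdc ⟨n, x, hx⟩
  classical
  let e : NonemptyFiniteChains (ULift.{u} (Fin (n + 1))) :=
    { finset := Finset.univ.filter fun a => hom (i.app _ x) a ∈ d.finset
      nonempty := by
        obtain ⟨z, hz⟩ := d.nonempty
        have h2 : z ∈ Set.range (hom (i.app _ x)) := by
          rw [hx]
          exact hdc hz
        obtain ⟨a, rfl⟩ := h2
        exact ⟨a, by simpa using hz⟩
      comparable := fun a b => le_total a b }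
  have he : e.map (hom (i.app _ x)) = d := by
    refine NonemptyFiniteChains.ext (Finset.ext fun y => ?_)
    rw [NonemptyFiniteChains.mem_map_iff]
    constructor
    · rintro ⟨a, ha, rfl⟩
      simpa [e] using ha
    · intro hy
      have h2 : y ∈ Set.range (hom (i.app _ x)) := by
        rw [hx]
        exact hdc hy
      obtain ⟨a, rfl⟩ := h2
      exact ⟨a, by simpa [e] using hy, rfl⟩
  rw [← he]
  exact map_mem_chainSet i x e

end Iso

end SdNerve

end Vale.Agent.P213
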