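import Mathlib.AlgebraicTopology.SimplicialSet.Boundary
import Mathlib.Data.Fintype.Powerset
import Mathlib.Data.Fintype.EquivFin
import Mathlib.CategoryTheory.Presentable.StrongGenerator
import Mathlib.CategoryTheory.Presentable.Adjunction
import Mathlib.CategoryTheory.Presentable.Finite
import Mathlib.CategoryTheory.Presentable.Type
import Vale.Agent.P213.Bdl.B11
import Vale.Agent.P213.Bdl.K_KQ_SdNerve
import Vale.Agent.P213.Bdl.B10
import Vale.Agent.P213.Bdl.B2

set_option linter.all false

section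

/-!
Kan's functor `Ex^∞`.
-/

open CategoryTheory HomotopicalAlgebra Simplicial MonoidalCategory Limits MorphismProperty
open SSet.modelCategoryQuillen

universe v u

namespace Vale.Agent.P213

/-- iterates of `Ex` -/
noncomputable def exN (m : ℕ) : SSet.{u} ⥤ SSet.{u} :=
  Nat.rec (𝟭 _) (fun _ F => F ⋙ SSet.ex) m

/-- the transition maps `Ex^m ⟶ Ex^{m+1}` -/
noncomputable def exStep (m : ℕ) : exN.{u} m ⟶ exN (m + 1) :=
  (Functor.rightUnitor _).inv ≫ Functor.whiskerLeft (exN m) toEx

lemma exStep_app (m : ℕ) (X : SSet.{u}) : (exStep m).app X = toEx.app ((exN m).obj X) := by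
  exact Category.id_comp _

/-- the sequence of the iterates of `Ex` -/
noncomputable def exSeq : ℕ ⥤ (SSet.{u} ⥤ SSet.{u}) := Functor.ofSequence exStep

/-- Kan's functor `Ex^∞` -/
noncomputable def exInf : SSet.{u} ⥤ SSet.{u} := colimit exSeq

/-- the natural map `X ⟶ Ex^∞ X` -/
noncomputable def toExInf : 𝟭 SSet.{u} ⟶ exInf := colimit.ι exSeq.{u} 0

/-- `Ex^∞ X` is the colimit of the `Ex^m X` -/
noncomputable def exInfIsColimit (X : SSet.{u}) :
    IsColimit (((evaluation _ _).obj X).mapCocone (colimit.cocone exSeq.{u})) :=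
  isColimitOfPreserves _ (colimit.isColimit _)

attribute [local instance] IsStableUnderTransfiniteComposition.shrink₀

/-- `X ⟶ Ex^∞ X` is anodyne -/
lemma anodyne_toExInf (X : SSet.{u}) : SSet.anodyneExtensions (toExInf.app X) := by
  apply transfiniteCompositionsOfShape_le SSet.anodyneExtensions.{u} ℕ
  exact ⟨{
    F := exSeq ⋙ (evaluation _ _).obj X
    isoBot := Iso.refl _
    isWellOrderContinuous := inferInstance
    incl := (((evaluation _ _).obj X).mapCocone (colimit.cocone exSeq.{u})).ι
    isColimit := exInfIsColimit X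
    fac := Category.id_comp _
    map_mem := fun m _ => by
      have h : (exSeq.{u} ⋙ (evaluation _ _).obj X).map (homOfLE (Order.le_succ m)) =
          toEx.app ((exN m).obj X) := by
        rw [← exStep_app]
        exact congrArg (fun t => NatTrans.app t X) (Functor.ofSequence_map_homOfLE_succ exStep m)
      rw [h]
      exact anodyne_toEx _ }⟩

/-- the maps `Ex^m X ⟶ Ex^∞ X` -/
noncomputable def exIncl (m : ℕ) (X : SSet.{u}) : (exN m).obj X ⟶ exInf.obj X :=
  (colimit.ι exSeq.{u} m).app X

lemma exIncl_naturality (m : ℕ) {X Y : SSet.{u}} (f : X ⟶ Y) :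
    (exN m).map f ≫ exIncl m Y = exIncl m X ≫ exInf.map f :=
  (colimit.ι exSeq.{u} m).naturality f

lemma exStep_exIncl (m : ℕ) (X : SSet.{u}) :
    toEx.app ((exN m).obj X) ≫ exIncl (m + 1) X = exIncl m X := by
  rw [← exStep_app]
  have h1 := colimit.w exSeq.{u} (homOfLE (Nat.le_add_right m 1))
  have h2 : exSeq.{u}.map (homOfLE (Nat.le_add_right m 1)) = exStep m :=
    Functor.ofSequence_map_homOfLE_succ exStep m
  rw [h2] at h1
  exact congrArg (fun t => NatTrans.app t X) h1

attribute [local instance] Cardinal.fact_isRegular_aleph0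

lemma exists_exIncl {A X : SSet.{u}} [IsFinitelyPresentable.{u} A] (t : A ⟶ exInf.obj X) :
    ∃ (m : ℕ) (t' : A ⟶ (exN m).obj X), t' ≫ exIncl m X = t := by
  have : IsCardinalFiltered ℕ Cardinal.aleph0.{u} :=
    (isCardinalFiltered_aleph0_iff.{u} ℕ).2 inferInstance
  exact IsCardinalPresentable.exists_hom_of_isColimit (κ := Cardinal.aleph0.{u})
    (exInfIsColimit X) t

/-- composite transition maps -/
noncomputable def exTrans {m m' : ℕ} (h : m ≤ m') (X : SSet.{u}) :
    (exN m).obj X ⟶ (exN m').obj X := (exSeq.{u}.map (homOfLE h)).app X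

lemma exTrans_exIncl {m m' : ℕ} (h : m ≤ m') (X : SSet.{u}) :
    exTrans h X ≫ exIncl m' X = exIncl m X :=
  congrArg (fun t => NatTrans.app t X) (colimit.w exSeq.{u} (homOfLE h))

lemma exTrans_naturality {m m' : ℕ} (h : m ≤ m') {X Y : SSet.{u}} (f : X ⟶ Y) :
    (exN m).map f ≫ exTrans h Y = exTrans h X ≫ (exN m').map f :=
  (exSeq.{u}.map (homOfLE h)).naturality f

lemma exists_eq_exTrans {A X : SSet.{u}} [IsFinitelyPresentable.{u} A] {m : ℕ}
    (s t : A ⟶ (exN m).obj X) (h : s ≫ exIncl m X = t ≫ exIncl m X) :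
    ∃ (m' : ℕ) (hm : m ≤ m'), s ≫ exTrans hm X = t ≫ exTrans hm X := by
  have : IsCardinalFiltered ℕ Cardinal.aleph0.{u} :=
    (isCardinalFiltered_aleph0_iff.{u} ℕ).2 inferInstance
  obtain ⟨j, a, b, hab⟩ := IsCardinalPresentable.exists_eq_of_isColimit (κ := Cardinal.aleph0.{u})
    (exInfIsColimit X) s t h
  exact ⟨j, leOfHom a, hab⟩

/-- the map `Ex^m X ⟶ Ex^{m+1} X` -/
noncomputable def exStp (m : ℕ) (S : SSet.{u}) : (exN m).obj S ⟶ (exN (m + 1)).obj S :=
  toEx.app ((exN m).obj S)

lemma exStp_exIncl (m : ℕ) (S : SSet.{u}) : exStp m S ≫ exIncl (m + 1) S = exIncl m S :=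
  exStep_exIncl m S

lemma exInf_extension {A B : SSet.{u}} [IsFinitelyPresentable.{u} A] (i : A ⟶ B)
    (h : ∀ (X : SSet.{u}) (a : A ⟶ SSet.ex.obj X), ∃ b : B ⟶ SSet.ex.obj (SSet.ex.obj X),
      i ≫ b = a ≫ toEx.app (SSet.ex.obj X)) (S : SSet.{u}) (t : A ⟶ exInf.obj S) :
    ∃ b : B ⟶ exInf.obj S, i ≫ b = t := by
  obtain ⟨m, t', ht'⟩ := exists_exIncl t
  have h' : ∃ b : B ⟶ (exN (m + 2)).obj S, i ≫ b = (t' ≫ exStp m S) ≫ exStp (m + 1) S :=
    h ((exN m).obj S) (t' ≫ toEx.app ((exN m).obj S))
  obtain ⟨b, hb⟩ := h'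
  refine ⟨b ≫ exIncl (m + 2) S, ?_⟩
  rw [← Category.assoc, hb, Category.assoc, Category.assoc, exStp_exIncl, exStp_exIncl, ht']

/-- `Ex^∞ X` is a Kan complex. -/
instance kanComplex_exInf (S : SSet.{u}) : SSet.KanComplex (exInf.obj S) := by
  rw [SSet.KanComplex, isFibrant_iff, fibration_iff]
  intro _ _ _ hf
  simp only [J, MorphismProperty.iSup_iff] at hf
  obtain ⟨n, ⟨i⟩⟩ := hf
  refine ⟨fun {t _} _ ↦ ?_⟩
  obtain ⟨b, hb⟩ := exInf_extension Λ[n + 1, i].ι (fun X a => horn_extension i a) S t
  exact ⟨⟨{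
    l := b
    fac_left := hb
    fac_right := by subsingleton }⟩⟩

lemma kanFib_exN {X Y : SSet.{u}} (f : X ⟶ Y) (hf : kanFib f) (m : ℕ) :
    kanFib ((exN m).map f) := by
  induction m with
  | zero => exact hf
  | succ m ih => exact kanFib_ex _ ih

lemma exInf_lifting {A B S T : SSet.{u}} [IsFinitelyPresentable.{u} A]
    [IsFinitelyPresentable.{u} B] (i : A ⟶ B) (f : S ⟶ T)
    (hf : ∀ m, HasLiftingProperty i ((exN m).map f)) : HasLiftingProperty i (exInf.map f) := by
  refine ⟨fun {t b} sq ↦ ?_⟩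
  obtain ⟨m₁, t₁, rfl⟩ := exists_exIncl t
  obtain ⟨m₂, b₂, rfl⟩ := exists_exIncl b
  have hw := sq.w
  obtain ⟨m, hm₁, hm₂⟩ : ∃ m, m₁ ≤ m ∧ m₂ ≤ m := ⟨max m₁ m₂, le_max_left _ _, le_max_right _ _⟩
  obtain ⟨t', ht'⟩ : ∃ t', t' = t₁ ≫ exTrans hm₁ S := ⟨_, rfl⟩
  obtain ⟨b', hb'⟩ : ∃ b', b' = b₂ ≫ exTrans hm₂ T := ⟨_, rfl⟩
  replace ht' : t' ≫ exIncl m S = t₁ ≫ exIncl m₁ S := by
    rw [ht', Category.assoc, exTrans_exIncl]
  replace hb' : b' ≫ exIncl m T = b₂ ≫ exIncl m₂ T := by
    rw [hb', Category.assoc, exTrans_exIncl]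
  have h1 : (t' ≫ (exN m).map f) ≫ exIncl m T = (i ≫ b') ≫ exIncl m T := by
    rw [Category.assoc, exIncl_naturality, ← Category.assoc, ht', hw, ← hb', Category.assoc]
  obtain ⟨k, hk, h2⟩ := exists_eq_exTrans _ _ h1
  have h3 : (t' ≫ exTrans hk S) ≫ (exN k).map f = i ≫ (b' ≫ exTrans hk T) := by
    rw [Category.assoc, ← exTrans_naturality, ← Category.assoc, h2, Category.assoc]
  have sq' : CommSq (t' ≫ exTrans hk S) i ((exN k).map f) (b' ≫ exTrans hk T) := ⟨h3⟩
  have hlp : HasLiftingProperty i ((exN k).map f) := hf k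
  have hlift := sq'.fac_left
  have hlift' := sq'.fac_right
  refine ⟨⟨{
    l := sq'.lift ≫ exIncl k S
    fac_left := ?_
    fac_right := ?_ }⟩⟩
  · rw [← Category.assoc, hlift, Category.assoc, exTrans_exIncl, ht']
  · rw [Category.assoc, ← exIncl_naturality, ← Category.assoc, hlift', Category.assoc,
      exTrans_exIncl, hb']

/-- `Ex^∞` preserves Kan fibrations. -/
lemma kanFib_exInf {S T : SSet.{u}} (f : S ⟶ T) (hf : kanFib f) : kanFib (exInf.map f) := by
  intro _ _ _ hi
  simp only [J, MorphismProperty.iSup_iff] at hi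
  obtain ⟨n, ⟨i⟩⟩ := hi
  exact exInf_lifting _ f (fun m => kanFib_exN f hf m _ (horn_ι_mem_J _ _))

instance preservesFiniteLimits_exN (m : ℕ) : PreservesFiniteLimits (exN.{u} m) := by
  induction m with
  | zero => exact inferInstanceAs (PreservesFiniteLimits (𝟭 SSet.{u}))
  | succ m ih =>
    have : PreservesFiniteLimits SSet.ex.{u} := by
      have := SSet.sdExAdjunction.{u}.rightAdjoint_preservesLimits
      infer_instance
    exact inferInstanceAs (PreservesFiniteLimits (exN.{u} m ⋙ SSet.ex.{u}))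

instance preservesFiniteLimits_exInf : PreservesFiniteLimits exInf.{u} := by
  have : HasExactColimitsOfShape ℕ (Type u) := ⟨inferInstance⟩
  have : HasExactColimitsOfShape ℕ SSet.{u} :=
    inferInstanceAs (HasExactColimitsOfShape ℕ (SimplexCategoryᵒᵖ ⥤ Type u))
  have h := (ObjectProperty.preservesFiniteLimits (J := SSet.{u}) (C := SSet.{u})).prop_of_isColimit
    (colimit.isColimit exSeq.{u}) (fun m => preservesFiniteLimits_exN m)
  exact h

end Vale.Agent.P213
end

section

/-!
The double subdivision of a monomorphism to the nerve of a finite poset, in particular of a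
boundary inclusion, is the nerve of a Dwyer inclusion of posets.
-/

open CategoryTheory Simplicial Limits PartialOrder Opposite

universe u

namespace Vale.Agent.P213

namespace SdMain

open SdNerve

lemma mono_nvMap {P Q : Type u} [PartialOrder P] [PartialOrder Q] (f : P →o Q)
    (hf : Function.Injective f) : Mono (nvMap f) := by
  rw [NatTrans.mono_iff_mono_app]
  intro m
  rw [mono_iff_injective]
  intro s t h
  refine nerve.ext_of_isThin (funext fun j => ?_)
  exact hf (congrArg (fun z : (nerve Q).obj m => z.obj j) h)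

lemma mem_chainSet_nvMap {P : Type u} [PartialOrder P] (S : Set P) (c : NonemptyFiniteChains P) :
    c ∈ chainSet (nvMap (incl S)) ↔ ∀ a ∈ c.finset, a ∈ S := by
  constructor
  · rintro ⟨n, x, hx⟩ a ha
    rw [← Finset.mem_coe, ← hx] at ha
    obtain ⟨j, rfl⟩ := ha
    exact (x.obj j.down).2
  · intro h
    obtain ⟨k, f, _, hf⟩ := exists_enum c
    have h1 : ∀ j, f j ∈ S := fun j => h _ (by
      rw [← Finset.mem_coe, ← hf]
      exact ⟨j, rfl⟩)
    refine ⟨k, ofHom (P := S) ⟨fun j => ⟨f j, h1 j⟩, fun a b hab => f.monotone hab⟩, ?_⟩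
    rw [← hf]
    ext y
    constructor
    · rintro ⟨⟨a⟩, rfl⟩
      exact ⟨a, rfl⟩
    · rintro ⟨a, rfl⟩
      exact ⟨⟨a⟩, rfl⟩

open Classical in
/-- The part of a chain in a subset, or the chain itself if this part is empty. -/
noncomputable def retr {P : Type u} [PartialOrder P] (S : Set P) (w : NonemptyFiniteChains P) :
    NonemptyFiniteChains P :=
  if h : (w.finset.filter fun a => a ∈ S).Nonempty then
    { finset := w.finset.filter fun a => a ∈ S
      nonempty := h
      comparable := fun a b => w.comparable ⟨a, (Finset.mem_filter.1 a.2).1⟩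
        ⟨b, (Finset.mem_filter.1 b.2).1⟩ }
  else w

open Classical in
lemma retr_finset {P : Type u} [PartialOrder P] (S : Set P) (w : NonemptyFiniteChains P)
    (a : P) (ha : a ∈ w.finset) (haS : a ∈ S) :
    (retr S w).finset = w.finset.filter fun a => a ∈ S := by
  rw [retr, dif_pos ⟨a, Finset.mem_filter.2 ⟨ha, haS⟩⟩]

lemma finite_chains (P : Type u) [PartialOrder P] [Finite P] : Finite (NonemptyFiniteChains P) :=
  have := Fintype.ofFinite P
  Finite.of_injective (fun c => c.finset) fun _ _ h => NonemptyFiniteChains.ext h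

open Classical in
theorem sd_sd_of_mono {X : SSet.{u}} {P : Type u} [PartialOrder P] [Finite P] (i : X ⟶ nerve P)
    [X.Nonsingular] [Mono i] : ∃ (E : Type u) (_ : PartialOrder E) (_ : Finite E) (S : Set E)
    (r : E → E), IsLowerSet S ∧ (∀ w, (∃ s ∈ S, s ≤ w) → r w ∈ S ∧ r w ≤ w) ∧
    (∀ w, ∀ s ∈ S, s ≤ w → s ≤ r w) ∧
    Nonempty (Arrow.mk (SSet.sd.map (SSet.sd.map i)) ≅ Arrow.mk (nvMap (incl S))) := by
  have hm : Mono (nvMap (incl (chainSet i))) := mono_nvMap _ Subtype.val_injective
  have hf := finite_chains P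
  refine ⟨NonemptyFiniteChains (NonemptyFiniteChains P), inferInstance, finite_chains _,
    chainSet (nvMap (incl (chainSet i))), retr (chainSet i), isLowerSet_chainSet _, ?_, ?_, ?_⟩
  · rintro w ⟨s, hs, hsw⟩
    rw [mem_chainSet_nvMap] at hs
    obtain ⟨a, ha⟩ := s.nonempty
    have h1 := retr_finset (chainSet i) w a (hsw ha) (hs a ha)
    rw [mem_chainSet_nvMap, h1]
    refine ⟨fun b hb => (Finset.mem_filter.1 hb).2, ?_⟩
    rw [NonemptyFiniteChains.le_iff, h1]
    exact Finset.filter_subset _ _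
  · intro w s hs hsw
    rw [mem_chainSet_nvMap] at hs
    obtain ⟨a, ha⟩ := s.nonempty
    rw [NonemptyFiniteChains.le_iff, retr_finset (chainSet i) w a (hsw ha) (hs a ha)]
    exact fun b hb => Finset.mem_filter.2 ⟨hsw hb, hs b hb⟩
  · exact ⟨SSet.sd.mapArrow.mapIso (sdArrowIso i) ≪≫ sdArrowIso (nvMap (incl (chainSet i)))⟩

theorem sd_sd_boundary (m : ℕ) : ∃ (E : Type u) (_ : PartialOrder E) (_ : Finite E) (S : Set E)
    (r : E → E), IsLowerSet S ∧ (∀ w, (∃ s ∈ S, s ≤ w) → r w ∈ S ∧ r w ≤ w) ∧
    (∀ w, ∀ s ∈ S, s ≤ w → s ≤ r w) ∧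
    Nonempty (Arrow.mk (SSet.sd.map (SSet.sd.map (∂Δ[m] : SSet.Subcomplex.{u} _).ι)) ≅
      Arrow.mk (nvMap (incl S))) := by
  obtain ⟨E, h1, h2, S, r, h3, h4, h5, ⟨e⟩⟩ := sd_sd_of_mono
    ((∂Δ[m] : SSet.Subcomplex.{u} _).ι ≫ (SSet.stdSimplex.isoNerve m).hom)
  have e0 : Arrow.mk ((∂Δ[m] : SSet.Subcomplex.{u} _).ι) ≅ Arrow.mk
      ((∂Δ[m] : SSet.Subcomplex.{u} _).ι ≫ (SSet.stdSimplex.isoNerve m).hom) :=
    Arrow.isoMk (Iso.refl _) (SSet.stdSimplex.isoNerve m) (by simp)
  exact ⟨E, h1, h2, S, r, h3, h4, h5, ⟨(SSet.sd ⋙ SSet.sd).mapArrow.mapIso e0 ≪≫ e⟩⟩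

end SdMain

end Vale.Agent.P213
end

section

/-!
# The category of strict `n`-categories is locally finitely presentable
-/

universe u v w

namespace Vale.Agent.P213

open CategoryTheory Limits OmegaStr Opposite

variable {n : ℕ∞}

/-- The functor of cells of dimension at most `k`. -/
def cellsFun (n : ℕ∞) (k : ℕ) : NCat.{u} n ⥤ Type u where
  obj X := {x : X.obj.carrier // IsDim k x}
  map f := TypeCat.ofHom fun x => ⟨f.hom.toFun x.1, OmegaFun.isDim f.hom x.2⟩

theorem cellsFun_map {k : ℕ} {X Y : NCat.{u} n} (f : X ⟶ Y) (x : (cellsFun n k).obj X) :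
    ((cellsFun n k).map f x).1 = f.hom.toFun x.1 := rfl

instance cellsFun_preservesLimits (k : ℕ) : PreservesLimits (cellsFun.{u} n k) where
  preservesLimitsOfShape {J} _ :=
    { preservesLimit := fun {F} =>
        preservesLimit_of_preserves_limit_cone (NCatLim.isLimit.{u, u, u} F)
          { lift := fun s => TypeCat.ofHom fun y =>
              ⟨(⟨fun j => (s.π.app j y).1, fun {i j} f => by
                  have := ConcreteCategory.congr_hom (s.w f) y
                  exact congrArg Subtype.val this,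
                  k, fun j => (s.π.app j y).2⟩ : NCatLim.Carrier F),
                NCatLim.Carrier.ext fun j => (s.π.app j y).2⟩
            fac := fun s j => by
              ext y
              rfl
            uniq := fun s m hm => by
              ext y
              apply Subtype.ext
              apply NCatLim.Carrier.ext
              intro j
              have := ConcreteCategory.congr_hom (hm j) y
              exact congrArg Subtype.val this } }

theorem solutionSet_cellsFun (k : ℕ) : SolutionSetCondition.{u} (cellsFun.{u} n k) := by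
  refine NCat.solutionSetCondition _ (fun A : Type u => A) (fun {A X} h a => (h a).1) ?_
  intro A X h S hS
  refine ⟨TypeCat.ofHom fun a => ⟨⟨(h a).1, hS a⟩, Subtype.ext (h a).2⟩, ?_⟩
  ext a
  rfl

instance cellsFun_isRightAdjoint (k : ℕ) : (cellsFun.{u} n k).IsRightAdjoint :=
  isRightAdjoint_of_preservesLimits_of_solutionSetCondition _ (solutionSet_cellsFun k)

instance cellsFun_preservesFilteredColimits (k : ℕ) :
    PreservesFilteredColimits (cellsFun.{u} n k) where
  preserves_filtered_colimits J _ _ :=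
    { preservesColimit := fun {F} =>
        preservesColimit_of_preserves_colimit_cocone (NCatFilt.isColimit.{u, u, u} F) (by
          apply Types.FilteredColimit.isColimitOf
          · intro x
            obtain ⟨j, y, hy⟩ := NCatFilt.exists_rep F x.1
            refine ⟨j, ⟨d false k y, isDim_d _ _ _⟩, ?_⟩
            apply Subtype.ext
            change x.1 = NCatFilt.mk F j (d false k y)
            have hx : d false k x.1 = x.1 := x.2
            rw [← hx, ← hy]
            rfl
          · intro i j x y h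
            have h1 : NCatFilt.mk F i x.1 = NCatFilt.mk F j y.1 := congrArg Subtype.val h
            obtain ⟨l, f, g, hfg⟩ := (NCatFilt.mk_eq_iff F _ _).1 h1
            exact ⟨l, f, g, Subtype.ext hfg⟩) }

/-- The free `n`-category on a cell of dimension at most `k`. -/
noncomputable def freeCell (n : ℕ∞) (k : ℕ) : NCat.{u} n :=
  (cellsFun.{u} n k).leftAdjoint.obj PUnit

/-- The functor classifying a cell. -/
noncomputable def cellHom {X : NCat.{u} n} (k : ℕ) (x : X.obj.carrier) (hx : IsDim k x) :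
    freeCell.{u} n k ⟶ X :=
  ((Adjunction.ofIsRightAdjoint (cellsFun.{u} n k)).homEquiv PUnit X).symm
    (TypeCat.ofHom fun _ => ⟨x, hx⟩)

theorem cellHom_comp {X Y : NCat.{u} n} (k : ℕ) (x : X.obj.carrier) (hx : IsDim k x)
    (f : X ⟶ Y) : cellHom k x hx ≫ f = cellHom k (f.hom.toFun x) (OmegaFun.isDim f.hom hx) := by
  exact (Adjunction.homEquiv_naturality_right_symm
    (Adjunction.ofIsRightAdjoint (cellsFun.{u} n k)) _ f).symm

theorem cellHom_injective {X : NCat.{u} n} {k : ℕ} {x y : X.obj.carrier} {hx : IsDim k x}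
    {hy : IsDim k y} (h : cellHom k x hx = cellHom k y hy) : x = y := by
  have h1 := ((Adjunction.ofIsRightAdjoint (cellsFun.{u} n k)).homEquiv PUnit X).symm.injective h
  have h2 := ConcreteCategory.congr_hom h1 PUnit.unit
  exact congrArg Subtype.val h2

theorem cellHom_surjective {X : NCat.{u} n} {k : ℕ} (f : freeCell.{u} n k ⟶ X) :
    ∃ x hx, f = cellHom k x hx := by
  let g := (Adjunction.ofIsRightAdjoint (cellsFun.{u} n k)).homEquiv PUnit X f
  refine ⟨(g PUnit.unit).1, (g PUnit.unit).2, ?_⟩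
  apply ((Adjunction.ofIsRightAdjoint (cellsFun.{u} n k)).homEquiv PUnit X).injective
  rw [cellHom, Equiv.apply_symm_apply]
  rfl

/-- A bijective functor is an isomorphism. -/
theorem NCat.isIso_of_bijective {X Y : NCat.{u} n} (f : X ⟶ Y)
    (hf : Function.Bijective f.hom.toFun) : IsIso f := by
  let e := Equiv.ofBijective f.hom.toFun hf
  have he : ∀ x, f.hom.toFun (e.symm x) = x := fun x => e.apply_symm_apply x
  refine ⟨ObjectProperty.homMk
    { toFun := e.symm
      map_d := fun a k x => by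
        apply hf.1
        rw [he, f.hom.map_d, he]
      map_comp := fun k x y h h' => by
        apply hf.1
        rw [he, f.hom.map_comp _ _ _ _ (by rw [he, he, h])]
        exact comp_congr (he x).symm (he y).symm _ _ }, ?_, ?_⟩
  · apply ObjectProperty.hom_ext
    apply OmegaFun.ext
    intro x
    exact e.symm_apply_apply x
  · apply ObjectProperty.hom_ext
    apply OmegaFun.ext
    intro x
    exact he x

/-- The free cells form a strong generator. -/
theorem isStrongGenerator_freeCell :
    (ObjectProperty.ofObj (fun k : ℕ => freeCell.{u} n k)).IsStrongGenerator := by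
  rw [ObjectProperty.isStrongGenerator_iff]
  constructor
  · intro X Y f g h
    apply ObjectProperty.hom_ext
    apply OmegaFun.ext
    intro x
    obtain ⟨k, hk⟩ := exists_isDim x
    have h1 := h _ (ObjectProperty.ofObj_apply _ k) (cellHom k x hk)
    rw [cellHom_comp, cellHom_comp] at h1
    exact cellHom_injective h1
  · intro X Y i _ h
    apply NCat.isIso_of_bijective
    constructor
    · intro x y hxy
      obtain ⟨k, hk⟩ := exists_isDim x
      obtain ⟨l, hl⟩ := exists_isDim y
      have hk' := hk.mono (le_max_left k l)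
      have hl' := hl.mono (le_max_right k l)
      have h1 : cellHom (max k l) x hk' ≫ i = cellHom (max k l) y hl' ≫ i := by
        rw [cellHom_comp, cellHom_comp]
        congr 1
      exact cellHom_injective ((cancel_mono i).1 h1)
    · intro y
      obtain ⟨k, hk⟩ := exists_isDim y
      obtain ⟨g, hg⟩ := h _ (ObjectProperty.ofObj_apply _ k) (cellHom k y hk)
      obtain ⟨x, hx, rfl⟩ := cellHom_surjective g
      dsimp only at hg
      rw [cellHom_comp] at hg
      exact ⟨x, cellHom_injective hg⟩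

attribute [local instance] Cardinal.fact_isRegular_aleph0

theorem isFinitelyPresentable_freeCell (k : ℕ) :
    IsFinitelyPresentable.{u} (freeCell.{u} n k) := by
  have : Functor.IsFinitelyAccessible.{u} (cellsFun.{u} n k) := by
    rw [Functor.IsFinitelyAccessible_iff_preservesFilteredColimitsOfSize]
    infer_instance
  have : IsCardinalPresentable PUnit.{u + 1} Cardinal.aleph0.{u} :=
    HasCardinalLT.isCardinalPresentable (hasCardinalLT_of_finite _ _ le_rfl)
  exact (Adjunction.ofIsRightAdjoint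
    (cellsFun.{u} n k)).isCardinalPresentable_leftAdjoint_obj Cardinal.aleph0.{u} PUnit

/-- The category of strict `n`-categories is locally finitely presentable. -/
instance NCat.isLocallyFinitelyPresentable :
    IsCardinalLocallyPresentable (NCat.{u} n) Cardinal.aleph0.{u} := by
  rw [IsCardinalLocallyPresentable.iff_exists_isStrongGenerator]
  refine ⟨_, inferInstance, isStrongGenerator_freeCell, ?_⟩
  rintro _ ⟨k⟩
  exact isFinitelyPresentable_freeCell k

end Vale.Agent.P213
end
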