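import Mathlib.AlgebraicTopology.SimplicialSet.Subdivision
import Mathlib.AlgebraicTopology.SimplicialSet.Presentable
import Mathlib.AlgebraicTopology.SimplicialSet.NerveNondegenerate
import Mathlib.CategoryTheory.Presentable.Finite
import Mathlib.CategoryTheory.Limits.Preserves.Ulift
import Mathlib.SetTheory.Cardinal.Finite
import Mathlib.Data.Fintype.Powerset
import Mathlib.AlgebraicTopology.SimplicialSet.AnodyneExtensions.Basic
import Mathlib.CategoryTheory.Presentable.Adjunction
import Mathlib.CategoryTheory.Limits.Types.Pushouts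
import Mathlib.CategoryTheory.Limits.Types.Pullbacks
import Mathlib.CategoryTheory.Limits.Types.Colimits
import Mathlib.CategoryTheory.Limits.Constructions.Over.Basic
import Mathlib.CategoryTheory.Equivalence
import Vale.Agent.P213.Bdl.B1
import Vale.Agent.P213.Bdl.B2

set_option linter.all false

section

/-!
The functor `ex` preserves filtered colimits.
-/

open CategoryTheory Simplicial Limits Opposite

universe u

namespace Vale.Agent.P213.AS

open PartialOrder

section nerve

variable (P : Type u) [PartialOrder P] [Finite P]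

instance finite_nerve_obj (n : ℕ) : Finite ((nerve P) _⦋n⦌) :=
  Finite.of_injective (β := Fin (n + 1) → P) (fun s ↦ s.obj) (by
    intro s t h
    exact nerve.ext_of_isThin h)

instance nerve_finite : (nerve P).Finite := by
  have : (nerve P).HasDimensionLT (Nat.card P) := by
    constructor
    intro n hn
    rw [Set.top_eq_univ, Set.eq_univ_iff_forall]
    intro s
    rw [SSet.mem_degenerate_iff_notMem_nonDegenerate, mem_nerve_nonDegenerate_iff_injective]
    intro hs
    have h1 := Nat.card_le_card_of_injective _ hs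
    rw [Nat.card_eq_fintype_card, Fintype.card_fin] at h1
    change n + 1 ≤ _ at h1
    omega
  exact SSet.finite_of_hasDimensionLT _ (Nat.card P) (fun i _ ↦ inferInstance)

end nerve

instance finite_chains (P : Type u) [PartialOrder P] [Finite P] :
    Finite (NonemptyFiniteChains P) := by
  have : Fintype P := Fintype.ofFinite P
  exact Finite.of_injective (β := Finset P) NonemptyFiniteChains.finset (by
    intro s t h
    exact NonemptyFiniteChains.ext h)

instance sd_obj_finite (n : SimplexCategory) : (SimplexCategory.sd.{u}.obj n).Finite :=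
  inferInstanceAs (nerve (NonemptyFiniteChains (ULift.{u} (Fin (n.len + 1))))).Finite

/-- evaluation of `ex` -/
noncomputable def exEvalIso (n : SimplexCategoryᵒᵖ) :
    SSet.ex.{u} ⋙ (evaluation _ _).obj n ≅
      coyoneda.obj (op (SimplexCategory.sd.{u}.obj n.unop)) ⋙ CategoryTheory.uliftFunctor.{0} :=
  Iso.refl _

instance preservesFiltered_ex : PreservesFilteredColimitsOfSize.{u, u} SSet.ex.{u} where
  preserves_filtered_colimits J _ _ := by
    refine preservesColimitsOfShape_of_evaluation _ J (fun n ↦ ?_)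
    have : PreservesColimitsOfShape J
        (coyoneda.obj (op (SimplexCategory.sd.{u}.obj n.unop)) ⋙
          CategoryTheory.uliftFunctor.{0}) := by
      infer_instance
    exact preservesColimitsOfShape_of_natIso (exEvalIso n).symm

end Vale.Agent.P213.AS
end

section

/-!
AS1: Kan's transfer theorem for model structures along `F ⊣ G`, `G : D ⥤ SSet` finitary.
-/

open CategoryTheory HomotopicalAlgebra Simplicial MonoidalCategory Limits MorphismProperty
open SSet.modelCategoryQuillen

universe v u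

namespace Vale.Agent.P213

namespace AS

section

variable {D : Type (u + 1)} [Category.{u} D] (F : SSet.{u} ⥤ D)

/-- the images of the boundary inclusions -/
def genI : MorphismProperty D := .ofHoms (fun n : ℕ ↦ F.map (∂Δ[n] : SSet.Subcomplex.{u} _).ι)

/-- the images of the horn inclusions -/
def genJ : MorphismProperty D :=
  ⨆ n : ℕ, .ofHoms (fun (i : Fin (n + 2)) ↦ F.map (Λ[n + 1, i] : SSet.Subcomplex.{u} _).ι)

variable {F} {G : D ⥤ SSet.{u}} (adj : F ⊣ G)

include adj

lemma rlp_genI : (genI F).rlp = I.rlp.inverseImage G := by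
  ext X Y f
  constructor
  · intro h A B i hi
    rcases hi with ⟨n⟩
    rw [← adj.hasLiftingProperty_iff]
    exact h _ ⟨n⟩
  · intro h A B i hi
    rcases hi with ⟨n⟩
    rw [adj.hasLiftingProperty_iff]
    exact h _ (boundary_ι_mem_I n)

lemma rlp_genJ : (genJ F).rlp = kanFib.inverseImage G := by
  ext X Y f
  constructor
  · intro h A B i hi
    simp only [J, iSup_iff] at hi
    obtain ⟨n, ⟨i⟩⟩ := hi
    rw [← adj.hasLiftingProperty_iff]
    apply h
    simp only [genJ, iSup_iff]
    exact ⟨n, ⟨i⟩⟩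
  · intro h A B i hi
    simp only [genJ, iSup_iff] at hi
    obtain ⟨n, ⟨i⟩⟩ := hi
    rw [adj.hasLiftingProperty_iff]
    exact h _ (horn_ι_mem_J _ _)

end

section

attribute [local instance] Cardinal.fact_isRegular_aleph0
  Cardinal.orderBotAleph0OrdToType

variable {D : Type (u + 1)} [Category.{u} D]
  {F : SSet.{u} ⥤ D} {G : D ⥤ SSet.{u}} (adj : F ⊣ G)
  [PreservesFilteredColimitsOfSize.{u, u} G]

include adj in
lemma isFinitelyPresentable_obj (K : SSet.{u}) [IsFinitelyPresentable.{u} K] :
    IsFinitelyPresentable.{u} (F.obj K) := by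
  have : Functor.IsFinitelyAccessible.{u} G := by
    rw [Functor.IsFinitelyAccessible_iff_preservesFilteredColimitsOfSize]
    infer_instance
  exact adj.isCardinalPresentable_leftAdjoint_obj Cardinal.aleph0.{u} K

instance : MorphismProperty.IsSmall.{u} (genI F) :=
  isSmall_ofHoms ..

instance (n : ℕ) : MorphismProperty.IsSmall.{u}
    (MorphismProperty.ofHoms.{u} (fun (i : Fin (n + 2)) ↦
      F.map (Λ[n + 1, i] : SSet.Subcomplex.{u} _).ι)) :=
  isSmall_ofHoms ..

instance : MorphismProperty.IsSmall.{u} (genJ F) :=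
  isSmall_iSup ..

variable [HasColimitsOfSize.{u, u} D]

include adj in
lemma isCardinal_genI : IsCardinalForSmallObjectArgument (genI F) Cardinal.aleph0.{u} where
  preservesColimit {A B X Y} i hi f hf := by
    have : IsFinitelyPresentable.{u} A := by
      rcases hi with ⟨n⟩
      exact isFinitelyPresentable_obj adj _
    infer_instance

include adj in
lemma isCardinal_genJ : IsCardinalForSmallObjectArgument (genJ F) Cardinal.aleph0.{u} where
  preservesColimit {A B X Y} i hi f hf := by
    have : IsFinitelyPresentable.{u} A := by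
      simp only [genJ, iSup_iff] at hi
      obtain ⟨n, ⟨i⟩⟩ := hi
      exact isFinitelyPresentable_obj adj _
    infer_instance

include adj in
lemma hasSmallObjectArgument_genI : HasSmallObjectArgument.{u} (genI F) :=
  ⟨.aleph0, inferInstance, inferInstance, isCardinal_genI adj⟩

include adj in
lemma hasSmallObjectArgument_genJ : HasSmallObjectArgument.{u} (genJ F) :=
  ⟨.aleph0, inferInstance, inferInstance, isCardinal_genJ adj⟩

end

end AS

/-- Kan's transfer of a model structure along `F ⊣ G`, `G : D ⥤ SSet` finitary. -/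
theorem transfer {D : Type (u + 1)} [Category.{u} D] [HasFiniteLimits D]
    [HasColimitsOfSize.{u, u} D] {F : SSet.{u} ⥤ D} {G : D ⥤ SSet.{u}} (adj : F ⊣ G)
    [PreservesFilteredColimitsOfSize.{u, u} G] (w : MorphismProperty D)
    [w.HasTwoOutOfThreeProperty] [w.IsStableUnderRetracts]
    (h₁ : ∀ ⦃X Y : D⦄ (f : X ⟶ Y), (kanFib (G.map f) ∧ w f) ↔ I.rlp (G.map f))
    (h₂ : (kanFib.inverseImage G).llp ≤ w) :
    IsModelStructure ((kanFib.inverseImage G) ⊓ w).llp w (kanFib.inverseImage G) := by
  have hI := AS.hasSmallObjectArgument_genI adj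
  have hJ := AS.hasSmallObjectArgument_genJ adj
  have eI : (kanFib.inverseImage G) ⊓ w = (AS.genI F).rlp := by
    rw [AS.rlp_genI adj]
    ext X Y f
    exact h₁ f
  have eJ : kanFib.inverseImage G = (AS.genJ F).rlp := (AS.rlp_genJ adj).symm
  let c1 : CategoryWithFibrations D := ⟨kanFib.inverseImage G⟩
  let c2 : CategoryWithCofibrations D := ⟨((kanFib.inverseImage G) ⊓ w).llp⟩
  let c3 : CategoryWithWeakEquivalences D := ⟨w⟩
  have e1 : fibrations D = (AS.genJ F).rlp := eJ
  have e2 : trivialFibrations D = (AS.genI F).rlp := eI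
  have e3 : cofibrations D = (AS.genI F).rlp.llp := by
    change ((kanFib.inverseImage G) ⊓ w).llp = _
    rw [eI]
  have e4 : trivialCofibrations D = (AS.genJ F).rlp.llp := by
    apply le_antisymm
    · intro X Y f hf
      -- retract argument
      have hf1 : cofibrations D f := hf.1
      have hf2 : w f := hf.2
      have fac := factorizationData (AS.genJ F).rlp.llp (AS.genJ F).rlp f
      have hi : (AS.genJ F).rlp.llp fac.i := fac.hi
      have hp : (AS.genJ F).rlp fac.p := fac.hp
      have hwi : w fac.i := by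
        apply h₂
        rw [eJ]
        exact hi
      have hwp : w fac.p := by
        refine w.of_precomp fac.i fac.p hwi ?_
        rw [fac.fac]; exact hf2
      have hp' : (AS.genI F).rlp fac.p := by
        rw [← eI, eJ]
        exact ⟨hp, hwp⟩
      have hlift : HasLiftingProperty f fac.p := by
        rw [e3] at hf1
        exact hf1 _ hp'
      exact MorphismProperty.of_retract (RetractArrow.ofLeftLiftingProperty fac.fac) hi
    · intro X Y f hf
      refine ⟨?_, ?_⟩
      · rw [e3]
        refine antitone_llp ?_ _ hf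
        rw [← eI, ← eJ]
        exact inf_le_left
      · apply h₂
        rw [eJ]; exact hf
  have i1 : (weakEquivalences D).HasTwoOutOfThreeProperty := by
    change w.HasTwoOutOfThreeProperty
    infer_instance
  have i2 : IsWeakFactorizationSystem (cofibrations D) (trivialFibrations D) := by
    rw [e3, e2]
    exact { rlp := rlp_llp_rlp _, llp := rfl }
  have i3 : IsWeakFactorizationSystem (trivialCofibrations D) (fibrations D) := by
    rw [e4, e1]
    exact { rlp := rlp_llp_rlp _, llp := rfl }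
  have i4 : HasFiniteColimits D := inferInstance
  exact ⟨ModelCategory.mk' D, rfl, rfl, rfl⟩

end Vale.Agent.P213
end

section

/-!
CA: utility lemmas on simplicial sets (vertices, maps to `Δ[1]`, pushouts from pullbacks).
-/

open CategoryTheory HomotopicalAlgebra Simplicial MonoidalCategory Limits MorphismProperty
open Opposite

universe v u

namespace Vale.Agent.P213

namespace CAUtil

/-- the `i`-th vertex of a simplex -/
def vtx {X : SSet.{u}} {n : ℕ} (x : X _⦋n⦌) (i : Fin (n + 1)) : X _⦋0⦌ :=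
  X.map (SimplexCategory.const ⦋0⦌ ⦋n⦌ i).op x

lemma app_vtx {X Y : SSet.{u}} (f : X ⟶ Y) {n : ℕ} (x : X _⦋n⦌) (i : Fin (n + 1)) :
    f.app _ (vtx x i) = vtx (f.app _ x) i :=
  NatTrans.naturality_apply f _ x

lemma vtx_apply {m n : ℕ} (x : (Δ[m] _⦋n⦌ : Type u)) (i : Fin (n + 1)) :
    (vtx x i : (Δ[m] _⦋0⦌ : Type u)) 0 = x i := rfl

/-- maps to a standard simplex are determined by their values on vertices -/
lemma hom_ext_stdSimplex {X : SSet.{u}} {m : ℕ} {f g : X ⟶ Δ[m]}
    (h : ∀ y : X _⦋0⦌, f.app _ y = g.app _ y) : f = g := by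
  ext ⟨⟨n⟩⟩ x i
  have h1 := h (vtx x i)
  rw [app_vtx, app_vtx] at h1
  have h2 := DFunLike.congr_fun h1 (0 : Fin 1)
  exact congrArg Fin.val h2

lemma exists_of_isPullback {W X Y Z : SSet.{u}} {f : W ⟶ X} {g : W ⟶ Y} {h : X ⟶ Z}
    {k : Y ⟶ Z} (sq : IsPullback f g h k) {n : ℕ} (x : X _⦋n⦌) (y : Y _⦋n⦌)
    (e : h.app _ x = k.app _ y) : ∃ w : W _⦋n⦌, f.app _ w = x ∧ g.app _ w = y :=
  Types.exists_of_isPullback (sq.map ((evaluation _ _).obj (op ⦋n⦌))) x y e

/-- simplices in the fibre over the vertex `0` -/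
lemma exists_of_fiber_zero {F Y : SSet.{u}} {k : F ⟶ Y} {g : F ⟶ Δ[0]} {π : Y ⟶ Δ[1]}
    (sq : IsPullback k g π (SSet.stdSimplex.δ (1 : Fin 2) : Δ[0] ⟶ Δ[1])) {n : ℕ}
    (x : Y _⦋n⦌) (hx : ∀ i, (π.app _ x : (Δ[1] _⦋n⦌ : Type u)) i = 0) :
    ∃ w : F _⦋n⦌, k.app _ w = x := by
  obtain ⟨w, hw, _⟩ := exists_of_isPullback sq x (SSet.stdSimplex.const 0 0 _) (by
    apply SSet.stdSimplex.ext
    intro i
    rw [hx i, SSet.stdSimplex.δ_one_eq_const]
    rfl)
  exact ⟨w, hw⟩

/-- simplices in the fibre over the vertex `1` -/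
lemma exists_of_fiber_one {F Y : SSet.{u}} {k : F ⟶ Y} {g : F ⟶ Δ[0]} {π : Y ⟶ Δ[1]}
    (sq : IsPullback k g π (SSet.stdSimplex.δ (0 : Fin 2) : Δ[0] ⟶ Δ[1])) {n : ℕ}
    (x : Y _⦋n⦌) (hx : ∀ i, (π.app _ x : (Δ[1] _⦋n⦌ : Type u)) i = 1) :
    ∃ w : F _⦋n⦌, k.app _ w = x := by
  obtain ⟨w, hw, _⟩ := exists_of_isPullback sq x (SSet.stdSimplex.const 0 0 _) (by
    apply SSet.stdSimplex.ext
    intro i
    rw [hx i, SSet.stdSimplex.δ_zero_eq_const]
    rfl)
  exact ⟨w, hw⟩

/-- if the first vertex of a simplex of `Δ[1]` is `1` then all are -/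
lemma apply_eq_one {n : ℕ} (x : (Δ[1] _⦋n⦌ : Type u)) (h : x 0 = 1) (i : Fin (n + 1)) :
    x i = 1 := by
  have h1 := SSet.stdSimplex.monotone_apply x (Fin.zero_le i)
  simp only [h] at h1
  exact Fin.last_le_iff.1 h1

lemma apply_eq_zero {n : ℕ} (x : (Δ[1] _⦋n⦌ : Type u)) (h : x (Fin.last n) = 0)
    (i : Fin (n + 1)) : x i = 0 := by
  have h1 := SSet.stdSimplex.monotone_apply x (Fin.le_last i)
  simp only [h] at h1
  exact Fin.le_zero_iff.1 h1

/-- a pullback square of monomorphisms which are jointly surjective is a pushout -/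
lemma isPushout_of_isPullback {A B C P : SSet.{u}} {t : A ⟶ B} {l : A ⟶ C} {r : B ⟶ P}
    {b : C ⟶ P} (sq : IsPullback t l r b) [Mono r] [Mono b]
    (h : ∀ (n : ℕ) (x : P _⦋n⦌), (∃ y, r.app _ y = x) ∨ (∃ y, b.app _ y = x)) :
    IsPushout t l r b where
  w := sq.w
  isColimit' := ⟨evaluationJointlyReflectsColimits _ (fun ⟨⟨n⟩⟩ ↦ by
    refine (isColimitMapCoconePushoutCoconeEquiv _ _).2
      (IsPushout.isColimit ?_)
    have h1 : Mono (((evaluation SimplexCategoryᵒᵖ (Type u)).obj (op ⦋n⦌)).map r) := by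
      infer_instance
    have h2 : Mono (((evaluation SimplexCategoryᵒᵖ (Type u)).obj (op ⦋n⦌)).map b) := by
      infer_instance
    refine Types.isPushout_of_isPullback_of_mono' ?_ ?_ ?_
    · exact sq.map ((evaluation _ _).obj _)
    · rw [Set.eq_univ_iff_forall]
      intro x
      rcases h n x with ⟨y, hy⟩ | ⟨y, hy⟩
      · exact Or.inl ⟨y, hy⟩
      · exact Or.inr ⟨y, hy⟩
    · intro x₁ x₂ _ _ hx
      exact (mono_iff_injective _).1 h2 hx)⟩

/-- criterion for a square of simplicial sets to be a pullback -/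
lemma isPullback_of_lift {A B C P : SSet.{u}} {t : A ⟶ B} {l : A ⟶ C} {r : B ⟶ P}
    {b : C ⟶ P} (w : t ≫ r = l ≫ b) [Mono l] [Mono r]
    (h : ∀ (n : ℕ) (x : B _⦋n⦌) (y : C _⦋n⦌), r.app _ x = b.app _ y → ∃ z, l.app _ z = y) :
    IsPullback t l r b where
  w := w
  isLimit' := ⟨evaluationJointlyReflectsLimits _ (fun ⟨⟨n⟩⟩ ↦ by
    refine (isLimitMapConePullbackConeEquiv _ _).2 (IsPullback.isLimit ?_)
    have h1 : Mono (((evaluation SimplexCategoryᵒᵖ (Type u)).obj (op ⦋n⦌)).map l) := by
      infer_instance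
    have h2 : Mono (((evaluation SimplexCategoryᵒᵖ (Type u)).obj (op ⦋n⦌)).map r) := by
      infer_instance
    have w' : ∀ z : A _⦋n⦌, r.app _ (t.app _ z) = b.app _ (l.app _ z) := fun z =>
      ConcreteCategory.congr_hom (congr_app w (op ⦋n⦌)) z
    rw [Types.isPullback_iff]
    refine ⟨?_, fun x₁ y₁ hxy => (mono_iff_injective _).1 h1 hxy.2, fun x₂ x₃ hx => ?_⟩
    · ext z
      exact w' z
    · obtain ⟨z, hz⟩ := h n x₂ x₃ hx
      refine ⟨z, (mono_iff_injective _).1 h2 ?_, hz⟩
      exact (w' z).trans ((congrArg _ hz).trans hx.symm))⟩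

lemma mono_of_fiber {F Y : SSet.{u}} {k : F ⟶ Y} {g : F ⟶ Δ[0]} {π : Y ⟶ Δ[1]} {i : Fin 2}
    (sq : IsPullback k g π (SSet.stdSimplex.δ i : Δ[0] ⟶ Δ[1])) : Mono k := by
  have : Mono (SSet.stdSimplex.δ i : Δ[0] ⟶ Δ[1]) := inferInstance
  exact MorphismProperty.of_isPullback (P := monomorphisms _) sq.flip this

section Nerve

variable {L L' : Type u} [PartialOrder L] [PartialOrder L']

lemma mono_nvMap (f : L →o L') (hf : Function.Injective f) : Mono (nvMap f) := by
  have : ∀ m, Mono ((nvMap f).app m) := by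
    intro m
    rw [mono_iff_injective]
    intro x y hxy
    apply nerve.ext_of_isThin
    funext i
    apply hf
    exact congrArg (fun z : (nerve L').obj m => z.obj i) hxy
  exact NatTrans.mono_of_mono_app _

lemma nv_lift (A : Set L) (g : A →o L) (hg : ∀ a, g a = a.1) {n : ℕ} (x : (nerve L) _⦋n⦌)
    (h : ∀ i, x.obj i ∈ A) : ∃ y : (nerve A) _⦋n⦌, (nvMap g).app _ y = x := by
  refine ⟨Monotone.functor (f := fun i => (⟨x.obj i, h i⟩ : A)) (fun i j hij => ?_), ?_⟩
  · exact leOfHom (x.map (homOfLE hij))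
  · apply nerve.ext_of_isThin
    funext i
    exact hg _

end Nerve

end CAUtil

end Vale.Agent.P213
end

section

/-!
Colimits in simplicial sets are stable under pullback.
-/

open CategoryTheory Limits

universe w' w v u

namespace Vale.Agent.P213.CA

/-- Colimits of types are stable under pullback. -/
lemma isColimit_of_isPullback_types {J : Type w} [Category.{w'} J] {F F' : J ⥤ Type u}
    {c : Cocone F} (hc : IsColimit c) (c' : Cocone F') (α : F' ⟶ F) (f : c'.pt ⟶ c.pt)
    (h : ∀ j, IsPullback (c'.ι.app j) (α.app j) f (c.ι.app j)) : Nonempty (IsColimit c') := by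
  replace hc := (Types.isColimit_iff_coconeTypesIsColimit c).1 ⟨hc⟩
  rw [Types.isColimit_iff_coconeTypesIsColimit]
  have hw : ∀ (j : J) (x : F'.obj j), f (c'.ι.app j x) = c.ι.app j (α.app j x) := fun j x =>
    ConcreteCategory.congr_hom (h j).w x
  have key : ∀ p q : (Σ j, F.obj j), Relation.EqvGen F.ColimitTypeRel p q →
      ∀ (x : F'.obj p.1) (y : F'.obj q.1), α.app p.1 x = p.2 → α.app q.1 y = q.2 →
        c'.ι.app p.1 x = c'.ι.app q.1 y → F'.ιColimitType p.1 x = F'.ιColimitType q.1 y := by
    intro p q hpq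
    induction hpq with
    | rel p q hpq =>
      obtain ⟨g, hg⟩ := hpq
      intro x y hx hy hxy
      have : F'.map g x = y := by
        apply Types.ext_of_isPullback (h q.1)
        · rw [← hxy]
          exact ConcreteCategory.congr_hom (c'.w g) x
        · rw [hy, hg, ← hx]
          exact ConcreteCategory.congr_hom (α.naturality g) x
      rw [← this]
      exact (F'.ιColimitType_map g x).symm
    | refl p =>
      intro x y hx hy hxy
      have : x = y := Types.ext_of_isPullback (h p.1) hxy (hx.trans hy.symm)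
      rw [this]
    | symm p q _ ih =>
      intro x y hx hy hxy
      exact (ih y x hy hx hxy.symm).symm
    | trans p r q hpr _ ih₁ ih₂ =>
      intro x y hx hy hxy
      have h1 : c.ι.app p.1 p.2 = c.ι.app r.1 r.2 := by
        have := (F.ιColimitType_eq_iff p.2 r.2).2 hpr
        exact congrArg (F.descColimitType (F.coconeTypesEquiv.symm c)) this
      obtain ⟨z, hz₁, hz₂⟩ := Types.exists_of_isPullback (h r.1) (c'.ι.app p.1 x) r.2
        (by rw [hw, hx, h1])
      exact (ih₁ x z hx hz₂ hz₁.symm).trans (ih₂ z y hz₂ hy (hz₁.trans hxy))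
  refine ⟨⟨?_, ?_⟩⟩
  · intro a b hab
    obtain ⟨j, x, rfl⟩ := F'.ιColimitType_jointly_surjective a
    obtain ⟨k, y, rfl⟩ := F'.ιColimitType_jointly_surjective b
    replace hab : c'.ι.app j x = c'.ι.app k y := hab
    refine key ⟨j, α.app j x⟩ ⟨k, α.app k y⟩ ?_ x y rfl rfl hab
    rw [← F.ιColimitType_eq_iff]
    apply hc.bijective.1
    change c.ι.app j (α.app j x) = c.ι.app k (α.app k y)
    rw [← hw, ← hw, hab]
  · rw [Functor.CoconeTypes.descColimitType_surjective_iff]
    intro z
    obtain ⟨j, x, hx⟩ := hc.ι_jointly_surjective (f z)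
    obtain ⟨y, hy, -⟩ := Types.exists_of_isPullback (h j) z x hx.symm
    exact ⟨j, y, hy⟩

/-- Colimits of simplicial sets are stable under pullback. -/
lemma isColimit_of_isPullback_sset {J : Type w} [Category.{w'} J] {F F' : J ⥤ SSet.{u}}
    {c : Cocone F} (hc : IsColimit c) (c' : Cocone F') (α : F' ⟶ F) (f : c'.pt ⟶ c.pt)
    [HasColimitsOfShape J (Type u)]
    (h : ∀ j, IsPullback (c'.ι.app j) (α.app j) f (c.ι.app j)) : Nonempty (IsColimit c') := by
  refine ⟨evaluationJointlyReflectsColimits _ fun n => ?_⟩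
  refine (isColimit_of_isPullback_types (J := J) (F := F ⋙ (evaluation _ _).obj n)
    (c := ((evaluation _ _).obj n).mapCocone c) (isColimitOfPreserves _ hc) _
    (Functor.whiskerRight α ((evaluation _ _).obj n)) (f.app n) fun j => ?_).some
  exact (h j).map ((evaluation _ _).obj n)

section

variable {C : Type u} [Category.{v} C] {X Y : C} (g : X ⟶ Y) [HasPullbacks C]

lemma pullback_map_left_fst {A B : Over Y} (k : A ⟶ B) :
    ((Over.pullback g).map k).left ≫ pullback.fst B.hom g = pullback.fst A.hom g ≫ k.left :=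
  pullback.lift_fst _ _ _

lemma pullback_map_left_snd {A B : Over Y} (k : A ⟶ B) :
    ((Over.pullback g).map k).left ≫ pullback.snd B.hom g = pullback.snd A.hom g :=
  pullback.lift_snd _ _ _

end

lemma preservesColimit_pullback_sset {J : Type w} [Category.{w'} J]
    [HasColimitsOfShape J (Type u)] {X Y : SSet.{u}} (g : X ⟶ Y) (T : J ⥤ Over Y)
    {s : Cocone T} (hs : IsColimit s) :
    Nonempty (IsColimit ((Over.pullback g).mapCocone s)) := by
  refine ⟨isColimitOfReflects (Over.forget X) ?_⟩
  have hs' := isColimitOfPreserves (Over.forget Y) hs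
  let α : T ⋙ Over.pullback g ⋙ Over.forget X ⟶ T ⋙ Over.forget Y :=
    { app := fun j => pullback.fst (T.obj j).hom g
      naturality := fun j j' φ => pullback_map_left_fst g (T.map φ) }
  refine (isColimit_of_isPullback_sset hs'
    ((Over.forget X).mapCocone ((Over.pullback g).mapCocone s)) α
      (pullback.fst s.pt.hom g) fun j => ?_).some
  have h₁ := (IsPullback.of_hasPullback s.pt.hom g).flip
  have h₂ := (IsPullback.of_hasPullback (T.obj j).hom g).flip
  refine IsPullback.of_right (h₁₁ := ((Over.pullback g).map (s.ι.app j)).left)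
    (h₁₂ := pullback.snd s.pt.hom g) (h₂₁ := (s.ι.app j).left) (h₂₂ := s.pt.hom) ?_ ?_ h₁
  · have e₁ : ((Over.pullback g).map (s.ι.app j)).left ≫ pullback.snd s.pt.hom g =
        pullback.snd (T.obj j).hom g := pullback_map_left_snd g _
    have e₂ : (s.ι.app j).left ≫ s.pt.hom = (T.obj j).hom := Over.w _
    change IsPullback (((Over.pullback g).map (s.ι.app j)).left ≫ pullback.snd s.pt.hom g)
      (pullback.fst (T.obj j).hom g) g ((s.ι.app j).left ≫ s.pt.hom)
    rw [e₁, e₂]
    exact h₂
  · exact pullback_map_left_fst g (s.ι.app j)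

instance preservesColimitsOfShape_pullback_sset {J : Type w} [Category.{w'} J]
    [HasColimitsOfShape J (Type u)] {X Y : SSet.{u}} (g : X ⟶ Y) :
    PreservesColimitsOfShape J (Over.pullback g) where
  preservesColimit {T} := { preserves := fun hs => preservesColimit_pullback_sset g T hs }

end Vale.Agent.P213.CA
end

section

/-!
The functor `c` is compatible with fibres over the vertices of `Δ[1]`.
-/

open CategoryTheory Limits Simplicial

universe w' w v v' u u'

namespace Vale.Agent.P213.CA

section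

variable {C : Type u} [Category.{v} C] {D : Type u'} [Category.{v'} D] [HasPullbacks C]
  [HasPullbacks D] (F : C ⥤ D) {X Y : C} (g : X ⟶ Y)

/-- The comparison between the image of a pullback and the pullback of the image. -/
noncomputable def cmpLeft (A : Over Y) : F.obj (pullback A.hom g) ⟶ pullback (F.map A.hom) (F.map g) :=
  pullback.lift (F.map (pullback.fst A.hom g)) (F.map (pullback.snd A.hom g)) (by
      simp only [← F.map_comp, pullback.condition])

@[reassoc (attr := simp)]
lemma cmpLeft_fst (A : Over Y) : cmpLeft F g A ≫ pullback.fst (F.map A.hom) (F.map g) =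
    F.map (pullback.fst A.hom g) := pullback.lift_fst _ _ _

@[reassoc (attr := simp)]
lemma cmpLeft_snd (A : Over Y) : cmpLeft F g A ≫ pullback.snd (F.map A.hom) (F.map g) =
    F.map (pullback.snd A.hom g) := pullback.lift_snd _ _ _

/-- The comparison between the image of a pullback and the pullback of the image. -/
noncomputable def cmp :
    Over.pullback g ⋙ Over.post F ⟶ Over.post F ⋙ Over.pullback (F.map g) where
  app A := Over.homMk (cmpLeft F g A) (cmpLeft_snd F g A)
  naturality A B k := by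
    ext
    have hk : (pullback.fst (F.map A.hom) (F.map g) ≫ F.map k.left) ≫ F.map B.hom =
        pullback.snd (F.map A.hom) (F.map g) ≫ F.map g := by
      rw [Category.assoc, ← F.map_comp, Over.w, pullback.condition]
    change F.map ((Over.pullback g).map k).left ≫ cmpLeft F g B =
      cmpLeft F g A ≫ pullback.lift (pullback.fst (F.map A.hom) (F.map g) ≫ F.map k.left)
        (pullback.snd (F.map A.hom) (F.map g)) hk
    apply pullback.hom_ext
    · rw [Category.assoc, Category.assoc, cmpLeft_fst, pullback.lift_fst, cmpLeft_fst_assoc,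
        ← F.map_comp, pullback_map_left_fst, F.map_comp]
    · rw [Category.assoc, Category.assoc, cmpLeft_snd, pullback.lift_snd, cmpLeft_snd,
        ← F.map_comp, pullback_map_left_snd]

lemma isPullback_of_isIso_cmp (A : Over Y) (h : IsIso ((cmp F g).app A)) :
    IsPullback (F.map (pullback.fst A.hom g)) (F.map (pullback.snd A.hom g))
      (F.map A.hom) (F.map g) := by
  have : IsIso (cmpLeft F g A) := (inferInstance : IsIso ((Over.forget _).map ((cmp F g).app A)))
  refine IsPullback.of_iso_pullback ⟨by simp only [← F.map_comp, pullback.condition]⟩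
    (asIso (cmpLeft F g A)) (cmpLeft_fst F g A) (cmpLeft_snd F g A)

lemma isIso_cmp_of_isPullback (A : Over Y)
    (h : IsPullback (F.map (pullback.fst A.hom g)) (F.map (pullback.snd A.hom g))
      (F.map A.hom) (F.map g)) : IsIso ((cmp F g).app A) := by
  have : IsIso (cmpLeft F g A) := by
    have e : cmpLeft F g A = h.isoPullback.hom := by
      apply pullback.hom_ext <;> simp
    rw [e]
    infer_instance
  have : IsIso ((Over.forget _).map ((cmp F g).app A)) := this
  exact isIso_of_reflects_iso _ (Over.forget _)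

omit [HasPullbacks C] [HasPullbacks D] in
lemma preservesColimitsOfShape_post {J : Type w} [Category.{w'} J] [HasColimitsOfShape J C]
    [PreservesColimitsOfShape J F] (X : C) :
    PreservesColimitsOfShape J (Over.post F : Over X ⥤ Over (F.obj X)) := by
  have : PreservesColimitsOfShape J ((Over.post F : Over X ⥤ _) ⋙ Over.forget (F.obj X)) :=
    (inferInstance : PreservesColimitsOfShape J (Over.forget X ⋙ F))
  exact preservesColimitsOfShape_of_reflects_of_preserves _ (Over.forget (F.obj X))

end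

section

variable {D : Type (u + 1)} [Category.{v} D] {c : SSet.{u} ⥤ D} {N : D ⥤ SSet.{u}}
  {adj : c ⊣ N} [HasPullbacks D]

lemma isIso_cmp_simplex (hA : ModelAxioms adj) (ε : Fin 2) (n : SimplexCategory)
    (f : SSet.stdSimplex.obj n ⟶ Δ[1]) :
    IsIso ((cmp c (SSet.stdSimplex.δ ε)).app (Over.mk f)) := by
  induction n using SimplexCategory.rec with | _ n
  apply isIso_cmp_of_isPullback
  exact hA.fiber_simplex n f ε _ _ (IsPullback.of_hasPullback _ _)

lemma isIso_cmp_fiber (hA : ModelAxioms adj) (ε : Fin 2) {K : SSet.{u}} (f : K ⟶ Δ[1]) :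
    IsIso ((cmp c (SSet.stdSimplex.δ ε)).app (Over.mk f)) := by
  let T := Over.lift _ ((Presheaf.tautologicalCocone'.{u} K).ι ≫ (Functor.const _).map f)
  let s : Cocone T := Over.liftCocone (Presheaf.tautologicalCocone'.{u} K) f
  have hs : IsColimit s := Over.isColimitLiftCocone _ _ (Presheaf.isColimitTautologicalCocone'.{u} K)
  have := adj.isLeftAdjoint
  have := hA.exponentiable ε
  let J := CostructuredArrow uliftYoneda.{u} K
  have : PreservesColimitsOfShape J (Over.pullback (c.map (SSet.stdSimplex.{u}.δ ε))) :=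
    (Adjunction.ofIsLeftAdjoint _).leftAdjoint_preservesColimits.1
  have : PreservesColimitsOfShape J c := adj.leftAdjoint_preservesColimits.1
  have := preservesColimitsOfShape_post (J := J) c Δ[0]
  have := preservesColimitsOfShape_post (J := J) c Δ[1]
  have : IsIso (Functor.whiskerLeft T (cmp c (SSet.stdSimplex.δ ε))) := by
    rw [NatTrans.isIso_iff_isIso_app]
    intro j
    exact isIso_cmp_simplex hA ε _ _
  exact isIso_app_coconePt_of_preservesColimit _ (cmp c (SSet.stdSimplex.δ ε)) s hs

/-- Compatibility of `c` with fibres. -/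
theorem isPullback_c_fiber (hA : ModelAxioms adj) {ε : Fin 2} {K K' : SSet.{u}}
    {f : K ⟶ Δ[1]} {k : K' ⟶ K} {k' : K' ⟶ Δ[0]}
    (sq : IsPullback k k' f (SSet.stdSimplex.δ ε)) :
    IsPullback (c.map k) (c.map k') (c.map f) (c.map (SSet.stdSimplex.δ ε)) := by
  have h := isPullback_of_isIso_cmp c _ _ (isIso_cmp_fiber hA ε f)
  refine IsPullback.of_iso h (c.mapIso sq.isoPullback).symm (Iso.refl _) (Iso.refl _)
    (Iso.refl _) ?_ ?_ ?_ ?_
  · simp [← c.map_comp]
  · simp [← c.map_comp]
  · simp
  · simp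

end

end Vale.Agent.P213.CA
end

section

/-!
Pushouts are stable under pullback along `v` when `Over.pullback v` is a left adjoint.
-/

open CategoryTheory Limits

universe v u

namespace Vale.Agent.P213.CA

variable {D : Type u} [Category.{v} D] [HasPullbacks D] [HasBinaryProducts D]

omit [HasBinaryProducts D] in
lemma pullback_map_left_isoPullback_inv {B B' : D} (v : B' ⟶ B) {A₁ K₁ : Over B} (i₁ : A₁ ⟶ K₁)
    {A' K' : D} {i' : A' ⟶ K'} {α : A' ⟶ A₁.left} {κ : K' ⟶ K₁.left} {pA : A' ⟶ B'}
    {pK : K' ⟶ B'} (hA : IsPullback α pA A₁.hom v) (hK : IsPullback κ pK K₁.hom v)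
    (e : i' ≫ κ = α ≫ i₁.left) (e' : i' ≫ pK = pA) :
    ((Over.pullback v).map i₁).left ≫ hK.isoPullback.inv = hA.isoPullback.inv ≫ i' := by
  apply hK.hom_ext
  · rw [Category.assoc, Category.assoc, hK.isoPullback_inv_fst, e, hA.isoPullback_inv_fst_assoc]
    exact pullback.lift_fst _ _ _
  · rw [Category.assoc, Category.assoc, hK.isoPullback_inv_snd, e', hA.isoPullback_inv_snd]
    exact pullback.lift_snd _ _ _

lemma isPushout_of_isPullback {B B' : D} (v : B' ⟶ B) [(Over.pullback v).IsLeftAdjoint]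
    {A K X Y : D} {i : A ⟶ K} {a : A ⟶ X} {b : K ⟶ Y} {j : X ⟶ Y} (sq : IsPushout i a b j)
    (p : Y ⟶ B) {A' K' X' Y' : D} {i' : A' ⟶ K'} {a' : A' ⟶ X'} {b' : K' ⟶ Y'} {j' : X' ⟶ Y'}
    {α : A' ⟶ A} {κ : K' ⟶ K} {ξ : X' ⟶ X} {η : Y' ⟶ Y} {pA : A' ⟶ B'} {pK : K' ⟶ B'}
    {pX : X' ⟶ B'} {pY : Y' ⟶ B'}
    (hA : IsPullback α pA (i ≫ b ≫ p) v) (hK : IsPullback κ pK (b ≫ p) v)
    (hX : IsPullback ξ pX (j ≫ p) v) (hY : IsPullback η pY p v)
    (ei : i' ≫ κ = α ≫ i) (ei' : i' ≫ pK = pA) (ea : a' ≫ ξ = α ≫ a) (ea' : a' ≫ pX = pA)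
    (eb : b' ≫ η = κ ≫ b) (eb' : b' ≫ pY = pK) (ej : j' ≫ η = ξ ≫ j) (ej' : j' ≫ pY = pX) :
    IsPushout i' a' b' j' := by
  let A₁ : Over B := Over.mk (i ≫ b ≫ p)
  let K₁ : Over B := Over.mk (b ≫ p)
  let X₁ : Over B := Over.mk (j ≫ p)
  let Y₁ : Over B := Over.mk p
  let i₁ : A₁ ⟶ K₁ := Over.homMk i
  let a₁ : A₁ ⟶ X₁ := Over.homMk a (by simp [A₁, X₁, sq.w_assoc])
  let b₁ : K₁ ⟶ Y₁ := Over.homMk b
  let j₁ : X₁ ⟶ Y₁ := Over.homMk j
  have sq₁ : IsPushout i₁ a₁ b₁ j₁ := by
    refine IsPushout.of_map (Over.forget B) ?_ sq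
    ext
    exact sq.w
  have sq₂ : IsPushout ((Over.pullback v).map i₁).left ((Over.pullback v).map a₁).left
      ((Over.pullback v).map b₁).left ((Over.pullback v).map j₁).left :=
    (sq₁.map (Over.pullback v)).map (Over.forget B')
  refine sq₂.of_iso hA.isoPullback.symm hK.isoPullback.symm hX.isoPullback.symm
    hY.isoPullback.symm ?_ ?_ ?_ ?_
  · exact pullback_map_left_isoPullback_inv v i₁ hA hK ei ei'
  · exact pullback_map_left_isoPullback_inv v a₁ hA hX ea ea'
  · exact pullback_map_left_isoPullback_inv v b₁ hK hY eb eb'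
  · exact pullback_map_left_isoPullback_inv v j₁ hX hY ej ej'

lemma isPullback_of_isPushout {B B' : D} (v : B' ⟶ B) [(Over.pullback v).IsLeftAdjoint]
    {A K X Y : D} {i : A ⟶ K} {a : A ⟶ X} {b : K ⟶ Y} {j : X ⟶ Y} (sq : IsPushout i a b j)
    (p : Y ⟶ B) {A' K' X' Y' : D} {i' : A' ⟶ K'} {a' : A' ⟶ X'} {b' : K' ⟶ Y'} {j' : X' ⟶ Y'}
    {α : A' ⟶ A} {κ : K' ⟶ K} {ξ : X' ⟶ X} {η : Y' ⟶ Y} {pA : A' ⟶ B'} {pK : K' ⟶ B'}
    {pX : X' ⟶ B'} {pY : Y' ⟶ B'}
    (hA : IsPullback α pA (i ≫ b ≫ p) v) (hK : IsPullback κ pK (b ≫ p) v)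
    (hX : IsPullback ξ pX (j ≫ p) v)
    (ei : i' ≫ κ = α ≫ i) (ei' : i' ≫ pK = pA) (ea : a' ≫ ξ = α ≫ a) (ea' : a' ≫ pX = pA)
    (sq' : IsPushout i' a' b' j')
    (eb : b' ≫ η = κ ≫ b) (eb' : b' ≫ pY = pK) (ej : j' ≫ η = ξ ≫ j) (ej' : j' ≫ pY = pX) :
    IsPullback η pY p v := by
  have hY := IsPullback.of_hasPullback p v
  let b₀ : K' ⟶ pullback p v := pullback.lift (κ ≫ b) pK (by simp [hK.w])
  let j₀ : X' ⟶ pullback p v := pullback.lift (ξ ≫ j) pX (by simp [hX.w])
  have sq₀ : IsPushout i' a' b₀ j₀ :=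
    isPushout_of_isPullback v sq p hA hK hX hY ei ei' ea ea' (pullback.lift_fst _ _ _)
      (pullback.lift_snd _ _ _) (pullback.lift_fst _ _ _) (pullback.lift_snd _ _ _)
  let e := sq'.isoIsPushout _ _ sq₀
  have e₁ : b' ≫ e.hom = b₀ := sq'.inl_isoIsPushout_hom _ _ sq₀
  have e₂ : j' ≫ e.hom = j₀ := sq'.inr_isoIsPushout_hom _ _ sq₀
  have h₁ : η = e.hom ≫ pullback.fst p v := by
    apply sq'.hom_ext
    · rw [eb, reassoc_of% e₁, pullback.lift_fst]
    · rw [ej, reassoc_of% e₂, pullback.lift_fst]
  have h₂ : pY = e.hom ≫ pullback.snd p v := by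
    apply sq'.hom_ext
    · rw [eb', reassoc_of% e₁, pullback.lift_snd]
    · rw [ej', reassoc_of% e₂, pullback.lift_snd]
  exact hY.of_iso e.symm (Iso.refl _) (Iso.refl _) (Iso.refl _) (by simp [h₁]) (by simp [h₂])
    (by simp) (by simp)

end Vale.Agent.P213.CA
end

section

/-!
Functors on tables of the orientals in the two descriptions.
-/

namespace Vale.Agent.P213.St

/-- A function on the tables is a strict functor in the statement-level sense iff it comes from a
strict functor on the omega-category of tables. -/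
theorem isSimplex_iff {C : Type} [Ops C] [OmegaStr C]
    (hd : ∀ a k (x : C), OmegaStr.d a k x = Ops.d a k x)
    (hc : ∀ k (x y : C) h, OmegaStr.comp k x y h = Ops.comp k x y) {m : ℕ} (g : O m → C) :
    IsSimplex g ↔ ∃ F : OmegaFun (Cell (simplexCx (Fin (m + 1)))) C,
      ∀ x, F (tabEquiv m x) = g x := by
  constructor
  · rintro ⟨h1, h2⟩
    refine ⟨⟨fun c => g ((tabEquiv m).symm c), ?_, ?_⟩, ?_⟩
    · intro a n c
      rw [hd]
      apply h1
      rw [isBd_iff, Equiv.apply_symm_apply, Equiv.apply_symm_apply]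
    · intro n c e h h'
      rw [hc]
      obtain ⟨w, hw1, hw2, hw3⟩ := (comp_iff n ((tabEquiv m).symm c) ((tabEquiv m).symm e)
        ((tabEquiv m).symm (OmegaStr.comp n c e h))).2 (by
          simp only [Equiv.apply_symm_apply]
          exact ⟨h, trivial⟩)
      exact h2 n _ _ _ w hw1 hw2 hw3
    · intro x
      change g ((tabEquiv m).symm (tabEquiv m x)) = g x
      rw [Equiv.symm_apply_apply]
  · rintro ⟨F, hF⟩
    constructor
    · intro a n x y hxy
      rw [isBd_iff] at hxy
      rw [← hF, ← hF, hxy, ← hd]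
      exact F.map_d a n _
    · intro n x y z w hx hy hz
      obtain ⟨h, hz'⟩ := (comp_iff n x y z).1 ⟨w, hx, hy, hz⟩
      have h' : OmegaStr.d true n (F (tabEquiv m x)) = OmegaStr.d false n (F (tabEquiv m y)) := by
        have e1 : F (OmegaStr.d true n (tabEquiv m x)) = OmegaStr.d true n (F (tabEquiv m x)) :=
          F.map_d true n _
        have e2 : F (OmegaStr.d false n (tabEquiv m y)) = OmegaStr.d false n (F (tabEquiv m y)) :=
          F.map_d false n _
        rw [← e1, ← e2, h]
      rw [← hF z, hz']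
      have e3 : F (OmegaStr.comp n (tabEquiv m x) (tabEquiv m y) h) =
          OmegaStr.comp n (F (tabEquiv m x)) (F (tabEquiv m y)) h' := F.map_comp n _ _ h h'
      rw [e3, hc, hF, hF]

end Vale.Agent.P213.St
end

section

/-!
The statement-level category of strict `n`-categories is equivalent to the internal one.
-/

open CategoryTheory

namespace Vale.Agent.P213.St

section

variable {n : ℕ∞}

/-- The internal structure on the cells of a statement-level strict `n`-category. -/
@[implicit_reducible] def realStr (X : St.NCat n) : OmegaStr X.C where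
  d := Ops.d
  comp k x y _ := Ops.comp k x y
  finite_dim x := X.omega.fin x
  d_d_of_lt a b m k x h := by rw [X.omega.dd, if_pos h]
  d_d_of_le a b m k x h := by rw [X.omega.dd, if_neg (not_lt.mpr h)]
  src_comp k x y h := X.omega.src k x y h
  tgt_comp k x y h := X.omega.tgt k x y h
  d_comp a m k x y h _ hk := X.omega.dcomp a m k x y hk h
  id_comp k x _ := X.omega.idl k x
  comp_id k x _ := X.omega.idr k x
  assoc k x y z h₁ h₂ _ _ := X.omega.assoc k x y z h₁ h₂
  interchange m k x y z w hmk h₁ h₂ h₃ _ _ _ := X.omega.inter m k x y z w hmk h₁ h₂ h₃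

/-- The internal omega-category of a statement-level strict `n`-category. -/
def realCat (X : St.NCat n) : OmegaCat.{0} := @OmegaCat.mk X.C (realStr X)

/-- The internal functor of a statement-level strict functor. -/
def realFun {X Y : St.NCat n} (φ : St.Fun X Y) : realCat X ⟶ realCat Y :=
  @OmegaFun.mk X.C Y.C (realStr X) (realStr Y) φ.f φ.map_d (fun k x y h _ => φ.map_comp k x y h)

end

/-- The comparison functor. -/
def toReal (n : ℕ∞) : St.NCat n ⥤ P213.NCat.{0} n where
  obj X := ⟨realCat X, fun k hk x => X.dim k hk x⟩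
  map φ := ⟨realFun φ⟩
  map_id _ := rfl
  map_comp _ _ := rfl

section

variable {n : ℕ∞}

theorem toReal_carrier (X : St.NCat n) : ((toReal n).obj X).obj.carrier = X.C := rfl

theorem toReal_d (X : St.NCat n) (a : Bool) (k : ℕ) (x : X.C) :
    (@OmegaStr.d ((toReal n).obj X).obj.carrier _ a k x : X.C) = Ops.d a k x := rfl

theorem toReal_comp (X : St.NCat n) (k : ℕ) (x y : X.C) (h : Ops.d true k x = Ops.d false k y) :
    (@OmegaStr.comp ((toReal n).obj X).obj.carrier _ k x y h : X.C) = Ops.comp k x y := rfl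

theorem toReal_map {X Y : St.NCat n} (φ : X ⟶ Y) (x : X.C) :
    @OmegaFun.toFun ((toReal n).obj X).obj.carrier ((toReal n).obj Y).obj.carrier _ _
      ((toReal n).map φ).hom x = φ.f x := rfl

instance : (toReal n).Faithful where
  map_injective := by
    rintro X Y ⟨f, _, _⟩ ⟨g, _, _⟩ h
    have h' : f = g := congrArg (fun φ => @OmegaFun.toFun ((toReal n).obj X).obj.carrier
      ((toReal n).obj Y).obj.carrier _ _ (InducedCategory.Hom.hom φ)) h
    subst h'
    rfl

instance : (toReal n).Full where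
  map_surjective := by
    intro X Y g
    refine ⟨(⟨@OmegaFun.toFun ((toReal n).obj X).obj.carrier
      ((toReal n).obj Y).obj.carrier _ _ g.hom, fun a k x => ?_, fun k x y h => ?_⟩ :
      St.Fun X Y), ?_⟩
    · exact @OmegaFun.map_d ((toReal n).obj X).obj.carrier
        ((toReal n).obj Y).obj.carrier _ _ g.hom a k x
    · exact @OmegaFun.map_comp ((toReal n).obj X).obj.carrier
        ((toReal n).obj Y).obj.carrier _ _ g.hom k x y h
        (@OmegaFun.composable ((toReal n).obj X).obj.carrier
        ((toReal n).obj Y).obj.carrier _ _ g.hom k x y h)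
    · rfl

/-- The statement-level operations of an internal strict `n`-category. -/
@[implicit_reducible] noncomputable def stOps (Y : P213.NCat.{0} n) : Ops Y.obj.carrier where
  d := OmegaStr.d
  comp := tc

/-- The statement-level strict `n`-category of an internal one. -/
noncomputable def ofReal (Y : P213.NCat.{0} n) : St.NCat n :=
  @St.NCat.mk n Y.obj.carrier (stOps Y)
    (@IsOmega.mk Y.obj.carrier (stOps Y)
      (fun x => OmegaStr.finite_dim x)
      (fun a b m k x => by
        by_cases h : m < k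
        · rw [if_pos h]; exact OmegaStr.d_d_of_lt a b m k x h
        · rw [if_neg h]; exact OmegaStr.d_d_of_le a b m k x (not_lt.mp h))
      (fun k x y h => src_tc h)
      (fun k x y h => tgt_tc h)
      (fun a m k x y hk h => d_tc_gt h hk)
      (fun k x => src_tc_id)
      (fun k x => tc_tgt_id)
      (fun k x y z h₁ h₂ => tc_assoc h₁ h₂)
      (fun m k x y z w hmk h₁ h₂ h₃ => tc_interchange hmk h₁ h₂ h₃))
    (fun k hk x => Y.property k hk x)

instance : (toReal n).EssSurj where
  mem_essImage Y := by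
    have h1 : ∀ (k : ℕ) (x y : Y.obj.carrier)
      (h : OmegaStr.d true k x = OmegaStr.d false k y), tc k x y = OmegaStr.comp k x y h :=
      fun k x y h => tc_eq h
    let F : ((toReal n).obj (ofReal Y)).obj ⟶ Y.obj :=
      @OmegaFun.mk Y.obj.carrier Y.obj.carrier (realStr (ofReal Y)) Y.obj.str (fun x => x)
        (fun a k x => rfl) (fun k x y h _ => h1 k x y h)
    let G : Y.obj ⟶ ((toReal n).obj (ofReal Y)).obj :=
      @OmegaFun.mk Y.obj.carrier Y.obj.carrier Y.obj.str (realStr (ofReal Y)) (fun x => x)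
        (fun a k x => rfl) (fun k x y h _ => (h1 k x y h).symm)
    exact ⟨ofReal Y, ⟨⟨⟨F⟩, ⟨G⟩, rfl, rfl⟩⟩⟩

instance : (toReal n).IsEquivalence where

end

end Vale.Agent.P213.St
end

section

/-!
The nerve of statement-level strict `n`-categories is a Street nerve.
-/

namespace Vale.Agent.P213.St

open CategoryTheory Opposite Simplicial

variable (n : ℕ∞)

/-- The Street nerve of statement-level strict `n`-categories. -/
noncomputable def nerveSt : NCat n ⥤ SSet.{0} := toReal n ⋙ nerveN n

variable {n}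

/-- the strict functor given by a simplex of the nerve -/
noncomputable def smpFun (X : NCat n) (m : ℕ) (s : Δ[m] ⟶ (nerveSt n).obj X) :
    OmegaFun (Cell (simplexCx (Fin (m + 1)))) ((toReal n).obj X).obj.carrier :=
  SSet.yonedaEquiv s

/-- the simplex of the nerve given by a strict functor -/
noncomputable def funSmp (X : NCat n) (m : ℕ)
    (F : OmegaFun (Cell (simplexCx (Fin (m + 1)))) ((toReal n).obj X).obj.carrier) :
    Δ[m] ⟶ (nerveSt n).obj X :=
  SSet.yonedaEquiv.symm F

theorem smpFun_funSmp (X : NCat n) (m : ℕ)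
    (F : OmegaFun (Cell (simplexCx (Fin (m + 1)))) ((toReal n).obj X).obj.carrier) :
    smpFun X m (funSmp X m F) = F :=
  SSet.yonedaEquiv.apply_symm_apply _

theorem smpFun_injective (X : NCat n) (m : ℕ) : Function.Injective (smpFun X m) :=
  SSet.yonedaEquiv.injective

/-- the evaluation of simplices of the nerve at the tables of the oriental -/
noncomputable def evSt (X : NCat n) (m : ℕ) (s : Δ[m] ⟶ (nerveSt n).obj X) (x : O m) : X.C :=
  smpFun X m s (tabEquiv m x)

theorem smpFun_comp {X Y : NCat n} (φ : X ⟶ Y) (m : ℕ) (s : Δ[m] ⟶ (nerveSt n).obj X)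
    (x : Cell (simplexCx (Fin (m + 1)))) :
    smpFun Y m (s ≫ (nerveSt n).map φ) x = Fun.f φ (smpFun X m s x) := rfl

theorem smpFun_pull {X : NCat n} {m k : ℕ} (θ : ⦋k⦌ ⟶ ⦋m⦌) (s : Δ[m] ⟶ (nerveSt n).obj X)
    (x : Cell (simplexCx (Fin (k + 1)))) :
    smpFun X k (SSet.stdSimplex.map θ ≫ s) x =
      smpFun X m s (x.map (simplexMap θ.toOrderHom)) := by
  have h := SSet.yonedaEquiv_naturality θ s
  exact (congrArg (fun F : OmegaFun (Cell (simplexCx (Fin (k + 1))))
    ((toReal n).obj X).obj.carrier => F x) h).symm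

/-- The nerve is a Street nerve. -/
theorem isStreetNerve_nerveSt (n : ℕ∞) :
    IsStreetNerve (D := NCat n) NCat.C (fun _ _ => Fun.f) (nerveSt n) evSt where
  inj X m := by
    intro s t h
    apply smpFun_injective
    apply OmegaFun.ext
    intro c
    have h1 := congrFun h ((tabEquiv m).symm c)
    have h2 := (tabEquiv m).apply_symm_apply c
    change smpFun X m s (tabEquiv m ((tabEquiv m).symm c)) =
      smpFun X m t (tabEquiv m ((tabEquiv m).symm c)) at h1
    rw [h2] at h1
    exact h1
  surj X m f := by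
    have key := @isSimplex_iff X.C _ ((toReal n).obj X).obj.str (fun _ _ _ => rfl)
      (fun _ _ _ _ => rfl) m f
    refine key.trans ⟨?_, ?_⟩
    · rintro ⟨F, hF⟩
      refine ⟨funSmp X m F, ?_⟩
      funext x
      have h1 : ∀ G : OmegaFun (Cell (simplexCx (Fin (m + 1)))) ((toReal n).obj X).obj.carrier,
          smpFun X m (funSmp X m G) (tabEquiv m x) = G (tabEquiv m x) := by
        intro G
        rw [smpFun_funSmp]
      exact (h1 F).trans (hF x)
    · rintro ⟨s, rfl⟩
      exact ⟨smpFun X m s, fun x => rfl⟩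
  nat X Y φ m s x := rfl
  nat' X m k θ s x y h := by
    rw [push_iff] at h
    rw [evSt, evSt, smpFun_pull, h]

end Vale.Agent.P213.St
end

section

/-!
The Thomason condition depends only on the isomorphism class of the nerve functor, and two
functors satisfying the specification of the Street nerve are isomorphic.
-/

open CategoryTheory HomotopicalAlgebra Simplicial SSet.modelCategoryQuillen

namespace Vale.Agent.P213.St

instance whe_respectsIso : whe.RespectsIso := by
  apply MorphismProperty.RespectsIso.mk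
  · rintro X Y Z e f ⟨W, j, p, hj, hp, rfl⟩
    exact ⟨W, e.hom ≫ j, p, MorphismProperty.RespectsIso.precomp _ e.hom j hj, hp,
      Category.assoc _ _ _⟩
  · rintro X Y Z e f ⟨W, j, p, hj, hp, rfl⟩
    exact ⟨W, j, p ≫ e.hom, hj, MorphismProperty.RespectsIso.postcomp _ e.hom p hp,
      (Category.assoc _ _ _).symm⟩

section

variable {D : Type 1} [Category.{0} D] {N N' : D ⥤ SSet.{0}}

lemma map_iff_of_iso (P : MorphismProperty SSet.{0}) [P.RespectsIso] (e : N ≅ N') {X Y : D}
    (f : X ⟶ Y) : P (N.map f) ↔ P (N'.map f) :=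
  P.arrow_mk_iso_iff (Arrow.isoMk (e.app X) (e.app Y) (by simp))

lemma thW_iso (e : N ≅ N') : thW N = thW N' := by
  ext X Y f
  exact map_iff_of_iso whe e f

lemma thF_iso (e : N ≅ N') : thF N = thF N' := by
  ext X Y f
  exact map_iff_of_iso J.rlp
    (Functor.isoWhiskerRight e (SSet.ex ⋙ SSet.ex)) f

lemma thC_iso (e : N ≅ N') : thC N = thC N' := by
  rw [thC, thC, thW_iso e, thF_iso e]

/-- The adjunction `Sd² ⊣ Ex²`. -/
noncomputable abbrev sdEx2 : (SSet.sd ⋙ SSet.sd : SSet.{0} ⥤ SSet.{0}) ⊣ SSet.ex ⋙ SSet.ex :=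
  SSet.sdExAdjunction.comp SSet.sdExAdjunction

lemma unit_map {c : SSet.{0} ⥤ D} (h : c ⊣ N) {K : SSet.{0}} {Y : D}
    (f : (((SSet.sd ⋙ SSet.sd) ⋙ c).obj K) ⟶ Y) :
    (sdEx2.comp h).unit.app K ≫ (N ⋙ SSet.ex ⋙ SSet.ex).map f =
      sdEx2.homEquiv _ _ (h.homEquiv _ _ f) := by
  have h1 := (sdEx2.comp h).homEquiv_unit K Y f
  refine h1.symm.trans ?_
  rw [Adjunction.comp_homEquiv]
  rfl

theorem isThomason_of_iso (e : N ≅ N') (h : IsThomason N) : IsThomason N' := by
  obtain ⟨h1, h2, h3, h4⟩ := h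
  refine ⟨h1, ?_, ?_, ?_⟩
  · rwa [← thC_iso e, ← thW_iso e, ← thF_iso e]
  · exact Functor.isRightAdjoint_of_iso e
  · intro c h'
    have h5 := h4 c (h'.ofNatIsoRight e.symm)
    refine ⟨?_, ?_⟩
    · rw [← thC_iso e, ← thW_iso e]
      exact h5.1
    · intro K Y f
      rw [← thW_iso e]
      refine (h5.2 K Y f).trans ?_
      have e1 := unit_map (h'.ofNatIsoRight e.symm) f
      have e2 := unit_map h' f
      rw [Adjunction.homEquiv_ofNatIsoRight_apply, Adjunction.homEquiv_naturality_right] at e1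
      refine (congrArg (fun g => whe g) e1).to_iff.trans ?_
      refine (whe.cancel_right_of_respectsIso _ _).trans ?_
      exact (congrArg (fun g => whe g) e2).to_iff.symm

end

section Unique

open Opposite

lemma exists_push {k m : ℕ} (θ : ⦋k⦌ ⟶ ⦋m⦌) (x : O k) : ∃ y : O m,
    ∀ a t, y.x a t = ∑ u with u.image θ.toOrderHom = t ∧ u.card = t.card, x.x a u :=
  ⟨(tabEquiv m).symm ((tabEquiv k x).map (simplexMap θ.toOrderHom)),
    (push_iff _ _ _).2 (Equiv.apply_symm_apply _ _)⟩

variable {D : Type 1} [Category.{0} D] {U : D → Type} [∀ X, Ops (U X)]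
  {H : ∀ X Y : D, (X ⟶ Y) → U X → U Y} {N N' : D ⥤ SSet.{0}}
  {ev : ∀ (X : D) (m : ℕ), (Δ[m] ⟶ N.obj X) → O m → U X}
  {ev' : ∀ (X : D) (m : ℕ), (Δ[m] ⟶ N'.obj X) → O m → U X}

lemma exists_simplex (h : IsStreetNerve U H N ev) (h' : IsStreetNerve U H N' ev') (X : D)
    (m : ℕ) (s : Δ[m] ⟶ N.obj X) : ∃ s', ev' X m s' = ev X m s :=
  (h'.surj X m _).1 ((h.surj X m _).2 ⟨s, rfl⟩)

/-- The comparison of simplices of two Street nerves. -/
noncomputable def cmpS (h : IsStreetNerve U H N ev) (h' : IsStreetNerve U H N' ev') (X : D)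
    (m : ℕ) (s : Δ[m] ⟶ N.obj X) : Δ[m] ⟶ N'.obj X :=
  (exists_simplex h h' X m s).choose

lemma ev_cmpS (h : IsStreetNerve U H N ev) (h' : IsStreetNerve U H N' ev') (X : D)
    (m : ℕ) (s : Δ[m] ⟶ N.obj X) : ev' X m (cmpS h h' X m s) = ev X m s :=
  (exists_simplex h h' X m s).choose_spec

lemma cmpS_cmpS (h : IsStreetNerve U H N ev) (h' : IsStreetNerve U H N' ev') (X : D)
    (m : ℕ) (s : Δ[m] ⟶ N.obj X) : cmpS h' h X m (cmpS h h' X m s) = s :=
  h.inj X m ((ev_cmpS h' h X m _).trans (ev_cmpS h h' X m _))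

lemma cmpS_map (h : IsStreetNerve U H N ev) (h' : IsStreetNerve U H N' ev') {X Y : D}
    (φ : X ⟶ Y) (m : ℕ) (s : Δ[m] ⟶ N.obj X) :
    cmpS h h' Y m (s ≫ N.map φ) = cmpS h h' X m s ≫ N'.map φ := by
  apply h'.inj
  funext x
  have e1 := congrFun (ev_cmpS h h' Y m (s ≫ N.map φ)) x
  have e2 := congrFun (ev_cmpS h h' X m s) x
  exact e1.trans ((h.nat X Y φ m s x).trans ((congrArg (H X Y φ) e2.symm).trans
    (h'.nat X Y φ m _ x).symm))

lemma cmpS_comp (h : IsStreetNerve U H N ev) (h' : IsStreetNerve U H N' ev') (X : D)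
    {k m : ℕ} (θ : ⦋k⦌ ⟶ ⦋m⦌) (s : Δ[m] ⟶ N.obj X) :
    cmpS h h' X k (SSet.stdSimplex.map θ ≫ s) = SSet.stdSimplex.map θ ≫ cmpS h h' X m s := by
  apply h'.inj
  funext x
  obtain ⟨y, hy⟩ := exists_push θ x
  have e1 := congrFun (ev_cmpS h h' X k (SSet.stdSimplex.map θ ≫ s)) x
  have e2 := congrFun (ev_cmpS h h' X m s) y
  exact e1.trans ((h.nat' X m k θ s x y hy).trans (e2.symm.trans
    (h'.nat' X m k θ _ x y hy).symm))

lemma yonedaEquiv_symm_mapAux (X : SSet.{0}) {k m : SimplexCategory} (θ : k ⟶ m)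
    (x : X.obj (op m)) : SSet.yonedaEquiv.symm (X.map θ.op x) =
      (SSet.stdSimplex.map θ : _) ≫ SSet.yonedaEquiv.symm x := by
  ext p y
  change X.map _ (X.map θ.op x) = X.map _ x
  change (X.map θ.op ≫ X.map _) x = _
  rw [← X.map_comp]
  rfl

/-- The comparison of two Street nerves. -/
noncomputable def cmpN (h : IsStreetNerve U H N ev) (h' : IsStreetNerve U H N' ev') :
    N ⟶ N' where
  app X :=
    { app := fun p => ↾fun x => SSet.yonedaEquiv
        (cmpS h h' X p.unop.len (SSet.yonedaEquiv.symm x))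
      naturality := fun p q θ => by
        ext x
        apply SSet.yonedaEquiv.symm.injective
        change SSet.yonedaEquiv.symm (SSet.yonedaEquiv (cmpS h h' X q.unop.len
          (SSet.yonedaEquiv.symm ((N.obj X).map θ x)))) = SSet.yonedaEquiv.symm
            ((N'.obj X).map θ (SSet.yonedaEquiv
              (cmpS h h' X p.unop.len (SSet.yonedaEquiv.symm x))))
        have e1 := yonedaEquiv_symm_mapAux (N.obj X) θ.unop x
        have e2 := yonedaEquiv_symm_mapAux (N'.obj X) θ.unop
          (SSet.yonedaEquiv (cmpS h h' X p.unop.len (SSet.yonedaEquiv.symm x)))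
        refine (Equiv.symm_apply_apply _ _).trans ?_
        refine (congrArg (cmpS h h' X q.unop.len) e1).trans ?_
        refine (cmpS_comp h h' X θ.unop _).trans ?_
        refine Eq.trans ?_ e2.symm
        rw [Equiv.symm_apply_apply] }
  naturality X Y φ := by
    ext p x
    change SSet.yonedaEquiv (cmpS h h' Y p.unop.len
          (SSet.yonedaEquiv.symm ((N.map φ).app p x))) =
            SSet.yonedaEquiv
              (cmpS h h' X p.unop.len (SSet.yonedaEquiv.symm x) ≫ N'.map φ)
    rw [← cmpS_map, SSet.yonedaEquiv_symm_comp]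

lemma cmpN_comp (h : IsStreetNerve U H N ev) (h' : IsStreetNerve U H N' ev') :
    cmpN h h' ≫ cmpN h' h = 𝟙 N := by
  ext X p x
  change SSet.yonedaEquiv (cmpS h' h X p.unop.len (SSet.yonedaEquiv.symm (SSet.yonedaEquiv
    (cmpS h h' X p.unop.len (SSet.yonedaEquiv.symm x))))) = x
  rw [Equiv.symm_apply_apply, cmpS_cmpS, Equiv.apply_symm_apply]

/-- Two functors satisfying the specification of the Street nerve are isomorphic. -/
noncomputable def isoN (h : IsStreetNerve U H N ev) (h' : IsStreetNerve U H N' ev') :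
    N ≅ N' where
  hom := cmpN h h'
  inv := cmpN h' h
  hom_inv_id := cmpN_comp h h'
  inv_hom_id := cmpN_comp h' h

/-- The Thomason statement for one Street nerve implies it for all of them. -/
theorem isThomason_unique (h : IsStreetNerve U H N ev) (h' : IsStreetNerve U H N' ev')
    (hN : IsThomason N) : IsThomason N' :=
  isThomason_of_iso (isoN h h') hN

end Unique

end Vale.Agent.P213.St
end

section

/-!
Properness of a pair of classes of morphisms.
-/

open CategoryTheory Limits

universe v u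

namespace Vale.Agent.P213

variable {C : Type u} [Category.{v} C]

/-- Left properness: cobase changes of weak equivalences along cofibrations are weak
equivalences. -/
def IsLeftProper (cof w : MorphismProperty C) : Prop :=
  ∀ ⦃A B A' B' : C⦄ (i : A ⟶ B) (f : A ⟶ A') (g : B ⟶ B') (i' : A' ⟶ B'),
    IsPushout i f g i' → cof i → w f → w g

/-- Right properness: base changes of weak equivalences along fibrations are weak
equivalences. -/
def IsRightProper (w fib : MorphismProperty C) : Prop :=
  ∀ ⦃P X Y B : C⦄ (g : P ⟶ X) (p' : P ⟶ Y) (p : X ⟶ B) (f : Y ⟶ B),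
    IsPullback g p' p f → fib p → w f → w g

end Vale.Agent.P213
end
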