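import Vale.Agent.P213.Bdl.B11

/-!
# A Kan fibration with contractible fibres is a trivial fibration (KQ6, part 1)
-/

universe u

open CategoryTheory MonoidalCategory CartesianMonoidalCategory Simplicial
  HomotopicalAlgebra Limits SSet SSet.modelCategoryQuillen

namespace Vale.Agent.P213

variable {X Y Z K A B C E S T : SSet.{u}}

/-- The contraction of the simplex `Δ[n]` onto its vertex `0`. -/
def contr (n : ℕ) : (Δ[n] : SSet.{u}) ⊗ Δ[1] ⟶ Δ[n] where
  app m := ↾fun p => stdSimplex.objEquiv.symm (SimplexCategory.Hom.mk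
    ⟨fun i => if (stdSimplex.objEquiv p.2) i = 0 then 0 else (stdSimplex.objEquiv p.1) i, by
      intro i j hij
      have h₁ : (stdSimplex.objEquiv p.1) i ≤ (stdSimplex.objEquiv p.1) j :=
        (stdSimplex.objEquiv p.1).toOrderHom.monotone hij
      have h₂ : (stdSimplex.objEquiv p.2) i ≤ (stdSimplex.objEquiv p.2) j :=
        (stdSimplex.objEquiv p.2).toOrderHom.monotone hij
      dsimp only
      split_ifs with hi hj hj
      · exact le_rfl
      · exact Fin.zero_le _
      · rw [hj] at h₂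
        exact absurd (Fin.le_zero_iff.1 h₂) hi
      · exact h₁⟩)
  naturality := by
    intro m m' f
    ext p
    rfl

lemma ι₁_contr (n : ℕ) : ι₁ ≫ contr.{u} n = 𝟙 _ := by
  ext m x
  apply stdSimplex.objEquiv.injective
  ext i : 3
  change (if (1 : Fin 2) = 0 then 0 else (stdSimplex.objEquiv x) i) = (stdSimplex.objEquiv x) i
  rw [if_neg (by simp)]

lemma ι₀_contr (n : ℕ) : ι₀ ≫ contr.{u} n =
    stdSimplex.isTerminalObj₀.from _ ≫ SSet.const (stdSimplex.obj₀Equiv.symm 0) := by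
  ext m x
  apply stdSimplex.objEquiv.injective
  ext i : 3
  change (if (0 : Fin 2) = 0 then 0 else (stdSimplex.objEquiv x) i) = 0
  rw [if_pos rfl]

/-- A Kan fibration all of whose fibres (over vertices) are contractible is a trivial
fibration. -/
lemma rlpI_of_fibres {p : X ⟶ Y} (hp : kanFib p)
    (h : ∀ y : (Δ[0] : SSet.{u}) ⟶ Y, I.{u}.rlp (pullback.snd p y)) : I.rlp p := by
  rintro _ _ _ ⟨n⟩
  refine ⟨fun {u v} sq => ?_⟩
  have hsq := sq.w
  set i := (∂Δ[n] : Subcomplex.{u} Δ[n]).ι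
  let t := stdSimplex.isTerminalObj₀.{u}.from Δ[n]
  let z : (Δ[0] : SSet.{u}) ⟶ Δ[n] := SSet.const (stdSimplex.obj₀Equiv.symm 0)
  have h₀ : ι₀ ≫ contr.{u} n = t ≫ z := ι₀_contr n
  obtain ⟨L, hL₁, -, hL₃⟩ := lift_cyl₁ (initial.to (∂Δ[n] : SSet.{u})) hp u
    (fst _ _ ≫ initial.to _)
    (i ▷ Δ[1] ≫ contr.{u} n ≫ v) (Subsingleton.elim _ _)
    (by rw [ι₁_comp_assoc, reassoc_of% (ι₁_contr.{u} n), hsq])
    (initial_tensor_hom_ext _ _)
  have hw : (ι₀ ≫ L) ≫ p = (i ≫ t) ≫ z ≫ v := by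
    rw [Category.assoc, hL₃, ι₀_comp_assoc, reassoc_of% h₀, Category.assoc]
  have hl := rlpI_hasLift (h (z ≫ v)) i
  have sq' : CommSq (pullback.lift (ι₀ ≫ L) (i ≫ t) hw) i (pullback.snd p (z ≫ v)) t :=
    ⟨pullback.lift_snd _ _ _⟩
  have hw₁ : i ≫ sq'.lift = pullback.lift (ι₀ ≫ L) (i ≫ t) hw := sq'.fac_left
  have hw₂ : sq'.lift ≫ pullback.snd p (z ≫ v) = t := sq'.fac_right
  obtain ⟨M, -, hM₂, hM₃⟩ := lift_cyl₀ i hp (sq'.lift ≫ pullback.fst p (z ≫ v)) L
    (contr.{u} n ≫ v) (by rw [reassoc_of% hw₁, pullback.lift_fst])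
    (by rw [Category.assoc, pullback.condition, reassoc_of% hw₂, reassoc_of% h₀]) hL₃.symm
  refine ⟨⟨⟨ι₁ ≫ M, ?_, ?_⟩⟩⟩
  · rw [← ι₁_comp_assoc, hM₂, hL₁]
  · rw [Category.assoc, hM₃, reassoc_of% (ι₁_contr.{u} n)]

instance : KanComplex (Δ[0] : SSet.{u}) := by
  have : IsIso (terminal.from (Δ[0] : SSet.{u})) :=
    isIso_of_isTerminal (stdSimplex.isTerminalObj₀.{u}) terminalIsTerminal _
  infer_instance

lemma kanComplex_of_kanFib {p : X ⟶ Y} (hp : kanFib p) [KanComplex Y] : KanComplex X := by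
  have := fibration_of_kanFib hp
  exact isFibrant_of_fibration p

instance kanFib_isStableUnderBaseChange : kanFib.{u}.IsStableUnderBaseChange := by
  unfold kanFib
  infer_instance

lemma kanFib_pullback_snd {p : X ⟶ Y} (hp : kanFib p) (y : Z ⟶ Y) :
    kanFib (pullback.snd p y) :=
  MorphismProperty.of_isPullback (P := kanFib) (IsPullback.of_hasPullback p y) hp

/-- A Kan fibration all of whose fibres (over vertices) are weakly contractible is a trivial
fibration. -/
lemma rlpI_of_whe_fibres {p : X ⟶ Y} (hp : kanFib p)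
    (h : ∀ y : (Δ[0] : SSet.{u}) ⟶ Y, whe (pullback.snd p y)) : I.rlp p := by
  refine rlpI_of_fibres hp fun y => ?_
  have := kanComplex_of_kanFib (kanFib_pullback_snd hp y)
  exact rlpI_of_kanFib_of_whe_of_kanComplex _ (kanFib_pullback_snd hp y) (h y)

/-- The key step for the step from Kan fibration and weak equivalence to trivial fibration, given a suitable
fibrant replacement functor. -/
theorem rlpI_of_kanFib_of_whe_of_functor (E : SSet.{u} ⥤ SSet.{u}) (j : 𝟭 _ ⟶ E)
    (hj : ∀ X, whe (j.app X)) (hE : ∀ X, KanComplex (E.obj X))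
    (hE' : ∀ {X Y : SSet.{u}} (p : X ⟶ Y), kanFib p → kanFib (E.map p))
    [PreservesLimitsOfShape WalkingCospan E]
    {X Y : SSet.{u}} (p : X ⟶ Y) (hp : kanFib p) (hw : whe p) : I.rlp p := by
  have hw' : ∀ {X Y : SSet.{u}} (p : X ⟶ Y), whe (E.map p) ↔ whe p := fun {X Y} p => by
    have h := j.naturality p
    dsimp at h
    constructor
    · intro h'
      refine (hj Y).cancel_post ?_
      rw [h]
      exact (hj X).comp h'
    · intro h'
      refine (hj X).cancel_pre ?_
      rw [← h]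
      exact h'.comp (hj Y)
  have htriv : I.rlp (E.map p) := by
    have := hE X
    have := hE Y
    exact rlpI_of_kanFib_of_whe_of_kanComplex _ (hE' p hp) ((hw' p).2 hw)
  refine rlpI_of_whe_fibres hp fun y => ?_
  rw [← hw']
  refine rlpI_le_whe _ ?_
  exact MorphismProperty.of_isPullback (P := I.{u}.rlp)
    ((IsPullback.of_hasPullback p y).map E) htriv

end Vale.Agent.P213
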