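import Mathlib.AlgebraicTopology.SimplicialSet.Homotopy
import Mathlib.AlgebraicTopology.SimplicialSet.KanComplex
import Mathlib.AlgebraicTopology.SimplicialSet.Subdivision
import Mathlib.AlgebraicTopology.ModelCategory.Basic
import Mathlib.CategoryTheory.Limits.Presheaf
import Vale.Agent.P213.Bdl.B10

/-!
Second statement-level formulation for problem P213, part 2.
-/

open CategoryTheory Simplicial MonoidalCategory Limits HomotopicalAlgebra SSet.modelCategoryQuillen

namespace Vale.Agent.P213.St2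

alias p₁ := isFun_id
alias p₂ := isFun_comp
alias p₃ := isTab_d
alias p₄ := isTab_comp
alias p₅ := isTab_push

def Fun.one (A : Raw) : Fun A A := ⟨fun x => x, p₁ A⟩

def Fun.mul {A B C : Raw} (F : Fun A B) (G : Fun B C) : Fun A C := ⟨fun x => G.fn (F.fn x), p₂ F G⟩

instance : Category Raw where
  Hom := Fun
  id := Fun.one
  comp := Fun.mul

/-- Small strict `n`-categories. -/
def NCat (n : ℕ∞) : Type 1 := ObjectProperty.FullSubcategory (IsNCat n)

instance (n : ℕ∞) : Category.{0} (NCat n) := ObjectProperty.FullSubcategory.category _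

variable {m k : ℕ} {a b c : SimplexCategory}

/-- The tables of the simplex with `m` vertices. -/
def Tabs (m : ℕ) : Raw where
  Cel := Tab m
  bd e n x := ⟨x.ch.sd e n, p₃ e n x⟩
  cmp n x y h := ⟨x.ch.cc n y.ch, p₄ n x y _ _ h⟩

def Tab.im (θ : Fin m →o Fin k) (x : Tab m) : Tab k := ⟨x.ch.push θ, p₅ θ x⟩

theorem p₆ (θ : Fin m →o Fin k) : @IsFun (Tabs m) (Tabs k) (Tab.im θ) :=
  ⟨fun e n x => Tab.ext (push_d θ e n x),
    fun n x y h _ => Tab.ext (push_comp θ n x y (congrArg Tab.ch h))⟩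

/-- Street's orientals. -/
def Or (a : SimplexCategory) : Raw := Tabs (a.len + 1)

def Or.mor (θ : a ⟶ b) : Fun (Or a) (Or b) := ⟨Tab.im θ.toOrderHom, p₆ _⟩

theorem p₇ : Or.mor (𝟙 a) = Fun.one _ := Fun.ext fun x => Tab.ext (push_id x)

theorem p₈ (θ : a ⟶ b) (θ' : b ⟶ c) : Or.mor (θ ≫ θ') = (Or.mor θ).mul (Or.mor θ') :=
  Fun.ext fun x => Tab.ext (push_push _ _ x)

/-- The cosimplicial object of orientals. -/
def oriental : SimplexCategory ⥤ Raw := ⟨Or, Or.mor, @p₇, p₈⟩

/-- The Street nerve. -/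
def nerve (n : ℕ∞) : NCat n ⥤ SSet.{0} :=
  ObjectProperty.ι (IsNCat n) ⋙ Presheaf.restrictedULiftYoneda.{0} oriental

/-- Simplicial homotopy. -/
def Htpy {X Y : SSet.{0}} (f g : X ⟶ Y) : Prop :=
  ∃ h : X ⊗ Δ[1] ⟶ Y, SSet.ι₀ ≫ h = f ∧ SSet.ι₁ ≫ h = g

/-- Weak homotopy equivalences: bijections `[Y, K] → [X, K]` for all Kan complexes `K`. -/
def whe : MorphismProperty SSet.{0} := fun _ _ f => ∀ (K : SSet.{0}) [SSet.KanComplex K],
  (∀ g, ∃ h : _ ⟶ K, Htpy (f ≫ h) g) ∧ ∀ g h : _ ⟶ K, Htpy (f ≫ g) (f ≫ h) → Htpy g h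

/-- The three classes form a model structure. -/
def IsModel {C : Type 1} [Category.{0} C] (cof w fib : MorphismProperty C) : Prop :=
  ∃ M : ModelCategory C,
    @cofibrations C _ M.categoryWithCofibrations = cof ∧
    @weakEquivalences C _ M.categoryWithWeakEquivalences = w ∧
    @fibrations C _ M.categoryWithFibrations = fib

variable {D : Type 1} [Category.{0} D]

/-- Quillen equivalences between simplicial sets and `D`. -/
def IsQuillenEq {L : SSet.{0} ⥤ D} {R : D ⥤ SSet.{0}} (adj : L ⊣ R)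
    (cof w fib : MorphismProperty D) : Prop :=
  (∀ K K' (i : K ⟶ K'), Mono i → cof (L.map i) ∧ (whe i → w (L.map i))) ∧
  ∀ K X Y (p : X ⟶ Y) (_ : IsTerminal Y) (f : L.obj K ⟶ X), fib p →
    (w f ↔ whe (adj.homEquiv K X f))

variable (N : D ⥤ SSet.{0})

/-- Thomason weak equivalences. -/
def thW : MorphismProperty D := whe.inverseImage N

/-- Thomason fibrations. -/
def thF : MorphismProperty D := J.rlp.inverseImage (N ⋙ SSet.ex ⋙ SSet.ex)

/-- Thomason cofibrations. -/
def thC : MorphismProperty D := (thF N ⊓ thW N).llp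

/-- The Kan-Quillen classes and the Thomason classes form model structures, `N` has a left
adjoint, and for every left adjoint `c` the adjunction `c Sd² ⊣ Ex² N` is a Quillen
equivalence. -/
def IsThomason : Prop :=
  IsModel (.monomorphisms SSet.{0}) whe J.rlp ∧ IsModel (thC N) (thW N) (thF N) ∧
  N.IsRightAdjoint ∧ ∀ c (h : c ⊣ N), IsQuillenEq
    ((SSet.sdExAdjunction.comp SSet.sdExAdjunction).comp h) (thC N) (thW N) (thF N)

end Vale.Agent.P213.St2
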