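import Mathlib.CategoryTheory.Equivalence
import Mathlib.AlgebraicTopology.ModelCategory.Transport
import Mathlib.AlgebraicTopology.ModelCategory.Basic
import Mathlib.AlgebraicTopology.SimplicialSet.Skeleton
import Mathlib.AlgebraicTopology.SimplicialSet.Monomorphisms
import Mathlib.AlgebraicTopology.SimplicialSet.CategoryWithFibrations
import Mathlib.AlgebraicTopology.SimplicialSet.AnodyneExtensions.Basic
import Mathlib.CategoryTheory.Adjunction.Unique
import Mathlib.CategoryTheory.Limits.Types.Pullbacks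
import Mathlib.SetTheory.Cardinal.Finite
import Mathlib.Order.Minimal
import Mathlib.Data.Set.Card
import Vale.Agent.P213.Bdl.K_St2_B
import Vale.Agent.P213.Bdl.B2
import Vale.Agent.P213.Bdl.K_KQ_Fibres
import Vale.Agent.P213.Bdl.B11
import Vale.Agent.P213.Bdl.B12
import Vale.Agent.P213.Bdl.K_KQ_TrivCof
import Vale.Agent.P213.Bdl.B8
import Vale.Agent.P213.Bdl.K_KQ_SdNerve
import Vale.Agent.P213.Bdl.B9

set_option linter.all false

section

/-!
Comparison of the second statement-level formulation with the internal one: categories.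
-/

open CategoryTheory Finset

namespace Vale.Agent.P213.St2

/-! ### The orientals -/

section Tables

variable {m : ℕ}

/-- The cell of a table. -/
noncomputable def tC (x : (Tabs m).Cel) : Cell (simplexCx (Fin m)) := toCell x

theorem tC_bd (e : Bool) (n : ℕ) (x : (Tabs m).Cel) :
    tC ((Tabs m).bd e n x) = OmegaStr.d e n (tC x) :=
  (rep_toCell _).inj ((rep_toCell x).sd e n)

theorem tC_cmp (n : ℕ) (x y : (Tabs m).Cel) (h : Cp (Tabs m) n x y)
    (h' : OmegaStr.d true n (tC x) = OmegaStr.d false n (tC y)) :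
    tC ((Tabs m).cmp n x y h) = OmegaStr.comp n (tC x) (tC y) h' :=
  (rep_toCell _).inj ((rep_toCell x).cc (rep_toCell y) h')

theorem tC_cp {n : ℕ} {x y : (Tabs m).Cel} (h : Cp (Tabs m) n x y) :
    OmegaStr.d true n (tC x) = OmegaStr.d false n (tC y) := by
  rw [← tC_bd, ← tC_bd]
  exact congrArg tC h

theorem tC_injective : Function.Injective (tC : (Tabs m).Cel → _) := fun x y h =>
  Tab.ext ((rep_toCell x).eq ((show toCell x = toCell y from h) ▸ rep_toCell y))

/-- The table of a cell. -/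
noncomputable def oC (c : Cell (simplexCx (Fin m))) : (Tabs m).Cel :=
  Tab.mk (Classical.choose (exists_rep c)) (Classical.choose_spec (exists_rep c)).isTab

theorem tC_oC (c : Cell (simplexCx (Fin m))) : tC (oC c) = c :=
  (rep_toCell _).inj (Classical.choose_spec (exists_rep c))

theorem oC_tC (x : (Tabs m).Cel) : oC (tC x) = x :=
  tC_injective (tC_oC _)

theorem oC_d (e : Bool) (n : ℕ) (c : Cell (simplexCx (Fin m))) :
    oC (OmegaStr.d e n c) = (Tabs m).bd e n (oC c) :=
  tC_injective (by rw [tC_bd, tC_oC, tC_oC])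

theorem oC_cp {n : ℕ} {c c' : Cell (simplexCx (Fin m))}
    (h : OmegaStr.d true n c = OmegaStr.d false n c') : Cp (Tabs m) n (oC c) (oC c') := by
  change (Tabs m).bd true n (oC c) = (Tabs m).bd false n (oC c')
  rw [← oC_d, ← oC_d, h]

theorem oC_comp (n : ℕ) (c c' : Cell (simplexCx (Fin m)))
    (h : OmegaStr.d true n c = OmegaStr.d false n c') :
    oC (OmegaStr.comp n c c' h) = (Tabs m).cmp n (oC c) (oC c') (oC_cp h) := by
  apply tC_injective
  have h' : OmegaStr.d true n (tC (oC c)) = OmegaStr.d false n (tC (oC c')) := by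
    rw [tC_oC, tC_oC, h]
  rw [tC_cmp n _ _ _ h', tC_oC]
  simp only [tC_oC]

theorem tC_im {k : ℕ} (θ : Fin m →o Fin k) (x : (Tabs m).Cel) :
    tC (m := k) (Tab.im θ x) = (tC x).map (simplexMap θ) :=
  (rep_toCell _).inj ((rep_toCell x).push θ)

end Tables

section

variable {A B : Raw} {n : ℕ∞}

/-- The internal structure of a strict `n`-category. -/
@[implicit_reducible] def rStr (h : IsNCat n A) : OmegaStr A.Cel where
  d := A.bd
  comp := A.cmp
  finite_dim := h.1
  d_d_of_lt a b m k x hk := by rw [h.2.2.1, if_pos hk]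
  d_d_of_le a b m k x hk := by rw [h.2.2.1, if_neg (not_lt.2 hk)]
  src_comp k x y e := (h.2.2.2.2.2 k x y e).1
  tgt_comp k x y e := (h.2.2.2.2.2 k x y e).2.1
  d_comp a m k x y e e' hk := (h.2.2.2.2.2 k x y e).2.2.1 a m e' hk
  id_comp k x e := h.2.2.2.1 k x e
  comp_id k x e := h.2.2.2.2.1 k x e
  assoc k x y z h₁ h₂ h₃ h₄ := (h.2.2.2.2.2 k x y h₁).2.2.2.1 z h₂ h₃ h₄
  interchange m k x y z w hk h₁ h₂ h₃ h₄ h₅ h₆ :=
    (h.2.2.2.2.2 k x y h₁).2.2.2.2 m z w h₂ h₅ h₃ h₄ h₆ hk

theorem isNCat_of (s : OmegaStr A.Cel) (hd : ∀ e k x, s.d e k x = A.bd e k x)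
    (hc : ∀ k x y h h', s.comp k x y h = A.cmp k x y h')
    (hn : ∀ k : ℕ, n ≤ k → ∀ x, A.bd false k x = x) : IsNCat n A := by
  have hd' : A.bd = s.d := by
    funext e k x; exact (hd e k x).symm
  obtain ⟨Cel, bd, cmp⟩ := A
  simp only at s hd hc hn hd'
  subst hd'
  have hc' : cmp = s.comp := by
    funext k x y h; exact (hc k x y h h).symm
  subst hc'
  refine ⟨s.finite_dim, hn, ?_, ?_, ?_, ?_⟩
  · intro e e' k m x
    split_ifs with hk
    · exact s.d_d_of_lt _ _ _ _ _ hk
    · exact s.d_d_of_le _ _ _ _ _ (not_lt.1 hk)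
  · exact fun k x h => s.id_comp k x h
  · exact fun k x h => s.comp_id k x h
  · intro k x y h
    refine ⟨s.src_comp k x y h, s.tgt_comp k x y h, ?_, ?_, ?_⟩
    · exact fun e m h' hk => s.d_comp e m k x y h h' hk
    · exact fun z h₁ h₂ h₃ => s.assoc k x y z h h₁ h₂ h₃
    · exact fun m z w h₁ h₂ h₃ h₄ h₅ hk => s.interchange m k x y z w hk h h₁ h₃ h₄ h₂ h₅

/-- The orientals are strict omega-categories. -/
theorem isNCat_tabs (m : ℕ) : IsNCat ⊤ (Tabs m) := by
  have hcp : ∀ {n : ℕ} {x y : (Tabs m).Cel}, Cp (Tabs m) n x y →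
      OmegaStr.d true n (tC x) = OmegaStr.d false n (tC y) := tC_cp
  refine ⟨?_, ?_, ?_, ?_, ?_, ?_⟩
  · intro x
    obtain ⟨k, hk⟩ := OmegaStr.finite_dim (tC x)
    exact ⟨k, tC_injective ((tC_bd _ _ _).trans hk)⟩
  · intro k hk
    exact absurd hk (not_le.2 (ENat.natCast_lt_top k))
  · intro e e' k m x
    apply tC_injective
    split_ifs with hk
    · rw [tC_bd, tC_bd, tC_bd]
      exact OmegaStr.d_d_of_lt _ _ _ _ _ hk
    · rw [tC_bd, tC_bd]
      exact OmegaStr.d_d_of_le _ _ _ _ _ (not_lt.1 hk)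
  · intro k x h
    apply tC_injective
    refine (tC_cmp _ _ _ h (hcp h)).trans ?_
    simp only [tC_bd]
    exact OmegaStr.id_comp _ _ _
  · intro k x h
    apply tC_injective
    refine (tC_cmp _ _ _ h (hcp h)).trans ?_
    simp only [tC_bd]
    exact OmegaStr.comp_id _ _ _
  · intro k x y h
    refine ⟨?_, ?_, ?_, ?_, ?_⟩
    · apply tC_injective
      rw [tC_bd, tC_bd, tC_cmp _ _ _ _ (hcp h)]
      exact OmegaStr.src_comp _ _ _ _
    · apply tC_injective
      rw [tC_bd, tC_bd, tC_cmp _ _ _ _ (hcp h)]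
      exact OmegaStr.tgt_comp _ _ _ _
    · intro e m h' hk
      apply tC_injective
      rw [tC_bd, tC_cmp _ _ _ _ (hcp h), tC_cmp _ _ _ _ (hcp h')]
      simp only [tC_bd]
      exact OmegaStr.d_comp _ _ _ _ _ _ _ hk
    · intro z h₁ h₂ h₃
      apply tC_injective
      rw [tC_cmp _ _ _ _ (hcp h₂), tC_cmp _ _ _ _ (hcp h₃)]
      simp only [tC_cmp _ _ _ _ (hcp h), tC_cmp _ _ _ _ (hcp h₁)]
      exact OmegaStr.assoc _ _ _ _ _ _ _ _
    · intro m z w h₁ h₂ h₃ h₄ h₅ hk
      apply tC_injective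
      rw [tC_cmp _ _ _ _ (hcp h₂), tC_cmp _ _ _ _ (hcp h₅)]
      simp only [tC_cmp _ _ _ _ (hcp h), tC_cmp _ _ _ _ (hcp h₁),
        tC_cmp _ _ _ _ (hcp h₃), tC_cmp _ _ _ _ (hcp h₄)]
      exact OmegaStr.interchange _ _ _ _ _ _ hk _ _ _ _ _ _

end

end Vale.Agent.P213.St2
end

section

/-!
Comparison of the second statement-level formulation with the internal one: the nerve.
-/

open CategoryTheory Finset Opposite

namespace Vale.Agent.P213.St2

variable {n : ℕ∞}

/-- The internal omega-category. -/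
def rCat (X : NCat n) : OmegaCat.{0} := @OmegaCat.mk X.obj.Cel (rStr X.property)

/-- The internal functor. -/
def rFun {X Y : NCat n} (φ : X ⟶ Y) : rCat X ⟶ rCat Y :=
  @OmegaFun.mk X.obj.Cel Y.obj.Cel (rStr X.property) (rStr Y.property) φ.hom.fn φ.hom.prf.1
    (fun k x y h h' => φ.hom.prf.2 k x y h h')

/-- The comparison functor. -/
def toR (n : ℕ∞) : NCat n ⥤ P213.NCat.{0} n where
  obj X := ⟨rCat X, fun k hk x => X.property.2.1 k hk x⟩
  map φ := ⟨rFun φ⟩
  map_id _ := rfl
  map_comp _ _ := rfl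

instance : (toR n).Faithful where
  map_injective := by
    rintro X Y ⟨⟨f, _⟩⟩ ⟨⟨g, _⟩⟩ h
    have h' : f = g := congrArg (fun φ => @OmegaFun.toFun ((toR n).obj X).obj.carrier
      ((toR n).obj Y).obj.carrier _ _ (InducedCategory.Hom.hom φ)) h
    subst h'
    rfl

instance : (toR n).Full where
  map_surjective := by
    intro X Y g
    refine ⟨⟨(⟨@OmegaFun.toFun ((toR n).obj X).obj.carrier
      ((toR n).obj Y).obj.carrier _ _ g.hom, fun a k x => ?_, fun k x y h h' => ?_⟩ :
      Fun X.obj Y.obj)⟩, ?_⟩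
    · exact @OmegaFun.map_d ((toR n).obj X).obj.carrier
        ((toR n).obj Y).obj.carrier _ _ g.hom a k x
    · exact @OmegaFun.map_comp ((toR n).obj X).obj.carrier
        ((toR n).obj Y).obj.carrier _ _ g.hom k x y h h'
    · rfl

/-- The statement-level strict `n`-category of an internal one. -/
def ofR (Y : P213.NCat.{0} n) : NCat n :=
  ⟨⟨Y.obj.carrier, OmegaStr.d, OmegaStr.comp⟩,
    isNCat_of Y.obj.str (fun _ _ _ => rfl) (fun _ _ _ _ _ => rfl) Y.property⟩

instance : (toR n).EssSurj where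
  mem_essImage Y := ⟨ofR Y, ⟨Iso.refl _⟩⟩

instance : (toR n).IsEquivalence where

/-- Simplices of the nerve. -/
noncomputable def simpEquiv (X : NCat n) (a : SimplexCategory) :
    (oriental.obj a ⟶ X.obj) ≃ (P213.oriental.obj a ⟶ rCat X) where
  toFun f := @OmegaFun.mk (Cell (simplexCx (Fin (a.len + 1)))) X.obj.Cel _ (rStr X.property)
    (fun c => f.fn (oC c))
    (fun e k c => (congrArg f.fn (oC_d e k c)).trans (f.prf.1 e k _))
    (fun k c c' h h' => (congrArg f.fn (oC_comp k c c' h)).trans (f.prf.2 k _ _ _ h'))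
  invFun g := ⟨fun x => @OmegaFun.toFun (Cell (simplexCx (Fin (a.len + 1)))) X.obj.Cel _
      (rStr X.property) g (tC x),
    fun e k x => (congrArg _ (tC_bd e k x)).trans
      (@OmegaFun.map_d (Cell (simplexCx (Fin (a.len + 1)))) X.obj.Cel _
        (rStr X.property) g e k _),
    fun k x y h h' => (congrArg _ (tC_cmp k x y h (tC_cp h))).trans
      (@OmegaFun.map_comp (Cell (simplexCx (Fin (a.len + 1)))) X.obj.Cel _
        (rStr X.property) g k _ _ _ h')⟩
  left_inv f := Fun.ext fun x => congrArg f.fn (oC_tC x)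
  right_inv g := by
    apply @OmegaFun.ext (Cell (simplexCx (Fin (a.len + 1)))) X.obj.Cel _ (rStr X.property)
    intro c
    exact congrArg (@OmegaFun.toFun (Cell (simplexCx (Fin (a.len + 1)))) X.obj.Cel _
      (rStr X.property) g) (tC_oC c)

theorem oC_map {m k : ℕ} (θ : Fin m →o Fin k) (c : Cell (simplexCx (Fin m))) :
    (Tab.im θ (oC c) : (Tabs k).Cel) = oC (c.map (simplexMap θ)) :=
  tC_injective (by rw [tC_im, tC_oC, tC_oC])

/-- The two nerves agree. -/
noncomputable def nerveIso (n : ℕ∞) : nerve n ≅ toR n ⋙ nerveN n :=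
  NatIso.ofComponents (fun X => NatIso.ofComponents (fun a =>
    (Equiv.ulift.trans (simpEquiv X a.unop)).toIso) (by
      intro a b θ
      ext ⟨f⟩
      apply @OmegaFun.ext (Cell (simplexCx (Fin (b.unop.len + 1)))) X.obj.Cel _ (rStr X.property)
      intro c
      exact congrArg f.fn (oC_map _ c))) (by
    intro X Y φ
    ext a ⟨f⟩
    rfl)

end Vale.Agent.P213.St2
end

section

/-!
Transport of the Thomason statement along an equivalence of categories.
-/

open CategoryTheory Simplicial MonoidalCategory Limits HomotopicalAlgebra SSet.modelCategoryQuillen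

namespace Vale.Agent.P213.St2

theorem whe_eq : (P213.whe : MorphismProperty SSet.{0}) = whe := by
  ext X Y f
  exact P213.whe_iff

theorem kanFib_eq : (P213.kanFib : MorphismProperty SSet.{0}) = J.rlp := rfl

section

variable {D D' : Type 1} [Category.{0} D] [Category.{0} D'] (F : D' ⥤ D)
  {N : D ⥤ SSet.{0}} {N' : D' ⥤ SSet.{0}} (i : N' ≅ F ⋙ N)

include i in
theorem thW_eq : thW N' = (P213.thW N).inverseImage F := by
  ext X Y f
  rw [thW, ← whe_eq]
  exact MorphismProperty.arrow_mk_iso_iff _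
    (Arrow.isoMk (i.app X) (i.app Y) (i.hom.naturality f).symm)

include i in
theorem thF_eq : thF N' = (P213.thF N).inverseImage F := by
  ext X Y f
  refine MorphismProperty.arrow_mk_iso_iff J.rlp
    (Arrow.isoMk ((SSet.ex ⋙ SSet.ex).mapIso (i.app X))
    ((SSet.ex ⋙ SSet.ex).mapIso (i.app Y)) ?_)
  change (SSet.ex ⋙ SSet.ex).map (i.hom.app X) ≫ (SSet.ex ⋙ SSet.ex).map (N.map (F.map f)) =
    (SSet.ex ⋙ SSet.ex).map (N'.map f) ≫ (SSet.ex ⋙ SSet.ex).map (i.hom.app Y)
  rw [← Functor.map_comp, ← Functor.map_comp]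
  exact congrArg _ (i.hom.naturality f).symm

variable [F.IsEquivalence]

theorem llp_inverseImage (W : MorphismProperty D) [W.RespectsIso] :
    (W.inverseImage F).llp = W.llp.inverseImage F := by
  ext X Y f
  constructor
  · intro hf A B g hg
    have e : Arrow.mk (F.map (F.inv.map g)) ≅ Arrow.mk g :=
      Arrow.isoMk (F.asEquivalence.counitIso.app A) (F.asEquivalence.counitIso.app B)
        (F.asEquivalence.counitIso.hom.naturality g).symm
    have h1 : W (F.map (F.inv.map g)) := (W.arrow_mk_iso_iff e).2 hg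
    have h2 : HasLiftingProperty f (F.inv.map g) := hf _ h1
    have h3 : HasLiftingProperty (F.map f) (F.map (F.inv.map g)) :=
      (F.hasLiftingProperty_iff_of_isEquivalence _ _).2 h2
    exact HasLiftingProperty.of_arrow_iso_right (F.map f) e
  · intro hf A B g hg
    exact (F.hasLiftingProperty_iff_of_isEquivalence _ _).1 (hf _ hg)

instance : (P213.thW N).RespectsIso :=
  inferInstanceAs (P213.whe.inverseImage N).RespectsIso

instance : (P213.thF N).RespectsIso :=
  inferInstanceAs (J.rlp.inverseImage (N ⋙ SSet.ex ⋙ SSet.ex)).RespectsIso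

include i in
theorem thC_eq : thC N' = (P213.thC N).inverseImage F := by
  rw [thC, thF_eq F i, thW_eq F i]
  exact llp_inverseImage F (P213.thF N ⊓ P213.thW N)

include i in
theorem isModel_transport (h : P213.IsModelStructure (P213.thC N) (P213.thW N) (P213.thF N)) :
    IsModel (thC N') (thW N') (thF N') := by
  obtain ⟨M, h1, h2, h3⟩ := h
  let _ : CategoryWithCofibrations D' := ⟨thC N'⟩
  let _ : CategoryWithFibrations D' := ⟨thF N'⟩
  let _ : CategoryWithWeakEquivalences D' := ⟨thW N'⟩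
  refine ⟨ModelCategory.transport F.asEquivalence ?_ ?_ ?_, rfl, rfl, rfl⟩
  · change thC N' = (cofibrations D).inverseImage F
    rw [h1]; exact thC_eq F i
  · change thF N' = (fibrations D).inverseImage F
    rw [h3]; exact thF_eq F i
  · change thW N' = (weakEquivalences D).inverseImage F
    rw [h2]; exact thW_eq F i

end

section

variable {D D' : Type 1} [Category.{0} D] [Category.{0} D'] (e : D' ≌ D)
  {N : D ⥤ SSet.{0}} {N' : D' ⥤ SSet.{0}} (i : N' ≅ e.functor ⋙ N)

/-- The adjunction with the internal nerve. -/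
noncomputable def adjR {c : SSet.{0} ⥤ D'} (adj : c ⊣ N') : c ⋙ e.functor ⊣ N :=
  ((adj.ofNatIsoRight i).comp e.toAdjunction).ofNatIsoRight
    ((Functor.associator _ _ _).symm ≪≫ Functor.isoWhiskerRight e.counitIso N ≪≫
      N.leftUnitor)

theorem adjR_homEquiv {c : SSet.{0} ⥤ D'} (adj : c ⊣ N') (K : SSet.{0}) (X : D')
    (f : c.obj K ⟶ X) : (adjR e i adj).homEquiv K (e.functor.obj X) (e.functor.map f) =
      adj.homEquiv K X f ≫ i.hom.app X := by
  rw [adjR, Adjunction.homEquiv_ofNatIsoRight_apply, Adjunction.comp_homEquiv]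
  have h1 : (e.toAdjunction.homEquiv (c.obj K) (e.functor.obj X)) (e.functor.map f) =
      f ≫ e.unit.app X := by
    rw [Adjunction.homEquiv_unit]
    exact (e.unit.naturality f).symm
  have h2 : ((e.inverse.associator e.functor N).symm ≪≫ Functor.isoWhiskerRight e.counitIso N ≪≫
      N.leftUnitor).hom.app (e.functor.obj X) = N.map (e.counit.app (e.functor.obj X)) := by
    simp
  rw [h2]
  change (adj.ofNatIsoRight i).homEquiv K _
    ((e.toAdjunction.homEquiv (c.obj K) (e.functor.obj X)) (e.functor.map f)) ≫ _ = _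
  rw [h1, Adjunction.homEquiv_naturality_right, Category.assoc,
    Adjunction.homEquiv_ofNatIsoRight_apply]
  change (_ ≫ i.hom.app X) ≫ N.map (e.functor.map (e.unit.app X)) ≫ _ = _
  rw [← N.map_comp, e.functor_unit_comp, N.map_id]
  exact Category.comp_id _

include e i in
theorem isQuillenEq_transport (hN : P213.IsThomason N) {c : SSet.{0} ⥤ D'} (adj : c ⊣ N') :
    IsQuillenEq ((SSet.sdExAdjunction.comp SSet.sdExAdjunction).comp adj)
      (thC N') (thW N') (thF N') := by
  have h := hN.quillenEquivalence (adjR e i adj)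
  rw [thC_eq e.functor i, thF_eq e.functor i, thW_eq e.functor i]
  refine ⟨fun K K' j hj => ⟨h.cof_map j hj, fun hw => ?_⟩, ?_⟩
  · rw [← whe_eq] at hw
    exact h.trivCof_map j hj hw
  · intro K X Y p hY f hp
    have h1 := h.equiv K (e.functor.obj X) (e.functor.obj Y) (hY.isTerminalObj e.functor)
      (e.functor.map p) hp (e.functor.map f)
    refine h1.trans ?_
    rw [← whe_eq]
    have h2 : (((SSet.sdExAdjunction.comp SSet.sdExAdjunction).comp (adjR e i adj)).homEquiv K
        (e.functor.obj X)) (e.functor.map f) =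
        ((SSet.sdExAdjunction.comp SSet.sdExAdjunction).comp adj).homEquiv K X f ≫
          (SSet.ex ⋙ SSet.ex).map (i.hom.app X) := by
      rw [Adjunction.comp_homEquiv, Adjunction.comp_homEquiv]
      change (SSet.sdExAdjunction.comp SSet.sdExAdjunction).homEquiv _ _
        ((adjR e i adj).homEquiv _ _ (e.functor.map f)) = _
      rw [adjR_homEquiv, Adjunction.homEquiv_naturality_right]
      rfl
    rw [h2]
    exact (MorphismProperty.cancel_right_of_respectsIso P213.whe _ _)

include e i in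
theorem isThomason_transport (h : P213.IsThomason N) : IsThomason N' := by
  refine ⟨?_, isModel_transport e.functor i h.model, ?_, fun c adj =>
    isQuillenEq_transport e i h adj⟩
  · rw [← whe_eq]
    exact h.kanQuillen
  · have := h.isRightAdjoint
    exact Functor.isRightAdjoint_of_iso i.symm

end

end Vale.Agent.P213.St2
end

section

/-!
# The Kan-Quillen model structure, assuming that Kan fibrations which are weak equivalences
are trivial fibrations (KQ6, part 2)
-/

universe u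

open CategoryTheory MonoidalCategory CartesianMonoidalCategory Simplicial
  HomotopicalAlgebra Limits SSet MorphismProperty

namespace Vale.Agent.P213

open SSet.modelCategoryQuillen (I J J_le_monomorphisms)

instance kanFib_isStableUnderRetracts : kanFib.{u}.IsStableUnderRetracts := by
  unfold kanFib
  infer_instance

/-- The weak factorization system (anodyne extensions, Kan fibrations). -/
instance wfs_anodyne_kanFib :
    IsWeakFactorizationSystem anodyneExtensions.{u} kanFib.{u} := by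
  have : HasFactorization anodyneExtensions.{u} kanFib.{u} := by
    rw [anodyneExtensions_eq_llp_rlp]
    exact inferInstanceAs (HasFactorization J.{u}.rlp.llp J.{u}.rlp)
  exact IsWeakFactorizationSystem.mk' _ _ (fun i p hi hp => hi p hp)

lemma monomorphisms_eq_llp : monomorphisms SSet.{u} = I.{u}.rlp.llp := by
  apply le_antisymm
  · intro A B i (hi : Mono i) X Y p hp
    exact rlpI_hasLift hp i
  · exact SdMono.I_rlp_llp_le

/-- The weak factorization system (monomorphisms, trivial Kan fibrations). -/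
instance wfs_mono_rlpI :
    IsWeakFactorizationSystem (monomorphisms SSet.{u}) I.{u}.rlp := by
  have : HasFactorization (monomorphisms SSet.{u}) I.{u}.rlp := by
    rw [monomorphisms_eq_llp]
    infer_instance
  exact IsWeakFactorizationSystem.mk' _ _ (fun i p (hi : Mono i) hp => rlpI_hasLift hp i)

variable (h : ∀ {X Y : SSet.{u}} (p : X ⟶ Y), kanFib p → whe p → I.{u}.rlp p)

include h in
lemma trivCof_eq_of : trivCof.{u} = anodyneExtensions := by
  apply le_antisymm
  · rintro A B f ⟨(hf : Mono f), hw⟩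
    let d := factorizationData anodyneExtensions.{u} kanFib.{u} f
    have hi : anodyneExtensions d.i := d.hi
    have hp : kanFib d.p := d.hp
    have hpw : whe d.p := (anodyne_le_whe _ hi).cancel_pre (by rw [d.fac]; exact hw)
    have hl := rlpI_hasLift (h _ hp hpw) f
    have sq : CommSq d.i f d.p (𝟙 _) := ⟨by rw [d.fac, Category.comp_id]⟩
    let r : RetractArrow f d.i :=
      { i := Arrow.homMk (𝟙 _) sq.lift (by simp)
        r := Arrow.homMk (𝟙 _) d.p (by simp)  }
    exact anodyneExtensions.of_retract r hi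
  · intro A B f hf
    exact ⟨anodyne_mono hf, anodyne_le_whe _ hf⟩

include h in
theorem kanQuillen_of : IsModelStructure (monomorphisms SSet.{u}) whe kanFib := by
  let _ : CategoryWithCofibrations SSet.{u} := ⟨monomorphisms _⟩
  let _ : CategoryWithFibrations SSet.{u} := ⟨kanFib⟩
  let _ : CategoryWithWeakEquivalences SSet.{u} := ⟨whe⟩
  have h₁ : trivialFibrations SSet.{u} = I.{u}.rlp := by
    apply le_antisymm
    · rintro X Y p ⟨h₁, h₂⟩
      exact h p h₁ h₂
    · intro X Y p hp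
      refine ⟨?_, rlpI_le_whe _ hp⟩
      rintro _ _ i hi
      have : Mono i := J_le_monomorphisms _ hi
      exact rlpI_hasLift hp i
  have h₂ : trivialCofibrations SSet.{u} = anodyneExtensions := trivCof_eq_of h
  have : (weakEquivalences SSet.{u}).HasTwoOutOfThreeProperty := whe_twoOutOfThree
  have : IsWeakFactorizationSystem (cofibrations SSet.{u}) (trivialFibrations SSet.{u}) := by
    rw [h₁]
    exact wfs_mono_rlpI
  have : IsWeakFactorizationSystem (trivialCofibrations SSet.{u}) (fibrations SSet.{u}) := by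
    rw [h₂]
    exact wfs_anodyne_kanFib
  exact ⟨ModelCategory.mk' SSet.{u}, rfl, rfl, rfl⟩

end Vale.Agent.P213
end

section

/-!
# The Kan-Quillen model structure on simplicial sets (KQ6)
-/

universe u

open CategoryTheory HomotopicalAlgebra Limits SSet MorphismProperty

namespace Vale.Agent.P213

open SSet.modelCategoryQuillen (I J)

/-- A Kan fibration which is a weak homotopy equivalence is a trivial fibration. -/
lemma rlpI_of_kanFib_of_whe {X Y : SSet.{u}} (p : X ⟶ Y) (hp : kanFib p) (hw : whe p) :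
    I.rlp p :=
  rlpI_of_kanFib_of_whe_of_functor exInf toExInf
    (fun X => anodyne_le_whe _ (anodyne_toExInf X)) (fun X => kanComplex_exInf X)
    (fun p hp => kanFib_exInf p hp) p hp hw

lemma trivCof_eq : trivCof.{u} = SSet.anodyneExtensions :=
  trivCof_eq_of rlpI_of_kanFib_of_whe

/-- The Kan-Quillen model structure on simplicial sets. -/
theorem kanQuillen : IsModelStructure (monomorphisms SSet.{u}) whe kanFib :=
  kanQuillen_of rlpI_of_kanFib_of_whe

end Vale.Agent.P213
end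

section

/-!
All the facts about the Kan-Quillen model structure, `Sd` and `Ex`.
-/
end

section

/-!
AS2, part 1: the class `W₀` of monomorphisms of simplicial sets satisfying the
condition `Good` (without the double subdivision), and its closure properties.
-/

open CategoryTheory HomotopicalAlgebra Simplicial MonoidalCategory Limits MorphismProperty

universe v u

namespace Vale.Agent.P213.AS

section

variable {D : Type (u + 1)} [Category.{v} D] {c : SSet.{u} ⥤ D} {N : D ⥤ SSet.{u}} (adj : c ⊣ N)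

/-- the condition `Good` for `s : A ⟶ B` itself -/
structure Good₀ {A B : SSet.{u}} (s : A ⟶ B) : Prop where
  mono : ∀ {X P : D} (a : c.obj A ⟶ X) (b : c.obj B ⟶ P) (j : X ⟶ P),
    IsPushout (c.map s) a b j → Mono (N.map j)
  whe : ∀ {X P : D} (a : c.obj A ⟶ X) (b : c.obj B ⟶ P) (j : X ⟶ P)
    (_ : IsPushout (c.map s) a b j) {T : SSet.{u}} (b' : B ⟶ T) (j' : N.obj X ⟶ T)
    (_ : IsPushout s (adj.homEquiv _ _ a) b' j')
    (t : T ⟶ N.obj P) (_ : b' ≫ t = adj.homEquiv _ _ b) (_ : j' ≫ t = N.map j),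
    P213.whe t

lemma good_iff {K L : SSet.{u}} (i : K ⟶ L) :
    Good adj i ↔ Good₀ adj (SSet.sd.map (SSet.sd.map i)) :=
  ⟨fun h ↦ ⟨h.mono, h.whe⟩, fun h ↦ ⟨h.mono, h.whe⟩⟩

/-- the class of monomorphisms satisfying `Good₀` -/
def W₀ : MorphismProperty SSet.{u} := fun _ _ s ↦ Mono s ∧ Good₀ adj s

variable {adj}

lemma isIso_of_isPushout {C : Type*} [Category C] {A B X P : C} {s : A ⟶ B} {a : A ⟶ X}
    {b : B ⟶ P} {j : X ⟶ P} (sq : IsPushout s a b j) [hs : IsIso s] : IsIso j :=
  (isomorphisms C).of_isPushout sq.flip hs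

lemma mono_of_isPushout {A B X P : SSet.{u}} {s : A ⟶ B} {a : A ⟶ X}
    {b : B ⟶ P} {j : X ⟶ P} (sq : IsPushout s a b j) [hs : Mono s] : Mono j :=
  (monomorphisms SSet.{u}).of_isPushout sq.flip hs

lemma good₀_of_isIso {A B : SSet.{u}} (s : A ⟶ B) [IsIso s] : Good₀ adj s where
  mono a b j sq := by
    have : IsIso j := isIso_of_isPushout sq
    infer_instance
  whe a b j sq T b' j' sq' t h₁ h₂ := by
    have : IsIso j := isIso_of_isPushout sq
    have : IsIso j' := isIso_of_isPushout sq'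
    have : IsIso (N.map j) := inferInstance
    rw [← h₂] at this
    have : IsIso t := IsIso.of_isIso_comp_left j' t
    exact whe_of_isIso t

lemma Good₀.of_isPushout {A B A' B' : SSet.{u}} {s : A ⟶ B} {k : A ⟶ A'} {k' : B ⟶ B'}
    {s' : A' ⟶ B'} (sq : IsPushout s k k' s') (h : Good₀ adj s) : Good₀ adj s' := by
  have := adj.leftAdjoint_preservesColimits
  constructor
  · intro X P a b j sq'
    exact h.mono _ _ _ ((sq.map c).paste_vert sq')
  · intro X P a b j sq' T b' j' sq'' t h₁ h₂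
    have sq3 := sq.paste_vert sq''
    rw [← adj.homEquiv_naturality_left] at sq3
    refine h.whe _ _ _ ((sq.map c).paste_vert sq') _ _ sq3 t ?_ h₂
    rw [Category.assoc, h₁, adj.homEquiv_naturality_left]

lemma Good₀.comp [HasPushouts D] {A B B' : SSet.{u}} {s : A ⟶ B} {s' : B ⟶ B'}
    (h : Good₀ adj s) (h' : Good₀ adj s') [Mono s] [Mono s'] : Good₀ adj (s ≫ s') := by
  have aux : ∀ {X P : D} {a : c.obj A ⟶ X} {b : c.obj B' ⟶ P} {j : X ⟶ P}
      (_ : IsPushout (c.map (s ≫ s')) a b j),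
      ∃ (P₁ : D) (b₁ : c.obj B ⟶ P₁) (j₁ : X ⟶ P₁) (k : P₁ ⟶ P),
        IsPushout (c.map s) a b₁ j₁ ∧ IsPushout (c.map s') b₁ b k ∧ j₁ ≫ k = j := by
    intro X P a b j sq
    have sq₁ := IsPushout.of_hasPushout (c.map s) a
    rw [c.map_comp] at sq
    exact ⟨_, _, _, _, sq₁, IsPushout.of_left' sq sq₁, sq₁.inr_desc _ _ _⟩
  constructor
  · intro X P a b j sq
    obtain ⟨P₁, b₁, j₁, k, sq₁, sq₂, rfl⟩ := aux sq
    have := h.mono _ _ _ sq₁
    have := h'.mono _ _ _ sq₂
    rw [N.map_comp]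
    infer_instance
  · intro X P a b j sq T b' j' sq' t h₁ h₂
    obtain ⟨P₁, b₁, j₁, k, sq₁, sq₂, rfl⟩ := aux sq
    have sqT₁ := IsPushout.of_hasPushout s (adj.homEquiv _ _ a)
    have hl := IsPushout.of_left' sq' sqT₁
    set l := sqT₁.desc (s' ≫ b') j' (by rw [← Category.assoc, sq'.w]) with hl_def
    have hl₁ : pushout.inl s (adj.homEquiv _ _ a) ≫ l = s' ≫ b' := sqT₁.inl_desc _ _ _
    have hl₂ : pushout.inr s (adj.homEquiv _ _ a) ≫ l = j' := sqT₁.inr_desc _ _ _
    have ht₁w : s ≫ adj.homEquiv _ _ b₁ = adj.homEquiv _ _ a ≫ N.map j₁ := by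
      rw [← adj.homEquiv_naturality_left, sq₁.w, adj.homEquiv_naturality_right]
    let t₁ := sqT₁.desc (adj.homEquiv _ _ b₁) (N.map j₁) ht₁w
    have ht₁ : P213.whe t₁ := h.whe _ _ _ sq₁ _ _ sqT₁ t₁ (sqT₁.inl_desc _ _ _)
      (sqT₁.inr_desc _ _ _)
    have sqT₂ := IsPushout.of_hasPushout s' (adj.homEquiv _ _ b₁)
    have ht₂w : s' ≫ adj.homEquiv _ _ b = adj.homEquiv _ _ b₁ ≫ N.map k := by
      rw [← adj.homEquiv_naturality_left, sq₂.w, adj.homEquiv_naturality_right]
    let t₂ := sqT₂.desc (adj.homEquiv _ _ b) (N.map k) ht₂w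
    have ht₂ : P213.whe t₂ := h'.whe _ _ _ sq₂ _ _ sqT₂ t₂ (sqT₂.inl_desc _ _ _)
      (sqT₂.inr_desc _ _ _)
    have e₁ : pushout.inl s (adj.homEquiv _ _ a) ≫ t₁ = adj.homEquiv _ _ b₁ :=
      sqT₁.inl_desc _ _ _
    have e₂ : pushout.inr s (adj.homEquiv _ _ a) ≫ t₁ = N.map j₁ :=
      sqT₁.inr_desc _ _ _
    have sqT₂' : IsPushout s' (pushout.inl s (adj.homEquiv _ _ a) ≫ t₁)
      (pushout.inl s' (adj.homEquiv _ _ b₁)) (pushout.inr s' (adj.homEquiv _ _ b₁)) := by
      rw [e₁]; exact sqT₂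
    have sq₅ := IsPushout.of_top' sqT₂' hl
    have : Mono l := mono_of_isPushout hl
    have hm := whe_of_isPushout sq₅ ht₁
    set m := hl.desc (pushout.inl s' (adj.homEquiv _ _ b₁))
      (t₁ ≫ pushout.inr s' (adj.homEquiv _ _ b₁)) (by rw [sqT₂'.w, Category.assoc]) with hm_def
    have hmt : m ≫ t₂ = t := by
      apply sq'.hom_ext
      · rw [h₁, ← Category.assoc, hl.inl_desc]
        exact sqT₂.inl_desc _ _ _
      · rw [h₂, ← hl₂, Category.assoc, ← Category.assoc l, hl.inr_desc, Category.assoc]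
        rw [sqT₂.inr_desc, ← Category.assoc, e₂, N.map_comp]
    rw [← hmt]
    exact P213.whe.comp_mem _ _ hm ht₂

end

end Vale.Agent.P213.AS
end

section

/-!
AS2, part 2: the class `W₀` is stable under transfinite compositions.
-/

open CategoryTheory HomotopicalAlgebra Simplicial MonoidalCategory Limits MorphismProperty

universe v u

namespace Vale.Agent.P213.AS

section

variable {D : Type (u + 1)} [Category.{u} D] [HasColimitsOfSize.{u, u} D]
  {c : SSet.{u} ⥤ D} {N : D ⥤ SSet.{u}} (adj : c ⊣ N)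
  {J : Type u} [LinearOrder J] [OrderBot J]
  (F : J ⥤ SSet.{u}) {X : D} (a : c.obj (F.obj ⊥) ⟶ X)

/-- the sequence of pushouts in `D` -/
noncomputable abbrev Pf : J ⥤ D := poF (F ⋙ c) a

/-- the sequence of pushouts in `SSet` -/
noncomputable abbrev Tf : J ⥤ SSet.{u} := poF F (adj.homEquiv _ _ a)

/-- the comparison, on objects -/
noncomputable def tauApp (j : J) : (Tf adj F a).obj j ⟶ N.obj ((Pf F a).obj j) :=
  (poF_isPushout F (adj.homEquiv _ _ a) j).desc
    (adj.homEquiv _ _ ((poFinl (F ⋙ c) a).app j)) (N.map ((poFinr (F ⋙ c) a).app j)) (by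
      rw [← adj.homEquiv_naturality_left, ← adj.homEquiv_naturality_right]
      congr 1
      exact (poF_isPushout (F ⋙ c) a j).w)

@[reassoc]
lemma inl_tauApp (j : J) : (poFinl F (adj.homEquiv _ _ a)).app j ≫ tauApp adj F a j
    = adj.homEquiv _ _ ((poFinl (F ⋙ c) a).app j) :=
  IsPushout.inl_desc _ _ _ _

@[reassoc]
lemma inr_tauApp (j : J) : (poFinr F (adj.homEquiv _ _ a)).app j ≫ tauApp adj F a j
    = N.map ((poFinr (F ⋙ c) a).app j) :=
  IsPushout.inr_desc _ _ _ _

/-- the comparison -/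
noncomputable def tau : Tf adj F a ⟶ Pf F a ⋙ N where
  app j := tauApp adj F a j
  naturality i j f := by
    apply (poF_isPushout F (adj.homEquiv _ _ a) i).hom_ext
    · rw [← NatTrans.naturality_assoc, inl_tauApp, inl_tauApp_assoc]
      rw [← adj.homEquiv_naturality_left, Functor.comp_map, ← adj.homEquiv_naturality_right]
      congr 1
      exact (poFinl (F ⋙ c) a).naturality f
    · rw [← Category.assoc, const_naturality, inr_tauApp, inr_tauApp_assoc, Functor.comp_map,
        ← N.map_comp, const_naturality]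

lemma isFiltered_Iio (m : J) (hm : Order.IsSuccLimit m) : IsFiltered (Set.Iio m) := by
  have hne : Nonempty (Set.Iio m) := ⟨⟨⊥, hm.bot_lt⟩⟩
  infer_instance

instance preservesWOC_of_filtered {E : Type*} [Category* E] {C' : Type*} [Category* C']
    (G : E ⥤ C') [PreservesFilteredColimitsOfSize.{u, u} G] :
    PreservesWellOrderContinuousOfShape J G where
  preservesColimitsOfShape m hm := by
    have := isFiltered_Iio m hm
    infer_instance

variable [SuccOrder J] [WellFoundedLT J] [F.IsWellOrderContinuous]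

include adj in
lemma woc_Pf : (Pf F a).IsWellOrderContinuous := by
  have : PreservesColimitsOfSize.{u, u} c := adj.leftAdjoint_preservesColimits
  infer_instance

variable {F adj} [PreservesFilteredColimitsOfSize.{u, u} N]

theorem W₀_of_chain (hF : ∀ (i j : J) (f : i ⟶ j), W₀ adj (F.map f)) {cF : Cocone F}
    (hcF : IsColimit cF) : W₀ adj (cF.ι.app ⊥) := by
  have : PreservesColimitsOfSize.{u, u} c := adj.leftAdjoint_preservesColimits
  have aux : ∀ {X P : D} (a : c.obj (F.obj ⊥) ⟶ X) (b : c.obj cF.pt ⟶ P) (i : X ⟶ P)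
      (_ : IsPushout (c.map (cF.ι.app ⊥)) a b i),
      ∃ (ι : Pf F a ⟶ (Functor.const J).obj P), Nonempty (IsColimit (Cocone.mk P ι)) ∧
      (∀ j, (poFinl (F ⋙ c) a).app j ≫ ι.app j = c.map (cF.ι.app j) ≫ b) ∧
      (∀ j, (poFinr (F ⋙ c) a).app j ≫ ι.app j = i) := by
    intro X P a b i sq
    exact exists_isColimit_poF (F ⋙ c) a (cF := c.mapCocone cF) (isColimitOfPreserves c hcF) sq
  have auxmono : ∀ {X : D} (a : c.obj (F.obj ⊥) ⟶ X) (i j : J) (f : i ⟶ j),
      Mono ((Pf F a ⋙ N).map f) := by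
    intro X a i j f
    exact (hF i j f).2.mono _ _ _ (poF_isPushout_map (F ⋙ c) a f)
  refine ⟨?_, ?_, ?_⟩
  · exact MorphismProperty.colimitsOfShape_le (W := monomorphisms SSet.{u}) _
      (.of_isColimit hcF (fun j ↦ (hF _ _ _).1))
  · intro X P a b i sq
    obtain ⟨ι, ⟨hι⟩, h₁, h₂⟩ := aux a b i sq
    have hm : Mono (N.map (ι.app ⊥)) :=
      MorphismProperty.colimitsOfShape_le (W := monomorphisms SSet.{u}) _
        (.of_isColimit (isColimitOfPreserves N hι) (fun j ↦ auxmono a _ _ _))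
    rw [← h₂ ⊥, N.map_comp]
    infer_instance
  · intro X P a b i sq T b' i' sq' t ht₁ ht₂
    obtain ⟨ι, ⟨hι⟩, h₁, h₂⟩ := aux a b i sq
    obtain ⟨ι', ⟨hι'⟩, h₁', h₂'⟩ := exists_isColimit_poF F (adj.homEquiv _ _ a) hcF sq'
    have := woc_Pf (adj := adj) F a
    refine whe_of_transfinite (tau adj F a) ?_ (auxmono a) ?_ hι' (isColimitOfPreserves N hι) t ?_
    · intro i j f
      have := (hF i j f).1
      exact mono_of_isPushout (poF_isPushout_map F (adj.homEquiv _ _ a) f)
    · intro j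
      exact (hF _ _ _).2.whe _ _ _ (poF_isPushout (F ⋙ c) a j) _ _
        (poF_isPushout F (adj.homEquiv _ _ a) j) _ (inl_tauApp adj F a j) (inr_tauApp adj F a j)
    · intro j
      apply (poF_isPushout F (adj.homEquiv _ _ a) j).hom_ext
      · change _ ≫ ι'.app j ≫ t = _ ≫ tauApp adj F a j ≫ N.map (ι.app j)
        rw [← Category.assoc, h₁', Category.assoc, ht₁, inl_tauApp_assoc,
          ← adj.homEquiv_naturality_right, h₁]
        exact (adj.homEquiv_naturality_left (cF.ι.app j) b).symm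
      · change _ ≫ ι'.app j ≫ t = _ ≫ tauApp adj F a j ≫ N.map (ι.app j)
        rw [← Category.assoc, h₂', ht₂, inr_tauApp_assoc, ← N.map_comp, h₂]

end

end Vale.Agent.P213.AS
end

section

/-!
AS2, part 3: stability properties of the class `W₀`.
-/

open CategoryTheory HomotopicalAlgebra Simplicial MonoidalCategory Limits MorphismProperty

universe v u

namespace Vale.Agent.P213.AS

section

variable {D : Type (u + 1)} [Category.{u} D] [HasColimitsOfSize.{u, u} D]
  {c : SSet.{u} ⥤ D} {N : D ⥤ SSet.{u}} (adj : c ⊣ N)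

instance : (W₀ adj).IsStableUnderCobaseChange where
  of_isPushout {A A' B B'} f g f' g' sq hf := by
    have : Mono f := hf.1
    exact ⟨mono_of_isPushout sq.flip, hf.2.of_isPushout sq.flip⟩

instance : (W₀ adj).ContainsIdentities where
  id_mem _ := ⟨inferInstance, good₀_of_isIso _⟩

instance : (W₀ adj).IsStableUnderComposition where
  comp_mem f g hf hg := by
    have := hf.1
    have := hg.1
    exact ⟨mono_comp _ _, hf.2.comp hg.2⟩

instance : (W₀ adj).IsMultiplicative where

variable {adj} [PreservesFilteredColimitsOfSize.{u, u} N]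
  {J : Type u} [LinearOrder J] [OrderBot J] [SuccOrder J] [WellFoundedLT J]

lemma W₀_map (F : J ⥤ SSet.{u}) [F.IsWellOrderContinuous]
    (h : ∀ j : J, ¬ IsMax j → W₀ adj (F.map (homOfLE (Order.le_succ j)))) (j : J) :
    ∀ (i : J) (hij : i ≤ j), W₀ adj (F.map (homOfLE hij)) := by
  have hid : ∀ i : J, W₀ adj (F.map (homOfLE (le_refl i))) := by
    intro i
    have : homOfLE (le_refl i) = 𝟙 i := rfl
    rw [this, F.map_id]
    exact (W₀ adj).id_mem _
  induction j using SuccOrder.limitRecOn with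
  | isMin j hj =>
    intro i hij
    obtain rfl : i = j := hj.eq_of_le hij
    exact hid i
  | succ j hj ih =>
    intro i hij
    rcases (Order.le_succ_iff_eq_or_le.mp hij) with rfl | h'
    · exact hid _
    · have : homOfLE hij = homOfLE h' ≫ homOfLE (Order.le_succ j) := rfl
      rw [this, F.map_comp]
      exact (W₀ adj).comp_mem _ _ (ih i h') (h j hj)
  | isSuccLimit j hj ih =>
    intro i hij
    rcases hij.eq_or_lt with rfl | hlt
    · exact hid _
    let F' : Set.Ici i ⥤ SSet.{u} := (Subtype.mono_coe (· ∈ Set.Ici i)).functor ⋙ F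
    have : F'.IsWellOrderContinuous := Functor.IsWellOrderContinuous.restriction_setIci i
    let m : Set.Ici i := ⟨j, hij⟩
    have hm : Order.IsSuccLimit m := by
      refine ⟨fun h0 ↦ ?_, fun b hb ↦ ?_⟩
      · exact absurd (h0 (show (⟨i, le_refl i⟩ : Set.Ici i) ≤ m from hij)) (not_le.mpr hlt)
      · refine hj.2 b.1 ⟨hb.1, fun k hk hk' ↦ ?_⟩
        exact hb.2 (show b < ⟨k, b.2.trans hk.le⟩ from hk) hk'
    let : OrderBot (Set.Iio m) :=
      { bot := ⟨⊥, hm.bot_lt⟩
        bot_le k := (bot_le : (⊥ : Set.Ici i) ≤ k.1) }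
    let : SuccOrder (Set.Iio m) := SuccOrder.ofLinearWellFoundedLT _
    let F'' : Set.Iio m ⥤ SSet.{u} := (Set.principalSegIio m).monotone.functor ⋙ F'
    have : F''.IsWellOrderContinuous :=
      inferInstanceAs (((Set.principalSegIio m : Set.Iio m ≤i Set.Ici i).monotone.functor
        ⋙ F').IsWellOrderContinuous)
    have := W₀_of_chain (adj := adj) (F := F'') (fun k l f ↦ ih l.1.1 l.2 k.1.1 (leOfHom f))
      (F'.isColimitOfIsWellOrderContinuous m hm)
    exact this

instance isStableUnderTransfiniteComposition_W₀ :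
    IsStableUnderTransfiniteComposition.{u} (W₀ adj) where
  isStableUnderTransfiniteCompositionOfShape J _ _ _ _ :=
    { le := by
        rintro X Y f ⟨h⟩
        have h1 := W₀_of_chain (adj := adj) (F := h.F) (fun i j f ↦
          W₀_map h.F h.map_mem j i (leOfHom f)) h.isColimit
        rw [← h.fac]
        exact (W₀ adj).comp_mem _ _ ⟨inferInstance, good₀_of_isIso _⟩ h1 }

end

end Vale.Agent.P213.AS
end

section

/-!
AS2: closure properties of `Good`, the unit, acyclicity.
-/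

open CategoryTheory HomotopicalAlgebra Simplicial MonoidalCategory Limits MorphismProperty
open SSet.modelCategoryQuillen

universe w v' v u' u

namespace Vale.Agent.P213.AS

section inverseImage

variable {C : Type u} [Category.{v} C] {E : Type u'} [Category.{v'} E]
  (P : MorphismProperty E) (G : C ⥤ E)

instance inverseImage_cobaseChange [P.IsStableUnderCobaseChange]
    [PreservesColimitsOfShape WalkingSpan G] : (P.inverseImage G).IsStableUnderCobaseChange where
  of_isPushout sq hf := P.of_isPushout (sq.map G) hf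

instance inverseImage_transfinite [IsStableUnderTransfiniteComposition.{w} P]
    [PreservesFilteredColimitsOfSize.{w, w} G] :
    IsStableUnderTransfiniteComposition.{w} (P.inverseImage G) where
  isStableUnderTransfiniteCompositionOfShape J _ _ _ _ :=
    ⟨fun _ _ f hf ↦ P.transfiniteCompositionsOfShape_le J _
      (transfiniteCompositionsOfShape_map_of_preserves J G f hf)⟩

end inverseImage

/-- a class of morphisms of simplicial sets stable under cobase change and transfinite
composition which contains the boundary inclusions contains all monomorphisms -/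
lemma mem_of_mono (W : MorphismProperty SSet.{u}) [W.IsStableUnderCobaseChange]
    [IsStableUnderTransfiniteComposition.{u} W]
    (h : ∀ m : ℕ, W (∂Δ[m] : SSet.Subcomplex.{u} _).ι) {K L : SSet.{u}} (i : K ⟶ L) [Mono i] :
    W i := by
  have : IsStableUnderCoproducts.{u} W := isStableUnderCoproducts_of_transfinite W
  have : IsStableUnderTransfiniteComposition.{0} W := IsStableUnderTransfiniteComposition.shrink₀ W
  have h1 := (SSet.relativeCellComplexOfMono i).transfiniteCompositionOfShape' (I := I)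
    (fun _ ↦ ⟨_⟩)
  have h2 : (coproducts.{u} I.{u}).pushouts ≤ W := by
    rw [pushouts_le_iff, coproducts_le_iff]
    rintro _ _ _ ⟨m⟩
    exact h m
  exact W.transfiniteCompositionsOfShape_le ℕ i
    (transfiniteCompositionsOfShape_monotone (J := ℕ) h2 _ ⟨h1⟩)

/-- `W₀` pulled back along `sd²` -/
def W₂ {D : Type (u + 1)} [Category.{u} D] {c : SSet.{u} ⥤ D} {N : D ⥤ SSet.{u}} (adj : c ⊣ N) :
    MorphismProperty SSet.{u} := (W₀ adj).inverseImage (SSet.sd ⋙ SSet.sd)

section

variable {D : Type (u + 1)} [Category.{u} D] [HasColimitsOfSize.{u, u} D]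
  {c : SSet.{u} ⥤ D} {N : D ⥤ SSet.{u}} (adj : c ⊣ N) [PreservesFilteredColimitsOfSize.{u, u} N]

instance : PreservesColimitsOfSize.{u, u} SSet.sd.{u} :=
  SSet.sdExAdjunction.leftAdjoint_preservesColimits

instance : (W₂ adj).IsStableUnderCobaseChange :=
  inverseImage_cobaseChange _ _

instance : IsStableUnderTransfiniteComposition.{u} (W₂ adj) :=
  inverseImage_transfinite _ _

lemma good_of_mono (h : ∀ m, Good adj (∂Δ[m] : SSet.Subcomplex.{u} _).ι)
    {K L : SSet.{u}} (i : K ⟶ L) [Mono i] : Good adj i := by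
  rw [good_iff]
  refine (mem_of_mono (W₂ adj) (fun m ↦ ⟨?_, (good_iff adj _).1 (h m)⟩) i).2
  change Mono (SSet.sd.map (SSet.sd.map _))
  infer_instance

instance mono_initial_to (K : SSet.{u}) : Mono (initial.to K) := by
  infer_instance

include adj in
omit [HasColimitsOfSize.{u, u, u, u + 1} D] [PreservesFilteredColimitsOfSize.{u, u, u, u, u + 1, u + 1} N] in
lemma isIso_unit_of_isInitial (h₀ : IsIso (adj.unit.app (⊥_ SSet.{u}))) {K : SSet.{u}}
    (hK : IsInitial K) : IsIso (adj.unit.app K) :=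
  (NatTrans.isIso_app_iff_of_iso adj.unit (initialIsInitial.uniqueUpToIso hK)).1 h₀

/-- the unit `Sd² K ⟶ N c Sd² K` is a weak equivalence -/
lemma whe_unit_sd_sd (h₀ : IsIso (adj.unit.app (⊥_ SSet.{u})))
    (h : ∀ m, Good adj (∂Δ[m] : SSet.Subcomplex.{u} _).ι) (K : SSet.{u}) :
    whe (adj.unit.app (SSet.sd.obj (SSet.sd.obj K))) := by
  have hg := good_of_mono adj h (initial.to K)
  have : PreservesColimitsOfSize.{0, 0} SSet.sd.{u} :=
    SSet.sdExAdjunction.leftAdjoint_preservesColimits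
  have hi : IsInitial (SSet.sd.obj (SSet.sd.obj (⊥_ SSet.{u}))) :=
    (initialIsInitial.isInitialObj SSet.sd.{u}).isInitialObj SSet.sd.{u}
  have := isIso_unit_of_isInitial adj h₀ hi
  refine hg.whe (𝟙 _) (𝟙 _) (c.map (SSet.sd.map (SSet.sd.map (initial.to K))))
    (IsPushout.of_vert_isIso ⟨by simp⟩) (T := SSet.sd.obj (SSet.sd.obj K)) (𝟙 _)
    (inv (adj.unit.app _) ≫ SSet.sd.map (SSet.sd.map (initial.to K))) ?_ _ ?_ ?_
  · rw [adj.homEquiv_id]
    exact IsPushout.of_vert_isIso ⟨by simp⟩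
  · rw [Category.id_comp, adj.homEquiv_id]
  · rw [Category.assoc, IsIso.inv_comp_eq]
    exact (adj.unit_naturality _).symm

/-- the composite adjunction -/
noncomputable abbrev adj₂ : (SSet.sd ⋙ SSet.sd) ⋙ c ⊣ N ⋙ (SSet.ex ⋙ SSet.ex) :=
  (SSet.sdExAdjunction.comp SSet.sdExAdjunction).comp adj

lemma trivCof_sd_sd {K L : SSet.{u}} (i : K ⟶ L) (hi : SSet.anodyneExtensions i) [Mono i] :
    trivCof (SSet.sd.map (SSet.sd.map i)) := by
  refine ⟨?_, ?_⟩
  · change Mono (SSet.sd.map (SSet.sd.map i))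
    infer_instance
  · rw [whe_sd_iff, whe_sd_iff]
    exact anodyne_le_whe _ hi

lemma horn_mem (h : ∀ m, Good adj (∂Δ[m] : SSet.Subcomplex.{u} _).ι) {K L : SSet.{u}} (i : K ⟶ L)
    (hi : SSet.anodyneExtensions i) [Mono i] :
    univPush (trivCof.inverseImage N) (c.map (SSet.sd.map (SSet.sd.map i))) := by
  intro X P a b j sq
  have hg := good_of_mono adj h i
  have sq' := IsPushout.of_hasPushout (SSet.sd.map (SSet.sd.map i)) (adj.homEquiv _ _ a)
  have hw : (SSet.sd.map (SSet.sd.map i)) ≫ adj.homEquiv _ _ b = adj.homEquiv _ _ a ≫ N.map j := by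
    rw [← adj.homEquiv_naturality_left, ← adj.homEquiv_naturality_right, sq.w]
  have h1 := hg.whe a b j sq _ _ sq' (sq'.desc _ _ hw) (sq'.inl_desc _ _ _) (sq'.inr_desc _ _ _)
  have h2 : trivCof (pushout.inr (SSet.sd.map (SSet.sd.map i)) (adj.homEquiv _ _ a)) :=
    trivCof.of_isPushout sq'.flip (trivCof_sd_sd i hi)
  refine ⟨hg.mono a b j sq, ?_⟩
  rw [← sq'.inr_desc _ _ hw]
  exact P213.whe.comp_mem _ _ h2.2 h1

/-- acyclicity -/
lemma acyclic (h : ∀ m, Good adj (∂Δ[m] : SSet.Subcomplex.{u} _).ι) :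
    (thF N).llp ≤ thW N := by
  have h1 : thF N = (genJ ((SSet.sd ⋙ SSet.sd) ⋙ c)).rlp := (rlp_genJ (adj₂ adj)).symm
  have := hasSmallObjectArgument_genJ (adj₂ adj)
  rw [h1, llp_rlp_of_hasSmallObjectArgument]
  have : IsStableUnderTransfiniteComposition.{u} (trivCof.inverseImage N) :=
    inverseImage_transfinite _ _
  have : (trivCof.inverseImage N).RespectsIso := inferInstance
  have h2 : (transfiniteCompositions.{u}
      (coproducts.{u} (genJ ((SSet.sd ⋙ SSet.sd) ⋙ c))).pushouts) ≤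
        trivCof.inverseImage N := by
    have : IsStableUnderCoproducts.{u} (univPush (trivCof.inverseImage N)) :=
      isStableUnderCoproducts_of_transfinite _
    refine le_trans ?_ (univPush_le _)
    rw [transfiniteCompositions_le_iff, pushouts_le_iff, coproducts_le_iff]
    intro X Y f hf
    simp only [genJ, iSup_iff] at hf
    obtain ⟨n, ⟨i⟩⟩ := hf
    exact horn_mem adj h _ (SSet.anodyneExtensions.horn_ι i)
  intro X Y f hf
  have h3 : trivCof.inverseImage N f := retracts_le_iff.2 h2 f hf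
  exact h3.2

end

end Vale.Agent.P213.AS
end

section

/-!
AS3: from `∀ m, Good adj ∂Δ[m].ι` to `IsThomason N`.
-/

open CategoryTheory HomotopicalAlgebra Simplicial MonoidalCategory Limits MorphismProperty
open SSet.modelCategoryQuillen CartesianMonoidalCategory

universe v u

namespace Vale.Agent.P213.AS

lemma kanFib_of_rlpI {X Y : SSet.{u}} (p : X ⟶ Y) (hp : I.rlp p) : kanFib p := by
  rw [← SSet.rlp_monomorphisms] at hp
  exact antitone_rlp J_le_monomorphisms _ hp

section

variable {D : Type (u + 1)} [Category.{u} D]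
  {c : SSet.{u} ⥤ D} {N : D ⥤ SSet.{u}} (adj : c ⊣ N)

lemma thF_thW_iff {X Y : D} (f : X ⟶ Y) :
    (kanFib ((N ⋙ (SSet.ex ⋙ SSet.ex)).map f) ∧ thW N f) ↔
      I.rlp ((N ⋙ (SSet.ex ⋙ SSet.ex)).map f) := by
  have e : thW N f ↔ whe ((N ⋙ (SSet.ex ⋙ SSet.ex)).map f) := by
    change whe (N.map f) ↔ whe (SSet.ex.map (SSet.ex.map (N.map f)))
    rw [whe_ex_iff, whe_ex_iff]
  constructor
  · rintro ⟨h1, h2⟩
    exact rlpI_of_kanFib_of_whe _ h1 (e.1 h2)
  · intro h
    exact ⟨kanFib_of_rlpI _ h, e.2 (rlpI_le_whe _ h)⟩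

lemma whe_unit_of_uniq {c' : SSet.{u} ⥤ D} (adj' : c' ⊣ N) {K : SSet.{u}}
    (h : whe (adj.unit.app K)) : whe (adj'.unit.app K) := by
  have e := Adjunction.unit_leftAdjointUniq_hom_app adj adj' K
  rw [← e]
  exact P213.whe.comp_mem _ _ h (whe_of_isIso _)

lemma whe_unit_comp (h : ∀ K : SSet.{u}, whe (adj.unit.app (SSet.sd.obj (SSet.sd.obj K))))
    (K : SSet.{u}) : whe ((adj₂ adj).unit.app K) := by
  have e : (adj₂ adj).unit.app K = (SSet.sdExAdjunction.unit.app K ≫
      SSet.ex.map (SSet.sdExAdjunction.unit.app (SSet.sd.obj K))) ≫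
        SSet.ex.map (SSet.ex.map (adj.unit.app (SSet.sd.obj (SSet.sd.obj K)))) := by
    simp [adj₂, Adjunction.comp]
  rw [e]
  refine P213.whe.comp_mem _ _ (P213.whe.comp_mem _ _ (whe_unit_sdEx _) ?_) ?_
  · rw [whe_ex_iff]; exact whe_unit_sdEx _
  · rw [whe_ex_iff, whe_ex_iff]; exact h K

end

end Vale.Agent.P213.AS

namespace Vale.Agent.P213

open AS

section

variable {D : Type (u + 1)} [Category.{u} D] [HasFiniteLimits D] [HasColimitsOfSize.{u, u} D]
  {c : SSet.{u} ⥤ D} {N : D ⥤ SSet.{u}} (adj : c ⊣ N) [PreservesFilteredColimitsOfSize.{u, u} N]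
  (h₀ : IsIso (adj.unit.app (⊥_ SSet.{u})))
include h₀

omit [HasFiniteLimits D] h₀ in
lemma good_of_mono (h : ∀ m, Good adj (∂Δ[m] : SSet.Subcomplex.{u} _).ι)
    {K L : SSet.{u}} (i : K ⟶ L) [Mono i] : Good adj i := AS.good_of_mono adj h i

omit [HasFiniteLimits D] in
/-- the unit `Sd² K ⟶ N c Sd² K` is a weak equivalence -/
lemma whe_unit_sd_sd (h : ∀ m, Good adj (∂Δ[m] : SSet.Subcomplex.{u} _).ι) (K : SSet.{u}) :
    whe (adj.unit.app (SSet.sd.obj (SSet.sd.obj K))) := AS.whe_unit_sd_sd adj h₀ h K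

omit [HasFiniteLimits D] h₀ in
/-- acyclicity -/
lemma acyclic (h : ∀ m, Good adj (∂Δ[m] : SSet.Subcomplex.{u} _).ι) :
    (thF N).llp ≤ thW N := AS.acyclic adj h

end

/-- from `Good` for boundary inclusions to the Thomason statement -/
theorem isThomason_of_good {D : Type (u + 1)} [Category.{u} D] [HasFiniteLimits D]
    [HasColimitsOfSize.{u, u} D]
    {c : SSet.{u} ⥤ D} {N : D ⥤ SSet.{u}} (adj : c ⊣ N) [PreservesFilteredColimitsOfSize.{u, u} N]
    (h₀ : IsIso (adj.unit.app (⊥_ SSet.{u})))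
    (h : ∀ m, Good adj (∂Δ[m] : SSet.Subcomplex.{u} _).ι) :
    IsThomason N where
  kanQuillen := P213.kanQuillen
  model := by
    have : PreservesFilteredColimitsOfSize.{u, u} (N ⋙ (SSet.ex ⋙ SSet.ex)) := inferInstance
    have : (thW N).HasTwoOutOfThreeProperty :=
      inferInstanceAs (P213.whe.inverseImage N).HasTwoOutOfThreeProperty
    have : (thW N).IsStableUnderRetracts :=
      inferInstanceAs (P213.whe.inverseImage N).IsStableUnderRetracts
    exact transfer (adj₂ adj) (thW N) (fun X Y f ↦ thF_thW_iff f) (AS.acyclic adj h)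
  isRightAdjoint := adj.isRightAdjoint
  quillenEquivalence := by
    intro c' adj'
    have hu : ∀ K : SSet.{u}, P213.whe ((adj₂ adj').unit.app K) :=
      whe_unit_comp adj' (fun K ↦ whe_unit_of_uniq adj adj' (AS.whe_unit_sd_sd adj h₀ h K))
    refine { cof_map := ?_, trivCof_map := ?_, fib_map := ?_, equiv := ?_ }
    · intro X Y f hf X' Y' p hp
      rw [(adj₂ adj').hasLiftingProperty_iff]
      have h1 := (thF_thW_iff p).1 hp
      rw [← SSet.rlp_monomorphisms] at h1
      exact h1 f hf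
    · intro X Y f hf hw
      apply AS.acyclic adj h
      intro X' Y' p hp
      rw [(adj₂ adj').hasLiftingProperty_iff]
      have h1 : SSet.anodyneExtensions f := by
        rw [← trivCof_eq]; exact ⟨hf, hw⟩
      exact h1 _ hp
    · intro X Y f hf
      exact hf
    · intro K Y T hT p hp f
      have e : P213.whe ((N ⋙ (SSet.ex ⋙ SSet.ex)).map f) ↔ thW N f := by
        change P213.whe (SSet.ex.map (SSet.ex.map (N.map f))) ↔ P213.whe (N.map f)
        rw [whe_ex_iff, whe_ex_iff]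
      rw [Adjunction.homEquiv_unit, P213.whe.precomp_iff _ _ (hu K), e]

end Vale.Agent.P213
end

section

/-!
Inclusions of subsets of a poset as monotone maps.
-/

open CategoryTheory HomotopicalAlgebra Simplicial MonoidalCategory Limits MorphismProperty

universe v u

namespace Vale.Agent.P213

/-- inclusion of a subset as a monotone map -/
def subIncl {E : Type u} [PartialOrder E] (S : Set E) : S →o E := ⟨Subtype.val, fun _ _ h => h⟩

/-- inclusion of subsets as a monotone map -/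
def subIncl₂ {E : Type u} [PartialOrder E] {S T : Set E} (h : S ⊆ T) : S →o T :=
  ⟨Set.inclusion h, fun _ _ h => h⟩

end Vale.Agent.P213
end

section

open CategoryTheory HomotopicalAlgebra Simplicial MonoidalCategory Limits MorphismProperty
open SSet.modelCategoryQuillen CartesianMonoidalCategory

universe v u

namespace Vale.Agent.P213

namespace Retract

section Poset

variable {L L' L'' : Type u} [PartialOrder L] [PartialOrder L'] [PartialOrder L'']

theorem nvMap_comp (f : L →o L') (g : L' →o L'') :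
    nvMap f ≫ nvMap g = nvMap (g.comp f) := rfl

theorem nvMap_id : nvMap (OrderHom.id : L →o L) = 𝟙 _ := rfl

theorem nvHomotopy_obj (f₀ f₁ : L →o L') (h : f₀ ≤ f₁) {m : SimplexCategoryᵒᵖ}
    (p : (nerve L ⊗ Δ[1]).obj m) (i : Fin (m.unop.len + 1)) :
    ((nvHomotopy f₀ f₁ h).app m p).obj i =
      if (SSet.stdSimplex.objEquiv p.2) i = 0 then f₀ (p.1.obj i) else f₁ (p.1.obj i) := rfl

theorem ι₀_nvHomotopy (f₀ f₁ : L →o L') (h : f₀ ≤ f₁) :
    SSet.ι₀ ≫ nvHomotopy f₀ f₁ h = nvMap f₀ := by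
  ext m x i
  exact (nvHomotopy_obj f₀ f₁ h (SSet.ι₀.app m x) i).trans (if_pos rfl)

theorem ι₁_nvHomotopy (f₀ f₁ : L →o L') (h : f₀ ≤ f₁) :
    SSet.ι₁ ≫ nvHomotopy f₀ f₁ h = nvMap f₁ := by
  ext m x i
  refine (nvHomotopy_obj f₀ f₁ h (SSet.ι₁.app m x) i).trans (if_neg ?_)
  intro h
  have h' : (1 : Fin 2) = 0 := h
  exact absurd h' (by simp)

theorem whisker_nvHomotopy (f₀ f₁ : L →o L') (h : f₀ ≤ f₁) (i : L'' →o L)
    (hi : ∀ l, f₀ (i l) = f₁ (i l)) :
    nvMap i ▷ Δ[1] ≫ nvHomotopy f₀ f₁ h = fst _ _ ≫ nvMap (f₀.comp i) := by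
  ext m x k
  show (if _ then f₀ (i _) else f₁ (i _) : L') = f₀ (i _)
  rw [← hi, ite_self]
  rfl

end Poset

variable {D : Type (u + 1)} [Category.{v} D] {c : SSet.{u} ⥤ D} {N : D ⥤ SSet.{u}}
  {adj : c ⊣ N}

/-- The cylinder construction on a pushout `Y = X ∪_{cN(S)} cN(L)`: two endomorphisms of `Y`
over `X` induced by monotone maps `f₀ ≤ f₁` which are the identity on `S` have homotopic
nerves. -/
theorem htpy_of_le [HasPullbacks D] (hA : ModelAxioms adj) {L : Type u} [PartialOrder L]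
    [Finite L] (S : Set L) (f₀ f₁ : L →o L) (h : f₀ ≤ f₁)
    (hg : ∀ l l' : L, l < l' → f₀ l = f₁ l ∨ f₁ l = f₁ l') (h₀ : ∀ s ∈ S, f₀ s = s)
    (h₁ : ∀ s ∈ S, f₁ s = s) {X Y : D} {a : c.obj (nerve S) ⟶ X} {b : c.obj (nerve L) ⟶ Y}
    {j : X ⟶ Y} (sq : IsPushout (c.map (nvMap (subIncl S))) a b j) (y₀ y₁ : Y ⟶ Y)
    (hj₀ : j ≫ y₀ = j) (hb₀ : b ≫ y₀ = c.map (nvMap f₀) ≫ b)
    (hj₁ : j ≫ y₁ = j) (hb₁ : b ≫ y₁ = c.map (nvMap f₁) ≫ b) :
    Htpy (N.map y₀) (N.map y₁) := by
  obtain ⟨G, θ, e₀, e₁, hinj, he₀, he₁, hconst, hgray⟩ := hA.cyl Y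
  obtain ⟨kX, hk₀, hk₁, hkX⟩ := hconst j
  obtain ⟨κ, hκ⟩ := hgray f₀ f₁ h hg (adj.homEquiv _ _ b)
  have hcomp : c.map (nvMap (subIncl S)) ≫ (adj.homEquiv _ _).symm κ = a ≫ kX := by
    apply (adj.homEquiv _ _).injective
    rw [adj.homEquiv_naturality_left, Equiv.apply_symm_apply, adj.homEquiv_naturality_right]
    apply hinj
    rw [comp_whiskerRight, comp_whiskerRight, Category.assoc, Category.assoc, hκ, hkX,
      ← Category.assoc, whisker_nvHomotopy f₀ f₁ h (subIncl S) (fun l => by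
        exact (h₀ _ l.2).trans (h₁ _ l.2).symm)]
    have e1 : f₀.comp (subIncl S) = subIncl S := by
      ext l
      exact h₀ _ l.2
    rw [e1, Category.assoc, ← adj.homEquiv_naturality_left, sq.w,
      adj.homEquiv_naturality_right]
    rfl
  let k : Y ⟶ G := sq.desc ((adj.homEquiv _ _).symm κ) kX hcomp
  have hbk : b ≫ k = (adj.homEquiv _ _).symm κ := sq.inl_desc _ _ _
  have hjk : j ≫ k = kX := sq.inr_desc _ _ _
  have hk0 : k ≫ e₀ = y₀ := by
    apply sq.hom_ext
    · rw [← Category.assoc, hbk, hb₀]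
      apply (adj.homEquiv _ _).injective
      rw [adj.homEquiv_naturality_right, Equiv.apply_symm_apply, he₀,
        adj.homEquiv_naturality_left, ← ι₀_nvHomotopy f₀ f₁ h, Category.assoc, ← hκ]
      rfl
    · rw [← Category.assoc, hjk, hk₀, hj₀]
  have hk1 : k ≫ e₁ = y₁ := by
    apply sq.hom_ext
    · rw [← Category.assoc, hbk, hb₁]
      apply (adj.homEquiv _ _).injective
      rw [adj.homEquiv_naturality_right, Equiv.apply_symm_apply, he₁,
        adj.homEquiv_naturality_left, ← ι₁_nvHomotopy f₀ f₁ h, Category.assoc, ← hκ]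
      rfl
    · rw [← Category.assoc, hjk, hk₁, hj₁]
  refine ⟨N.map k ▷ Δ[1] ≫ θ, ?_, ?_⟩
  · rw [← hk0, N.map_comp, he₀]
    rfl
  · rw [← hk1, N.map_comp, he₁]
    rfl

/-- The retraction `L → S` sending everything outside `S` to the greatest element of `S`. -/
noncomputable def retr {L : Type u} [PartialOrder L] (S : Set L) (hS : IsLowerSet S) (r : L)
    (hrS : r ∈ S) (hr : ∀ l ∈ S, l ≤ r) : L →o S := by
  classical
  exact
    { toFun := fun l => if h : l ∈ S then ⟨l, h⟩ else ⟨r, hrS⟩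
      monotone' := by
        intro l l' hl
        by_cases h' : l' ∈ S
        · have h : l ∈ S := hS hl h'
          simp only [h, h', dif_pos]
          exact hl
        · by_cases h : l ∈ S
          · simp only [h, h', dif_pos, dif_neg, not_false_iff]
            exact hr l h
          · simp only [h, h', dif_neg, not_false_iff]
            exact le_rfl }

theorem retr_of_mem {L : Type u} [PartialOrder L] {S : Set L} {hS : IsLowerSet S} {r : L}
    {hrS : r ∈ S} {hr : ∀ l ∈ S, l ≤ r} {l : L} (h : l ∈ S) :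
    (retr S hS r hrS hr l : L) = l := by
  classical
  show ((if h : l ∈ S then (⟨l, h⟩ : S) else ⟨r, hrS⟩ : S) : L) = l
  rw [dif_pos h]

theorem retr_of_notMem {L : Type u} [PartialOrder L] {S : Set L} {hS : IsLowerSet S} {r : L}
    {hrS : r ∈ S} {hr : ∀ l ∈ S, l ≤ r} {l : L} (h : l ∉ S) :
    (retr S hS r hrS hr l : L) = r := by
  classical
  show ((if h : l ∈ S then (⟨l, h⟩ : S) else ⟨r, hrS⟩ : S) : L) = r
  rw [dif_neg h]

/-- The monotone map which is the identity on `S` and sends the rest to the top. -/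
noncomputable def topMap {L : Type u} [PartialOrder L] (S : Set L) (hS : IsLowerSet S) (v : L)
    (hv : ∀ l, l ≤ v) : L →o L := by
  classical
  exact
    { toFun := fun l => if l ∈ S then l else v
      monotone' := by
        intro l l' hl
        by_cases h' : l' ∈ S
        · have h : l ∈ S := hS hl h'
          simp only [h, h', if_pos]
          exact hl
        · simp only [h', if_neg, not_false_iff]
          exact hv _ }

theorem topMap_of_mem {L : Type u} [PartialOrder L] {S : Set L} {hS : IsLowerSet S} {v : L}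
    {hv : ∀ l, l ≤ v} {l : L} (h : l ∈ S) : topMap S hS v hv l = l := by
  classical
  show (if l ∈ S then l else v) = l
  rw [if_pos h]

theorem topMap_of_notMem {L : Type u} [PartialOrder L] {S : Set L} {hS : IsLowerSet S} {v : L}
    {hv : ∀ l, l ≤ v} {l : L} (h : l ∉ S) : topMap S hS v hv l = v := by
  classical
  show (if l ∈ S then l else v) = v
  rw [if_neg h]

end Retract

open Retract

variable {D : Type (u + 1)} [Category.{v} D] {c : SSet.{u} ⥤ D} {N : D ⥤ SSet.{u}}
  {adj : c ⊣ N}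

/-- `L` has a greatest element `v`, `S` is a lower set with greatest element `r`. Then
`N X ⟶ N (X ∪_{cN(S)} cN(L))` is a weak equivalence. -/
theorem whe_of_top [HasPullbacks D] (hA : ModelAxioms adj) {L : Type u} [PartialOrder L]
    [Finite L] (S : Set L) (hS : IsLowerSet S) (v r : L) (hv : ∀ l, l ≤ v) (_hvS : v ∉ S)
    (hrS : r ∈ S) (hr : ∀ l ∈ S, l ≤ r)
    {X Y : D} {a : c.obj (nerve S) ⟶ X} {b : c.obj (nerve L) ⟶ Y} {j : X ⟶ Y}
    (sq : IsPushout (c.map (nvMap (subIncl S))) a b j) : whe (N.map j) := by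
  have hpi : (retr S hS r hrS hr).comp (subIncl S) = OrderHom.id := by
    ext l
    exact retr_of_mem (hS := hS) (hr := hr) l.2
  have hti : (topMap S hS v hv).comp (subIncl S) = subIncl S := by
    ext l
    exact topMap_of_mem (hS := hS) (hv := hv) l.2
  -- the retraction `ρ : Y ⟶ X`
  let ρ : Y ⟶ X := sq.desc (c.map (nvMap (retr S hS r hrS hr)) ≫ a) (𝟙 X) (by
    rw [← Category.assoc, ← c.map_comp, nvMap_comp, hpi, nvMap_id, c.map_id,
      Category.id_comp, Category.comp_id])
  have hbρ : b ≫ ρ = c.map (nvMap (retr S hS r hrS hr)) ≫ a := sq.inl_desc _ _ _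
  have hjρ : j ≫ ρ = 𝟙 X := sq.inr_desc _ _ _
  let φ : Y ⟶ Y := sq.desc (c.map (nvMap (topMap S hS v hv)) ≫ b) j (by
    rw [← Category.assoc, ← c.map_comp, nvMap_comp, hti, sq.w])
  have hbφ : b ≫ φ = c.map (nvMap (topMap S hS v hv)) ≫ b := sq.inl_desc _ _ _
  have hjφ : j ≫ φ = j := sq.inr_desc _ _ _
  have H1 : Htpy (N.map (𝟙 Y)) (N.map φ) := by
    refine htpy_of_le hA S OrderHom.id (topMap S hS v hv) ?_ ?_ (fun s _ => rfl)
      (fun s hs => topMap_of_mem hs) sq _ _ (Category.comp_id _) ?_ hjφ hbφ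
    · intro l
      by_cases h : l ∈ S
      · rw [topMap_of_mem h]; exact le_rfl
      · rw [topMap_of_notMem h]; exact hv _
    · intro l l' hl
      by_cases h : l ∈ S
      · left
        rw [topMap_of_mem h]
        rfl
      · right
        rw [topMap_of_notMem h, topMap_of_notMem (fun h' => h (hS hl.le h'))]
    · rw [nvMap_id, c.map_id, Category.id_comp, Category.comp_id]
  have H2 : Htpy (N.map (ρ ≫ j)) (N.map φ) := by
    refine htpy_of_le hA S ((subIncl S).comp (retr S hS r hrS hr)) (topMap S hS v hv) ?_ ?_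
      (fun s hs => retr_of_mem hs) (fun s hs => topMap_of_mem hs) sq _ _ ?_ ?_ hjφ hbφ
    · intro l
      show (retr S hS r hrS hr l : L) ≤ _
      by_cases h : l ∈ S
      · rw [topMap_of_mem h, retr_of_mem h]
      · rw [topMap_of_notMem h]; exact hv _
    · intro l l' hl
      by_cases h : l ∈ S
      · left
        rw [topMap_of_mem h]
        exact retr_of_mem h
      · right
        rw [topMap_of_notMem h, topMap_of_notMem (fun h' => h (hS hl.le h'))]
    · rw [← Category.assoc, hjρ, Category.id_comp]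
    · rw [← Category.assoc, hbρ, Category.assoc, ← sq.w, ← Category.assoc, ← c.map_comp,
        nvMap_comp]
  apply whe_of_eqvGen (N.map j) (N.map ρ)
  · rw [← N.map_comp, hjρ, N.map_id]
    exact Relation.EqvGen.refl _
  · rw [← N.map_comp, ← N.map_id]
    exact Relation.EqvGen.trans _ _ _ (Relation.EqvGen.rel _ _ H2)
      (Relation.EqvGen.symm _ _ (Relation.EqvGen.rel _ _ H1))

/-- The constant map. -/
def cstMap {L L' : Type u} [PartialOrder L] [PartialOrder L'] (v : L') : L →o L' :=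
  ⟨fun _ => v, fun _ _ _ => le_rfl⟩

/-- the nerve of a poset with greatest element is contractible -/
theorem whe_nerve_top {L P : Type u} [PartialOrder L] [PartialOrder P] [Unique P]
    (v : L) (hv : ∀ l, l ≤ v) : whe (nvMap (cstMap (default : P) : L →o P)) := by
  apply whe_of_eqvGen _ (nvMap (cstMap v : P →o L))
  · rw [nvMap_comp]
    refine Relation.EqvGen.symm _ _ (Relation.EqvGen.rel _ _ ⟨nvHomotopy OrderHom.id
      ((cstMap v : P →o L).comp (cstMap (default : P) : L →o P)) (fun l => hv l), ?_, ?_⟩)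
    · exact (ι₀_nvHomotopy _ _ _).trans nvMap_id
    · exact ι₁_nvHomotopy _ _ _
  · rw [nvMap_comp]
    have : (cstMap (default : P) : L →o P).comp (cstMap v : P →o L) = OrderHom.id := by
      ext x
      exact Subsingleton.elim _ _
    rw [this, nvMap_id]
    exact Relation.EqvGen.refl _

theorem whe_c_nerve_top [HasPullbacks D] (hA : ModelAxioms adj) {L P : Type u}
    [PartialOrder L] [Finite L] [PartialOrder P] [Unique P]
    (v : L) (hv : ∀ l, l ≤ v) :
    whe (N.map (c.map (nvMap (cstMap (default : P) : L →o P)))) := by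
  apply whe_of_eqvGen _ (N.map (c.map (nvMap (cstMap v : P →o L))))
  · rw [← N.map_comp, ← c.map_comp, nvMap_comp]
    apply Relation.EqvGen.symm
    apply Relation.EqvGen.rel
    obtain ⟨G, θ, e₀, e₁, hinj, he₀, he₁, hconst, hgray⟩ := hA.cyl (c.obj (nerve L))
    have hle : (OrderHom.id : L →o L) ≤
        ((cstMap v : P →o L).comp (cstMap (default : P) : L →o P)) := fun l => hv l
    obtain ⟨κ, hκ⟩ := hgray OrderHom.id
      ((cstMap v : P →o L).comp (cstMap (default : P) : L →o P)) hle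
      (fun _ _ _ => Or.inr rfl) (adj.unit.app (nerve L))
    let k : c.obj (nerve L) ⟶ G := (adj.homEquiv _ _).symm κ
    have hk0 : k ≫ e₀ = 𝟙 _ := by
      apply (adj.homEquiv _ _).injective
      rw [adj.homEquiv_naturality_right, Equiv.apply_symm_apply, he₀, adj.homEquiv_id]
      have : κ ≫ SSet.ι₀ ≫ θ = SSet.ι₀ ≫ κ ▷ Δ[1] ≫ θ := rfl
      rw [this, hκ, ← Category.assoc, ι₀_nvHomotopy, nvMap_id, Category.id_comp]
    have hk1 : k ≫ e₁ = c.map (nvMap ((cstMap v : P →o L).comp (cstMap (default : P)))) := by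
      apply (adj.homEquiv _ _).injective
      rw [adj.homEquiv_naturality_right, Equiv.apply_symm_apply, he₁]
      have : κ ≫ SSet.ι₁ ≫ θ = SSet.ι₁ ≫ κ ▷ Δ[1] ≫ θ := rfl
      rw [this, hκ, ← Category.assoc, ι₁_nvHomotopy, adj.homEquiv_unit]
      exact adj.unit.naturality _
    refine ⟨N.map k ▷ Δ[1] ≫ θ, ?_, ?_⟩
    · rw [← N.map_id, ← hk0, N.map_comp, he₀]
      rfl
    · rw [← hk1, N.map_comp, he₁]
      rfl
  · rw [← N.map_comp, ← c.map_comp, nvMap_comp]
    have : (cstMap (default : P) : L →o P).comp (cstMap v : P →o L) = OrderHom.id := by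
      ext x
      exact Subsingleton.elim _ _
    rw [this, nvMap_id, c.map_id, N.map_id]
    exact Relation.EqvGen.refl _

/-- if `L` has a greatest element then `N c N(L)` is weakly contractible -/
theorem whe_nerve_c_top [HasPullbacks D] (hA : ModelAxioms adj) {L : Type u}
    [PartialOrder L] [Finite L] (v : L) (hv : ∀ l, l ≤ v) :
    whe (adj.unit.app (nerve L)) := by
  have h0 : IsIso (adj.unit.app (nerve (ULift.{u} (Fin 1)))) := by
    rw [← NatTrans.isIso_app_iff_of_iso adj.unit (SSet.stdSimplex.isoNerve.{u} 0)]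
    exact hA.unit_zero
  have h1 : whe (adj.unit.app (nerve (ULift.{u} (Fin 1)))) := whe_of_isIso _
  have h2 := whe_nerve_top (P := ULift.{u} (Fin 1)) v hv
  have h3 := whe_c_nerve_top hA (P := ULift.{u} (Fin 1)) v hv
  have hnat := adj.unit.naturality (nvMap (cstMap (default : ULift.{u} (Fin 1)) :
    L →o ULift.{u} (Fin 1)))
  have h4 : whe (adj.unit.app (nerve L) ≫
      N.map (c.map (nvMap (cstMap (default : ULift.{u} (Fin 1)) : L →o ULift.{u} (Fin 1))))) := by
    have e : adj.unit.app (nerve L) ≫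
      N.map (c.map (nvMap (cstMap (default : ULift.{u} (Fin 1)) : L →o ULift.{u} (Fin 1)))) =
      nvMap (cstMap (default : ULift.{u} (Fin 1)) : L →o ULift.{u} (Fin 1)) ≫
        adj.unit.app (nerve (ULift.{u} (Fin 1))) := hnat.symm
    rw [e]
    exact whe.comp_mem _ _ h2 h1
  exact whe.of_postcomp _ _ h3 h4

end Vale.Agent.P213
end

section

/-!
Maps from nerves of posets to `Δ[1]` and their fibres.
-/

open CategoryTheory Simplicial Limits

universe v u

namespace Vale.Agent.P213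

section

variable {E : Type u} [PartialOrder E] (D : Set E) (hD : IsLowerSet D)

open Classical in
/-- the map `nerve E ⟶ Δ[1]` attached to a lower set `D`: `e ↦ 0` if `e ∈ D`, and `1` else -/
noncomputable def toDelta1 : nerve E ⟶ Δ[1] where
  app m := ↾fun x => SSet.stdSimplex.objMk
    { toFun := fun i => if x.obj i ∈ D then 0 else 1
      monotone' := by
        intro i j hij
        have hx : x.obj i ≤ x.obj j := leOfHom (x.map (homOfLE hij))
        dsimp only
        split_ifs with h₁ h₂ h₂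
        · exact le_refl _
        · exact Fin.zero_le _
        · exact absurd (hD hx h₂) h₁
        · exact le_refl _ }
  naturality m m' f := by
    ext x
    rfl

open Classical in
lemma toDelta1_apply' {n : SimplexCategoryᵒᵖ} (x : (nerve E).obj n) (i : Fin (n.unop.len + 1)) :
    (SSet.stdSimplex.objEquiv ((toDelta1 D hD).app _ x)) i = if x.obj i ∈ D then 0 else 1 := rfl

/-- defining property of `toDelta1` on simplices -/
lemma toDelta1_apply {m : ℕ} (x : (nerve E).obj (.op ⦋m⦌)) (i : Fin (m + 1)) :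
    (SSet.stdSimplex.objEquiv ((toDelta1 D hD).app _ x)) i = 0 ↔ x.obj i ∈ D := by
  rw [toDelta1_apply']
  split_ifs with h
  · simp [h]
  · simp [h]

end

/-- the constant map with value the vertex `ε` of `Δ[1]` -/
def constDelta1 (X : SSet.{u}) (ε : Fin 2) : X ⟶ Δ[1] :=
  SSet.const (SSet.stdSimplex.obj₀Equiv.symm ε)

lemma comp_constDelta1 {X Y : SSet.{u}} (f : X ⟶ Y) (ε : Fin 2) :
    f ≫ constDelta1 Y ε = constDelta1 X ε := rfl

lemma comp_δ_one {X : SSet.{u}} (f : X ⟶ Δ[0]) :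
    f ≫ SSet.stdSimplex.δ (1 : Fin 2) = constDelta1 X 0 := by
  rw [SSet.stdSimplex.δ_one_eq_const]
  rfl

lemma comp_δ_zero {X : SSet.{u}} (f : X ⟶ Δ[0]) :
    f ≫ SSet.stdSimplex.δ (0 : Fin 2) = constDelta1 X 1 := by
  rw [SSet.stdSimplex.δ_zero_eq_const]
  rfl

section

variable {E : Type u} [PartialOrder E] {T : Set E} (hT : IsLowerSet T)

lemma nv_ext {n : SimplexCategoryᵒᵖ} {x y : (nerve E).obj n} (h : ∀ i, x.obj i = y.obj i) :
    x = y := by
  apply CategoryTheory.Functor.hext h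
  intro i j f
  have e₁ := h i
  have e₂ := h j
  exact Subsingleton.helim (by rw [e₁, e₂]) _ _

lemma nvMap_subIncl_injective (W : Set E) (n : SimplexCategoryᵒᵖ) :
    Function.Injective ((nvMap (subIncl W)).app n) := by
  intro x y hxy
  apply nv_ext
  intro i
  apply Subtype.ext
  exact congrArg (fun z : (nerve E).obj n => z.obj i) hxy

lemma exists_nvMap_subIncl (W : Set E) (n : SimplexCategoryᵒᵖ) (x : (nerve E).obj n)
    (h : ∀ i, x.obj i ∈ W) : ∃ y, (nvMap (subIncl W)).app n y = x := by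
  refine ⟨Monotone.functor (f := fun i => (⟨x.obj i, h i⟩ : W)) ?_, ?_⟩
  · intro i j hij
    exact leOfHom (x.map (homOfLE hij))
  · apply nv_ext
    intro i
    rfl

lemma subsingleton_delta0 {n : SimplexCategoryᵒᵖ} (x y : (Δ[0] : SSet.{u}).obj n) : x = y := by
  apply SSet.stdSimplex.objEquiv.injective
  ext i : 3
  exact Subsingleton.elim (α := Fin 1) _ _

lemma isPullback_toDelta1_zero (f : nerve T ⟶ Δ[0]) :
    IsPullback (nvMap (subIncl T)) f (toDelta1 T hT) (SSet.stdSimplex.δ (1 : Fin 2)) := by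
  have hw : nvMap (subIncl T) ≫ toDelta1 T hT = f ≫ SSet.stdSimplex.δ (1 : Fin 2) := by
    rw [comp_δ_one]
    ext m x
    apply SSet.stdSimplex.objEquiv.injective
    ext i : 3
    change (SSet.stdSimplex.objEquiv ((toDelta1 T hT).app m ((nvMap (subIncl T)).app m x))) i = 0
    rw [toDelta1_apply', if_pos]
    exact (x.obj i).2
  apply IsPullback.of_forall_isPullback_app
  intro n
  rw [Types.isPullback_iff]
  refine ⟨congr_app hw n, ?_, ?_⟩
  · rintro x y ⟨h, -⟩
    exact nvMap_subIncl_injective T n h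
  · intro x y hxy
    obtain ⟨z, hz⟩ := exists_nvMap_subIncl T n x (fun i => by
      have h : (SSet.stdSimplex.objEquiv ((toDelta1 T hT).app n x)) i = 0 := by
        rw [hxy, SSet.stdSimplex.δ_one_eq_const]
        rfl
      by_contra hi
      rw [toDelta1_apply', if_neg hi] at h
      exact absurd h (by decide))
    exact ⟨z, hz, subsingleton_delta0 _ _⟩

lemma isPullback_toDelta1_one (W : Set E) (hW : ∀ e, e ∈ W ↔ e ∉ T) (f : nerve W ⟶ Δ[0]) :
    IsPullback (nvMap (subIncl W)) f (toDelta1 T hT) (SSet.stdSimplex.δ (0 : Fin 2)) := by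
  have hw : nvMap (subIncl W) ≫ toDelta1 T hT = f ≫ SSet.stdSimplex.δ (0 : Fin 2) := by
    rw [comp_δ_zero]
    ext m x
    apply SSet.stdSimplex.objEquiv.injective
    ext i : 3
    change (SSet.stdSimplex.objEquiv ((toDelta1 T hT).app m ((nvMap (subIncl W)).app m x))) i = 1
    rw [toDelta1_apply', if_neg]
    exact (hW _).1 (x.obj i).2
  apply IsPullback.of_forall_isPullback_app
  intro n
  rw [Types.isPullback_iff]
  refine ⟨congr_app hw n, ?_, ?_⟩
  · rintro x y ⟨h, -⟩
    exact nvMap_subIncl_injective W n h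
  · intro x y hxy
    obtain ⟨z, hz⟩ := exists_nvMap_subIncl W n x (fun i => by
      have h : (SSet.stdSimplex.objEquiv ((toDelta1 T hT).app n x)) i = 1 := by
        rw [hxy, SSet.stdSimplex.δ_zero_eq_const]
        rfl
      rw [hW]
      intro hi
      rw [toDelta1_apply', if_pos hi] at h
      exact absurd h (by decide))
    exact ⟨z, hz, subsingleton_delta0 _ _⟩

lemma false_of_initial {n : SimplexCategoryᵒᵖ} (x : (⊥_ SSet.{u}).obj n) : False :=
  ((initial.to (C := SSet.{u}) ((Functor.const _).obj PEmpty.{u + 1})).app n x).elim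

lemma isPullback_const_one {K : SSet.{u}} (g : (⊥_ SSet.{u}) ⟶ K)
    (g' : (⊥_ SSet.{u}) ⟶ Δ[0]) :
    IsPullback g g' (constDelta1 K 0) (SSet.stdSimplex.δ (0 : Fin 2)) := by
  apply IsPullback.of_forall_isPullback_app
  intro n
  rw [Types.isPullback_iff]
  refine ⟨congr_app (initial.hom_ext (g ≫ constDelta1 K 0) (g' ≫ SSet.stdSimplex.δ 0)) n,
    ?_, ?_⟩
  · rintro x
    exact (false_of_initial x).elim
  · intro x y hxy
    exfalso
    have h : (SSet.stdSimplex.objEquiv ((constDelta1 K 0).app n x)) 0 = 1 := by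
      rw [hxy, SSet.stdSimplex.δ_zero_eq_const]
      rfl
    exact absurd h (by
      change ¬ ((0 : Fin 2) = 1)
      decide)

end

attribute [irreducible] toDelta1

end Vale.Agent.P213
end

section

/-!
CA1: fibre lemmas over `Δ[1]`.
-/

open CategoryTheory Simplicial Limits Opposite

universe v u

namespace Vale.Agent.P213

variable {D : Type (u + 1)} [Category.{v} D] {c : SSet.{u} ⥤ D} {N : D ⥤ SSet.{u}}
  {adj : c ⊣ N} [HasPullbacks D] (hA : ModelAxioms adj)

/-- the constant map with value the vertex `ε` -/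
noncomputable def constC (X : D) (ε : Fin 2) : X ⟶ c.obj Δ[1] :=
  hA.terminal_zero.some.from X ≫ c.map (constDelta1 Δ[0] ε)

@[reassoc (attr := simp)]
lemma comp_constC {X X' : D} (f : X ⟶ X') (ε : Fin 2) :
    f ≫ constC hA X' ε = constC hA X ε := by
  unfold constC
  rw [← Category.assoc]
  congr 1
  exact hA.terminal_zero.some.hom_ext _ _

lemma map_constDelta1 (K : SSet.{u}) (ε : Fin 2) :
    c.map (constDelta1 K ε) = constC hA (c.obj K) ε := by
  rw [← comp_constDelta1 (SSet.stdSimplex.isTerminalObj₀.from K) ε, c.map_comp]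
  unfold constC
  congr 1
  exact hA.terminal_zero.some.hom_ext _ _

/-- the map of simplicial sets attached to a map to `c Δ[1]` -/
noncomputable def fibMap {Y : D} (p : Y ⟶ c.obj Δ[1]) : N.obj Y ⟶ Δ[1] :=
  haveI := hA.unit_one
  N.map p ≫ inv (adj.unit.app Δ[1])

@[reassoc]
lemma map_fib {Y Y' : D} (k : Y' ⟶ Y) (p : Y ⟶ c.obj Δ[1]) :
    N.map k ≫ fibMap hA p = fibMap hA (k ≫ p) := by
  simp [fibMap]

lemma homEquiv_fib {K : SSet.{u}} {Y : D} (b : c.obj K ⟶ Y) (p : Y ⟶ c.obj Δ[1])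
    (f : K ⟶ Δ[1]) (h : b ≫ p = c.map f) : adj.homEquiv _ _ b ≫ fibMap hA p = f := by
  have := hA.unit_one
  rw [adj.homEquiv_unit, Category.assoc, map_fib, h, fibMap, ← Category.assoc, IsIso.comp_inv_eq]
  exact (adj.unit.naturality f).symm

lemma fib_constC (X : D) (ε : Fin 2) : fibMap hA (constC hA X ε) = constDelta1 _ ε := by
  have := hA.unit_one
  have := hA.unit_zero
  have h : fibMap hA (c.map (constDelta1 Δ[0] ε)) = constDelta1 _ ε := by
    have e : fibMap hA (c.map (constDelta1 Δ[0] ε)) =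
        inv (adj.unit.app Δ[0]) ≫ constDelta1 Δ[0] ε := by
      rw [IsIso.eq_inv_comp, fibMap, ← Category.assoc, IsIso.comp_inv_eq]
      exact (adj.unit.naturality _).symm
    rw [e]
    rfl
  unfold constC
  rw [← map_fib, h, comp_constDelta1]

lemma isPullback_fib {Y Y' : D} {k : Y' ⟶ Y} {p : Y ⟶ c.obj Δ[1]} {ε : Fin 2}
    {t : Y' ⟶ c.obj Δ[0]} (h : IsPullback k t p (c.map (SSet.stdSimplex.δ ε)))
    (t' : N.obj Y' ⟶ Δ[0]) :
    IsPullback (N.map k) t' (fibMap hA p) (SSet.stdSimplex.δ ε) := by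
  have := hA.unit_one
  have := hA.unit_zero
  have := adj.isRightAdjoint
  have : PreservesLimitsOfShape WalkingCospan N := adj.rightAdjoint_preservesLimits.1
  refine (h.map N).of_iso (Iso.refl _) (Iso.refl _) (asIso (adj.unit.app Δ[0])).symm
    (asIso (adj.unit.app Δ[1])).symm ?_ ?_ ?_ ?_
  · simp
  · exact SSet.stdSimplex.isTerminalObj₀.hom_ext _ _
  · simp [fibMap]
  · simp only [asIso_inv, Iso.symm_hom, IsIso.comp_inv_eq, Category.assoc]
    rw [IsIso.eq_inv_comp]
    exact (adj.unit.naturality _).symm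

lemma map_δ_one : c.map (SSet.stdSimplex.{u}.δ (1 : Fin 2)) = constC hA (c.obj Δ[0]) 0 := by
  rw [← map_constDelta1]
  congr 1
  exact SSet.stdSimplex.δ_one_eq_const

lemma map_δ_zero : c.map (SSet.stdSimplex.{u}.δ (0 : Fin 2)) = constC hA (c.obj Δ[0]) 1 := by
  rw [← map_constDelta1]
  congr 1
  exact SSet.stdSimplex.δ_zero_eq_const

include hA in
lemma mono_map_δ (ε : Fin 2) : Mono (c.map (SSet.stdSimplex.{u}.δ ε)) where
  right_cancellation _ _ _ := hA.terminal_zero.some.hom_ext _ _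

lemma isPullback_constC_zero (X : D) (t : X ⟶ c.obj Δ[0]) :
    IsPullback (𝟙 X) t (constC hA X 0) (c.map (SSet.stdSimplex.{u}.δ (1 : Fin 2))) := by
  have := mono_map_δ hA (1 : Fin 2)
  have h : constC hA X 0 = t ≫ c.map (SSet.stdSimplex.{u}.δ (1 : Fin 2)) := by
    rw [map_δ_one hA, comp_constC]
  rw [h]
  refine ⟨⟨by simp⟩, ⟨PullbackCone.IsLimit.mk _ (fun s => s.fst) (by simp) ?_ ?_⟩⟩
  · intro s
    exact hA.terminal_zero.some.hom_ext _ _
  · intro s m hm _
    simpa using hm

lemma isPullback_constC_one (X : D) (t : X ⟶ c.obj Δ[0]) :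
    IsPullback (𝟙 X) t (constC hA X 1) (c.map (SSet.stdSimplex.{u}.δ (0 : Fin 2))) := by
  have := mono_map_δ hA (0 : Fin 2)
  have h : constC hA X 1 = t ≫ c.map (SSet.stdSimplex.{u}.δ (0 : Fin 2)) := by
    rw [map_δ_zero hA, comp_constC]
  rw [h]
  refine ⟨⟨by simp⟩, ⟨PullbackCone.IsLimit.mk _ (fun s => s.fst) (by simp) ?_ ?_⟩⟩
  · intro s
    exact hA.terminal_zero.some.hom_ext _ _
  · intro s m hm _
    simpa using hm

/-- the fibre over the other vertex is initial -/
lemma isInitial_fiber_constC {X X' : D} {ξ : X' ⟶ X} {t : X' ⟶ c.obj Δ[0]}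
    (h : IsPullback ξ t (constC hA X 0) (c.map (SSet.stdSimplex.{u}.δ (0 : Fin 2)))) :
    Nonempty (IsInitial X') := by
  have h₁ := CA.isPullback_c_fiber hA (isPullback_const_one.{u} (K := Δ[0]) (initial.to _)
    (initial.to _))
  rw [map_constDelta1 hA] at h₁
  refine hA.strict (h₁.lift (ξ ≫ hA.terminal_zero.some.from X) t ?_)
  rw [← h.w]
  simp

section lower

variable {E : Type u} [PartialOrder E]

lemma isPullback_lower {S T : Set E} (hT : IsLowerSet T) (hST : S ⊆ T)
    {X Y : D} {a : c.obj (nerve S) ⟶ X} {b : c.obj (nerve E) ⟶ Y} {j : X ⟶ Y}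
    (sq : IsPushout (c.map (nvMap (subIncl S))) a b j) {Y' : D}
    {b' : c.obj (nerve T) ⟶ Y'} {j' : X ⟶ Y'}
    (sq' : IsPushout (c.map (nvMap (subIncl₂ hST))) a b' j')
    (k : Y' ⟶ Y) (hk₁ : b' ≫ k = c.map (nvMap (subIncl T)) ≫ b) (hk₂ : j' ≫ k = j)
    (p : Y ⟶ c.obj Δ[1]) (hp₁ : b ≫ p = c.map (toDelta1 T hT)) (hp₂ : j ≫ p = constC hA X 0)
    (t : Y' ⟶ c.obj Δ[0]) :
    IsPullback k t p (c.map (SSet.stdSimplex.{u}.δ (1 : Fin 2))) := by
  have hT₀ := hA.terminal_zero.some
  have := hT₀.hasTerminal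
  have := hasBinaryProducts_of_hasTerminal_and_pullbacks D
  have := hA.exponentiable 1
  have hS : c.map (nvMap (subIncl S)) ≫ b ≫ p = constC hA _ 0 := by
    rw [sq.w_assoc, hp₂, comp_constC]
  refine CA.isPullback_of_isPushout (c.map (SSet.stdSimplex.{u}.δ (1 : Fin 2))) sq p
    (α := 𝟙 _) (κ := c.map (nvMap (subIncl T))) (ξ := 𝟙 _)
    (pA := hT₀.from _) (pK := c.map (SSet.stdSimplex.isTerminalObj₀.from _)) (pX := hT₀.from _)
    ?_ ?_ ?_ ?_ ?_ ?_ ?_ sq' hk₁ ?_ ?_ ?_
  · rw [hS]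
    exact isPullback_constC_zero hA _ _
  · rw [hp₁]
    exact CA.isPullback_c_fiber hA (isPullback_toDelta1_zero hT _)
  · rw [hp₂]
    exact isPullback_constC_zero hA _ _
  · rw [← c.map_comp, Category.id_comp]
    rfl
  · exact hT₀.hom_ext _ _
  · simp
  · exact hT₀.hom_ext _ _
  · exact hT₀.hom_ext _ _
  · simpa using hk₂
  · exact hT₀.hom_ext _ _

lemma isPullback_compl {S T : Set E} (hT : IsLowerSet T)
    {X Y : D} {a : c.obj (nerve S) ⟶ X} {b : c.obj (nerve E) ⟶ Y} {j : X ⟶ Y}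
    (sq : IsPushout (c.map (nvMap (subIncl S))) a b j)
    (p : Y ⟶ c.obj Δ[1]) (hp₁ : b ≫ p = c.map (toDelta1 T hT)) (hp₂ : j ≫ p = constC hA X 0)
    (t : c.obj (nerve (Tᶜ : Set E)) ⟶ c.obj Δ[0]) :
    IsPullback (c.map (nvMap (subIncl Tᶜ)) ≫ b) t p
      (c.map (SSet.stdSimplex.{u}.δ (0 : Fin 2))) := by
  have hT₀ := hA.terminal_zero.some
  have := hT₀.hasTerminal
  have := hasBinaryProducts_of_hasTerminal_and_pullbacks D
  have := hA.exponentiable 0
  have hS : c.map (nvMap (subIncl S)) ≫ b ≫ p = constC hA _ 0 := by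
    rw [sq.w_assoc, hp₂, comp_constC]
  have h₁ := IsPullback.of_hasPullback (constC hA (c.obj (nerve S)) 0)
    (c.map (SSet.stdSimplex.{u}.δ (0 : Fin 2)))
  have h₂ := IsPullback.of_hasPullback (constC hA X 0)
    (c.map (SSet.stdSimplex.{u}.δ (0 : Fin 2)))
  obtain ⟨i₁⟩ := isInitial_fiber_constC hA h₁
  obtain ⟨i₂⟩ := isInitial_fiber_constC hA h₂
  have hi : IsIso (i₁.to (pullback (constC hA X 0) (c.map (SSet.stdSimplex.{u}.δ (0 : Fin 2))))) :=
    (i₁.uniqueUpToIso i₂).isIso_hom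
  refine CA.isPullback_of_isPushout (c.map (SSet.stdSimplex.δ (0 : Fin 2))) sq p
    (i' := i₁.to _) (a' := i₁.to _) (b' := 𝟙 _) (j' := i₂.to _)
    (κ := c.map (nvMap (subIncl Tᶜ)))
    (pK := c.map (SSet.stdSimplex.isTerminalObj₀.from _))
    (by rw [hS]; exact h₁) ?_ (by rw [hp₂]; exact h₂) ?_ ?_ ?_ ?_ ?_ ?_ ?_ ?_ ?_
  · rw [hp₁]
    exact CA.isPullback_c_fiber hA (isPullback_toDelta1_one hT Tᶜ (fun e => Iff.rfl) _)
  · exact i₁.hom_ext _ _
  · exact i₁.hom_ext _ _
  · exact i₁.hom_ext _ _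
  · exact i₁.hom_ext _ _
  · exact IsPushout.of_vert_isIso ⟨i₁.hom_ext _ _⟩
  · simp
  · exact hT₀.hom_ext _ _
  · exact i₂.hom_ext _ _
  · exact i₂.hom_ext _ _

lemma isPullback_upper {S U : Set E} (hU : IsLowerSet Uᶜ) (hSU : S ⊆ U)
    {X Y : D} {a : c.obj (nerve S) ⟶ X} {b : c.obj (nerve E) ⟶ Y} {j : X ⟶ Y}
    (sq : IsPushout (c.map (nvMap (subIncl S))) a b j) {Y' : D}
    {b' : c.obj (nerve U) ⟶ Y'} {j' : X ⟶ Y'}
    (sq' : IsPushout (c.map (nvMap (subIncl₂ hSU))) a b' j')
    (k : Y' ⟶ Y) (hk₁ : b' ≫ k = c.map (nvMap (subIncl U)) ≫ b) (hk₂ : j' ≫ k = j)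
    (p : Y ⟶ c.obj Δ[1]) (hp₁ : b ≫ p = c.map (toDelta1 Uᶜ hU)) (hp₂ : j ≫ p = constC hA X 1)
    (t : Y' ⟶ c.obj Δ[0]) :
    IsPullback k t p (c.map (SSet.stdSimplex.{u}.δ (0 : Fin 2))) := by
  have hT₀ := hA.terminal_zero.some
  have := hT₀.hasTerminal
  have := hasBinaryProducts_of_hasTerminal_and_pullbacks D
  have := hA.exponentiable 0
  have hS : c.map (nvMap (subIncl S)) ≫ b ≫ p = constC hA _ 1 := by
    rw [sq.w_assoc, hp₂, comp_constC]
  refine CA.isPullback_of_isPushout (c.map (SSet.stdSimplex.{u}.δ (0 : Fin 2))) sq p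
    (α := 𝟙 _) (κ := c.map (nvMap (subIncl U))) (ξ := 𝟙 _)
    (pA := hT₀.from _) (pK := c.map (SSet.stdSimplex.isTerminalObj₀.from _)) (pX := hT₀.from _)
    ?_ ?_ ?_ ?_ ?_ ?_ ?_ sq' hk₁ ?_ ?_ ?_
  · rw [hS]
    exact isPullback_constC_one hA _ _
  · rw [hp₁]
    exact CA.isPullback_c_fiber hA (isPullback_toDelta1_one hU U (fun e => by simp) _)
  · rw [hp₂]
    exact isPullback_constC_one hA _ _
  · rw [← c.map_comp, Category.id_comp]
    rfl
  · exact hT₀.hom_ext _ _
  · simp
  · exact hT₀.hom_ext _ _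
  · exact hT₀.hom_ext _ _
  · simpa using hk₂
  · exact hT₀.hom_ext _ _

lemma subIncl_toDelta1_zero {S T : Set E} (hT : IsLowerSet T) (hST : S ⊆ T) :
    nvMap (subIncl S) ≫ toDelta1 T hT = constDelta1 _ 0 := by
  have h := (isPullback_toDelta1_zero hT (SSet.stdSimplex.isTerminalObj₀.from _)).w
  rw [comp_δ_one] at h
  have h' : nvMap (subIncl S) = nvMap (subIncl₂ hST) ≫ nvMap (subIncl T) := rfl
  rw [h', Category.assoc, h, comp_constDelta1]

lemma subIncl_toDelta1_one {S U : Set E} (hU : IsLowerSet Uᶜ) (hSU : S ⊆ U) :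
    nvMap (subIncl S) ≫ toDelta1 Uᶜ hU = constDelta1 _ 1 := by
  have h := (isPullback_toDelta1_one hU U (fun e => by simp)
    (SSet.stdSimplex.isTerminalObj₀.from _)).w
  rw [comp_δ_zero] at h
  have h' : nvMap (subIncl S) = nvMap (subIncl₂ hSU) ≫ nvMap (subIncl U) := rfl
  rw [h', Category.assoc, h, comp_constDelta1]

lemma exists_p_lower {S T : Set E} (hT : IsLowerSet T) (hST : S ⊆ T)
    {X Y : D} {a : c.obj (nerve S) ⟶ X} {b : c.obj (nerve E) ⟶ Y} {j : X ⟶ Y}
    (sq : IsPushout (c.map (nvMap (subIncl S))) a b j) :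
    ∃ p : Y ⟶ c.obj Δ[1], b ≫ p = c.map (toDelta1 T hT) ∧ j ≫ p = constC hA X 0 := by
  refine ⟨sq.desc (c.map (toDelta1 T hT)) (constC hA X 0) ?_, sq.inl_desc _ _ _,
    sq.inr_desc _ _ _⟩
  rw [← c.map_comp, subIncl_toDelta1_zero hT hST, map_constDelta1 hA, comp_constC]

lemma exists_p_upper {S U : Set E} (hU : IsLowerSet Uᶜ) (hSU : S ⊆ U)
    {X Y : D} {a : c.obj (nerve S) ⟶ X} {b : c.obj (nerve E) ⟶ Y} {j : X ⟶ Y}
    (sq : IsPushout (c.map (nvMap (subIncl S))) a b j) :
    ∃ p : Y ⟶ c.obj Δ[1], b ≫ p = c.map (toDelta1 Uᶜ hU) ∧ j ≫ p = constC hA X 1 := by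
  refine ⟨sq.desc (c.map (toDelta1 Uᶜ hU)) (constC hA X 1) ?_, sq.inl_desc _ _ _,
    sq.inr_desc _ _ _⟩
  rw [← c.map_comp, subIncl_toDelta1_one hU hSU, map_constDelta1 hA, comp_constC]

end lower

section stubs

/-- `S ⊆ T` lower sets of `E`, `Y = X ∪_{cN(S)} cN(E)`; then there is `π : N Y ⟶ Δ[1]`
which is `0` exactly on `X ∪ T`; the fibre over `0` is `N` of `X ∪_{cN(S)} cN(T)`, the fibre
over `1` is `N c N (E \ T)`. -/
lemma fiber_both (hA : ModelAxioms adj) {E : Type u} [PartialOrder E]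
    {S T : Set E} (hT : IsLowerSet T) (hST : S ⊆ T)
    {X Y : D} {a : c.obj (nerve S) ⟶ X} {b : c.obj (nerve E) ⟶ Y} {j : X ⟶ Y}
    (sq : IsPushout (c.map (nvMap (subIncl S))) a b j) {Y' : D}
    {b' : c.obj (nerve T) ⟶ Y'} {j' : X ⟶ Y'}
    (sq' : IsPushout (c.map (nvMap (subIncl₂ hST))) a b' j')
    (k : Y' ⟶ Y) (hk₁ : b' ≫ k = c.map (nvMap (subIncl T)) ≫ b) (hk₂ : j' ≫ k = j) :
    ∃ π : N.obj Y ⟶ Δ[1],
      adj.homEquiv _ _ b ≫ π = toDelta1 T hT ∧ N.map j ≫ π = constDelta1 _ 0 ∧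
      IsPullback (N.map k) (SSet.const (SSet.stdSimplex.obj₀Equiv.symm 0)) π
        (SSet.stdSimplex.δ (1 : Fin 2) : Δ[0] ⟶ Δ[1]) ∧
      IsPullback (N.map (c.map (nvMap (subIncl Tᶜ)) ≫ b))
        (SSet.const (SSet.stdSimplex.obj₀Equiv.symm 0)) π
        (SSet.stdSimplex.δ (0 : Fin 2) : Δ[0] ⟶ Δ[1]) := by
  obtain ⟨p, hp₁, hp₂⟩ := exists_p_lower hA hT hST sq
  refine ⟨fibMap hA p, homEquiv_fib hA b p _ hp₁, ?_, ?_, ?_⟩
  · rw [map_fib, hp₂, fib_constC]
  · exact isPullback_fib hA (isPullback_lower hA hT hST sq sq' k hk₁ hk₂ p hp₁ hp₂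
      (hA.terminal_zero.some.from _)) _
  · exact isPullback_fib hA (isPullback_compl hA hT sq p hp₁ hp₂
      (hA.terminal_zero.some.from _)) _

/-- `S ⊆ T` lower sets of `E`, `Y = X ∪_{cN(S)} cN(E)`; then there is `π : N Y ⟶ Δ[1]`
which is `0` exactly on `X ∪ T`, and the fibre over `0` is `N` of `X ∪_{cN(S)} cN(T)`. -/
lemma fiber_lower (hA : ModelAxioms adj) {E : Type u} [PartialOrder E]
    {S T : Set E} (hT : IsLowerSet T) (hST : S ⊆ T)
    {X Y : D} {a : c.obj (nerve S) ⟶ X} {b : c.obj (nerve E) ⟶ Y} {j : X ⟶ Y}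
    (sq : IsPushout (c.map (nvMap (subIncl S))) a b j) {Y' : D}
    {b' : c.obj (nerve T) ⟶ Y'} {j' : X ⟶ Y'}
    (sq' : IsPushout (c.map (nvMap (subIncl₂ hST))) a b' j')
    (k : Y' ⟶ Y) (hk₁ : b' ≫ k = c.map (nvMap (subIncl T)) ≫ b) (hk₂ : j' ≫ k = j) :
    ∃ π : N.obj Y ⟶ Δ[1],
      adj.homEquiv _ _ b ≫ π = toDelta1 T hT ∧ N.map j ≫ π = constDelta1 _ 0 ∧
      IsPullback (N.map k) (SSet.const (SSet.stdSimplex.obj₀Equiv.symm 0)) π
        (SSet.stdSimplex.δ (1 : Fin 2) : Δ[0] ⟶ Δ[1]) := by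
  obtain ⟨π, h₁, h₂, h₃, -⟩ := fiber_both hA hT hST sq sq' k hk₁ hk₂
  exact ⟨π, h₁, h₂, h₃⟩

/-- `S` lower set of `E`, complement of the lower set `T ⊇ S`: fibre over `1` is
`N c N (E \ T)`. -/
lemma fiber_compl (hA : ModelAxioms adj) {E : Type u} [PartialOrder E]
    {S T : Set E} (hT : IsLowerSet T) (hST : S ⊆ T)
    {X Y : D} {a : c.obj (nerve S) ⟶ X} {b : c.obj (nerve E) ⟶ Y} {j : X ⟶ Y}
    (sq : IsPushout (c.map (nvMap (subIncl S))) a b j) :
    ∃ π : N.obj Y ⟶ Δ[1],
      adj.homEquiv _ _ b ≫ π = toDelta1 T hT ∧ N.map j ≫ π = constDelta1 _ 0 ∧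
      IsPullback (N.map (c.map (nvMap (subIncl Tᶜ)) ≫ b))
        (SSet.const (SSet.stdSimplex.obj₀Equiv.symm 0)) π
        (SSet.stdSimplex.δ (0 : Fin 2) : Δ[0] ⟶ Δ[1]) := by
  obtain ⟨p, hp₁, hp₂⟩ := exists_p_lower hA hT hST sq
  refine ⟨fibMap hA p, homEquiv_fib hA b p _ hp₁, ?_, ?_⟩
  · rw [map_fib, hp₂, fib_constC]
  · exact isPullback_fib hA (isPullback_compl hA hT sq p hp₁ hp₂
      (hA.terminal_zero.some.from _)) _

/-- `S ⊆ U` with `U` an upper set: fibre over `1` of `Y` is `N` of `X ∪_{cN(S)} cN(U)`. -/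
lemma fiber_upper (hA : ModelAxioms adj) {E : Type u} [PartialOrder E]
    {S U : Set E} (hU : IsLowerSet Uᶜ) (hSU : S ⊆ U)
    {X Y : D} {a : c.obj (nerve S) ⟶ X} {b : c.obj (nerve E) ⟶ Y} {j : X ⟶ Y}
    (sq : IsPushout (c.map (nvMap (subIncl S))) a b j) {Y' : D}
    {b' : c.obj (nerve U) ⟶ Y'} {j' : X ⟶ Y'}
    (sq' : IsPushout (c.map (nvMap (subIncl₂ hSU))) a b' j')
    (k : Y' ⟶ Y) (hk₁ : b' ≫ k = c.map (nvMap (subIncl U)) ≫ b) (hk₂ : j' ≫ k = j) :
    ∃ π : N.obj Y ⟶ Δ[1],
      adj.homEquiv _ _ b ≫ π = toDelta1 Uᶜ hU ∧ N.map j ≫ π = constDelta1 _ 1 ∧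
      IsPullback (N.map k) (SSet.const (SSet.stdSimplex.obj₀Equiv.symm 0)) π
        (SSet.stdSimplex.δ (0 : Fin 2) : Δ[0] ⟶ Δ[1]) := by
  obtain ⟨p, hp₁, hp₂⟩ := exists_p_upper hA hU hSU sq
  refine ⟨fibMap hA p, homEquiv_fib hA b p _ hp₁, ?_, ?_⟩
  · rw [map_fib, hp₂, fib_constC]
  · exact isPullback_fib hA (isPullback_upper hA hU hSU sq sq' k hk₁ hk₂ p hp₁ hp₂
      (hA.terminal_zero.some.from _)) _

end stubs

end Vale.Agent.P213
end

section

/-!
CA: vertices of nerves of pushouts; uniqueness of the maps to `Δ[1]`.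
-/

open CategoryTheory HomotopicalAlgebra Simplicial MonoidalCategory Limits MorphismProperty
open Opposite

universe v u

namespace Vale.Agent.P213

variable {D : Type (u + 1)} [Category.{v} D] {c : SSet.{u} ⥤ D} {N : D ⥤ SSet.{u}}
  {adj : c ⊣ N}

namespace CAExt

open CAUtil

lemma unit_naturality_app {K L : SSet.{u}} (f : K ⟶ L) {n : ℕ} (x : K _⦋n⦌) :
    (N.map (c.map f)).app _ ((adj.unit.app K).app _ x) = (adj.unit.app L).app _ (f.app _ x) := by
  have h := adj.unit.naturality f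
  exact (ConcreteCategory.congr_hom (congr_app h (op ⦋n⦌)) x).symm

/-- every vertex of `N c N(P)` is an element of `P` -/
lemma vert_unit [HasPullbacks D] (hA : ModelAxioms adj) : ∀ (n : ℕ) (P : Type u) [PartialOrder P]
    [Finite P], Nat.card P = n → ∀ z : (N.obj (c.obj (nerve P))) _⦋0⦌,
      ∃ p : (nerve P) _⦋0⦌, (adj.unit.app (nerve P)).app _ p = z := by
  intro n
  induction n using Nat.strong_induction_on with
  | _ n ih =>
  intro P _ _ hn z
  rcases isEmpty_or_nonempty P with hP | hP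
  · -- empty case
    exfalso
    have hemp : ∀ m : SimplexCategoryᵒᵖ, (nerve P).obj m → False := fun m x =>
      hP.elim (x.obj 0)
    let g : nerve P ⟶ ⊥_ SSet.{u} :=
      { app := fun m => ↾fun x => (hemp m x).elim
        naturality := fun m m' f => by
          ext x
          exact (hemp m x).elim }
    have := hA.unit_empty
    let z' : (⊥_ SSet.{u}) _⦋0⦌ := (inv (adj.unit.app (⊥_ SSet.{u}))).app _
      ((N.map (c.map g)).app _ z)
    exact hemp _ ((initial.to (nerve P)).app _ z')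
  · obtain ⟨p₀, hp₀⟩ := exists_minimal_of_wellFoundedLT (fun _ : P => True)
      ⟨Classical.arbitrary P, trivial⟩
    have hmin : ∀ q : P, q ≤ p₀ → q = p₀ := fun q hq => le_antisymm hq (hp₀.2 trivial hq)
    have hT : IsLowerSet ({p₀} : Set P) := by
      rintro x y hyx hx
      rw [Set.mem_singleton_iff] at hx
      subst hx
      exact hmin y hyx
    have sq : IsPushout (c.map (nvMap (subIncl (∅ : Set P)))) (𝟙 (c.obj (nerve (∅ : Set P))))
        (𝟙 (c.obj (nerve P))) (c.map (nvMap (subIncl (∅ : Set P)))) := IsPushout.of_vert_isIso ⟨by simp⟩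
    have sq' : IsPushout (c.map (nvMap (subIncl₂ (Set.empty_subset ({p₀} : Set P)))))
        (𝟙 (c.obj (nerve (∅ : Set P)))) (𝟙 (c.obj (nerve ({p₀} : Set P))))
        (c.map (nvMap (subIncl₂ (Set.empty_subset ({p₀} : Set P))))) :=
      IsPushout.of_vert_isIso ⟨by simp⟩
    obtain ⟨π, -, -, pb₀, pb₁⟩ := fiber_both hA hT (Set.empty_subset _) sq sq'
      (c.map (nvMap (subIncl ({p₀} : Set P)))) (by simp) (by
        rw [← c.map_comp]
        rfl)
    have hcases : ∀ t : Fin 2, t = 0 ∨ t = 1 := by decide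
    rcases hcases ((π.app _ z : (Δ[1] _⦋0⦌ : Type u)) 0) with h0 | h1
    · obtain ⟨w, hw⟩ := exists_of_fiber_zero pb₀ z (fun i => by
        rw [Fin.fin_one_eq_zero i]
        exact h0)
      -- the nerve of a point
      let q : nerve ({p₀} : Set P) ⟶ Δ[0] := SSet.const (SSet.stdSimplex.obj₀Equiv.symm 0)
      let s : Δ[0] ⟶ nerve ({p₀} : Set P) := SSet.const (nerveEquiv.symm ⟨p₀, rfl⟩)
      have hqs : q ≫ s = 𝟙 _ := by
        ext m x i
        exact congrArg Subtype.val (Subsingleton.elim (α := ({p₀} : Set P)) _ _)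
      have := hA.unit_zero
      let v : (Δ[0] : SSet.{u}) _⦋0⦌ := (inv (adj.unit.app Δ[0])).app _ ((N.map (c.map q)).app _ w)
      have hv : (adj.unit.app Δ[0]).app _ v = (N.map (c.map q)).app _ w := by
        have h := ConcreteCategory.congr_hom (congr_app (IsIso.inv_hom_id (adj.unit.app Δ[0]))
          (op ⦋0⦌)) ((N.map (c.map q)).app _ w)
        exact h
      refine ⟨(nvMap (subIncl _)).app _ (s.app _ v), ?_⟩
      rw [← unit_naturality_app, ← unit_naturality_app, hv, ← hw]
      have h2 : (N.map (c.map s)).app _ ((N.map (c.map q)).app _ w) = w := by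
        have h3 : N.map (c.map q) ≫ N.map (c.map s) = 𝟙 _ := by
          rw [← N.map_comp, ← c.map_comp, hqs, c.map_id, N.map_id]
        exact ConcreteCategory.congr_hom (congr_app h3 (op ⦋0⦌)) w
      rw [h2]
    · obtain ⟨w, hw⟩ := exists_of_fiber_one pb₁ z (fun i => by
        rw [Fin.fin_one_eq_zero i]
        exact h1)
      have hcard : Nat.card (({p₀} : Set P)ᶜ : Set P) < n := by
        rw [← hn]
        have h2 : (({p₀} : Set P)ᶜ) ⊂ Set.univ := by
          rw [Set.ssubset_univ_iff]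
          intro h
          have : p₀ ∈ (({p₀} : Set P)ᶜ) := by rw [h]; trivial
          exact this rfl
        have h3 := Set.ncard_lt_ncard h2 (Set.toFinite _)
        rwa [Set.ncard_univ] at h3
      obtain ⟨p, hp⟩ := ih _ hcard (({p₀} : Set P)ᶜ : Set P) rfl w
      refine ⟨(nvMap (subIncl _)).app _ p, ?_⟩
      rw [← unit_naturality_app, hp, ← hw, Category.comp_id]

/-- vertices of the nerve of a pushout -/
lemma vert_cover [HasPullbacks D] (hA : ModelAxioms adj) {E : Type u} [PartialOrder E] [Finite E]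
    {S : Set E} (hS : IsLowerSet S)
    {X Y : D} {a : c.obj (nerve S) ⟶ X} {b : c.obj (nerve E) ⟶ Y} {j : X ⟶ Y}
    (sq : IsPushout (c.map (nvMap (subIncl S))) a b j) (y : (N.obj Y) _⦋0⦌) :
    (∃ x : (N.obj X) _⦋0⦌, (N.map j).app _ x = y) ∨
      (∃ e : (nerve E) _⦋0⦌, (adj.homEquiv _ _ b).app _ e = y) := by
  have sq' : IsPushout (c.map (nvMap (subIncl₂ (le_refl S)))) a a (𝟙 X) := by
    have e : c.map (nvMap (subIncl₂ (le_refl S))) = 𝟙 _ := c.map_id _
    rw [e]
    exact IsPushout.of_id_fst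
  obtain ⟨π, -, -, pb₀, pb₁⟩ := fiber_both hA hS (le_refl S) sq sq' j sq.w.symm (by simp)
  have hcases : ∀ t : Fin 2, t = 0 ∨ t = 1 := by decide
  rcases hcases ((π.app _ y : (Δ[1] _⦋0⦌ : Type u)) 0) with h0 | h1
  · exact Or.inl (exists_of_fiber_zero pb₀ y (fun i => by
        rw [Fin.fin_one_eq_zero i]
        exact h0))
  · obtain ⟨w, hw⟩ := exists_of_fiber_one pb₁ y (fun i => by
        rw [Fin.fin_one_eq_zero i]
        exact h1)
    obtain ⟨p, hp⟩ := vert_unit hA _ (Sᶜ : Set E) rfl w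
    refine Or.inr ⟨(nvMap (subIncl _)).app _ p, ?_⟩
    rw [← hw, ← hp, N.map_comp]
    change _ = (N.map b).app _ ((N.map (c.map (nvMap (subIncl Sᶜ)))).app _
      ((adj.unit.app (nerve (Sᶜ : Set E))).app _ p))
    rw [unit_naturality_app, adj.homEquiv_unit]
    rfl

/-- a map `N Y ⟶ Δ[m]` is determined by its restrictions to `N X` and `N(E)` -/
lemma pi_ext [HasPullbacks D] (hA : ModelAxioms adj) {E : Type u} [PartialOrder E] [Finite E]
    {S : Set E} (hS : IsLowerSet S)
    {X Y : D} {a : c.obj (nerve S) ⟶ X} {b : c.obj (nerve E) ⟶ Y} {j : X ⟶ Y}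
    (sq : IsPushout (c.map (nvMap (subIncl S))) a b j) {m : ℕ} {π π' : N.obj Y ⟶ Δ[m]}
    (h₁ : adj.homEquiv _ _ b ≫ π = adj.homEquiv _ _ b ≫ π')
    (h₂ : N.map j ≫ π = N.map j ≫ π') : π = π' := by
  apply hom_ext_stdSimplex
  intro y
  rcases vert_cover hA hS sq y with ⟨x, rfl⟩ | ⟨e, rfl⟩
  · exact ConcreteCategory.congr_hom (congr_app h₂ (op ⦋0⦌)) x
  · exact ConcreteCategory.congr_hom (congr_app h₁ (op ⦋0⦌)) e

end CAExt

end Vale.Agent.P213
end
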