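import Vale.Agent.P213.Bdl.B5
import Vale.Agent.P213.Bdl.B1
import Vale.Agent.P213.Bdl.B2

set_option linter.all false

section

/-!
Functors on cylinders, restriction along morphisms of complexes; representation lemmas.
-/

universe u v w

namespace Vale.Agent.P213

open OmegaStr BCx BCxHom

/-! ### The cell `x ⊗ t` -/

/-- The cell `x ⊗ t` of the cylinder. -/
noncomputable def Cell.ten {K : BCx} (x : Cell K) (t : I3) : Cell K.cyl :=
  I3.casesOn t (x.map (cylEnd K false)) (x.map (cylEnd K true)) x.tseg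

theorem Cell.ten_zero {K : BCx} (x : Cell K) : x.ten I3.zero = x.map (cylEnd K false) := rfl

theorem Cell.ten_one {K : BCx} (x : Cell K) : x.ten I3.one = x.map (cylEnd K true) := rfl

theorem Cell.ten_seg {K : BCx} (x : Cell K) : x.ten I3.seg = x.tseg := rfl

theorem Cell.lin_par_bd380 {K L : BCx} (φ : BCxHom K L) (e : Bool) (x : K.B →₀ ℤ) :
    φ.lin (Cell.par K e x) = Cell.par L e (φ.lin x) := by
  cases e
  · exact φ.lin_part _ x
  · exact φ.lin_part _ x

theorem Cell.map_tseg_cyl {K L : BCx} (φ : BCxHom K L) (x : Cell K) :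
    x.tseg.map (cylMap φ) = (x.map φ).tseg := by
  ext1
  funext a
  rw [Cell.map_val, Cell.tseg_val, Cell.tseg_val, map_add, map_add, lin_cylMap_inj,
    lin_cylMap_inj, lin_cylMap_inj, Cell.lin_par_bd380, Cell.lin_par_bd380]
  rfl

theorem Cell.ten_map {K L : BCx} (φ : BCxHom K L) (x : Cell K) (t : I3) :
    (x.ten t).map (cylMap φ) = (x.map φ).ten t := by
  cases t
  · rw [Cell.ten_zero, Cell.ten_zero, ← Cell.map_comp, ← Cell.map_comp, cylMap_comp_cylEnd]
  · rw [Cell.ten_one, Cell.ten_one, ← Cell.map_comp, ← Cell.map_comp, cylMap_comp_cylEnd]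
  · rw [Cell.ten_seg, Cell.ten_seg, Cell.map_tseg_cyl]

theorem Steiner.cyl_atom {K : BCx} (hK : Steiner K) (b : K.B) (t : I3) :
    hK.cyl.atom (b, t) = (hK.atom b).ten t := by
  cases t <;> rfl

/-! ### Functors on cylinders -/

/-- Functors out of the cylinder of `K`. -/
abbrev PCyl (Z : Type v) [OmegaStr Z] (K : BCx) : Type v := OmegaFun (Cell K.cyl) Z

section

variable {Z : Type v} [OmegaStr Z] {K L M : BCx}

/-- Restriction along a morphism of complexes. -/
noncomputable def cpre (F : PCyl Z L) (φ : BCxHom K L) : PCyl Z K :=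
  F.comp (Cell.mapFun (cylMap φ))

theorem cpre_apply (F : PCyl Z L) (φ : BCxHom K L) (x : Cell K.cyl) :
    cpre F φ x = F (x.map (cylMap φ)) := rfl

theorem cpre_ten (F : PCyl Z L) (φ : BCxHom K L) (x : Cell K) (t : I3) :
    cpre F φ (x.ten t) = F ((x.map φ).ten t) := by
  rw [cpre_apply, Cell.ten_map]

theorem cpre_cpre (F : PCyl Z M) (ψ : BCxHom L M) (φ : BCxHom K L) :
    cpre (cpre F ψ) φ = cpre F (ψ.comp φ) := by
  apply OmegaFun.ext
  intro x
  rw [cpre_apply, cpre_apply, cpre_apply, ← Cell.map_comp, ← cylMap_comp]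

theorem cpre_id (F : PCyl Z K) : cpre F (BCxHom.id K) = F := by
  apply OmegaFun.ext
  intro x
  rw [cpre_apply, cylMap_id, Cell.map_id]

/-- The values on the atoms determine a functor on the cylinder. -/
theorem Steiner.pcyl_ext (hK : Steiner K) {F G : PCyl Z K}
    (h : ∀ b t, F ((hK.atom b).ten t) = G ((hK.atom b).ten t)) : F = G := by
  apply hK.cyl.fun_ext
  rintro ⟨b, t⟩
  rw [Steiner.cyl_atom]
  exact h b t

end

/-! ### Gluing of functors on cylinders of globular sums -/

section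

variable {Z : Type v} [OmegaStr Z] {ι : Type} {T : BCx}

theorem exists_pglue (hT : Steiner T) (rg : ι → Rigid globeCx T)
    (surj : ∀ b, ∃ j e, (rg j).g e = b) (F : ι → PCyl Z globeCx)
    (hF : ∀ j j' e e' t, (rg j).g e = (rg j').g e' →
      F j ((gatom e.1 e.2).ten t) = F j' ((gatom e'.1 e'.2).ten t)) :
    ∃ H : PCyl Z T, ∀ j, cpre H (rg j).hom = F j := by
  obtain ⟨H, hH⟩ := hT.cyl.exists_glue (W := ι) (L := fun _ => globeCx.cyl)
    (fun _ => steinerGlobe.cyl) (fun j => (rg j).cyl)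
    (by
      rintro ⟨b, t⟩
      obtain ⟨j, e, rfl⟩ := surj b
      exact ⟨j, (e, t), rfl⟩) F
    (by
      rintro j j' ⟨e, t⟩ ⟨e', t'⟩ h
      rw [Rigid.cyl_g, Rigid.cyl_g, Prod.mk.injEq] at h
      obtain ⟨h1, rfl⟩ := h
      rw [Steiner.cyl_atom, Steiner.cyl_atom]
      exact hF j j' e e' t h1)
  refine ⟨H, fun j => ?_⟩
  rw [← hH j, Rigid.cyl_hom]
  rfl

theorem pglue_ext (hT : Steiner T) (rg : ι → Rigid globeCx T)
    (surj : ∀ b, ∃ j e, (rg j).g e = b) {H H' : PCyl Z T}
    (h : ∀ j, cpre H (rg j).hom = cpre H' (rg j).hom) : H = H' := by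
  refine hT.cyl.glue_ext (W := ι) (L := fun _ => globeCx.cyl)
    (fun _ => steinerGlobe.cyl) (fun j => (rg j).cyl)
    (by
      rintro ⟨b, t⟩
      obtain ⟨j, e, rfl⟩ := surj b
      exact ⟨j, (e, t), rfl⟩) (fun j => ?_)
  rw [Rigid.cyl_hom]
  exact h j

/-- Coincidence pattern of two globes composed along dimension `n`. -/
def Coin (n : ℕ) (e e' : ℕ × Bool) : Prop :=
  (e.1 < n ∧ e' = e) ∨ (e = (n, true) ∧ e' = (n, false))

theorem Coin.comp_sig {n : ℕ} {r r' : Rigid globeCx T}
    (h : ∀ e e', Coin n e e' → r.g e = r'.g e') :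
    r.hom.comp (sig n true) = r'.hom.comp (sig n false) := by
  apply BCxHom.globe_ext
  intro i b
  rw [comp_sig_f, comp_sig_f]
  split_ifs with h1 h2
  · rw [Rigid.hom_f, Rigid.hom_f, h (i, b) (i, b) (Or.inl ⟨h1, rfl⟩)]
  · rw [Rigid.hom_f, Rigid.hom_f, h2, h (n, true) (n, false) (Or.inr ⟨rfl, rfl⟩)]
  · rfl

theorem Coin.eval {n : ℕ} {F F' : PCyl Z globeCx}
    (h : cpre F (sig n true) = cpre F' (sig n false)) {e e' : ℕ × Bool} (he : Coin n e e')
    (t : I3) : F ((gatom e.1 e.2).ten t) = F' ((gatom e'.1 e'.2).ten t) := by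
  rcases he with ⟨h1, rfl⟩ | ⟨rfl, rfl⟩
  · have h2 := congrArg (fun G : PCyl Z globeCx => G ((gatom e'.1 e'.2).ten t)) h
    simp only [cpre_ten] at h2
    rwa [gatom_map_sig_of_lt _ _ _ _ h1, gatom_map_sig_of_lt _ _ _ _ h1] at h2
  · have h2 := congrArg (fun G : PCyl Z globeCx => G ((gatom n false).ten t)) h
    simp only [cpre_ten] at h2
    rwa [gatom_map_sig_of_le _ _ _ _ le_rfl, gatom_map_sig_of_le _ _ _ _ le_rfl] at h2

end

/-! ### Representation lemmas -/

section

variable {Z : Type v} [OmegaStr Z]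

theorem rg2_comp_sig (n : ℕ) :
    (rg2 n false).hom.comp (sig n true) = (rg2 n true).hom.comp (sig n false) :=
  Coin.comp_sig (fun e e' h => (rg2_eq_iff n e e').2 h)

theorem exists_rep2_aux (n : ℕ) (F F' : PCyl Z globeCx)
    (h : cpre F (sig n true) = cpre F' (sig n false)) :
    ∃ H : PCyl Z (theta2 n), cpre H (rg2 n false).hom = F ∧ cpre H (rg2 n true).hom = F' := by
  obtain ⟨H, hH⟩ := exists_pglue (st2 n) (rg2 n) (surj2 n) (fun c => if c then F' else F)
    (by
      intro j j' e e' t hee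
      cases j <;> cases j'
      · rw [(rg2 n false).inj hee]
      · exact Coin.eval h ((rg2_eq_iff n e e').1 hee) t
      · exact (Coin.eval h ((rg2_eq_iff n e' e).1 hee.symm) t).symm
      · rw [(rg2 n true).inj hee])
  exact ⟨H, hH false, hH true⟩

theorem exists_rep2 (n : ℕ) (F F' : PCyl Z globeCx)
    (h : cpre F (sig n true) = cpre F' (sig n false)) :
    ∃ (K : BCx) (H : PCyl Z K) (p q : BCxHom globeCx K),
      p.comp (sig n true) = q.comp (sig n false) ∧ cpre H p = F ∧ cpre H q = F' := by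
  obtain ⟨H, h1, h2⟩ := exists_rep2_aux n F F' h
  exact ⟨_, H, _, _, rg2_comp_sig n, h1, h2⟩

theorem cpre_hcomp_unique (n : ℕ) {K K' : BCx} (H : PCyl Z K) (H' : PCyl Z K')
    (p q : BCxHom globeCx K) (p' q' : BCxHom globeCx K')
    (h : p.comp (sig n true) = q.comp (sig n false))
    (h' : p'.comp (sig n true) = q'.comp (sig n false))
    (e₁ : cpre H p = cpre H' p') (e₂ : cpre H q = cpre H' q') :
    cpre H (hcomp n p q h) = cpre H' (hcomp n p' q' h') := by
  obtain ⟨r, rfl, rfl⟩ := desc2 n p q h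
  obtain ⟨r', rfl, rfl⟩ := desc2 n p' q' h'
  rw [← comp_hcomp r n _ _ (rg2_comp_sig n) h, ← comp_hcomp r' n _ _ (rg2_comp_sig n) h',
    ← cpre_cpre, ← cpre_cpre]
  have : cpre H r = cpre H' r' := by
    apply pglue_ext (st2 n) (rg2 n) (surj2 n)
    intro j
    cases j
    · rw [cpre_cpre, cpre_cpre, e₁]
    · rw [cpre_cpre, cpre_cpre, e₂]
  rw [this]

theorem exists_rep3 (n : ℕ) (F₁ F₂ F₃ : PCyl Z globeCx)
    (h₁ : cpre F₁ (sig n true) = cpre F₂ (sig n false))
    (h₂ : cpre F₂ (sig n true) = cpre F₃ (sig n false)) :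
    ∃ (K : BCx) (H : PCyl Z K) (p₁ p₂ p₃ : BCxHom globeCx K),
      p₁.comp (sig n true) = p₂.comp (sig n false) ∧
      p₂.comp (sig n true) = p₃.comp (sig n false) ∧
      cpre H p₁ = F₁ ∧ cpre H p₂ = F₂ ∧ cpre H p₃ = F₃ := by
  have key : ∀ e e' t, (rg3 n 0).g e = (rg3 n 2).g e' →
      F₁ ((gatom e.1 e.2).ten t) = F₃ ((gatom e'.1 e'.2).ten t) := by
    intro e e' t hee
    obtain ⟨h3, rfl⟩ := (rg3_eq_02 n e e').1 hee
    exact (Coin.eval h₁ (Or.inl ⟨h3, rfl⟩) t).trans (Coin.eval h₂ (Or.inl ⟨h3, rfl⟩) t)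
  obtain ⟨H, hH⟩ := exists_pglue (st3 n) (rg3 n) (surj3 n)
    (fun c => if c = 0 then F₁ else if c = 1 then F₂ else F₃)
    (by
      intro j j' e e' t hee
      have hj : j = 0 ∨ j = 1 ∨ j = 2 := by omega
      have hj' : j' = 0 ∨ j' = 1 ∨ j' = 2 := by omega
      rcases hj with rfl | rfl | rfl <;> rcases hj' with rfl | rfl | rfl
      · rw [(rg3 n 0).inj hee]
      · exact Coin.eval h₁ ((rg3_eq_01 n e e').1 hee) t
      · exact key e e' t hee
      · exact (Coin.eval h₁ ((rg3_eq_01 n e' e).1 hee.symm) t).symm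
      · rw [(rg3 n 1).inj hee]
      · exact Coin.eval h₂ ((rg3_eq_12 n e e').1 hee) t
      · exact (key e' e t hee.symm).symm
      · exact (Coin.eval h₂ ((rg3_eq_12 n e' e).1 hee.symm) t).symm
      · rw [(rg3 n 2).inj hee])
  exact ⟨_, H, _, _, _, Coin.comp_sig (fun e e' h => (rg3_eq_01 n e e').2 h),
    Coin.comp_sig (fun e e' h => (rg3_eq_12 n e e').2 h), hH 0, hH 1, hH 2⟩

theorem exists_rep4 (m n : ℕ) (hmn : m < n) (F G F' G' : PCyl Z globeCx)
    (h₁ : cpre F (sig n true) = cpre G (sig n false))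
    (h₂ : cpre F' (sig n true) = cpre G' (sig n false))
    (h₃ : cpre F (sig m true) = cpre F' (sig m false))
    (h₄ : cpre G (sig m true) = cpre G' (sig m false)) :
    ∃ (K : BCx) (H : PCyl Z K) (p q p' q' : BCxHom globeCx K),
      p.comp (sig n true) = q.comp (sig n false) ∧
      p'.comp (sig n true) = q'.comp (sig n false) ∧
      p.comp (sig m true) = p'.comp (sig m false) ∧
      q.comp (sig m true) = q'.comp (sig m false) ∧
      cpre H p = F ∧ cpre H q = G ∧ cpre H p' = F' ∧ cpre H q' = G' := by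
  have h₅ : cpre F (sig m true) = cpre G' (sig m false) := by
    rw [h₃, ← sig_sig_of_lt false false m n hmn, ← cpre_cpre, ← cpre_cpre, ← h₂, cpre_cpre,
      cpre_cpre, sig_sig_of_lt false false m n hmn, sig_sig_of_lt false true m n hmn]
  have h₆ : cpre G (sig m true) = cpre F' (sig m false) := by
    rw [← h₃, ← sig_sig_of_lt true false m n hmn, ← cpre_cpre, ← cpre_cpre, ← h₁, cpre_cpre,
      cpre_cpre, sig_sig_of_lt true false m n hmn, sig_sig_of_lt true true m n hmn]
  let Φ : Bool × Bool → PCyl Z globeCx := fun c =>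
    if c.1 then (if c.2 then G' else F') else (if c.2 then G else F)
  have hn : ∀ a, cpre (Φ (a, false)) (sig n true) = cpre (Φ (a, true)) (sig n false) := by
    intro a
    cases a
    · exact h₁
    · exact h₂
  have hm : ∀ b b', cpre (Φ (false, b)) (sig m true) = cpre (Φ (true, b')) (sig m false) := by
    intro b b'
    cases b <;> cases b'
    · exact h₃
    · exact h₅
    · exact h₆
    · exact h₄
  obtain ⟨H, hH⟩ := exists_pglue (ι := Bool × Bool) (st4 m n) (fun c => rg4 m n c.1 c.2)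
    (fun b => by
      obtain ⟨a, c, e, h⟩ := surj4 m n b
      exact ⟨(a, c), e, h⟩) Φ
    (by
      rintro ⟨a, b⟩ ⟨a', b'⟩ e e' t hee
      have hee' : (rg4 m n a b).g e = (rg4 m n a' b').g e' := hee
      cases a <;> cases a'
      · cases b <;> cases b'
        · rw [(rg4 m n false false).inj hee']
        · exact Coin.eval (hn false) ((rg4_eq_n m n hmn false e e').1 hee') t
        · exact (Coin.eval (hn false) ((rg4_eq_n m n hmn false e' e).1 hee'.symm) t).symm
        · rw [(rg4 m n false true).inj hee']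
      · exact Coin.eval (hm b b') ((rg4_eq_m m n hmn b b' e e').1 hee') t
      · exact (Coin.eval (hm b' b) ((rg4_eq_m m n hmn b' b e' e).1 hee'.symm) t).symm
      · cases b <;> cases b'
        · rw [(rg4 m n true false).inj hee']
        · exact Coin.eval (hn true) ((rg4_eq_n m n hmn true e e').1 hee') t
        · exact (Coin.eval (hn true) ((rg4_eq_n m n hmn true e' e).1 hee'.symm) t).symm
        · rw [(rg4 m n true true).inj hee'])
  exact ⟨_, H, _, _, _, _,
    Coin.comp_sig (fun e e' h => (rg4_eq_n m n hmn false e e').2 h),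
    Coin.comp_sig (fun e e' h => (rg4_eq_n m n hmn true e e').2 h),
    Coin.comp_sig (fun e e' h => (rg4_eq_m m n hmn false false e e').2 h),
    Coin.comp_sig (fun e e' h => (rg4_eq_m m n hmn true true e e').2 h),
    hH (false, false), hH (false, true), hH (true, false), hH (true, true)⟩

theorem exists_rep2_plain (n : ℕ) (F F' : OmegaFun (Cell globeCx) Z)
    (h : F.comp (Cell.mapFun (sig n true)) = F'.comp (Cell.mapFun (sig n false))) :
    ∃ (K : BCx) (H : OmegaFun (Cell K) Z) (p q : BCxHom globeCx K),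
      p.comp (sig n true) = q.comp (sig n false) ∧ H.comp (Cell.mapFun p) = F ∧
      H.comp (Cell.mapFun q) = F' := by
  have key : ∀ e e' : ℕ × Bool, Coin n e e' → F (gatom e.1 e.2) = F' (gatom e'.1 e'.2) := by
    rintro e e' (⟨h1, rfl⟩ | ⟨rfl, rfl⟩)
    · have h2 : F ((gatom e'.1 e'.2).map (sig n true)) = F' ((gatom e'.1 e'.2).map (sig n false)) :=
        congrArg (fun G : OmegaFun (Cell globeCx) Z => G (gatom e'.1 e'.2)) h
      rwa [gatom_map_sig_of_lt _ _ _ _ h1, gatom_map_sig_of_lt _ _ _ _ h1] at h2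
    · have h2 : F ((gatom n false).map (sig n true)) = F' ((gatom n false).map (sig n false)) :=
        congrArg (fun G : OmegaFun (Cell globeCx) Z => G (gatom n false)) h
      rwa [gatom_map_sig_of_le _ _ _ _ le_rfl, gatom_map_sig_of_le _ _ _ _ le_rfl] at h2
  obtain ⟨H, hH⟩ := (st2 n).exists_glue (W := Bool) (L := fun _ => globeCx)
    (fun _ => steinerGlobe) (rg2 n) (surj2 n) (fun c => if c then F' else F)
    (by
      intro j j' e e' hee
      cases j <;> cases j'
      · rw [(rg2 n false).inj hee]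
      · exact key e e' ((rg2_eq_iff n e e').1 hee)
      · exact (key e' e ((rg2_eq_iff n e' e).1 hee.symm)).symm
      · rw [(rg2 n true).inj hee])
  exact ⟨_, H, _, _, rg2_comp_sig n, hH false, hH true⟩

end

end Vale.Agent.P213
end

section

/-!
The cylinder (path) omega-category `Gamma Z`.
-/

universe u v w

namespace Vale.Agent.P213

open OmegaStr BCx BCxHom

section

variable {Z : Type v} [OmegaStr Z]

/-- Composition of functors on the cylinder of the infinite globe. -/
noncomputable def pcomp (n : ℕ) (F F' : PCyl Z globeCx)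
    (h : cpre F (sig n true) = cpre F' (sig n false)) : PCyl Z globeCx :=
  Classical.choose (p := fun G => ∃ (K : BCx) (H : PCyl Z K) (p q : BCxHom globeCx K)
      (hpq : p.comp (sig n true) = q.comp (sig n false)),
      cpre H p = F ∧ cpre H q = F' ∧ G = cpre H (hcomp n p q hpq)) (by
    obtain ⟨K, H, p, q, hpq, h1, h2⟩ := exists_rep2 n F F' h
    exact ⟨_, K, H, p, q, hpq, h1, h2, rfl⟩)

theorem pcomp_eq' {K : BCx} (n : ℕ) (H : PCyl Z K) (p q : BCxHom globeCx K)
    (hpq : p.comp (sig n true) = q.comp (sig n false)) (F F' : PCyl Z globeCx)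
    (hF : cpre H p = F) (hF' : cpre H q = F') (h : cpre F (sig n true) = cpre F' (sig n false)) :
    pcomp n F F' h = cpre H (hcomp n p q hpq) := by
  obtain ⟨K', H', p', q', hpq', h1, h2, h3⟩ := Classical.choose_spec
    (p := fun G => ∃ (K : BCx) (H : PCyl Z K) (p q : BCxHom globeCx K)
      (hpq : p.comp (sig n true) = q.comp (sig n false)),
      cpre H p = F ∧ cpre H q = F' ∧ G = cpre H (hcomp n p q hpq)) (by
    obtain ⟨K, H, p, q, hpq, h1, h2⟩ := exists_rep2 n F F' h
    exact ⟨_, K, H, p, q, hpq, h1, h2, rfl⟩)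
  refine h3.trans (cpre_hcomp_unique n H' H p' q' p q hpq' hpq ?_ ?_)
  · rw [h1, hF]
  · rw [h2, hF']

theorem pcomp_eq {K : BCx} (n : ℕ) (H : PCyl Z K) (p q : BCxHom globeCx K)
    (hpq : p.comp (sig n true) = q.comp (sig n false))
    (h : cpre (cpre H p) (sig n true) = cpre (cpre H q) (sig n false)) :
    pcomp n (cpre H p) (cpre H q) h = cpre H (hcomp n p q hpq) :=
  pcomp_eq' n H p q hpq _ _ rfl rfl h

theorem cpre_compat {K : BCx} {n : ℕ} (H : PCyl Z K) {p q : BCxHom globeCx K}
    (hpq : p.comp (sig n true) = q.comp (sig n false)) :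
    cpre (cpre H p) (sig n true) = cpre (cpre H q) (sig n false) := by
  rw [cpre_cpre, cpre_cpre, hpq]

theorem pcomp_src (n : ℕ) (F F' : PCyl Z globeCx)
    (h : cpre F (sig n true) = cpre F' (sig n false)) :
    cpre (pcomp n F F' h) (sig n false) = cpre F (sig n false) := by
  obtain ⟨K, H, p, q, hpq, rfl, rfl⟩ := exists_rep2 n F F' h
  rw [pcomp_eq n H p q hpq, cpre_cpre, hcomp_src, cpre_cpre]

theorem pcomp_tgt (n : ℕ) (F F' : PCyl Z globeCx)
    (h : cpre F (sig n true) = cpre F' (sig n false)) :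
    cpre (pcomp n F F' h) (sig n true) = cpre F' (sig n true) := by
  obtain ⟨K, H, p, q, hpq, rfl, rfl⟩ := exists_rep2 n F F' h
  rw [pcomp_eq n H p q hpq, cpre_cpre, hcomp_tgt, cpre_cpre]

theorem pcomp_sig (a : Bool) (m n : ℕ) (F F' : PCyl Z globeCx)
    (h : cpre F (sig n true) = cpre F' (sig n false))
    (h' : cpre (cpre F (sig m a)) (sig n true) = cpre (cpre F' (sig m a)) (sig n false))
    (hnm : n < m) :
    cpre (pcomp n F F' h) (sig m a) = pcomp n (cpre F (sig m a)) (cpre F' (sig m a)) h' := by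
  obtain ⟨K, H, p, q, hpq, rfl, rfl⟩ := exists_rep2 n F F' h
  have hpq' := hcomp_sig_compat a m n p q hpq hnm
  rw [pcomp_eq n H p q hpq, cpre_cpre, hcomp_sig a m n p q hpq hpq' hnm]
  exact (pcomp_eq' n H _ _ hpq' _ _ (cpre_cpre _ _ _).symm (cpre_cpre _ _ _).symm _).symm

theorem pcomp_id_left (n : ℕ) (F : PCyl Z globeCx)
    (h : cpre (cpre F (sig n false)) (sig n true) = cpre F (sig n false)) :
    pcomp n (cpre F (sig n false)) F h = F := by
  have hpq : ((BCxHom.id globeCx).comp (sig n false)).comp (sig n true) =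
      (BCxHom.id globeCx).comp (sig n false) := comp_sig_sig_of_le _ _ _ _ _ le_rfl
  rw [pcomp_eq' n F ((BCxHom.id _).comp (sig n false)) (BCxHom.id _) hpq _ _
    (by rw [BCxHom.id_comp]) (cpre_id F), hcomp_id_left, cpre_id]

theorem pcomp_id_right (n : ℕ) (F : PCyl Z globeCx)
    (h : cpre F (sig n true) = cpre (cpre F (sig n true)) (sig n false)) :
    pcomp n F (cpre F (sig n true)) h = F := by
  have hpq : (BCxHom.id globeCx).comp (sig n true) =
      ((BCxHom.id globeCx).comp (sig n true)).comp (sig n false) :=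
    (comp_sig_sig_of_le _ _ _ _ _ le_rfl).symm
  rw [pcomp_eq' n F (BCxHom.id _) ((BCxHom.id _).comp (sig n true)) hpq _ _
    (cpre_id F) (by rw [BCxHom.id_comp]), hcomp_id_right, cpre_id]

theorem pcomp_assoc (n : ℕ) (x y z : PCyl Z globeCx)
    (h₁ : cpre x (sig n true) = cpre y (sig n false))
    (h₂ : cpre y (sig n true) = cpre z (sig n false))
    (h₃ : cpre (pcomp n x y h₁) (sig n true) = cpre z (sig n false))
    (h₄ : cpre x (sig n true) = cpre (pcomp n y z h₂) (sig n false)) :
    pcomp n (pcomp n x y h₁) z h₃ = pcomp n x (pcomp n y z h₂) h₄ := by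
  obtain ⟨K, H, p₁, p₂, p₃, h12, h23, rfl, rfl, rfl⟩ := exists_rep3 n x y z h₁ h₂
  have h5 : (hcomp n p₁ p₂ h12).comp (sig n true) = p₃.comp (sig n false) := by
    rw [hcomp_tgt, h23]
  have h6 : p₁.comp (sig n true) = (hcomp n p₂ p₃ h23).comp (sig n false) := by
    rw [hcomp_src, h12]
  rw [pcomp_eq' n H (hcomp n p₁ p₂ h12) p₃ h5 _ _ (pcomp_eq n H p₁ p₂ h12 _).symm rfl,
    pcomp_eq' n H p₁ (hcomp n p₂ p₃ h23) h6 _ _ rfl (pcomp_eq n H p₂ p₃ h23 _).symm,
    hcomp_assoc n p₁ p₂ p₃ h12 h23 h5 h6]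

theorem pcomp_interchange (m n : ℕ) (x y z w : PCyl Z globeCx) (hmn : m < n)
    (h₁ : cpre x (sig n true) = cpre y (sig n false))
    (h₂ : cpre z (sig n true) = cpre w (sig n false))
    (h₃ : cpre x (sig m true) = cpre z (sig m false))
    (h₄ : cpre y (sig m true) = cpre w (sig m false))
    (h₅ : cpre (pcomp n x y h₁) (sig m true) = cpre (pcomp n z w h₂) (sig m false))
    (h₆ : cpre (pcomp m x z h₃) (sig n true) = cpre (pcomp m y w h₄) (sig n false)) :
    pcomp m (pcomp n x y h₁) (pcomp n z w h₂) h₅ =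
      pcomp n (pcomp m x z h₃) (pcomp m y w h₄) h₆ := by
  obtain ⟨K, H, p, q, p', q', g₁, g₂, g₃, g₄, rfl, rfl, rfl, rfl⟩ :=
    exists_rep4 m n hmn x y z w h₁ h₂ h₃ h₄
  have g₅ : (hcomp n p q g₁).comp (sig m true) = (hcomp n p' q' g₂).comp (sig m false) := by
    rw [← comp_sig_sig_of_lt (hcomp n p q g₁) true false m n hmn,
      ← comp_sig_sig_of_lt (hcomp n p' q' g₂) false false m n hmn, hcomp_src, hcomp_src,
      comp_sig_sig_of_lt _ _ _ _ _ hmn, comp_sig_sig_of_lt _ _ _ _ _ hmn, g₃]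
  have g₆ : (hcomp m p p' g₃).comp (sig n true) = (hcomp m q q' g₄).comp (sig n false) := by
    rw [hcomp_sig true n m p p' g₃ (hcomp_sig_compat _ _ _ _ _ g₃ hmn) hmn,
      hcomp_sig false n m q q' g₄ (hcomp_sig_compat _ _ _ _ _ g₄ hmn) hmn]
    congr 1
  rw [pcomp_eq' m H (hcomp n p q g₁) (hcomp n p' q' g₂) g₅ _ _ (pcomp_eq n H p q g₁ _).symm
    (pcomp_eq n H p' q' g₂ _).symm, pcomp_eq' n H (hcomp m p p' g₃) (hcomp m q q' g₄) g₆ _ _
    (pcomp_eq m H p p' g₃ _).symm (pcomp_eq m H q q' g₄ _).symm,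
    hcomp_interchange m n p q p' q' hmn g₁ g₂ g₃ g₄ g₅ g₆]

end

/-- The cylinder omega-category of `Z`: a cell is a functor from the cylinder of the infinite
globe to `Z`, of finite dimension. -/
def Gamma (Z : Type v) [OmegaStr Z] : Type v :=
  {F : PCyl Z globeCx // ∃ n, cpre F (sig n false) = F}

section

variable {Z : Type v} [OmegaStr Z]

theorem cpre_sig_of_le {F : PCyl Z globeCx} {n m : ℕ} (h : cpre F (sig n false) = F) (a : Bool)
    (hnm : n ≤ m) : cpre F (sig m a) = F := by
  conv_lhs => rw [← h]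
  rw [cpre_cpre, sig_sig_of_le _ _ _ _ hnm, h]

noncomputable instance : OmegaStr (Gamma Z) where
  d a n x := ⟨cpre x.1 (sig n a), n, by rw [cpre_cpre, sig_sig_of_le _ _ _ _ le_rfl]⟩
  comp n x y h := ⟨pcomp n x.1 y.1 (congrArg Subtype.val h), by
    obtain ⟨N, hN⟩ := x.2
    obtain ⟨M, hM⟩ := y.2
    have h1 : cpre x.1 (sig (max N M + n + 1) false) = x.1 := cpre_sig_of_le hN false (by omega)
    have h2 : cpre y.1 (sig (max N M + n + 1) false) = y.1 := cpre_sig_of_le hM false (by omega)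
    refine ⟨max N M + n + 1, ?_⟩
    have h3 : cpre x.1 (sig n true) = cpre y.1 (sig n false) := congrArg Subtype.val h
    rw [pcomp_sig false _ n x.1 y.1 h3 (by rw [h1, h2, h3]) (by omega)]
    congr 1⟩
  finite_dim x := by
    obtain ⟨n, hn⟩ := x.2
    exact ⟨n, Subtype.ext hn⟩
  d_d_of_lt a b m n x h := by
    apply Subtype.ext
    change cpre (cpre x.1 (sig n b)) (sig m a) = cpre x.1 (sig m a)
    rw [cpre_cpre, sig_sig_of_lt _ _ _ _ h]
  d_d_of_le a b m n x h := by
    apply Subtype.ext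
    change cpre (cpre x.1 (sig n b)) (sig m a) = cpre x.1 (sig n b)
    rw [cpre_cpre, sig_sig_of_le _ _ _ _ h]
  src_comp n x y h := Subtype.ext (pcomp_src n x.1 y.1 (congrArg Subtype.val h))
  tgt_comp n x y h := Subtype.ext (pcomp_tgt n x.1 y.1 (congrArg Subtype.val h))
  d_comp a m n x y h h' hnm := Subtype.ext (pcomp_sig a m n x.1 y.1 (congrArg Subtype.val h)
    (congrArg Subtype.val h') hnm)
  id_comp n x h := Subtype.ext (pcomp_id_left n x.1 (congrArg Subtype.val h))
  comp_id n x h := Subtype.ext (pcomp_id_right n x.1 (congrArg Subtype.val h))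
  assoc n x y z h₁ h₂ h₃ h₄ := Subtype.ext (pcomp_assoc n x.1 y.1 z.1 (congrArg Subtype.val h₁)
    (congrArg Subtype.val h₂) (congrArg Subtype.val h₃) (congrArg Subtype.val h₄))
  interchange m n x y z w hmn h₁ h₂ h₃ h₄ h₅ h₆ :=
    Subtype.ext (pcomp_interchange m n x.1 y.1 z.1 w.1 hmn (congrArg Subtype.val h₁)
      (congrArg Subtype.val h₂) (congrArg Subtype.val h₃) (congrArg Subtype.val h₄)
      (congrArg Subtype.val h₅) (congrArg Subtype.val h₆))

theorem Gamma.d_val (a : Bool) (n : ℕ) (x : Gamma Z) : (d a n x).1 = cpre x.1 (sig n a) := rfl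

theorem Gamma.comp_val (n : ℕ) (x y : Gamma Z) (h : d true n x = d false n y) :
    (comp n x y h).1 = pcomp n x.1 y.1 (congrArg Subtype.val h) := rfl

end

end Vale.Agent.P213
end

section

/-!
Functoriality, ends, trivial cylinders and currying for `Gamma Z`.
-/

universe u v w

namespace Vale.Agent.P213

open OmegaStr BCx BCxHom

/-! ### Two dimensional truncation lemmas -/

theorem Cell.val_eq_of_dd_eq {K : BCx} {x y : Cell K} {a : Bool} {k : ℕ}
    (h : x.dd a k = y.dd a k) :
    (∀ b c, K.dim c < k → x.val b c = y.val b c) ∧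
      (∀ c, K.dim c = k → x.val a c = y.val a c) := by
  constructor
  · intro b c hc
    have := congrArg (fun z : Cell K => z.val b c) h
    simpa only [Cell.dd_val_apply, if_pos hc] using this
  · intro c hc
    have := congrArg (fun z : Cell K => z.val a c) h
    have h1 : ¬ K.dim c < k := by omega
    simpa only [Cell.dd_val_apply, if_neg h1, if_pos hc] using this

theorem Cell.dd_tseg_congr {K : BCx} {x y : Cell K} {a : Bool} {k : ℕ}
    (h : x.dd a k = y.dd a k) : x.tseg.dd a k = y.tseg.dd a k := by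
  obtain ⟨h1, h2⟩ := Cell.val_eq_of_dd_eq h
  ext b c
  obtain ⟨c, t⟩ := c
  rw [Cell.dd_val_apply, Cell.dd_val_apply]
  simp only [Cell.tseg_val, Finsupp.add_apply, inj_apply, par_apply]
  cases t
  · change (if K.dim c < k then _ else if K.dim c = k then _ else _) =
      (if K.dim c < k then _ else if K.dim c = k then _ else _)
    split_ifs with h3 h4 <;> simp_all
  · change (if K.dim c < k then _ else if K.dim c = k then _ else _) =
      (if K.dim c < k then _ else if K.dim c = k then _ else _)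
    split_ifs with h3 h4 <;> simp_all
  · change (if K.dim c + 1 < k then _ else if K.dim c + 1 = k then _ else _) =
      (if K.dim c + 1 < k then _ else if K.dim c + 1 = k then _ else _)
    by_cases h4 : K.dim c + 1 ≤ k
    · rw [h1 b c (by omega), h1 a c (by omega)]
    · rw [if_neg (by omega), if_neg (by omega), if_neg (by omega), if_neg (by omega)]

theorem Cell.dd_ten_congr {K : BCx} {x y : Cell K} {a : Bool} {k : ℕ} (t : I3)
    (h : x.dd a k = y.dd a k) : (x.ten t).dd a k = (y.ten t).dd a k := by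
  cases t
  · rw [Cell.ten_zero, Cell.ten_zero, ← Cell.map_dd, ← Cell.map_dd, h]
  · rw [Cell.ten_one, Cell.ten_one, ← Cell.map_dd, ← Cell.map_dd, h]
  · exact Cell.dd_tseg_congr h

theorem Cell.ten_endI3 {K : BCx} (x : Cell K) (e : Bool) :
    x.ten (endI3 e) = x.map (cylEnd K e) := by
  cases e <;> rfl

section

variable {Z : Type v} [OmegaStr Z]

theorem globe_fun_ext {F G : OmegaFun (Cell globeCx) Z} (n : ℕ)
    (h : ∀ i b, n ≤ i → F (gatom i b) = G (gatom i b)) : F = G := by
  apply steinerGlobe.fun_ext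
  rintro ⟨i, b⟩
  rw [steinerGlobe_atom]
  by_cases hi : n ≤ i
  · exact h i b hi
  · have h1 : gatom i b = d b i (gatom n false) :=
      (gatom_dd_of_lt n false i b (by omega)).symm
    rw [h1, F.map_dd, G.map_dd, h n false le_rfl]

theorem Cell.map_hcomp {K : BCx} (n N : ℕ) (hN : n < N) (a : Bool) (p q : BCxHom globeCx K)
    (h : p.comp (sig n true) = q.comp (sig n false))
    (h' : ((gatom N a).map p).dd true n = ((gatom N a).map q).dd false n) :
    (gatom N a).map (hcomp n p q h) = Cell.cc n ((gatom N a).map p) ((gatom N a).map q) h' := by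
  apply Cell.cls_inj
  rw [Cell.cls_map, Cell.cls_cc, gatom_cls, hcomp_sig a N n p q h
    (hcomp_sig_compat a N n p q h hN) hN]
  congr 1 <;> rw [Cell.cls_map, gatom_cls]

theorem Cell.map_hcomp_compat {K : BCx} (n N : ℕ) (hN : n < N) (a : Bool)
    (p q : BCxHom globeCx K) (h : p.comp (sig n true) = q.comp (sig n false)) :
    ((gatom N a).map p).dd true n = ((gatom N a).map q).dd false n := by
  apply Cell.cls_inj
  rw [Cell.cls_dd, Cell.cls_dd, Cell.cls_map, Cell.cls_map, gatom_cls,
    hcomp_sig_compat a N n p q h hN]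

/-! ### Functoriality -/

theorem comp_cpre {Z' : Type w} [OmegaStr Z'] {K L : BCx} (f : OmegaFun Z Z') (F : PCyl Z L)
    (φ : BCxHom K L) : cpre (f.comp F) φ = f.comp (cpre F φ) := rfl

/-- Functoriality of `Gamma`. -/
noncomputable def Gamma.map {Z' : Type w} [OmegaStr Z'] (f : OmegaFun Z Z') :
    OmegaFun (Gamma Z) (Gamma Z') where
  toFun x := ⟨f.comp x.1, by
    obtain ⟨n, hn⟩ := x.2
    exact ⟨n, by rw [comp_cpre, hn]⟩⟩
  map_d a n x := rfl
  map_comp n x y h h' := by
    apply Subtype.ext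
    change f.comp (pcomp n x.1 y.1 (congrArg Subtype.val h)) =
      pcomp n (f.comp x.1) (f.comp y.1) (congrArg Subtype.val h')
    obtain ⟨K, H, p, q, hpq, h1, h2⟩ := exists_rep2 n x.1 y.1 (congrArg Subtype.val h)
    rw [pcomp_eq' n H p q hpq x.1 y.1 h1 h2,
      pcomp_eq' n (f.comp H) p q hpq (f.comp x.1) (f.comp y.1) (by rw [comp_cpre, h1])
      (by rw [comp_cpre, h2]), comp_cpre]

theorem Gamma.map_val {Z' : Type w} [OmegaStr Z'] (f : OmegaFun Z Z') (x : Gamma Z) :
    (Gamma.map f x).1 = f.comp x.1 := rfl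

/-! ### Evaluation at a large globe -/

/-- The value of a cell of `Gamma Z` at `(top) ⊗ t`. -/
noncomputable def Gamma.ev (t : I3) (x : Gamma Z) : Z :=
  x.1 ((gatom (Classical.choose x.2) false).ten t)

theorem Gamma.ev_aux (t : I3) {F : PCyl Z globeCx} {n m : ℕ} (a b : Bool)
    (h : cpre F (sig n a) = F) (hm : n ≤ m) : F ((gatom m b).ten t) = F ((gatom n a).ten t) := by
  have h1 := congrArg (fun G : PCyl Z globeCx => G ((gatom m b).ten t)) h
  simp only [cpre_ten] at h1
  rw [gatom_map_sig_of_le m b n a hm] at h1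
  exact h1.symm

theorem Gamma.ev_eq (t : I3) (x : Gamma Z) (n : ℕ) (h : d false n x = x) (m : ℕ) (hm : n ≤ m)
    (b : Bool) : Gamma.ev t x = x.1 ((gatom m b).ten t) := by
  have h1 : cpre x.1 (sig n false) = x.1 := congrArg Subtype.val h
  have h2 := Classical.choose_spec x.2
  rw [Gamma.ev_aux t false b h1 hm]
  rcases le_total n (Classical.choose x.2) with h3 | h3
  · exact Gamma.ev_aux t false false h1 h3
  · exact (Gamma.ev_aux t false false h2 h3).symm

/-! ### The ends of a cylinder -/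

/-- The source (`e = false`) and target (`e = true`) of a cylinder. -/
noncomputable def Gamma.pend (Z : Type v) [OmegaStr Z] (e : Bool) : OmegaFun (Gamma Z) Z where
  toFun x := Gamma.ev (endI3 e) x
  map_d a n x := by
    obtain ⟨N, hN⟩ := finite_dim x
    have h1 : d false (max N (n + 1)) x = x := by
      conv_lhs => rw [← hN]
      rw [d_d_of_le _ _ _ _ _ (by omega), hN]
    have h2 : d false (max N (n + 1)) (d a n x) = d a n x := d_d_of_le _ _ _ _ _ (by omega)
    rw [Gamma.ev_eq _ _ _ h1 _ le_rfl false, Gamma.ev_eq _ _ _ h2 _ le_rfl false, Gamma.d_val,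
      cpre_ten, gatom_map_sig_of_le _ _ _ _ (by omega), ← OmegaFun.map_dd, Cell.ten_endI3,
      Cell.ten_endI3]
    congr 1
    change _ = ((gatom _ false).map _).dd a n
    rw [← Cell.map_dd, gatom_dd_of_lt _ _ _ _ (by omega)]
  map_comp n x y h h' := by
    obtain ⟨N, hN⟩ := finite_dim x
    obtain ⟨M, hM⟩ := finite_dim y
    obtain ⟨L, hL⟩ := finite_dim (comp n x y h)
    have h1 : cpre x.1 (sig n true) = cpre y.1 (sig n false) := congrArg Subtype.val h
    obtain ⟨K, H, p, q, hpq, h2, h3⟩ := exists_rep2 n x.1 y.1 h1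
    have h4 := Cell.map_hcomp_compat n (N + M + L + n + 1) (by omega) false p q hpq
    have ex := Gamma.ev_eq (endI3 e) x N hN (N + M + L + n + 1) (by omega) false
    have ey := Gamma.ev_eq (endI3 e) y M hM (N + M + L + n + 1) (by omega) false
    have exy := Gamma.ev_eq (endI3 e) _ L hL (N + M + L + n + 1) (by omega) false
    rw [← h2, cpre_ten, Cell.ten_endI3] at ex
    rw [← h3, cpre_ten, Cell.ten_endI3] at ey
    rw [Gamma.comp_val, pcomp_eq' n H p q hpq x.1 y.1 h2 h3, cpre_ten, Cell.ten_endI3,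
      Cell.map_hcomp n _ (by omega) false p q hpq h4] at exy
    have key := (H.comp (Cell.mapFun (cylEnd K e))).map_tc
      (x := (gatom (N + M + L + n + 1) false).map p)
      (y := (gatom (N + M + L + n + 1) false).map q) (n := n) h4
    rw [tc_eq h4] at key
    rw [exy]
    have h5 : d true n (Gamma.ev (endI3 e) x) = d false n (Gamma.ev (endI3 e) y) := h'
    have key2 : comp n (Gamma.ev (endI3 e) x) (Gamma.ev (endI3 e) y) h' =
      tc n (Gamma.ev (endI3 e) x) (Gamma.ev (endI3 e) y) := (tc_eq h5).symm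
    rw [key2, ex, ey]
    exact key

theorem Gamma.pend_eq (e : Bool) (x : Gamma Z) (n : ℕ) (h : d false n x = x) (m : ℕ)
    (hm : n ≤ m) (b : Bool) :
    Gamma.pend Z e x = x.1 ((gatom m b).map (cylEnd globeCx e)) := by
  rw [← Cell.ten_endI3]
  exact Gamma.ev_eq _ x n h m hm b

theorem Gamma.pend_map {Z' : Type w} [OmegaStr Z'] (f : OmegaFun Z Z') (e : Bool) :
    (Gamma.pend Z' e).comp (Gamma.map f) = f.comp (Gamma.pend Z e) := by
  apply OmegaFun.ext
  intro x
  obtain ⟨N, hN⟩ := finite_dim x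
  change Gamma.pend Z' e (Gamma.map f x) = f (Gamma.pend Z e x)
  rw [Gamma.pend_eq e x N hN N le_rfl false, Gamma.pend_eq e (Gamma.map f x) N
    (by rw [← OmegaFun.map_dd, hN]) N le_rfl false]
  rfl

/-! ### Currying -/

/-- The functor `Cell K → Gamma Z` attached to a functor out of the cylinder. -/
noncomputable def Gamma.curry {K : BCx} (F : PCyl Z K) : OmegaFun (Cell K) (Gamma Z) where
  toFun x := ⟨cpre F x.cls, by
    obtain ⟨n, hn⟩ := finite_dim x
    refine ⟨n, ?_⟩
    rw [cpre_cpre, ← Cell.cls_dd]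
    have : x.dd false n = x := hn
    rw [this]⟩
  map_d a n x := by
    apply Subtype.ext
    change cpre F (x.dd a n).cls = cpre (cpre F x.cls) (sig n a)
    rw [Cell.cls_dd, cpre_cpre]
  map_comp n x y h h' := by
    apply Subtype.ext
    change cpre F (Cell.cc n x y h).cls =
      pcomp n (cpre F x.cls) (cpre F y.cls) (congrArg Subtype.val h')
    rw [Cell.cls_cc, pcomp_eq n F x.cls y.cls (Cell.cls_compat h)]

theorem Gamma.curry_val {K : BCx} (F : PCyl Z K) (x : Cell K) :
    (Gamma.curry F x).1 = cpre F x.cls := rfl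

theorem Gamma.curry_cpre {K L : BCx} (F : PCyl Z L) (φ : BCxHom K L) :
    Gamma.curry (cpre F φ) = (Gamma.curry F).comp (Cell.mapFun φ) := by
  apply OmegaFun.ext
  intro x
  apply Subtype.ext
  change cpre (cpre F φ) x.cls = cpre F (x.map φ).cls
  rw [cpre_cpre, Cell.cls_map]

theorem Gamma.map_curry {Z' : Type w} [OmegaStr Z'] (f : OmegaFun Z Z') {K : BCx}
    (F : PCyl Z K) : (Gamma.map f).comp (Gamma.curry F) = Gamma.curry (f.comp F) := rfl

theorem Gamma.ev_curry {K : BCx} (F : PCyl Z K) (t : I3) (x : Cell K) :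
    Gamma.ev t (Gamma.curry F x) = F (x.ten t) := by
  obtain ⟨n, hn⟩ := finite_dim x
  rw [Gamma.ev_eq t _ n (by rw [← OmegaFun.map_dd, hn]) n le_rfl false, Gamma.curry_val,
    cpre_ten, Cell.gatom_map_cls]
  have : x.dd false n = x := hn
  rw [this]

theorem Gamma.pend_curry {K : BCx} (F : PCyl Z K) (e : Bool) :
    (Gamma.pend Z e).comp (Gamma.curry F) = F.comp (Cell.mapFun (cylEnd K e)) := by
  apply OmegaFun.ext
  intro x
  change Gamma.ev (endI3 e) (Gamma.curry F x) = F (x.map (cylEnd K e))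
  rw [Gamma.ev_curry, Cell.ten_endI3]

theorem Gamma.curry_injective {K : BCx} (hK : Steiner K) {F G : PCyl Z K}
    (h : Gamma.curry F = Gamma.curry G) : F = G := by
  apply hK.pcyl_ext
  intro b t
  rw [← Gamma.ev_curry, ← Gamma.ev_curry, h]

/-! ### Trivial cylinders -/

theorem exists_zcls (z : Z) : ∃ F : OmegaFun (Cell globeCx) Z, ∀ i b,
    F (gatom i b) = d b i z := by
  obtain ⟨F, hF⟩ := steinerGlobe.exists_fun (fun b => d b.2 b.1 z)
    (fun b => d_d_of_le _ _ _ _ _ le_rfl)
    (by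
      intro n F hF b hb a
      rcases b with ⟨i, c⟩
      change i = n + 1 at hb
      subst hb
      have h1 : d a n (steinerGlobe.atom (n + 1, c)) = gatom n a :=
        gatom_dd_of_lt _ _ _ _ (by omega)
      rw [h1]
      have h2 := hF (n, a) (le_refl n)
      rw [steinerGlobe_atom] at h2
      rw [h2]
      exact d_d_of_lt _ _ _ _ _ (by omega))
  exact ⟨F, fun i b => hF (i, b)⟩

/-- The functor out of the infinite globe classifying a cell. -/
noncomputable def zcls (z : Z) : OmegaFun (Cell globeCx) Z := Classical.choose (exists_zcls z)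

theorem zcls_gatom (z : Z) (i : ℕ) (b : Bool) : zcls z (gatom i b) = d b i z :=
  Classical.choose_spec (exists_zcls z) i b

theorem zcls_sig (z : Z) (n : ℕ) (a : Bool) :
    (zcls z).comp (Cell.mapFun (sig n a)) = zcls (d a n z) := by
  apply steinerGlobe.fun_ext
  rintro ⟨i, b⟩
  rw [steinerGlobe_atom, zcls_gatom]
  change zcls z ((gatom i b).map (sig n a)) = _
  rcases lt_or_ge i n with h | h
  · rw [gatom_map_sig_of_lt _ _ _ _ h, zcls_gatom, d_d_of_lt _ _ _ _ _ h]
  · rw [gatom_map_sig_of_le _ _ _ _ h, zcls_gatom, d_d_of_le _ _ _ _ _ h]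

theorem comp_cls_eq_zcls {K : BCx} (F : OmegaFun (Cell K) Z) (x : Cell K) :
    F.comp (Cell.mapFun x.cls) = zcls (F x) := by
  apply steinerGlobe.fun_ext
  rintro ⟨i, b⟩
  rw [steinerGlobe_atom, zcls_gatom, ← F.map_dd]
  change F ((gatom i b).map x.cls) = _
  rw [Cell.gatom_map_cls]
  rfl

theorem triv_cpre {K L : BCx} (F : OmegaFun (Cell L) Z) (φ : BCxHom K L) :
    cpre (F.comp (Cell.mapFun (cylProj L))) φ =
      (F.comp (Cell.mapFun φ)).comp (Cell.mapFun (cylProj K)) := by
  apply OmegaFun.ext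
  intro x
  change F ((x.map (cylMap φ)).map (cylProj L)) = F ((x.map (cylProj K)).map φ)
  rw [← Cell.map_comp, ← Cell.map_comp, cylProj_comp_cylMap]

/-- The trivial cylinders. -/
noncomputable def Gamma.triv (Z : Type v) [OmegaStr Z] : OmegaFun Z (Gamma Z) where
  toFun z := ⟨(zcls z).comp (Cell.mapFun (cylProj globeCx)), by
    obtain ⟨n, hn⟩ := finite_dim z
    exact ⟨n, by rw [triv_cpre, zcls_sig, hn]⟩⟩
  map_d a n z := by
    apply Subtype.ext
    change (zcls (d a n z)).comp _ = cpre ((zcls z).comp _) (sig n a)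
    rw [triv_cpre, zcls_sig]
  map_comp n z z' h h' := by
    apply Subtype.ext
    change (zcls (comp n z z' h)).comp (Cell.mapFun (cylProj globeCx)) =
      pcomp n ((zcls z).comp (Cell.mapFun (cylProj globeCx)))
        ((zcls z').comp (Cell.mapFun (cylProj globeCx))) (congrArg Subtype.val h')
    obtain ⟨K, U, p, q, hpq, h1, h2⟩ := exists_rep2_plain n (zcls z) (zcls z')
      (by rw [zcls_sig, zcls_sig, h])
    rw [pcomp_eq' n (U.comp (Cell.mapFun (cylProj K))) p q hpq _ _ (by rw [triv_cpre, h1])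
      (by rw [triv_cpre, h2]), triv_cpre]
    congr 1
    apply globe_fun_ext (n + 1)
    intro i b hi
    have h3 := Cell.map_hcomp_compat n i (by omega) b p q hpq
    change _ = U ((gatom i b).map (hcomp n p q hpq))
    rw [Cell.map_hcomp n i (by omega) b p q hpq h3, zcls_gatom]
    have key := U.map_tc (x := (gatom i b).map p) (y := (gatom i b).map q) (n := n) h3
    rw [tc_eq h3] at key
    refine Eq.trans ?_ key.symm
    have h4 : U ((gatom i b).map p) = d b i z := by
      rw [← zcls_gatom, ← h1]; rfl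
    have h5 : U ((gatom i b).map q) = d b i z' := by
      rw [← zcls_gatom, ← h2]; rfl
    rw [h4, h5, ← d_tc_gt h (by omega), tc_eq h]

theorem Gamma.triv_val (z : Z) :
    (Gamma.triv Z z).1 = (zcls z).comp (Cell.mapFun (cylProj globeCx)) := rfl

theorem Gamma.pend_triv (e : Bool) : (Gamma.pend Z e).comp (Gamma.triv Z) = OmegaFun.id Z := by
  apply OmegaFun.ext
  intro z
  obtain ⟨n, hn⟩ := finite_dim z
  change Gamma.pend Z e (Gamma.triv Z z) = z
  rw [Gamma.pend_eq e _ n (by rw [← OmegaFun.map_dd, hn]) n le_rfl false]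
  change zcls z (((gatom n false).map (cylEnd globeCx e)).map (cylProj globeCx)) = z
  rw [← Cell.map_comp, cylProj_comp_cylEnd, Cell.map_id, zcls_gatom, hn]

theorem Gamma.curry_proj {K : BCx} (F : OmegaFun (Cell K) Z) :
    Gamma.curry (F.comp (Cell.mapFun (cylProj K))) = (Gamma.triv Z).comp F := by
  apply OmegaFun.ext
  intro x
  apply Subtype.ext
  change cpre (F.comp (Cell.mapFun (cylProj K))) x.cls = (zcls (F x)).comp _
  rw [triv_cpre, comp_cls_eq_zcls]

theorem Gamma.map_triv {Z' : Type w} [OmegaStr Z'] (f : OmegaFun Z Z') :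
    (Gamma.map f).comp (Gamma.triv Z) = (Gamma.triv Z').comp f := by
  apply OmegaFun.ext
  intro z
  apply Subtype.ext
  change f.comp ((zcls z).comp _) = (zcls (f z)).comp _
  have : f.comp (zcls z) = zcls (f z) := by
    apply steinerGlobe.fun_ext
    rintro ⟨i, b⟩
    rw [steinerGlobe_atom, zcls_gatom]
    change f (zcls z (gatom i b)) = _
    rw [zcls_gatom, f.map_dd]
  rw [← this]
  rfl

/-! ### Truncation -/

theorem Gamma.d_eq_self {k : ℕ} (hZ : ∀ z : Z, d false k z = z) (x : Gamma Z) :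
    d false k x = x := by
  apply Subtype.ext
  rw [Gamma.d_val]
  have h1 : ∀ (a : Bool) (y : Cell globeCx.cyl), x.1 y = x.1 (d a k y) := by
    intro a y
    rw [x.1.map_dd]
    exact ((show IsDim k (x.1 y) from hZ _).d_eq a le_rfl).symm
  have h2 : ∀ (t : I3) (i : ℕ) (b a : Bool), k < i →
      x.1 ((gatom i b).ten t) = x.1 ((gatom k a).ten t) := by
    intro t i b a hi
    rw [h1 a, h1 a ((gatom k a).ten t)]
    have : (gatom i b).dd a k = (gatom k a).dd a k := by
      rw [gatom_dd_of_lt _ _ _ _ hi, gatom_dd_of_le _ _ _ _ le_rfl]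
    exact congrArg x.1 (Cell.dd_ten_congr t this)
  apply steinerGlobe.pcyl_ext
  rintro ⟨i, b⟩ t
  rw [steinerGlobe_atom, cpre_ten]
  rcases lt_trichotomy i k with h | h | h
  · rw [gatom_map_sig_of_lt _ _ _ _ h]
  · rw [gatom_map_sig_of_le _ _ _ _ h.ge, h, ← h2 t (k + 1) false b (by omega),
      ← h2 t (k + 1) false false (by omega)]
  · rw [gatom_map_sig_of_le _ _ _ _ h.le, h2 t i b false h]

theorem isNCat_gamma {n : ℕ∞} {Z : OmegaCat.{v}} (hZ : isNCat n Z) :
    isNCat n (OmegaCat.mk (Gamma Z.carrier)) := fun k hk x =>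
  Gamma.d_eq_self (hZ k hk) x

end

end Vale.Agent.P213
end

section

/-!
The `n`-coskeleton of a strict omega-category: cells are pairs of parallel `n`-cells.
-/

universe u v w

namespace Vale.Agent.P213

open OmegaStr

section Raw

variable {Z : Type u} [OmegaStr Z]

/-- Sources and targets in the coskeleton. -/
def ckd (n : ℕ) (a : Bool) (k : ℕ) (p : Bool → Z) (b : Bool) : Z :=
  if k < n then d a k (p b) else if k = n then p a else p b

/-- Composition in the coskeleton. -/
noncomputable def ckc (n k : ℕ) (p q : Bool → Z) (b : Bool) : Z :=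
  if k < n then tc k (p b) (q b) else if k = n then (if b then q b else p b) else p b

theorem ckd_lt {n k : ℕ} (h : k < n) (a : Bool) (p : Bool → Z) (b : Bool) :
    ckd n a k p b = d a k (p b) := if_pos h

theorem ckd_eq {n k : ℕ} (h : k = n) (a : Bool) (p : Bool → Z) (b : Bool) :
    ckd n a k p b = p a := by
  rw [ckd, if_neg (by omega), if_pos h]

theorem ckd_gt {n k : ℕ} (h : n < k) (a : Bool) (p : Bool → Z) (b : Bool) :
    ckd n a k p b = p b := by
  rw [ckd, if_neg (by omega), if_neg (by omega)]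

theorem ckc_lt {n k : ℕ} (h : k < n) (p q : Bool → Z) (b : Bool) :
    ckc n k p q b = tc k (p b) (q b) := if_pos h

theorem ckc_eq_false {n k : ℕ} (h : k = n) (p q : Bool → Z) :
    ckc n k p q false = p false := by
  rw [ckc, if_neg (by omega), if_pos h]
  rfl

theorem ckc_eq_true {n k : ℕ} (h : k = n) (p q : Bool → Z) :
    ckc n k p q true = q true := by
  rw [ckc, if_neg (by omega), if_pos h]
  rfl

theorem ckc_gt {n k : ℕ} (h : n < k) (p q : Bool → Z) (b : Bool) :
    ckc n k p q b = p b := by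
  rw [ckc, if_neg (by omega), if_neg (by omega)]

end Raw

/-- The `n`-coskeleton: pairs of parallel `n`-cells. -/
def Cosk (n : ℕ) (Z : Type u) [OmegaStr Z] : Type u :=
  {p : Bool → Z // (∀ b, IsDim n (p b)) ∧ ∀ k, k < n → ∀ a b c, d a k (p b) = d a k (p c)}

namespace Cosk

variable {n : ℕ} {Z : Type u} [OmegaStr Z]

theorem ext {p q : Cosk n Z} (h : ∀ b, p.1 b = q.1 b) : p = q := Subtype.ext (funext h)

theorem isDim_val (p : Cosk n Z) (b : Bool) : IsDim n (p.1 b) := p.2.1 b

theorem par (p : Cosk n Z) {k : ℕ} (h : k < n) (a b c : Bool) : d a k (p.1 b) = d a k (p.1 c) :=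
  p.2.2 k h a b c

/-- Sources and targets. -/
def cd (a : Bool) (k : ℕ) (p : Cosk n Z) : Cosk n Z := ⟨ckd n a k p.1, by
  constructor
  · intro b
    rcases lt_trichotomy k n with h | h | h
    · rw [ckd_lt h]
      exact (p.isDim_val b).d a k
    · rw [ckd_eq h]
      exact p.isDim_val a
    · rw [ckd_gt h]
      exact p.isDim_val b
  · intro j hj a' b c
    rcases lt_trichotomy k n with h | h | h
    · rw [ckd_lt h, ckd_lt h, p.par h a b c]
    · rw [ckd_eq h, ckd_eq h]
    · rw [ckd_gt h, ckd_gt h, p.par hj a' b c]⟩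

theorem composable {k : ℕ} {p q : Cosk n Z} (h : cd true k p = cd false k q) (hk : k < n)
    (b : Bool) : d true k (p.1 b) = d false k (q.1 b) := by
  have h1 : ckd n true k p.1 b = ckd n false k q.1 b := congrFun (congrArg Subtype.val h) b
  rwa [ckd_lt hk, ckd_lt hk] at h1

theorem composable_eq {k : ℕ} {p q : Cosk n Z} (h : cd true k p = cd false k q) (hk : k = n) :
    p.1 true = q.1 false := by
  have h1 : ckd n true k p.1 true = ckd n false k q.1 true := congrFun (congrArg Subtype.val h) true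
  rwa [ckd_eq hk, ckd_eq hk] at h1

theorem composable_gt {k : ℕ} {p q : Cosk n Z} (h : cd true k p = cd false k q) (hk : n < k) :
    p = q := by
  apply Cosk.ext
  intro b
  have h1 : ckd n true k p.1 b = ckd n false k q.1 b := congrFun (congrArg Subtype.val h) b
  rwa [ckd_gt hk, ckd_gt hk] at h1

/-- Composition. -/
noncomputable def cc (k : ℕ) (p q : Cosk n Z) (h : cd true k p = cd false k q) : Cosk n Z :=
  ⟨ckc n k p.1 q.1, by
    constructor
    · intro b
      rcases lt_trichotomy k n with hk | hk | hk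
      · rw [ckc_lt hk]
        exact (p.isDim_val b).tc (q.isDim_val b) (composable h hk b)
      · cases b
        · rw [ckc_eq_false hk]
          exact p.isDim_val _
        · rw [ckc_eq_true hk]
          exact q.isDim_val _
      · rw [ckc_gt hk]
        exact p.isDim_val b
    · intro j hj a b c
      rcases lt_trichotomy k n with hk | hk | hk
      · rw [ckc_lt hk, ckc_lt hk]
        have h1 := composable h hk b
        have h2 := composable h hk c
        rcases lt_trichotomy k j with hkj | hkj | hkj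
        · rw [d_tc_gt h1 hkj, d_tc_gt h2 hkj, p.par hj a b c, q.par hj a b c]
        · subst hkj
          cases a
          · rw [src_tc h1, src_tc h2, p.par hj _ b c]
          · rw [tgt_tc h1, tgt_tc h2, q.par hj _ b c]
        · rw [d_tc_lt h1 hkj, d_tc_lt h2 hkj, p.par hj _ b c]
      · have h1 := composable_eq h hk
        have h2 : ∀ a b, d a j (ckc n k p.1 q.1 b) = d a j (p.1 true) := by
          intro a b
          cases b
          · rw [ckc_eq_false hk, p.par hj]
          · rw [ckc_eq_true hk, h1, q.par hj]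
        rw [h2, h2]
      · rw [ckc_gt hk, ckc_gt hk, p.par hj a b c]⟩

noncomputable instance : OmegaStr (Cosk n Z) where
  d a k p := cd a k p
  comp k p q h := cc k p q h
  finite_dim p := ⟨n + 1, Cosk.ext fun b => ckd_gt (Nat.lt_succ_self n) false p.1 b⟩
  d_d_of_lt a b m k p hmk := Cosk.ext fun c => by
    change ckd n a m (ckd n b k p.1) c = ckd n a m p.1 c
    rcases lt_trichotomy m n with hm | hm | hm
    · rw [ckd_lt hm, ckd_lt hm]
      rcases lt_trichotomy k n with hk | hk | hk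
      · rw [ckd_lt hk, dd_lt hmk]
      · rw [ckd_eq hk, p.par hm a b c]
      · rw [ckd_gt hk]
    · rw [ckd_eq hm, ckd_eq hm, ckd_gt (by omega)]
    · rw [ckd_gt hm, ckd_gt hm, ckd_gt (by omega)]
  d_d_of_le a b m k p hkm := Cosk.ext fun c => by
    change ckd n a m (ckd n b k p.1) c = ckd n b k p.1 c
    rcases lt_trichotomy m n with hm | hm | hm
    · rw [ckd_lt hm, ckd_lt (by omega), dd_le hkm]
    · rw [ckd_eq hm]
      rcases lt_or_eq_of_le (hm ▸ hkm : k ≤ n) with hk | hk
      · rw [ckd_lt hk, ckd_lt hk, p.par hk b a c]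
      · rw [ckd_eq hk, ckd_eq hk]
    · rw [ckd_gt hm]
  src_comp k p q h := Cosk.ext fun c => by
    change ckd n false k (ckc n k p.1 q.1) c = ckd n false k p.1 c
    rcases lt_trichotomy k n with hk | hk | hk
    · rw [ckd_lt hk, ckd_lt hk, ckc_lt hk, src_tc (composable h hk c)]
    · rw [ckd_eq hk, ckd_eq hk, ckc_eq_false hk]
    · rw [ckd_gt hk, ckd_gt hk, ckc_gt hk]
  tgt_comp k p q h := Cosk.ext fun c => by
    change ckd n true k (ckc n k p.1 q.1) c = ckd n true k q.1 c
    rcases lt_trichotomy k n with hk | hk | hk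
    · rw [ckd_lt hk, ckd_lt hk, ckc_lt hk, tgt_tc (composable h hk c)]
    · rw [ckd_eq hk, ckd_eq hk, ckc_eq_true hk]
    · rw [ckd_gt hk, ckd_gt hk, ckc_gt hk, composable_gt h hk]
  d_comp a m k p q h h' hkm := Cosk.ext fun c => by
    change ckd n a m (ckc n k p.1 q.1) c = ckc n k (ckd n a m p.1) (ckd n a m q.1) c
    rcases lt_trichotomy m n with hm | hm | hm
    · rw [ckd_lt hm, ckc_lt (by omega), ckc_lt (by omega), ckd_lt hm, ckd_lt hm,
        d_tc_gt (composable h (by omega) c) hkm]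
    · rw [ckd_eq hm, ckc_lt (by omega), ckc_lt (by omega), ckd_eq hm, ckd_eq hm]
    · rw [ckd_gt hm]
      rcases lt_trichotomy k n with hk | hk | hk
      · rw [ckc_lt hk, ckc_lt hk, ckd_gt hm, ckd_gt hm]
      · cases c
        · rw [ckc_eq_false hk, ckc_eq_false hk, ckd_gt hm]
        · rw [ckc_eq_true hk, ckc_eq_true hk, ckd_gt hm]
      · rw [ckc_gt hk, ckc_gt hk, ckd_gt hm]
  id_comp k p h := Cosk.ext fun c => by
    change ckc n k (ckd n false k p.1) p.1 c = p.1 c
    rcases lt_trichotomy k n with hk | hk | hk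
    · rw [ckc_lt hk, ckd_lt hk, src_tc_id]
    · cases c
      · rw [ckc_eq_false hk, ckd_eq hk]
      · rw [ckc_eq_true hk]
    · rw [ckc_gt hk, ckd_gt hk]
  comp_id k p h := Cosk.ext fun c => by
    change ckc n k p.1 (ckd n true k p.1) c = p.1 c
    rcases lt_trichotomy k n with hk | hk | hk
    · rw [ckc_lt hk, ckd_lt hk, tc_tgt_id]
    · cases c
      · rw [ckc_eq_false hk]
      · rw [ckc_eq_true hk, ckd_eq hk]
    · rw [ckc_gt hk]
  assoc k x y z h₁ h₂ h₃ h₄ := Cosk.ext fun c => by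
    change ckc n k (ckc n k x.1 y.1) z.1 c = ckc n k x.1 (ckc n k y.1 z.1) c
    rcases lt_trichotomy k n with hk | hk | hk
    · rw [ckc_lt hk, ckc_lt hk, ckc_lt hk, ckc_lt hk,
        tc_assoc (composable h₁ hk c) (composable h₂ hk c)]
    · cases c
      · rw [ckc_eq_false hk, ckc_eq_false hk, ckc_eq_false hk]
      · rw [ckc_eq_true hk, ckc_eq_true hk, ckc_eq_true hk]
    · rw [ckc_gt hk, ckc_gt hk, ckc_gt hk]
  interchange m k x y z w hmk h₁ h₂ h₃ h₄ h₅ h₆ := Cosk.ext fun c => by
    change ckc n m (ckc n k x.1 y.1) (ckc n k z.1 w.1) c =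
      ckc n k (ckc n m x.1 z.1) (ckc n m y.1 w.1) c
    rcases lt_trichotomy m n with hm | hm | hm
    · rw [ckc_lt hm]
      rcases lt_trichotomy k n with hk | hk | hk
      · rw [ckc_lt hk, ckc_lt hk, ckc_lt hk, ckc_lt hm, ckc_lt hm,
          tc_interchange hmk (composable h₁ hk c) (composable h₂ hk c) (composable h₃ hm c)]
      · cases c
        · rw [ckc_eq_false hk, ckc_eq_false hk, ckc_eq_false hk, ckc_lt hm]
        · rw [ckc_eq_true hk, ckc_eq_true hk, ckc_eq_true hk, ckc_lt hm]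
      · rw [ckc_gt hk, ckc_gt hk, ckc_gt hk, ckc_lt hm]
    · have hk : n < k := by omega
      rw [ckc_gt hk]
      cases c
      · rw [ckc_eq_false hm, ckc_eq_false hm, ckc_gt hk]
      · rw [ckc_eq_true hm, ckc_eq_true hm, ckc_gt hk]
    · have hk : n < k := by omega
      rw [ckc_gt hk, ckc_gt hm, ckc_gt hm, ckc_gt hk]

theorem d_val (a : Bool) (k : ℕ) (p : Cosk n Z) (b : Bool) :
    (d a k p).1 b = ckd n a k p.1 b := rfl

theorem tc_val {k : ℕ} {p q : Cosk n Z} (h : d true k p = d false k q) (b : Bool) :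
    (tc k p q).1 b = ckc n k p.1 q.1 b := by
  rw [tc_eq h]
  rfl

/-- Cells of the coskeleton are determined by their `n`-source and `n`-target. -/
theorem ext_of_d {p q : Cosk n Z} (h : ∀ a, d a n p = d a n q) : p = q := by
  apply Cosk.ext
  intro b
  have h1 : (d b n p).1 b = (d b n q).1 b := by rw [h]
  rwa [d_val, d_val, ckd_eq rfl, ckd_eq rfl] at h1

end Cosk

/-- The functor to the coskeleton attached to a partial functor. -/
noncomputable def PFun.toCosk {C : Type u} {Z : Type v} [OmegaStr C] [OmegaStr Z] {n : ℕ}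
    (F : PFun C Z n) : OmegaFun C (Cosk n Z) where
  toFun x := ⟨fun b => F.toFun (d b n x), by
    constructor
    · intro b
      exact F.isDim (isDim_d b n x) (isDim_d b n x)
    · intro k hk a b c
      rw [← F.map_dd (isDim_d b n x), ← F.map_dd (isDim_d c n x), dd_lt hk, dd_lt hk]⟩
  map_d a k x := Cosk.ext fun b => by
    change F.toFun (d b n (d a k x)) = ckd n a k (fun b => F.toFun (d b n x)) b
    rcases lt_trichotomy k n with hk | hk | hk
    · rw [ckd_lt hk, ← F.map_dd (isDim_d b n x), dd_lt hk, dd_le hk.le]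
    · subst hk
      rw [ckd_eq rfl, dd_le le_rfl]
    · rw [ckd_gt hk, dd_lt hk]
  map_comp k x y h h' := Cosk.ext fun b => by
    change F.toFun (d b n (comp k x y h)) =
      ckc n k (fun b => F.toFun (d b n x)) (fun b => F.toFun (d b n y)) b
    rw [← tc_eq h]
    rcases lt_trichotomy k n with hk | hk | hk
    · rw [ckc_lt hk, d_tc_gt h hk, F.map_tc (isDim_d b n x) (isDim_d b n y) (composable_d h hk)]
    · subst hk
      cases b
      · rw [ckc_eq_false rfl, src_tc h]
      · rw [ckc_eq_true rfl, tgt_tc h]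
    · rw [ckc_gt hk, d_tc_lt h hk]

theorem PFun.toCosk_val {C : Type u} {Z : Type v} [OmegaStr C] [OmegaStr Z] {n : ℕ}
    (F : PFun C Z n) (x : C) (b : Bool) : (F.toCosk x).1 b = F.toFun (d b n x) := rfl

/-- The canonical functor to the coskeleton. -/
noncomputable def toCosk (n : ℕ) (Z : Type u) [OmegaStr Z] : OmegaFun Z (Cosk n Z) :=
  ((OmegaFun.id Z).toPFun n).toCosk

theorem toCosk_val (n : ℕ) {Z : Type u} [OmegaStr Z] (z : Z) (b : Bool) :
    (toCosk n Z z).1 b = d b n z := rfl

end Vale.Agent.P213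
end

section

/-!
Uncurrying functors to the cylinder category.
-/

universe u v w

namespace Vale.Agent.P213

open OmegaStr

section Tens

variable {K L : BCx}

/-- The dimension of a generator of the interval. -/
def I3.dim : I3 → ℕ
  | I3.zero => 0
  | I3.one => 0
  | I3.seg => 1

theorem cyl_dim (b : K.B) (t : I3) : K.cyl.dim (b, t) = K.dim b + t.dim := by
  cases t <;> rfl

theorem gatom_ten (i : ℕ) (β : Bool) (t : I3) :
    (gatom i β).ten t = steinerGlobe.cyl.atom ((i, β), t) :=
  (steinerGlobe.cyl_atom (i, β) t).symm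

theorem isDim_gatom_ten (i : ℕ) (β : Bool) (t : I3) :
    IsDim (i + t.dim) ((gatom i β).ten t) := by
  rw [gatom_ten]
  have := steinerGlobe.cyl.isDim_atom ((i, β), t)
  rwa [cyl_dim] at this

theorem isDim_ten {x : Cell K} {i : ℕ} (hx : IsDim i x) (t : I3) :
    IsDim (i + t.dim) (x.ten t) := by
  have h1 : x = (gatom i false).map x.cls := by
    rw [Cell.gatom_map_cls, ← Cell.d_eq]
    exact (hx.d_eq false le_rfl).symm
  rw [h1, ← Cell.ten_map]
  exact OmegaFun.isDim (Cell.mapFun _) (isDim_gatom_ten i false t)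

end Tens

section Gam

variable {K : BCx} (hK : Steiner K) {Z : Type u} [OmegaStr Z]

theorem Gamma.curry_apply (F : OmegaFun (Cell K.cyl) Z) (x : Cell K) (i : ℕ) (β : Bool) (t : I3) :
    (Gamma.curry F x).1 ((gatom i β).ten t) = F ((d β i x).ten t) := by
  rw [Gamma.curry_val]
  change F (((gatom i β).ten t).map _) = _
  rw [Cell.ten_map, Cell.gatom_map_cls]
  rfl

/-- Evaluation of a cylinder only depends on its sources and targets. -/
theorem Gamma.apply_gatom (E : Gamma Z) (i : ℕ) (β γ : Bool) (t : I3) :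
    E.1 ((gatom i β).ten t) = (d β i E).1 ((gatom i γ).ten t) := by
  rw [Gamma.d_val]
  change _ = E.1 (((gatom i γ).ten t).map _)
  rw [Cell.ten_map, gatom_map_sig_of_le _ _ _ _ le_rfl]

theorem Gamma.apply_gatom_of_isDim {E : Gamma Z} {m : ℕ} (hE : IsDim m E) {i : ℕ} (hi : m ≤ i)
    (β γ : Bool) (t : I3) :
    E.1 ((gatom i β).ten t) = E.1 ((gatom m γ).ten t) := by
  have h1 : d γ m E = E := hE.d_eq γ le_rfl
  conv_lhs => rw [← h1]
  rw [Gamma.d_val]
  change E.1 (((gatom i β).ten t).map _) = _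
  rw [Cell.ten_map, gatom_map_sig_of_le _ _ _ _ hi]

/-- The inductive step for lower atoms. -/
theorem lower_step {F : OmegaFun (Cell K.cyl) Z} {E : OmegaFun (Cell K) (Gamma Z)} {m : ℕ}
    (hlow : ∀ b, K.dim b < m → Gamma.curry F (hK.atom b) = E (hK.atom b)) (x : Cell K) {i : ℕ}
    (hi : i < m) (β : Bool) (t : I3) :
    F ((d β i x).ten t) = (E x).1 ((gatom i β).ten t) := by
  have h1 : Gamma.curry F (d β i x) = E (d β i x) :=
    hK.pfun_ext (F := (Gamma.curry F).toPFun i) (G := E.toPFun i)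
      (fun b hb => hlow b (by omega)) _ (isDim_d β i x)
  rw [Gamma.apply_gatom (E x) i β β t, ← E.map_dd, ← h1, Gamma.curry_apply, dd_le le_rfl]

/-- Equality at an atom. -/
theorem atom_step {F : OmegaFun (Cell K.cyl) Z} {E : OmegaFun (Cell K) (Gamma Z)} (b : K.B)
    (hlow : ∀ b', K.dim b' < K.dim b → Gamma.curry F (hK.atom b') = E (hK.atom b'))
    (htop : ∀ t, F ((hK.atom b).ten t) = (E (hK.atom b)).1 ((gatom (K.dim b) false).ten t)) :
    Gamma.curry F (hK.atom b) = E (hK.atom b) := by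
  apply Subtype.ext
  apply steinerGlobe.cyl.fun_ext
  rintro ⟨⟨i, β⟩, t⟩
  rw [← gatom_ten, Gamma.curry_apply]
  rcases Nat.lt_or_ge i (K.dim b) with hi | hi
  · exact lower_step hK hlow _ hi β t
  · have h1 : d β i (hK.atom b) = hK.atom b := (hK.isDim_atom b).d_eq β hi
    have h2 : IsDim (K.dim b) (E (hK.atom b)) := E.isDim (hK.isDim_atom b)
    rw [h1, htop, Gamma.apply_gatom_of_isDim h2 hi β false t]

/-- If the top values agree then the functors agree. -/
theorem curry_eq_of_top {F : OmegaFun (Cell K.cyl) Z} {E : OmegaFun (Cell K) (Gamma Z)}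
    (htop : ∀ b t, F ((hK.atom b).ten t) =
      (E (hK.atom b)).1 ((gatom (K.dim b) false).ten t)) : Gamma.curry F = E := by
  apply hK.fun_ext
  have key : ∀ m b, K.dim b = m → Gamma.curry F (hK.atom b) = E (hK.atom b) := by
    intro m
    induction m using Nat.strong_induction_on with
    | _ m ih =>
      intro b hb
      exact atom_step hK b (fun b' hb' => ih _ (hb ▸ hb') b' rfl) (htop b)
  exact fun b => key _ b rfl

/-- The values of the uncurried functor on atoms. -/
noncomputable def uncurryVal (E : OmegaFun (Cell K) (Gamma Z)) (b : K.B × I3) : Z :=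
  (E (hK.atom b.1)).1 ((gatom (K.dim b.1) false).ten b.2)

theorem isDim_uncurryVal (E : OmegaFun (Cell K) (Gamma Z)) (b : K.B) (t : I3) :
    IsDim (K.dim b + t.dim) (uncurryVal hK E (b, t)) :=
  OmegaFun.isDim _ (isDim_gatom_ten _ _ _)

/-- The key comparison for partial functors. -/
theorem toCosk_eq (E : OmegaFun (Cell K) (Gamma Z)) {n : ℕ} (F : PFun (Cell K.cyl) Z n)
    (hF : ∀ b, K.cyl.dim b ≤ n → F.toFun (hK.cyl.atom b) = uncurryVal hK E b) (b : K.B) (t : I3) :
    F.toCosk ((hK.atom b).ten t) = toCosk n Z (uncurryVal hK E (b, t)) := by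
  have key : ∀ m b, K.dim b = m → (∀ t, F.toCosk ((hK.atom b).ten t) =
        toCosk n Z (uncurryVal hK E (b, t))) ∧
      Gamma.curry F.toCosk (hK.atom b) = ((Gamma.map (toCosk n Z)).comp E) (hK.atom b) := by
    intro m
    induction m using Nat.strong_induction_on with
    | _ m ih =>
      intro b hb
      have hlow : ∀ b', K.dim b' < m → Gamma.curry F.toCosk (hK.atom b') =
          ((Gamma.map (toCosk n Z)).comp E) (hK.atom b') := fun b' hb' => (ih _ hb' b' rfl).2
      -- low-dimensional top values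
      have hsmall : ∀ t : I3, m + t.dim ≤ n → F.toFun ((hK.atom b).ten t) =
          uncurryVal hK E (b, t) := by
        intro t ht
        rw [← hK.cyl_atom]
        apply hF
        rw [cyl_dim, hb]
        exact ht
      -- values of `F` on all cells of the form `w.map` with `w` of dimension `≤ n`
      have hall : ∀ w : Cell globeCx.cyl, IsDim n w →
          F.toFun (w.map (BCxHom.cylMap (hK.atom b).cls)) = (E (hK.atom b)).1 w := by
        intro w hw
        apply steinerGlobe.cyl.pfun_ext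
          (F := F.pre (Cell.mapFun (BCxHom.cylMap (hK.atom b).cls)))
          (G := (E (hK.atom b)).1.toPFun n) _ w hw
        rintro ⟨⟨i, β⟩, t⟩ hd
        rw [cyl_dim] at hd
        change i + t.dim ≤ n at hd
        rw [← gatom_ten]
        change F.toFun (((gatom i β).ten t).map _) = (E (hK.atom b)).1 ((gatom i β).ten t)
        rw [Cell.ten_map, Cell.gatom_map_cls]
        change F.toFun ((d β i (hK.atom b)).ten t) = _
        rcases Nat.lt_or_ge i m with hi | hi
        · have h1 := lower_step hK hlow (hK.atom b) hi β t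
          have h2 : F.toFun (d false n ((d β i (hK.atom b)).ten t)) =
              d false n ((E (hK.atom b)).1 ((gatom i β).ten t)) :=
            congrArg (fun z : Cosk n Z => z.1 false) h1
          have h3 : IsDim n ((d β i (hK.atom b)).ten t) :=
            (isDim_ten (isDim_d β i _) t).mono hd
          have h4 : IsDim n ((E (hK.atom b)).1 ((gatom i β).ten t)) :=
            OmegaFun.isDim _ ((isDim_gatom_ten i β t).mono hd)
          rwa [h3.d_eq _ le_rfl, h4.d_eq _ le_rfl] at h2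
        · have h1 : d β i (hK.atom b) = hK.atom b := (hb ▸ hK.isDim_atom b : IsDim m _).d_eq β hi
          have h2 : IsDim m (E (hK.atom b)) := E.isDim (hb ▸ hK.isDim_atom b)
          rw [h1, hsmall t (by omega), Gamma.apply_gatom_of_isDim h2 hi β false t, uncurryVal, hb]
      have htop : ∀ t, F.toCosk ((hK.atom b).ten t) =
          toCosk n Z (uncurryVal hK E (b, t)) := by
        intro t
        apply Cosk.ext
        intro c
        rw [PFun.toCosk_val, toCosk_val, uncurryVal, hb, ← OmegaFun.map_dd, ← hall _ (isDim_d _ _ _)]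
        have h1 : (d c n ((gatom m false).ten t)).map (BCxHom.cylMap (hK.atom b).cls) =
            d c n ((hK.atom b).ten t) := by
          rw [Cell.d_eq, Cell.map_dd, Cell.ten_map, Cell.gatom_map_cls]
          have h2 : d false m (hK.atom b) = hK.atom b :=
            (hb ▸ hK.isDim_atom b : IsDim m _).d_eq false le_rfl
          rw [← Cell.d_eq, ← Cell.d_eq, h2]
        rw [h1]
      refine ⟨htop, ?_⟩
      apply atom_step hK b (fun b' hb' => hlow b' (hb ▸ hb'))
      intro t
      exact htop t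
  exact (key _ b rfl).1 t

include hK in
/-- Uncurrying. -/
theorem Gamma.exists_uncurry (E : OmegaFun (Cell K) (Gamma Z)) :
    ∃ F : OmegaFun (Cell K.cyl) Z, Gamma.curry F = E := by
  obtain ⟨F, hF⟩ := hK.cyl.exists_fun (uncurryVal hK E)
    (by
      rintro ⟨b, t⟩
      rw [cyl_dim]
      exact isDim_uncurryVal hK E b t)
    (by
      rintro n F hF ⟨b, t⟩ _ a
      have h1 := toCosk_eq hK E F hF b t
      have h2 : F.toFun (d a n ((hK.atom b).ten t)) = d a n (uncurryVal hK E (b, t)) :=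
        congrArg (fun z : Cosk n Z => z.1 a) h1
      rw [hK.cyl_atom, h2])
  refine ⟨F, curry_eq_of_top hK ?_⟩
  intro b t
  rw [← hK.cyl_atom, hF]
  rfl

end Gam

end Vale.Agent.P213
end

section

/-! Adapter for the path object used in CylAxiom. -/

namespace Vale.Agent.P213

open BCx BCxHom

namespace Gamma

variable {Z : Type} [OmegaStr Z]

noncomputable abbrev src : OmegaFun (Gamma Z) Z := pend Z false

noncomputable abbrev tgt : OmegaFun (Gamma Z) Z := pend Z true

theorem isN {n : ℕ∞} (h : isNCat n (OmegaCat.mk Z)) : isNCat n (OmegaCat.mk (Gamma Z)) :=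
  isNCat_gamma h

theorem src_triv : (src : OmegaFun (Gamma Z) Z).comp (triv Z) = OmegaFun.id Z := pend_triv false

theorem tgt_triv : (tgt : OmegaFun (Gamma Z) Z).comp (triv Z) = OmegaFun.id Z := pend_triv true

variable {K L : BCx}

noncomputable def uncurry (hK : Steiner K) (F : OmegaFun (Cell K) (Gamma Z)) :
    OmegaFun (Cell K.cyl) Z := Classical.choose (exists_uncurry hK F)

theorem curry_uncurry (hK : Steiner K) (F : OmegaFun (Cell K) (Gamma Z)) :
    curry (uncurry hK F) = F := Classical.choose_spec (exists_uncurry hK F)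

theorem uncurry_curry (hK : Steiner K) (F : OmegaFun (Cell K.cyl) Z) :
    uncurry hK (curry F) = F := curry_injective hK (curry_uncurry hK _)

theorem curry_comp (F : OmegaFun (Cell L.cyl) Z) (φ : BCxHom K L) :
    curry (F.comp (Cell.mapFun (cylMap φ))) = (curry F).comp (Cell.mapFun φ) :=
  curry_cpre F φ

theorem src_curry (F : OmegaFun (Cell K.cyl) Z) :
    src.comp (curry F) = F.comp (Cell.mapFun (cylEnd K false)) := pend_curry F false

theorem tgt_curry (F : OmegaFun (Cell K.cyl) Z) :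
    tgt.comp (curry F) = F.comp (Cell.mapFun (cylEnd K true)) := pend_curry F true

end Gamma

end Vale.Agent.P213
end

section

/-!
The cylinder axiom for the Street nerve.
-/

open CategoryTheory Simplicial MonoidalCategory CartesianMonoidalCategory

namespace Vale.Agent.P213

open BCxHom

/-- The boolean function of a monotone map to `Fin 2`. -/
def boolOf {m : ℕ} (f : Fin (m + 1) →o Fin 2) : Fin (m + 1) →o Bool where
  toFun i := decide (f i ≠ 0)
  monotone' i j h := by
    have h1 := f.monotone h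
    intro h2
    simp only [ne_eq, decide_not, Bool.not_eq_eq_eq_not, Bool.not_true,
      decide_eq_false_iff_not] at h2 ⊢
    intro h3
    rw [h3] at h1
    exact h2 (Fin.le_zero_iff.1 h1)

/-- The boolean function of a simplex of `Δ[1]`. -/
def boolOfS {m : ℕ} (x : (Δ[1] : SSet.{0}).obj (.op ⦋m⦌)) : Fin (m + 1) →o Bool :=
  boolOf (SSet.stdSimplex.objEquiv x).toOrderHom

/-- The path object. -/
noncomputable abbrev GammaCat (Z : OmegaCat.{0}) : OmegaCat.{0} := OmegaCat.mk (Gamma Z.carrier)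

/-- The uncurried form of a simplex of the nerve of the path object. -/
noncomputable def unc {Z : OmegaCat.{0}} {m : ℕ}
    (s : (streetNerve.obj (GammaCat Z)).obj (.op ⦋m⦌)) :
    OmegaFun (Cell (simplexCx (Fin (m + 1))).cyl) Z.carrier :=
  Gamma.uncurry (simplexSteiner (Fin (m + 1))) (sOf s)

theorem curry_unc {Z : OmegaCat.{0}} {m : ℕ}
    (s : (streetNerve.obj (GammaCat Z)).obj (.op ⦋m⦌)) :
    Gamma.curry (unc s) = sOf s := Gamma.curry_uncurry _ _

theorem unc_map {Z : OmegaCat.{0}} {m m' : ℕ} (θ : ⦋m'⦌ ⟶ ⦋m⦌)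
    (s : (streetNerve.obj (GammaCat Z)).obj (.op ⦋m⦌)) :
    unc ((streetNerve.obj (GammaCat Z)).map θ.op s) =
      (unc s).comp (Cell.mapFun (cylMap (simplexMap θ.toOrderHom))) := by
  rw [unc, sOf_map, ← curry_unc s, ← Gamma.curry_comp, Gamma.uncurry_curry]

/-- The structural homotopy. -/
noncomputable def thetaFun {Z : OmegaCat.{0}} {m : ℕ}
    (p : (streetNerve.obj (GammaCat Z)).obj (.op ⦋m⦌) × (Δ[1] : SSet.{0}).obj (.op ⦋m⦌)) :
    (streetNerve.obj Z).obj (.op ⦋m⦌) :=
  (unc p.1).comp (Cell.mapFun (aw (boolOfS p.2)))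

/-- The structural homotopy. -/
noncomputable def thetaS (Z : OmegaCat.{0}) :
    streetNerve.obj (GammaCat Z) ⊗ Δ[1] ⟶ streetNerve.obj Z where
  app m := ↾fun p => thetaFun (m := m.unop.len) p
  naturality := by
    intro m m' θ
    ext p
    have h1 : boolOfS (m := m'.unop.len) ((Δ[1] : SSet.{0}).map θ p.2) =
        (boolOfS (m := m.unop.len) p.2).comp θ.unop.toOrderHom := rfl
    change (unc (m := m'.unop.len) ((streetNerve.obj (GammaCat Z)).map θ p.1)).comp
      (Cell.mapFun (aw (boolOfS (m := m'.unop.len) ((Δ[1] : SSet.{0}).map θ p.2)))) =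
      ((unc (m := m.unop.len) p.1).comp
        (Cell.mapFun (aw (boolOfS (m := m.unop.len) p.2)))).comp
        (Cell.mapFun (simplexMap θ.unop.toOrderHom))
    have h2 := unc_map (m := m.unop.len) (m' := m'.unop.len) θ.unop p.1
    have h2' : unc (m := m'.unop.len) ((streetNerve.obj (GammaCat Z)).map θ p.1) =
      (unc (m := m.unop.len) p.1).comp
        (Cell.mapFun (cylMap (simplexMap θ.unop.toOrderHom))) := h2
    rw [h2', h1, ← OmegaFun.comp_assoc', ← OmegaFun.comp_assoc', ← Cell.mapFun_comp,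
      ← Cell.mapFun_comp, aw_natural]

theorem thetaS_app (Z : OmegaCat.{0}) {m : ℕ}
    (p : (streetNerve.obj (GammaCat Z) ⊗ Δ[1]).obj (.op ⦋m⦌)) :
    (thetaS Z).app (.op ⦋m⦌) p = thetaFun (m := m) p := rfl

/-- The simplex of `Δ[1]` attached to a boolean function. -/
def ofBool {m : ℕ} (φ : Fin (m + 1) →o Bool) : (Δ[1] : SSet.{0}).obj (.op ⦋m⦌) :=
  SSet.stdSimplex.objEquiv.symm (SimplexCategory.Hom.mk
    { toFun := fun i => if φ i = true then (1 : Fin 2) else 0
      monotone' := by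
        intro i j h
        have h1 := φ.monotone h
        dsimp only
        split_ifs with h2 h3
        · exact le_rfl
        · rw [h2] at h1
          exact absurd (top_le_iff.1 h1) h3
        · exact Fin.zero_le _
        · exact le_rfl })

theorem boolOfS_ofBool {m : ℕ} (φ : Fin (m + 1) →o Bool) : boolOfS (ofBool φ) = φ := by
  ext i
  change decide ((if φ i = true then (1 : Fin 2) else 0) ≠ 0) = φ i
  cases φ i <;> simp

theorem thetaS_inj {Z : OmegaCat.{0}} {K : SSet.{0}} (k k' : K ⟶ streetNerve.obj (GammaCat Z))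
    (h : k ▷ Δ[1] ≫ thetaS Z = k' ▷ Δ[1] ≫ thetaS Z) : k = k' := by
  ext m x
  have key : unc (m := m.unop.len) (k.app m x) = unc (m := m.unop.len) (k'.app m x) := by
    apply cyl_joint_epi
    intro p θ φ
    have h1 := congrArg (fun f => f.app (.op ⦋p⦌)
      (K.map (show ⦋p⦌ ⟶ m.unop from SimplexCategory.Hom.mk θ).op x, ofBool φ)) h
    have h2 : thetaFun (m := p) (k.app (.op ⦋p⦌)
        (K.map (show ⦋p⦌ ⟶ m.unop from SimplexCategory.Hom.mk θ).op x), ofBool φ) =
        thetaFun (m := p) (k'.app (.op ⦋p⦌)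
        (K.map (show ⦋p⦌ ⟶ m.unop from SimplexCategory.Hom.mk θ).op x), ofBool φ) := h1
    rw [NatTrans.naturality_apply, NatTrans.naturality_apply] at h2
    have h3 : ∀ s : (streetNerve.obj (GammaCat Z)).obj m,
        thetaFun (m := p) ((streetNerve.obj (GammaCat Z)).map
          (show ⦋p⦌ ⟶ m.unop from SimplexCategory.Hom.mk θ).op s, ofBool φ) =
        (unc (m := m.unop.len) s).comp (Cell.mapFun ((cylMap (simplexMap θ)).comp (aw φ))) := by
      intro s
      rw [thetaFun]
      dsimp only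
      have h4 := unc_map (m := m.unop.len) (m' := p)
        (show ⦋p⦌ ⟶ m.unop from SimplexCategory.Hom.mk θ) s
      have h4' : unc (m := p) ((streetNerve.obj (GammaCat Z)).map
        (show ⦋p⦌ ⟶ m.unop from SimplexCategory.Hom.mk θ).op s) =
        (unc (m := m.unop.len) s).comp (Cell.mapFun (cylMap (simplexMap θ))) := h4
      rw [h4', boolOfS_ofBool, Cell.mapFun_comp]
      rfl
    rw [h3, h3] at h2
    exact h2
  have h5 := congrArg Gamma.curry key
  rwa [curry_unc, curry_unc] at h5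

theorem map_src {Z : OmegaCat.{0}} :
    streetNerve.map (X := GammaCat Z) (Y := Z) Gamma.src = SSet.ι₀ ≫ thetaS Z := by
  ext m s
  change Gamma.src.comp (sOf (m := m.unop.len) s) = (unc (m := m.unop.len) s).comp
    (Cell.mapFun (aw (OrderHom.const _ false)))
  rw [aw_const_false, ← curry_unc, Gamma.src_curry]

theorem map_tgt {Z : OmegaCat.{0}} :
    streetNerve.map (X := GammaCat Z) (Y := Z) Gamma.tgt = SSet.ι₁ ≫ thetaS Z := by
  ext m s
  change Gamma.tgt.comp (sOf (m := m.unop.len) s) = (unc (m := m.unop.len) s).comp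
    (Cell.mapFun (aw (OrderHom.const _ true)))
  rw [aw_const_true, ← curry_unc, Gamma.tgt_curry]

theorem unc_triv {Z : OmegaCat.{0}} {m : ℕ}
    (F : OmegaFun (Cell (simplexCx (Fin (m + 1)))) Z.carrier) :
    unc (Z := Z) (m := m) ((Gamma.triv _).comp F) = F.comp (Cell.mapFun (cylProj _)) := by
  have h1 := Gamma.uncurry_curry (simplexSteiner (Fin (m + 1))) (F.comp (Cell.mapFun (cylProj _)))
  rw [Gamma.curry_proj] at h1
  exact h1

theorem triv_theta {X Z : OmegaCat.{0}} (f : X ⟶ Z) :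
    streetNerve.map (X := X) (Y := GammaCat Z) ((Gamma.triv _).comp f) ▷ Δ[1] ≫ thetaS Z =
      fst _ _ ≫ streetNerve.map f := by
  ext m p
  obtain ⟨s, β⟩ := p
  have key : ∀ F : OmegaFun (Cell (simplexCx (Fin (m.unop.len + 1)))) Z.carrier,
      (unc (Z := Z) (m := m.unop.len) ((Gamma.triv _).comp F)).comp
        (Cell.mapFun (aw (boolOfS (m := m.unop.len) β))) = F := by
    intro F
    rw [unc_triv, ← OmegaFun.comp_assoc', ← Cell.mapFun_comp, cylProj_comp_aw, Cell.mapFun_id]
    rfl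
  exact key (OmegaFun.comp f (sOf (m := m.unop.len) s))

/-! ### The prism part -/

/-- A finite nonempty chain in a partial order. -/
structure Ch (L : Type) [PartialOrder L] where
  s : Set L
  fin : s.Finite
  ne : s.Nonempty
  chain : ∀ x ∈ s, ∀ y ∈ s, x ≤ y ∨ y ≤ x

namespace Ch

variable {L : Type} [PartialOrder L] (C : Ch L)

/-- The elements of a chain. -/
def T : Type := {x : L // x ∈ C.s}

open Classical in
noncomputable instance : LinearOrder C.T where
  le x y := x.1 ≤ y.1
  le_refl x := le_refl x.1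
  le_trans x y z h h' := le_trans h h'
  le_antisymm x y h h' := Subtype.ext (le_antisymm h h')
  le_total x y := C.chain _ x.2 _ y.2
  toDecidableLE := Classical.decRel _

instance : Finite C.T := C.fin.to_subtype

instance : Nonempty C.T := C.ne.to_subtype

/-- The inclusion of a chain. -/
def incl : C.T →o L where
  toFun x := x.1
  monotone' _ _ h := h

/-- Corestriction of a monotone map to a chain. -/
def lift {I I' : Type} [Preorder I] [Preorder I'] (f : I' →o L) (x : I →o I')
    (hf : ∀ i, f (x i) ∈ C.s) : I →o C.T where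
  toFun i := ⟨f (x i), hf i⟩
  monotone' _ _ h := f.monotone (x.monotone h)

/-- Inclusion of chains. -/
def map {C C' : Ch L} (h : C.s ⊆ C'.s) : C.T →o C'.T where
  toFun x := ⟨x.1, h x.2⟩
  monotone' _ _ h := h

end Ch

section Prism

variable {L L' : Type} [PartialOrder L] [PartialOrder L'] (f₀ f₁ : L →o L') (h : f₀ ≤ f₁)
  (hc : ∀ l l' : L, l < l' → f₀ l = f₁ l ∨ f₁ l = f₁ l')
  {Z : OmegaCat.{0}} (g : nerve L' ⟶ streetNerve.obj Z)

/-- The chain of the values of `f₀` and `f₁` on a chain. -/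
def chainOf {m : ℕ} (x : Fin (m + 1) →o L) : Ch L' where
  s := Set.range (fun i => f₀ (x i)) ∪ Set.range (fun i => f₁ (x i))
  fin := (Set.finite_range _).union (Set.finite_range _)
  ne := ⟨f₀ (x 0), Or.inl ⟨0, rfl⟩⟩
  chain := by
    have aux : ∀ i j, i ≤ j → f₁ (x i) ≤ f₀ (x j) ∨ f₀ (x j) ≤ f₁ (x i) := by
      intro i j hij
      rcases (x.monotone hij).eq_or_lt with h1 | h1
      · right
        rw [h1]
        exact h _
      · rcases hc _ _ h1 with h2 | h2
        · left
          rw [← h2]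
          exact f₀.monotone h1.le
        · right
          rw [h2]
          exact h _
    have aux2 : ∀ i j, f₁ (x i) ≤ f₀ (x j) ∨ f₀ (x j) ≤ f₁ (x i) := by
      intro i j
      rcases le_total i j with hij | hij
      · exact aux i j hij
      · right
        exact (f₀.monotone (x.monotone hij)).trans (h _)
    rintro _ (⟨i, rfl⟩ | ⟨i, rfl⟩) _ (⟨j, rfl⟩ | ⟨j, rfl⟩)
    · rcases le_total i j with hij | hij
      · exact Or.inl (f₀.monotone (x.monotone hij))
      · exact Or.inr (f₀.monotone (x.monotone hij))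
    · exact (aux2 j i).symm
    · exact aux2 i j
    · rcases le_total i j with hij | hij
      · exact Or.inl (f₁.monotone (x.monotone hij))
      · exact Or.inr (f₁.monotone (x.monotone hij))

include h in
theorem lift_le {m : ℕ} (x : Fin (m + 1) →o L) (C : Ch L') (h₀ : ∀ i, f₀ (x i) ∈ C.s)
    (h₁ : ∀ i, f₁ (x i) ∈ C.s) (i : Fin (m + 1)) : C.lift f₀ x h₀ i ≤ C.lift f₁ x h₁ i := h (x i)

include hc in
theorem lift_hc {m : ℕ} (x : Fin (m + 1) →o L) (C : Ch L') (h₀ : ∀ i, f₀ (x i) ∈ C.s)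
    (h₁ : ∀ i, f₁ (x i) ∈ C.s) (i j : Fin (m + 1)) (hij : i < j) :
    C.lift f₀ x h₀ i = C.lift f₁ x h₁ i ∨ C.lift f₁ x h₁ i = C.lift f₁ x h₁ j := by
  rcases (x.monotone hij.le).eq_or_lt with h1 | h1
  · right
    apply Subtype.ext
    change f₁ (x i) = f₁ (x j)
    rw [h1]
  · rcases hc _ _ h1 with h2 | h2
    · left
      exact Subtype.ext h2
    · right
      exact Subtype.ext h2

/-- The prism on a simplex, computed in a chain containing the images. -/
noncomputable def kC {m : ℕ} (x : Fin (m + 1) →o L) (C : Ch L') (h₀ : ∀ i, f₀ (x i) ∈ C.s)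
    (h₁ : ∀ i, f₁ (x i) ∈ C.s) : OmegaFun (Cell (simplexCx (Fin (m + 1))).cyl) Z.carrier :=
  (evJ g C.incl).comp (Cell.mapFun (prism (C.lift f₀ x h₀) (C.lift f₁ x h₁)
    (lift_le f₀ f₁ h x C h₀ h₁) (lift_hc f₀ f₁ hc x C h₀ h₁)))

theorem kC_mono {m : ℕ} (x : Fin (m + 1) →o L) (C C' : Ch L') (hC : C.s ⊆ C'.s)
    (h₀ : ∀ i, f₀ (x i) ∈ C.s) (h₁ : ∀ i, f₁ (x i) ∈ C.s) :
    kC f₀ f₁ h hc g x C h₀ h₁ =
      kC f₀ f₁ h hc g x C' (fun i => hC (h₀ i)) (fun i => hC (h₁ i)) := by
  have h1 : C.incl = C'.incl.comp (Ch.map hC) := rfl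
  rw [kC, kC, h1, evJ_comp, ← OmegaFun.comp_assoc', ← Cell.mapFun_comp,
    simplexMap_comp_prism _ _ _ _ _ (lift_le f₀ f₁ h x C' _ _) (lift_hc f₀ f₁ hc x C' _ _)]
  rfl

theorem kC_comp {m m' : ℕ} (x : Fin (m + 1) →o L) (θ : Fin (m' + 1) →o Fin (m + 1))
    (C : Ch L') (h₀ : ∀ i, f₀ (x i) ∈ C.s) (h₁ : ∀ i, f₁ (x i) ∈ C.s) :
    (kC f₀ f₁ h hc g x C h₀ h₁).comp (Cell.mapFun (cylMap (simplexMap θ))) =
      kC f₀ f₁ h hc g (x.comp θ) C (fun i => h₀ (θ i)) (fun i => h₁ (θ i)) := by
  rw [kC, ← OmegaFun.comp_assoc', ← Cell.mapFun_comp, prism_comp_cylMap _ _ _ _ _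
    (lift_le f₀ f₁ h (x.comp θ) C _ _) (lift_hc f₀ f₁ hc (x.comp θ) C _ _)]
  rfl

theorem chainOf_mem₀ {m : ℕ} (x : Fin (m + 1) →o L) (i : Fin (m + 1)) :
    f₀ (x i) ∈ (chainOf f₀ f₁ h hc x).s := Or.inl ⟨i, rfl⟩

theorem chainOf_mem₁ {m : ℕ} (x : Fin (m + 1) →o L) (i : Fin (m + 1)) :
    f₁ (x i) ∈ (chainOf f₀ f₁ h hc x).s := Or.inr ⟨i, rfl⟩

theorem chainOf_comp {m m' : ℕ} (x : Fin (m + 1) →o L) (θ : Fin (m' + 1) →o Fin (m + 1)) :
    (chainOf f₀ f₁ h hc (x.comp θ)).s ⊆ (chainOf f₀ f₁ h hc x).s := by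
  rintro _ (⟨i, rfl⟩ | ⟨i, rfl⟩)
  · exact Or.inl ⟨θ i, rfl⟩
  · exact Or.inr ⟨θ i, rfl⟩

/-- The prism on a simplex. -/
noncomputable def kS {m : ℕ} (x : Fin (m + 1) →o L) :
    OmegaFun (Cell (simplexCx (Fin (m + 1))).cyl) Z.carrier :=
  kC f₀ f₁ h hc g x (chainOf f₀ f₁ h hc x) (chainOf_mem₀ f₀ f₁ h hc x)
    (chainOf_mem₁ f₀ f₁ h hc x)

theorem kS_comp {m m' : ℕ} (x : Fin (m + 1) →o L) (θ : Fin (m' + 1) →o Fin (m + 1)) :
    kS f₀ f₁ h hc g (x.comp θ) =
      (kS f₀ f₁ h hc g x).comp (Cell.mapFun (cylMap (simplexMap θ))) := by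
  rw [kS, kS, kC_comp]
  exact kC_mono f₀ f₁ h hc g (x.comp θ) _ _ (chainOf_comp f₀ f₁ h hc x θ) _ _

/-- the monotone map `f₀` on `φ = false` and `f₁` on `φ = true` -/
def mixP {I J : Type} [Preorder I] [Preorder J] (f₀ f₁ : I →o J) (h : f₀ ≤ f₁)
    (φ : I →o Bool) : I →o J where
  toFun i := if φ i = false then f₀ i else f₁ i
  monotone' := by
    intro i j hij
    have hφ := φ.monotone hij
    dsimp only
    split_ifs with hi hj hj
    · exact f₀.monotone hij
    · exact (f₀.monotone hij).trans (h _)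
    · rw [hj] at hφ
      simp only [Bool.not_eq_false] at hi
      rw [hi] at hφ
      exact absurd hφ (by decide)
    · exact f₁.monotone hij

theorem kS_aw {m : ℕ} (x : Fin (m + 1) →o L) (φ : Fin (m + 1) →o Bool) :
    (kS f₀ f₁ h hc g x).comp (Cell.mapFun (aw φ)) =
      ev g (mixP (f₀.comp x) (f₁.comp x) (fun i => h (x i)) φ) := by
  rw [kS, kC, ← OmegaFun.comp_assoc', ← Cell.mapFun_comp, prism_comp_aw, ← evJ_comp, evJ_eq_ev]
  congr 1
  ext i
  change ((if φ i = false then _ else _ : (chainOf f₀ f₁ h hc x).T)).1 =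
    (if φ i = false then _ else _)
  split_ifs <;> rfl

end Prism

section Final

variable {L L' : Type} [PartialOrder L] [PartialOrder L']

/-- The monotone map underlying a simplex of the nerve of a partial order. -/
def toHom {m : ℕ} (x : (nerve L).obj (.op ⦋m⦌)) : Fin (m + 1) →o L where
  toFun i := x.obj i
  monotone' _ _ h := leOfHom (x.map (homOfLE h))

theorem toHom_functor {m : ℕ} (x : (nerve L).obj (.op ⦋m⦌)) : (toHom x).monotone.functor = x :=
  rfl

theorem prism_theta (f₀ f₁ : L →o L') (h : f₀ ≤ f₁)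
    (hc : ∀ l l' : L, l < l' → f₀ l = f₁ l ∨ f₁ l = f₁ l')
    {Z : OmegaCat.{0}} (g : nerve L' ⟶ streetNerve.obj Z) :
    ∃ k : nerve L ⟶ streetNerve.obj (GammaCat Z),
      k ▷ Δ[1] ≫ thetaS Z = nvHomotopy f₀ f₁ h ≫ g := by
  refine ⟨{ app := fun m => ↾fun x => Gamma.curry (kS f₀ f₁ h hc g (toHom (m := m.unop.len) x))
            naturality := ?_ }, ?_⟩
  · intro m m' θ
    ext x
    have h1 : toHom (m := m'.unop.len) ((nerve L).map θ x) =
      (toHom (m := m.unop.len) x).comp θ.unop.toOrderHom := rfl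
    change Gamma.curry (kS f₀ f₁ h hc g (toHom (m := m'.unop.len) ((nerve L).map θ x))) =
      (Gamma.curry (kS f₀ f₁ h hc g (toHom (m := m.unop.len) x))).comp
        (Cell.mapFun (simplexMap θ.unop.toOrderHom))
    rw [h1, kS_comp, Gamma.curry_comp]
  · ext m p
    obtain ⟨x, β⟩ := p
    change (unc (m := m.unop.len) (Gamma.curry (kS f₀ f₁ h hc g (toHom (m := m.unop.len) x)))).comp
      (Cell.mapFun (aw (boolOfS (m := m.unop.len) β))) =
      g.app m ((nvHomotopy f₀ f₁ h).app m (x, β))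
    have h2 : unc (Z := Z) (m := m.unop.len)
        (Gamma.curry (kS f₀ f₁ h hc g (toHom (m := m.unop.len) x))) =
        kS f₀ f₁ h hc g (toHom (m := m.unop.len) x) := Gamma.uncurry_curry _ _
    rw [h2, kS_aw]
    change g.app m _ = _
    congr 1
    apply nerve.ext_of_isThin
    funext i
    change (if decide ((SSet.stdSimplex.objEquiv β) i ≠ 0) = false then f₀ (x.obj i)
      else f₁ (x.obj i)) = if (SSet.stdSimplex.objEquiv β) i = 0 then f₀ (x.obj i)
      else f₁ (x.obj i)
    simp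

/-- The field `cyl` of `ModelAxioms` for the Street nerve of strict `n`-categories. -/
theorem cylAxiom (n : ℕ∞) (Z : NCat.{0} n) :
    ∃ (G : NCat.{0} n) (θ : (nerveN n).obj G ⊗ Δ[1] ⟶ (nerveN n).obj Z) (e₀ e₁ : G ⟶ Z),
    (∀ {K : SSet.{0}} (k k' : K ⟶ (nerveN n).obj G),
      k ▷ Δ[1] ≫ θ = k' ▷ Δ[1] ≫ θ → k = k') ∧
    (nerveN n).map e₀ = SSet.ι₀ ≫ θ ∧ (nerveN n).map e₁ = SSet.ι₁ ≫ θ ∧
    (∀ {X : NCat.{0} n} (f : X ⟶ Z), ∃ k : X ⟶ G, k ≫ e₀ = f ∧ k ≫ e₁ = f ∧
      (nerveN n).map k ▷ Δ[1] ≫ θ = fst _ _ ≫ (nerveN n).map f) ∧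
    (∀ {L L' : Type} [PartialOrder L] [PartialOrder L'] [Finite L] [Finite L']
      (f₀ f₁ : L →o L') (h : f₀ ≤ f₁)
      (_ : ∀ l l' : L, l < l' → f₀ l = f₁ l ∨ f₁ l = f₁ l') (g : nerve L' ⟶ (nerveN n).obj Z),
      ∃ k : nerve L ⟶ (nerveN n).obj G, k ▷ Δ[1] ≫ θ = nvHomotopy f₀ f₁ h ≫ g) := by
  refine ⟨⟨GammaCat Z.obj, Gamma.isN Z.property⟩, thetaS Z.obj,
    ObjectProperty.homMk Gamma.src, ObjectProperty.homMk Gamma.tgt, ?_, ?_, ?_, ?_, ?_⟩
  · intro K k k' hk
    exact thetaS_inj k k' hk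
  · exact map_src
  · exact map_tgt
  · intro X f
    refine ⟨ObjectProperty.homMk ((Gamma.triv _).comp f.hom), ?_, ?_, ?_⟩
    · apply ObjectProperty.hom_ext
      change (Gamma.src.comp (Gamma.triv _)).comp f.hom = f.hom
      rw [Gamma.src_triv]
      rfl
    · apply ObjectProperty.hom_ext
      change (Gamma.tgt.comp (Gamma.triv _)).comp f.hom = f.hom
      rw [Gamma.tgt_triv]
      rfl
    · exact triv_theta f.hom
  · intro L L' _ _ _ _ f₀ f₁ h hc g
    exact prism_theta f₀ f₁ h hc g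

end Final

end Vale.Agent.P213
end
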