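import Mathlib.CategoryTheory.Limits.Types.Pushouts
import Mathlib.CategoryTheory.Limits.Types.Pullbacks
import Mathlib.AlgebraicTopology.ModelCategory.Transport
import Vale.Agent.P213.Bdl.B13
import Vale.Agent.P213.Bdl.B12
import Vale.Agent.P213.Bdl.B6
import Vale.Agent.P213.Bdl.B11
import Vale.Agent.P213.Bdl.B10
import Vale.Agent.P213.Bdl.B1
import Vale.Agent.P213.Bdl.B9
import Vale.Agent.P213.SX.Defs

set_option linter.all false

section

/-!
Helper lemmas for part CA: pushouts of simplicial sets from pullbacks of monomorphisms,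
nerves of posets and lower sets, transport of the fibre lemmas to order embeddings.
-/

open CategoryTheory HomotopicalAlgebra Simplicial MonoidalCategory Limits MorphismProperty
open Opposite

universe v u

namespace Vale.Agent.P213.CAPoset

section SSetLemmas

/-- a pullback square of monomorphisms which are jointly surjective is a pushout -/
lemma isPushout_of_cover {A B C P : SSet.{u}} {t : A ⟶ B} {l : A ⟶ C} {r : B ⟶ P} {b : C ⟶ P}
    (h : IsPullback t l r b) [Mono r] [Mono b]
    (hs : ∀ (n : SimplexCategoryᵒᵖ) (y : P.obj n), (∃ x, r.app n x = y) ∨ (∃ x, b.app n x = y)) :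
    IsPushout t l r b where
  w := h.w
  isColimit' := ⟨evaluationJointlyReflectsColimits _ (fun n ↦ by
    refine (isColimitMapCoconePushoutCoconeEquiv _ _).2 (IsPushout.isColimit ?_)
    refine Types.isPushout_of_isPullback_of_mono' (h.map ((evaluation _ _).obj n)) ?_ ?_
    · ext y
      simp only [Set.sup_eq_union, Set.mem_union, Set.mem_range, Set.mem_univ, iff_true]
      exact hs n y
    · intro x₃ y₃ _ _ e
      have : Mono (b.app n) := inferInstance
      exact (mono_iff_injective _).1 this e)⟩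

/-- construct a pullback square of simplicial sets from elements -/
lemma isPullback_of_elements {A B C P : SSet.{u}} {t : A ⟶ B} {l : A ⟶ C} {r : B ⟶ P} {b : C ⟶ P}
    (w : t ≫ r = l ≫ b)
    (h₁ : ∀ (n : SimplexCategoryᵒᵖ) (x y : A.obj n), t.app n x = t.app n y →
      l.app n x = l.app n y → x = y)
    (h₂ : ∀ (n : SimplexCategoryᵒᵖ) (x : B.obj n) (y : C.obj n), r.app n x = b.app n y →
      ∃ z, t.app n z = x ∧ l.app n z = y) :
    IsPullback t l r b where
  w := w
  isLimit' := ⟨evaluationJointlyReflectsLimits _ (fun n ↦ by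
    refine (isLimitMapConePullbackConeEquiv _ _).2 (IsPullback.isLimit ?_)
    rw [Types.isPullback_iff]
    refine ⟨?_, ?_, ?_⟩
    · rw [← Functor.map_comp, ← Functor.map_comp, w]
    · rintro x y ⟨e₁, e₂⟩
      exact h₁ n x y e₁ e₂
    · intro x y e
      exact h₂ n x y e)⟩

lemma mono_of_injective_app {A B : SSet.{u}} (f : A ⟶ B)
    (h : ∀ (n : SimplexCategoryᵒᵖ) (x y : A.obj n), f.app n x = f.app n y → x = y) : Mono f := by
  have : ∀ n, Mono (f.app n) := fun n => (mono_iff_injective _).2 (fun x y e => h n x y e)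
  exact NatTrans.mono_of_mono_app f

lemma injective_app {A B : SSet.{u}} (f : A ⟶ B) [Mono f] {n : SimplexCategoryᵒᵖ} {x y : A.obj n}
    (e : f.app n x = f.app n y) : x = y := by
  have : Mono (f.app n) := inferInstance
  exact (mono_iff_injective _).1 this e

end SSetLemmas

section NerveLemmas

variable {A B E I : Type u} [PartialOrder A] [PartialOrder B] [PartialOrder E] [PartialOrder I]

lemma nvMap_comp (f : A →o B) (g : B →o E) : nvMap f ≫ nvMap g = nvMap (g.comp f) := rfl

lemma nvMap_id : nvMap (OrderHom.id : A →o A) = 𝟙 _ := rfl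

lemma nv_ext {n : SimplexCategoryᵒᵖ} {x y : (nerve E).obj n} (h : ∀ i, x.obj i = y.obj i) :
    x = y :=
  CategoryTheory.Functor.ext h (fun _ _ _ => Subsingleton.elim _ _)

lemma nvMap_app_obj (f : A →o B) {n : SimplexCategoryᵒᵖ} (x : (nerve A).obj n)
    (i : Fin (n.unop.len + 1)) : ((nvMap f).app n x).obj i = f (x.obj i) := rfl

lemma nv_le {n : SimplexCategoryᵒᵖ} (x : (nerve E).obj n) {i j : Fin (n.unop.len + 1)}
    (h : i ≤ j) : x.obj i ≤ x.obj j := leOfHom (x.map (homOfLE h))

lemma mono_nvMap (f : A ↪o B) : Mono (nvMap f.toOrderHom) := by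
  refine mono_of_injective_app _ (fun n x y e => nv_ext fun i => ?_)
  apply f.injective
  exact congr_arg (fun z : (nerve B).obj n => z.obj i) e

lemma nv_lift (f : A ↪o E) {n : SimplexCategoryᵒᵖ} (x : (nerve E).obj n)
    (h : ∀ i, ∃ a, f a = x.obj i) : ∃ y, (nvMap f.toOrderHom).app n y = x := by
  choose g hg using h
  refine ⟨Monotone.functor (f := g) (fun i j hij => ?_), nv_ext fun i => ?_⟩
  · rw [← f.le_iff_le, hg, hg]
    exact nv_le x hij
  · exact hg i

lemma isPushout_nerve (f : A ↪o E) (g : B ↪o E) (i₁ : I ↪o A) (i₂ : I ↪o B)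
    (h : ∀ i, f (i₁ i) = g (i₂ i)) (hpb : ∀ a b, f a = g b → ∃ i, i₁ i = a ∧ i₂ i = b)
    (hf : IsLowerSet (Set.range f)) (hg : IsLowerSet (Set.range g))
    (hc : ∀ e, e ∈ Set.range f ∨ e ∈ Set.range g) :
    IsPushout (nvMap i₁.toOrderHom) (nvMap i₂.toOrderHom) (nvMap f.toOrderHom)
      (nvMap g.toOrderHom) := by
  have := mono_nvMap f
  have := mono_nvMap g
  have := mono_nvMap i₁
  refine isPushout_of_cover (isPullback_of_elements ?_ ?_ ?_) ?_
  · rw [nvMap_comp, nvMap_comp]
    congr 1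
    ext i
    exact h i
  · intro n x y e _
    exact injective_app _ e
  · intro n x y e
    have hxy : ∀ i, ∃ k, i₁ k = x.obj i ∧ i₂ k = y.obj i := by
      intro i
      apply hpb
      exact congr_arg (fun z : (nerve E).obj n => z.obj i) e
    obtain ⟨z, hz⟩ := nv_lift i₁ x (fun i => ⟨_, (hxy i).choose_spec.1⟩)
    refine ⟨z, hz, nv_ext fun i => ?_⟩
    apply g.injective
    have e1 : i₁ (z.obj i) = x.obj i := congr_arg (fun w : (nerve A).obj n => w.obj i) hz
    have e2 : f (x.obj i) = g (y.obj i) := congr_arg (fun w : (nerve E).obj n => w.obj i) e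
    calc g (((nvMap i₂.toOrderHom).app n z).obj i) = g (i₂ (z.obj i)) := rfl
      _ = f (i₁ (z.obj i)) := (h _).symm
      _ = g (y.obj i) := by rw [e1, e2]
  · intro n y
    rcases hc (y.obj (Fin.last _)) with hl | hl
    · left
      exact nv_lift f y (fun i => hf (nv_le y (Fin.le_last i)) hl)
    · right
      exact nv_lift g y (fun i => hg (nv_le y (Fin.le_last i)) hl)

/-- isomorphism of nerves attached to an order isomorphism -/
def nvIso (e : A ≃o B) : nerve A ≅ nerve B where
  hom := nvMap e.toOrderEmbedding.toOrderHom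
  inv := nvMap e.symm.toOrderEmbedding.toOrderHom
  hom_inv_id := by
    rw [nvMap_comp, ← nvMap_id]
    congr 1
    ext x
    exact e.symm_apply_apply x
  inv_hom_id := by
    rw [nvMap_comp, ← nvMap_id]
    congr 1
    ext x
    exact e.apply_symm_apply x

/-- order isomorphism onto the range of an order embedding -/
noncomputable def rangeIso (f : A ↪o E) : A ≃o Set.range f := f.orderIso

end NerveLemmas

section Delta1

/-- the `i`-th vertex of a simplex -/
def vtx {Z : SSet.{u}} {n : SimplexCategoryᵒᵖ} (y : Z.obj n) (i : Fin (n.unop.len + 1)) :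
    Z.obj (op ⦋0⦌) := Z.map (SimplexCategory.const ⦋0⦌ n.unop i).op y

lemma vtx_app {Z Z' : SSet.{u}} (f : Z ⟶ Z') {n : SimplexCategoryᵒᵖ} (y : Z.obj n)
    (i : Fin (n.unop.len + 1)) : vtx (f.app n y) i = f.app _ (vtx y i) := by
  unfold vtx
  exact (congr_arg (fun g => g y) (congr_arg (fun h => (ConcreteCategory.hom h))
    (f.naturality (SimplexCategory.const ⦋0⦌ n.unop i).op))).symm

/-- the coordinates of a simplex of `Δ[1]` -/
def coord {n : SimplexCategoryᵒᵖ} (s : (Δ[1] : SSet.{u}).obj n) (i : Fin (n.unop.len + 1)) :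
    Fin 2 := (SSet.stdSimplex.objEquiv s) i

lemma coord_ext {n : SimplexCategoryᵒᵖ} {s t : (Δ[1] : SSet.{u}).obj n}
    (h : ∀ i, coord s i = coord t i) : s = t := by
  apply SSet.stdSimplex.objEquiv.injective
  apply SimplexCategory.Hom.ext
  ext i : 2
  exact h i

lemma coord_mono {n : SimplexCategoryᵒᵖ} (s : (Δ[1] : SSet.{u}).obj n)
    {i j : Fin (n.unop.len + 1)} (h : i ≤ j) : coord s i ≤ coord s j :=
  (SSet.stdSimplex.objEquiv s).toOrderHom.monotone h

lemma coord_vtx {n : SimplexCategoryᵒᵖ} (s : (Δ[1] : SSet.{u}).obj n)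
    (i : Fin (n.unop.len + 1)) : coord (vtx s i) 0 = coord s i := rfl

lemma coord_app {Z : SSet.{u}} (π : Z ⟶ Δ[1]) {n : SimplexCategoryᵒᵖ} (y : Z.obj n)
    (i : Fin (n.unop.len + 1)) : coord (π.app n y) i = coord (π.app _ (vtx y i)) 0 := by
  rw [← vtx_app, coord_vtx]

lemma eq_of_vertices {Z : SSet.{u}} {π π' : Z ⟶ Δ[1]}
    (h : ∀ y : Z.obj (op ⦋0⦌), π.app _ y = π'.app _ y) : π = π' := by
  ext n y
  apply coord_ext
  intro i
  exact (coord_app π y i).trans ((congr_arg (fun s => coord s 0) (h _)).trans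
    (coord_app π' y i).symm)

lemma coord_const {Z : SSet.{u}} {n : SimplexCategoryᵒᵖ} (y : Z.obj n) (ε : Fin 2)
    (i : Fin (n.unop.len + 1)) :
    coord ((constDelta1 Z ε).app n y) i = ε := rfl

lemma coord_delta_one {n : SimplexCategoryᵒᵖ} (z : (Δ[0] : SSet.{u}).obj n)
    (i : Fin (n.unop.len + 1)) :
    coord ((SSet.stdSimplex.δ (1 : Fin 2) : Δ[0] ⟶ Δ[1]).app n z) i = 0 := by
  rw [SSet.stdSimplex.δ_one_eq_const]
  rfl

/-- the range of the fibre over `0` -/
lemma range_iff_of_isPullback {Z Z' : SSet.{u}} {κ : Z' ⟶ Z} {t : Z' ⟶ Δ[0]} {π : Z ⟶ Δ[1]}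
    (h : IsPullback κ t π (SSet.stdSimplex.δ (1 : Fin 2) : Δ[0] ⟶ Δ[1]))
    {n : SimplexCategoryᵒᵖ} (y : Z.obj n) :
    (∃ x, κ.app n x = y) ↔ coord (π.app n y) (Fin.last _) = 0 := by
  constructor
  · rintro ⟨x, rfl⟩
    have e : π.app n (κ.app n x) =
        (SSet.stdSimplex.δ (1 : Fin 2) : Δ[0] ⟶ Δ[1]).app n (t.app n x) :=
      ConcreteCategory.congr_hom (congr_app h.w n) x
    rw [e]
    exact coord_delta_one _ _
  · intro h0
    obtain ⟨x, hx, -⟩ := Types.exists_of_isPullback (h.map ((evaluation _ _).obj n)) y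
      (SSet.stdSimplex.objEquiv.symm (SimplexCategory.const _ ⦋0⦌ 0)) (by
        apply coord_ext
        intro i
        refine Eq.trans ?_ (coord_delta_one _ _).symm
        have h1 := coord_mono (π.app n y) (Fin.le_last i)
        rw [h0] at h1
        exact Fin.le_zero_iff.1 h1)
    exact ⟨x, hx⟩

end Delta1

section Transport

variable {D : Type (u + 1)} [Category.{v} D] {c : SSet.{u} ⥤ D} {N : D ⥤ SSet.{u}}
  {adj : c ⊣ N}
variable {A B E : Type u} [PartialOrder A] [PartialOrder B] [PartialOrder E]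

/-- transport of a pushout square along order isomorphisms -/
lemma isPushout_transport {A' B' : Type u} [PartialOrder A'] [PartialOrder B']
    (eA : A ≃o A') (eB : B ≃o B') (f : A →o B) (f' : A' →o B')
    (hff' : ∀ x, f' (eA x) = eB (f x))
    {X Y : D} {a : c.obj (nerve A) ⟶ X} {b : c.obj (nerve B) ⟶ Y} {j : X ⟶ Y}
    (sq : IsPushout (c.map (nvMap f)) a b j) :
    IsPushout (c.map (nvMap f')) (c.map (nvIso eA).inv ≫ a) (c.map (nvIso eB).inv ≫ b) j := by
  refine sq.of_iso (c.mapIso (nvIso eA)) (c.mapIso (nvIso eB)) (Iso.refl _) (Iso.refl _) ?_ ?_ ?_ ?_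
  · rw [Functor.mapIso_hom, Functor.mapIso_hom, ← c.map_comp, ← c.map_comp]
    congr 1
    change nvMap (eB.toOrderEmbedding.toOrderHom.comp f) =
      nvMap (f'.comp eA.toOrderEmbedding.toOrderHom)
    congr 1
    ext x
    exact (hff' x).symm
  · rw [Iso.refl_hom, Category.comp_id, Functor.mapIso_hom, ← Category.assoc, ← c.map_comp,
      Iso.hom_inv_id, c.map_id, Category.id_comp]
  · rw [Iso.refl_hom, Category.comp_id, Functor.mapIso_hom, ← Category.assoc, ← c.map_comp,
      Iso.hom_inv_id, c.map_id, Category.id_comp]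
  · simp

/-- transport of a pushout square along an order isomorphism of the source -/
lemma isPushout_transport_left {A' : Type u} [PartialOrder A']
    (eA : A ≃o A') (f : A →o B) (f' : A' →o B)
    (hff' : ∀ x, f' (eA x) = f x)
    {X Y : D} {a : c.obj (nerve A) ⟶ X} {b : c.obj (nerve B) ⟶ Y} {j : X ⟶ Y}
    (sq : IsPushout (c.map (nvMap f)) a b j) :
    IsPushout (c.map (nvMap f')) (c.map (nvIso eA).inv ≫ a) b j := by
  refine sq.of_iso (c.mapIso (nvIso eA)) (Iso.refl _) (Iso.refl _) (Iso.refl _) ?_ ?_ ?_ ?_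
  · rw [Iso.refl_hom, Category.comp_id, Functor.mapIso_hom, ← c.map_comp]
    congr 1
    change nvMap f = nvMap (f'.comp eA.toOrderEmbedding.toOrderHom)
    congr 1
    ext x
    exact (hff' x).symm
  · rw [Iso.refl_hom, Category.comp_id, Functor.mapIso_hom, ← Category.assoc, ← c.map_comp,
      Iso.hom_inv_id, c.map_id, Category.id_comp]
  · simp
  · simp

/-- `fiber_lower` for order embeddings. -/
lemma fiber_lower_emb [HasPullbacks D] (hA : ModelAxioms adj)
    (f : A ↪o B) (g : B ↪o E) (hg : IsLowerSet (Set.range g))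
    {X Y : D} {a : c.obj (nerve A) ⟶ X} {b : c.obj (nerve E) ⟶ Y} {j : X ⟶ Y}
    {h : A →o E} (hfg : ∀ x, g (f x) = h x)
    (sq : IsPushout (c.map (nvMap h)) a b j) {Y' : D}
    {b' : c.obj (nerve B) ⟶ Y'} {j' : X ⟶ Y'}
    (sq' : IsPushout (c.map (nvMap f.toOrderHom)) a b' j')
    (k : Y' ⟶ Y) (hk₁ : b' ≫ k = c.map (nvMap g.toOrderHom) ≫ b) (hk₂ : j' ≫ k = j) :
    ∃ π : N.obj Y ⟶ Δ[1],
      adj.homEquiv _ _ b ≫ π = toDelta1 (Set.range g) hg ∧ N.map j ≫ π = constDelta1 _ 0 ∧
      IsPullback (N.map k) (SSet.const (SSet.stdSimplex.obj₀Equiv.symm 0)) π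
        (SSet.stdSimplex.δ (1 : Fin 2) : Δ[0] ⟶ Δ[1]) := by
  let fg : A ↪o E := RelEmbedding.trans f g
  have hST : Set.range fg ⊆ Set.range g := by
    rintro _ ⟨x, rfl⟩
    exact ⟨f x, rfl⟩
  have sq1 := isPushout_transport_left fg.orderIso h
    (subIncl (Set.range fg)) (fun x => hfg x) sq
  have sq2 := isPushout_transport fg.orderIso g.orderIso f.toOrderHom
    (subIncl₂ hST) (fun x => rfl) sq'
  refine fiber_lower hA hg hST sq1 sq2 k ?_ hk₂
  rw [Category.assoc, hk₁, ← Category.assoc, ← c.map_comp]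
  congr 2
  change nvMap (g.toOrderHom.comp g.orderIso.symm.toOrderEmbedding.toOrderHom) =
    nvMap (subIncl (Set.range g))
  congr 1
  ext x
  exact congr_arg Subtype.val (g.orderIso.apply_symm_apply x)

/-- `whe_of_top` for order embeddings. -/
lemma whe_of_top_emb [HasPullbacks D] (hA : ModelAxioms adj) [Finite B]
    (f : A ↪o B) (hf : IsLowerSet (Set.range f)) (v : B) (r : A) (hv : ∀ l, l ≤ v)
    (hvS : v ∉ Set.range f) (hr : ∀ s, s ≤ r)
    {X Y : D} {a : c.obj (nerve A) ⟶ X} {b : c.obj (nerve B) ⟶ Y} {j : X ⟶ Y}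
    (sq : IsPushout (c.map (nvMap f.toOrderHom)) a b j) : whe (N.map j) := by
  have sq1 := isPushout_transport_left f.orderIso f.toOrderHom
    (subIncl (Set.range f)) (fun x => rfl) sq
  refine whe_of_top hA (Set.range f) hf v (f r) hv hvS ⟨r, rfl⟩ ?_ sq1
  rintro _ ⟨s, rfl⟩
  exact f.monotone (hr s)

lemma vert_cover_emb [HasPullbacks D] (hA : ModelAxioms adj) [Finite B]
    (f : A ↪o B) (hf : IsLowerSet (Set.range f))
    {X Y : D} {a : c.obj (nerve A) ⟶ X} {b : c.obj (nerve B) ⟶ Y} {j : X ⟶ Y}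
    (sq : IsPushout (c.map (nvMap f.toOrderHom)) a b j) (y : (N.obj Y) _⦋0⦌) :
    (∃ x : (N.obj X) _⦋0⦌, (N.map j).app _ x = y) ∨
      (∃ e : (nerve B) _⦋0⦌, (adj.homEquiv _ _ b).app _ e = y) := by
  have sq1 := isPushout_transport_left f.orderIso f.toOrderHom
    (subIncl (Set.range f)) (fun x => rfl) sq
  exact CAExt.vert_cover hA hf sq1 y

lemma pi_ext_emb [HasPullbacks D] (hA : ModelAxioms adj) [Finite B]
    (f : A ↪o B) (hf : IsLowerSet (Set.range f))
    {X Y : D} {a : c.obj (nerve A) ⟶ X} {b : c.obj (nerve B) ⟶ Y} {j : X ⟶ Y}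
    (sq : IsPushout (c.map (nvMap f.toOrderHom)) a b j) {m : ℕ} {π π' : N.obj Y ⟶ Δ[m]}
    (h₁ : adj.homEquiv _ _ b ≫ π = adj.homEquiv _ _ b ≫ π')
    (h₂ : N.map j ≫ π = N.map j ≫ π') : π = π' := by
  have sq1 := isPushout_transport_left f.orderIso f.toOrderHom
    (subIncl (Set.range f)) (fun x => rfl) sq
  exact CAExt.pi_ext hA hf sq1 h₁ h₂

lemma coord_toDelta1 {T : Set E} (hT : IsLowerSet T) {n : SimplexCategoryᵒᵖ}
    (x : (nerve E).obj n) (i : Fin (n.unop.len + 1)) :
    coord ((toDelta1 T hT).app n x) i = 0 ↔ x.obj i ∈ T := by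
  induction n using Opposite.rec with
  | op n =>
    induction n using SimplexCategory.rec with
    | mk m => exact toDelta1_apply T hT x i

end Transport

end Vale.Agent.P213.CAPoset
end

section

/-!
CA3: unions of sub-pushouts over lower sets.
-/

open CategoryTheory HomotopicalAlgebra Simplicial MonoidalCategory Limits MorphismProperty
open Opposite

universe v u

namespace Vale.Agent.P213

open CAPoset

variable {D : Type (u + 1)} [Category.{v} D] {c : SSet.{u} ⥤ D} {N : D ⥤ SSet.{u}}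
  {adj : c ⊣ N}

lemma fin2_ext {x y : Fin 2} (h : x = 0 ↔ y = 0) : x = y := by
  fin_cases x <;> fin_cases y <;> simp_all

/-- Key geometric fact: `N (X ∪ cN(W))` is the union of the nerves of the sub-pushouts attached
to two lower sets `B`, `C` covering `W`, with intersection the one attached to `I = B ∩ C`. -/
lemma isPushout_union [HasPullbacks D] (hA : ModelAxioms adj)
    {A B C I W : Type u} [PartialOrder A] [PartialOrder B] [PartialOrder C] [PartialOrder I]
    [PartialOrder W] [Finite W] (f : A ↪o W) (hf : IsLowerSet (Set.range f))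
    (fB : A ↪o B) (gB : B ↪o W) (hB : ∀ x, gB (fB x) = f x) (lB : IsLowerSet (Set.range gB))
    (fC : A ↪o C) (gC : C ↪o W) (hC : ∀ x, gC (fC x) = f x) (lC : IsLowerSet (Set.range gC))
    (fI : A ↪o I) (iB : I ↪o B) (iC : I ↪o C)
    (hIC : ∀ x, iC (fI x) = fC x) (hI : ∀ x, gB (iB x) = gC (iC x))
    (hpb : ∀ x y, gB x = gC y → ∃ i, iB i = x ∧ iC i = y)
    (hcov : ∀ w, w ∈ Set.range gB ∨ w ∈ Set.range gC)
    {X Y YB YC YI : D} {a : c.obj (nerve A) ⟶ X}
    {b : c.obj (nerve W) ⟶ Y} {j : X ⟶ Y} (sq : IsPushout (c.map (nvMap f.toOrderHom)) a b j)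
    {bB : c.obj (nerve B) ⟶ YB} {jB : X ⟶ YB}
    (sqB : IsPushout (c.map (nvMap fB.toOrderHom)) a bB jB)
    {bC : c.obj (nerve C) ⟶ YC} {jC : X ⟶ YC}
    (sqC : IsPushout (c.map (nvMap fC.toOrderHom)) a bC jC)
    {bI : c.obj (nerve I) ⟶ YI} {jI : X ⟶ YI}
    (sqI : IsPushout (c.map (nvMap fI.toOrderHom)) a bI jI)
    (kB : YB ⟶ Y) (hkB₁ : bB ≫ kB = c.map (nvMap gB.toOrderHom) ≫ b) (hkB₂ : jB ≫ kB = j)
    (kC : YC ⟶ Y) (hkC₁ : bC ≫ kC = c.map (nvMap gC.toOrderHom) ≫ b) (hkC₂ : jC ≫ kC = j)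
    (uB : YI ⟶ YB) (huB₁ : bI ≫ uB = c.map (nvMap iB.toOrderHom) ≫ bB) (huB₂ : jI ≫ uB = jB)
    (uC : YI ⟶ YC) (huC₁ : bI ≫ uC = c.map (nvMap iC.toOrderHom) ≫ bC) (huC₂ : jI ≫ uC = jC) :
    IsPushout (N.map uB) (N.map uC) (N.map kB) (N.map kC) ∧ Mono (N.map kB) ∧ Mono (N.map kC) ∧
      Mono (N.map uC) := by
  have : Finite C := Finite.of_injective gC gC.injective
  have lI : IsLowerSet (Set.range iC) := by
    rintro _ y hy ⟨i, rfl⟩
    have h1 : gC y ≤ gB (iB i) := by
      rw [hI]
      exact gC.monotone hy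
    obtain ⟨x, hx⟩ := lB h1 ⟨_, rfl⟩
    obtain ⟨k, -, hk⟩ := hpb x y hx
    exact ⟨k, hk⟩
  have lfC : IsLowerSet (Set.range fC) := by
    rintro _ y hy ⟨x, rfl⟩
    obtain ⟨x', hx'⟩ := hf (show gC y ≤ f x by rw [← hC]; exact gC.monotone hy) ⟨x, rfl⟩
    exact ⟨x', gC.injective (by rw [hC, hx'])⟩
  obtain ⟨πB, pB₁, pB₂, pbB⟩ := fiber_lower_emb hA fB gB lB hB sq sqB kB hkB₁ hkB₂
  obtain ⟨πC, pC₁, pC₂, pbC⟩ := fiber_lower_emb hA fC gC lC hC sq sqC kC hkC₁ hkC₂
  obtain ⟨π', p₁, p₂, pb'⟩ := fiber_lower_emb hA fI iC lI hIC sqC sqI uC huC₁ huC₂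
  have hπ : π' = N.map kC ≫ πB := by
    refine pi_ext_emb hA fC lfC sqC ?_ ?_
    · rw [p₁, ← Category.assoc, ← adj.homEquiv_naturality_right, hkC₁,
        adj.homEquiv_naturality_left, Category.assoc, pB₁]
      apply eq_of_vertices
      intro y
      apply coord_ext
      intro i
      apply fin2_ext
      refine (coord_toDelta1 lI y i).trans (Iff.trans ?_
        (coord_toDelta1 lB ((nvMap gC.toOrderHom).app _ y) i).symm)
      constructor
      · rintro ⟨k, hk⟩
        refine ⟨iB k, ?_⟩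
        rw [hI, hk]
        rfl
      · rintro ⟨x, hx⟩
        obtain ⟨k, -, hk⟩ := hpb x (y.obj i) hx
        exact ⟨k, hk⟩
    · rw [p₂, ← Category.assoc, ← N.map_comp, hkC₂, pB₂]
  have mB : Mono (N.map kB) := CAUtil.mono_of_fiber pbB
  have mC : Mono (N.map kC) := CAUtil.mono_of_fiber pbC
  have mI : Mono (N.map uC) := CAUtil.mono_of_fiber pb'
  refine ⟨?_, mB, mC, mI⟩
  have hw : uB ≫ kB = uC ≫ kC := by
    apply sqI.hom_ext
    · rw [← Category.assoc, huB₁, ← Category.assoc, huC₁, Category.assoc, Category.assoc, hkB₁,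
        hkC₁, ← Category.assoc, ← Category.assoc, ← c.map_comp, ← c.map_comp, nvMap_comp,
        nvMap_comp]
      congr 3
      ext x
      exact hI x
    · rw [← Category.assoc, huB₂, ← Category.assoc, huC₂, hkB₂, hkC₂]
  have pb : IsPullback (N.map uB) (N.map uC) (N.map kB) (N.map kC) := by
    rw [hπ] at pb'
    refine IsPullback.of_right (h₁₂ := SSet.const (SSet.stdSimplex.obj₀Equiv.symm 0))
      (v₁₃ := (SSet.stdSimplex.δ (1 : Fin 2) : Δ[0] ⟶ Δ[1])) (h₂₂ := πB) ?_ ?_ pbB.flip
    · exact pb'.flip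
    · rw [← N.map_comp, ← N.map_comp, hw]
  refine isPushout_of_cover pb ?_
  intro n y
  have hlast : (∃ x : (N.obj X) _⦋0⦌, (N.map j).app _ x = vtx y (Fin.last _)) ∨
      (∃ e : (nerve W) _⦋0⦌, (adj.homEquiv _ _ b).app _ e = vtx y (Fin.last _)) :=
    vert_cover_emb hA f hf sq (vtx y (Fin.last _))
  rcases hlast with ⟨x, hx⟩ | ⟨e, he⟩
  · left
    refine (range_iff_of_isPullback pbB y).2 ?_
    rw [coord_app, ← hx]
    have h1 : πB.app _ ((N.map j).app _ x) = (constDelta1 (N.obj X) 0).app _ x :=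
      ConcreteCategory.congr_hom (congr_app pB₂ _) x
    rw [h1]
    rfl
  · rcases hcov (e.obj 0) with h | h
    · left
      refine (range_iff_of_isPullback pbB y).2 ?_
      rw [coord_app, ← he]
      have h1 : πB.app _ ((adj.homEquiv _ _ b).app _ e) = (toDelta1 _ lB).app _ e :=
        ConcreteCategory.congr_hom (congr_app pB₁ _) e
      rw [h1]
      exact (coord_toDelta1 lB e 0).2 h
    · right
      refine (range_iff_of_isPullback pbC y).2 ?_
      rw [coord_app, ← he]
      have h1 : πC.app _ ((adj.homEquiv _ _ b).app _ e) = (toDelta1 _ lC).app _ e :=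
        ConcreteCategory.congr_hom (congr_app pC₁ _) e
      rw [h1]
      exact (coord_toDelta1 lC e 0).2 h

section Emb

variable {A W : Type u} [PartialOrder A] [PartialOrder W]

/-- corestriction of an order embedding to a subtype -/
def codEmb (f : A ↪o W) (p : W → Prop) (h : ∀ a, p (f a)) : A ↪o {w // p w} where
  toFun a := ⟨f a, h a⟩
  inj' _ _ hab := f.injective (congr_arg Subtype.val hab)
  map_rel_iff' := f.le_iff_le

lemma codEmb_val (f : A ↪o W) (p : W → Prop) (h : ∀ a, p (f a)) (a : A) :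
    (codEmb f p h a).1 = f a := rfl

lemma codEmb_lower (f : A ↪o W) (p : W → Prop) (h : ∀ a, p (f a))
    (hf : IsLowerSet (Set.range f)) : IsLowerSet (Set.range (codEmb f p h)) := by
  rintro x y hy ⟨z, hz⟩
  obtain ⟨x', hx'⟩ := hf (show y.1 ≤ f z by
    have : (codEmb f p h z).1 = x.1 := congr_arg Subtype.val hz
    rw [codEmb_val] at this
    rw [this]
    exact hy) ⟨z, rfl⟩
  exact ⟨x', Subtype.ext hx'⟩

omit [PartialOrder W] in
lemma card_subtype_lt [Finite W] {p : W → Prop} {v : W} (hv : ¬ p v) :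
    Nat.card {w // p w} < Nat.card W := by
  classical
  have := Fintype.ofFinite W
  rw [Nat.card_eq_fintype_card, Nat.card_eq_fintype_card]
  exact Fintype.card_subtype_lt hv

lemma range_subtype_lower (p : W → Prop) (hp : ∀ x y, y ≤ x → p x → p y) :
    IsLowerSet (Set.range (OrderEmbedding.subtype p)) := by
  rintro _ y hy ⟨x, rfl⟩
  exact ⟨⟨y, hp _ _ hy x.2⟩, rfl⟩

lemma exists_desc_emb {B E : Type u} [PartialOrder B] [PartialOrder E]
    (f : A ↪o B) (g : B ↪o E) (h : A ↪o E)
    (hfg : ∀ x, g (f x) = h x) {X Y YB : D} {a : c.obj (nerve A) ⟶ X}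
    {bB : c.obj (nerve B) ⟶ YB} {jB : X ⟶ YB}
    (sqB : IsPushout (c.map (nvMap f.toOrderHom)) a bB jB) {b : c.obj (nerve E) ⟶ Y} {j : X ⟶ Y}
    (w : c.map (nvMap h.toOrderHom) ≫ b = a ≫ j) :
    ∃ k : YB ⟶ Y, bB ≫ k = c.map (nvMap g.toOrderHom) ≫ b ∧ jB ≫ k = j := by
  have e : c.map (nvMap f.toOrderHom) ≫ c.map (nvMap g.toOrderHom) ≫ b = a ≫ j := by
    rw [← w, ← Category.assoc, ← c.map_comp, nvMap_comp]
    congr 3
    ext x
    exact hfg x
  exact ⟨sqB.desc _ _ e, sqB.inl_desc _ _ _, sqB.inr_desc _ _ _⟩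

end Emb

theorem trivCof_emb [HasPullbacks D] [HasPushouts D] (hA : ModelAxioms adj) (n : ℕ) :
    ∀ {A W : Type u} [PartialOrder A] [PartialOrder W] [Finite W] (f : A ↪o W)
      (_ : IsLowerSet (Set.range f)) (r : W → A) (_ : ∀ w, f (r w) ≤ w)
      (_ : ∀ w s, f s ≤ w → s ≤ r w) {X Y : D} {a : c.obj (nerve A) ⟶ X}
      {b : c.obj (nerve W) ⟶ Y} {j : X ⟶ Y} (_ : IsPushout (c.map (nvMap f.toOrderHom)) a b j),
      Nat.card W = n → trivCof (N.map j) := by
  induction n using Nat.strong_induction_on with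
  | _ n ih =>
  intro A W _ _ _ f hf r hrw hr X Y a b j sq hn
  by_cases hall : ∀ w, w ∈ Set.range f
  · have h1 : IsIso (nvMap f.toOrderHom) := by
      have : (nvIso (OrderIso.ofSurjective f hall)).hom = nvMap f.toOrderHom := rfl
      rw [← this]
      infer_instance
    have h2 : IsIso j := sq.isIso_inr_of_isIso
    exact ⟨inferInstanceAs (Mono (N.map j)), whe_of_isIso _⟩
  · push Not at hall
    obtain ⟨v, hvf, hvmax⟩ := exists_maximal_of_wellFoundedGT (fun w => w ∉ Set.range f) hall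
    have hmax : ∀ w, v ≤ w → w = v := by
      intro w hw
      by_cases hwf : w ∈ Set.range f
      · exact absurd (hf hw hwf) hvf
      · exact le_antisymm (hvmax hwf hw) hw
    have hfv : ∀ x, f x ≠ v := fun x h => hvf ⟨x, h⟩
    -- the four posets
    let pT : W → Prop := fun w => w ≠ v
    let pV : W → Prop := fun w => w ∈ Set.range f ∨ w ≤ v
    let pI : W → Prop := fun w => w ∈ Set.range f ∨ w < v
    have hIT : ∀ w, pI w → pT w := by
      rintro w (⟨x, rfl⟩ | h)
      · exact hfv x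
      · exact h.ne
    have hIV : ∀ w, pI w → pV w := by
      rintro w (h | h)
      · exact Or.inl h
      · exact Or.inr h.le
    let fT : A ↪o {w // pT w} := codEmb f pT hfv
    let fV : A ↪o {w // pV w} := codEmb f pV (fun x => Or.inl ⟨x, rfl⟩)
    let fI : A ↪o {w // pI w} := codEmb f pI (fun x => Or.inl ⟨x, rfl⟩)
    let gT : {w // pT w} ↪o W := OrderEmbedding.subtype pT
    let gV : {w // pV w} ↪o W := OrderEmbedding.subtype pV
    let iT : {w // pI w} ↪o {w // pT w} := Subtype.orderEmbedding hIT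
    let iV : {w // pI w} ↪o {w // pV w} := Subtype.orderEmbedding hIV
    have lT : IsLowerSet (Set.range gT) := range_subtype_lower _ (by
      intro x y hy hx hyv
      subst hyv
      exact hx (hmax x hy))
    have lV : IsLowerSet (Set.range gV) := range_subtype_lower _ (by
      rintro x y hy (hx | hx)
      · exact Or.inl (hf hy hx)
      · exact Or.inr (hy.trans hx))
    have sqT := IsPushout.of_hasPushout (c.map (nvMap fT.toOrderHom)) a
    have sqV := IsPushout.of_hasPushout (c.map (nvMap fV.toOrderHom)) a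
    have sqI := IsPushout.of_hasPushout (c.map (nvMap fI.toOrderHom)) a
    obtain ⟨kT, hkT₁, hkT₂⟩ := exists_desc_emb fT gT f (fun _ => rfl) sqT sq.w
    obtain ⟨kV, hkV₁, hkV₂⟩ := exists_desc_emb fV gV f (fun _ => rfl) sqV sq.w
    obtain ⟨uT, huT₁, huT₂⟩ := exists_desc_emb fI iT fT (fun _ => rfl) sqI sqT.w
    obtain ⟨uV, huV₁, huV₂⟩ := exists_desc_emb fI iV fV (fun _ => rfl) sqI sqV.w
    obtain ⟨po, mT, mV, mU⟩ := isPushout_union hA f hf fT gT (fun _ => rfl) lT fV gV (fun _ => rfl)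
      lV fI iT iV (fun _ => rfl) (fun _ => rfl) (by
        rintro ⟨x, hx⟩ ⟨y, hy⟩ hxy
        have hxy' : x = y := hxy
        subst hxy'
        refine ⟨⟨x, ?_⟩, rfl, rfl⟩
        rcases hy with hy | hy
        · exact Or.inl hy
        · exact Or.inr (lt_of_le_of_ne hy hx)) (by
        intro w
        by_cases hw : w = v
        · exact Or.inr ⟨⟨w, Or.inr hw.le⟩, rfl⟩
        · exact Or.inl ⟨⟨w, hw⟩, rfl⟩)
      sq sqT sqV sqI kT hkT₁ hkT₂ kV hkV₁ hkV₂ uT huT₁ huT₂ uV huV₁ huV₂
    have cT : Nat.card {w // pT w} < n := by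
      rw [← hn]
      exact card_subtype_lt (v := v) (fun h => h rfl)
    have cI : Nat.card {w // pI w} < n := by
      rw [← hn]
      refine card_subtype_lt (v := v) ?_
      rintro (h | h)
      · exact hvf h
      · exact lt_irrefl _ h
    have tT := ih _ cT fT (codEmb_lower _ _ _ hf) (fun w => r w.1) (fun w => hrw w.1) (fun w s hs => hr w.1 s hs)
      sqT rfl
    have tI := ih _ cI fI (codEmb_lower _ _ _ hf) (fun w => r w.1) (fun w => hrw w.1) (fun w s hs => hr w.1 s hs)
      sqI rfl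
    have wV : whe (N.map (pushout.inr (c.map (nvMap fV.toOrderHom)) a)) := by
      let fL : {x : A // f x ≤ v} ↪o {w // w ≤ v} :=
        codEmb (RelEmbedding.trans (OrderEmbedding.subtype (fun x => f x ≤ v)) f)
          (fun w => w ≤ v) (fun x => x.2)
      let sA : {x : A // f x ≤ v} ↪o A := OrderEmbedding.subtype (fun x => f x ≤ v)
      let gL : {w // w ≤ v} ↪o {w // pV w} := Subtype.orderEmbedding (fun w hw => Or.inr hw)
      have lfL : IsLowerSet (Set.range fL) := by
        refine codEmb_lower _ _ _ ?_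
        rintro _ y hy ⟨x, rfl⟩
        obtain ⟨x', hx'⟩ := hf (show y ≤ f x.1 from hy) ⟨x.1, rfl⟩
        refine ⟨⟨x', ?_⟩, hx'⟩
        rw [hx']
        exact hy.trans x.2
      have lgL : IsLowerSet (Set.range gL) := by
        rintro _ y hy ⟨x, rfl⟩
        exact ⟨⟨y.1, le_trans hy x.2⟩, rfl⟩
      have pon := isPushout_nerve fV gL sA fL (fun _ => rfl) (by
        rintro x ⟨w, hw⟩ hxw
        have h1 : f x = w := congr_arg Subtype.val hxw
        subst h1
        exact ⟨⟨x, hw⟩, rfl, rfl⟩) (codEmb_lower _ _ _ hf) lgL (by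
        rintro ⟨w, ⟨x, hx⟩ | hw⟩
        · exact Or.inl ⟨x, Subtype.ext hx⟩
        · exact Or.inr ⟨⟨w, hw⟩, rfl⟩)
      have := adj.leftAdjoint_preservesColimits
      have pon' := pon.map c
      have sqL := (pon'.paste_horiz sqV.flip).flip
      exact whe_of_top_emb hA fL lfL ⟨v, le_rfl⟩ ⟨r v, hrw v⟩ (fun l => l.2)
        (by
          rintro ⟨x, hx⟩
          exact hfv x.1 (congr_arg Subtype.val hx))
        (fun s => hr v s.1 s.2) sqL
    have wU : whe (N.map uV) := by
      refine whe.of_precomp (N.map _) (N.map uV) tI.2 ?_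
      rw [← N.map_comp, huV₂]
      exact wV
    have tU : trivCof (N.map uV) := ⟨mU, wU⟩
    have tk : trivCof (N.map kT) := trivCof.of_isPushout po tU
    rw [← hkT₂, N.map_comp]
    exact trivCof.comp_mem _ _ tT tk

/-- the unit at the nerve of the empty poset -/
lemma whe_unit_nerve_empty [HasPullbacks D] (hA : ModelAxioms adj) (P : Type u) [PartialOrder P]
    [IsEmpty P] : whe (adj.unit.app (nerve P)) := by
  have hemp : ∀ m : SimplexCategoryᵒᵖ, (nerve P).obj m → False := fun m x =>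
    isEmptyElim (x.obj 0)
  let g : nerve P ⟶ ⊥_ SSet.{u} :=
    { app := fun m => ↾fun x => (hemp m x).elim
      naturality := fun m m' f => by
        ext x
        exact (hemp m x).elim }
  have hg : g ≫ initial.to (nerve P) = 𝟙 _ := by
    ext m x
    exact (hemp m x).elim
  let e : nerve P ≅ ⊥_ SSet.{u} := ⟨g, initial.to _, hg, by
    apply initial.hom_ext⟩
  have h1 : IsIso (adj.unit.app (nerve P)) := by
    rw [NatTrans.isIso_app_iff_of_iso adj.unit e]
    exact hA.unit_empty
  exact whe_of_isIso _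

theorem whe_unit_nerve_aux [HasPullbacks D] (hA : ModelAxioms adj) (n : ℕ) :
    ∀ (P : Type u) [PartialOrder P] [Finite P], Nat.card P = n →
      whe (adj.unit.app (nerve P)) := by
  induction n using Nat.strong_induction_on with
  | _ n ih =>
  intro P _ _ hn
  rcases isEmpty_or_nonempty P with hP | hP
  · exact whe_unit_nerve_empty hA P
  obtain ⟨v, -, hvmax⟩ := exists_maximal_of_wellFoundedGT (fun _ : P => True)
    ⟨Classical.arbitrary P, trivial⟩
  have hmax : ∀ w, v ≤ w → w = v := fun w hw => le_antisymm (hvmax trivial hw) hw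
  by_cases hall : ∀ w, w ≤ v
  · exact whe_nerve_c_top hA v hall
  push Not at hall
  obtain ⟨w₀, hw₀⟩ := hall
  let pT : P → Prop := fun w => w ≠ v
  let pV : P → Prop := fun w => w ≤ v
  let pI : P → Prop := fun w => w < v
  have hIT : ∀ w, pI w → pT w := fun w h => h.ne
  have hIV : ∀ w, pI w → pV w := fun w h => h.le
  let gT : {w // pT w} ↪o P := OrderEmbedding.subtype pT
  let gV : {w // pV w} ↪o P := OrderEmbedding.subtype pV
  let iT : {w // pI w} ↪o {w // pT w} := Subtype.orderEmbedding hIT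
  let iV : {w // pI w} ↪o {w // pV w} := Subtype.orderEmbedding hIV
  let f : PEmpty.{u + 1} ↪o P :=
    ⟨⟨PEmpty.elim, fun x => x.elim⟩, fun {x} => x.elim⟩
  let fT : PEmpty.{u + 1} ↪o {w // pT w} :=
    ⟨⟨PEmpty.elim, fun x => x.elim⟩, fun {x} => x.elim⟩
  let fV : PEmpty.{u + 1} ↪o {w // pV w} :=
    ⟨⟨PEmpty.elim, fun x => x.elim⟩, fun {x} => x.elim⟩
  let fI : PEmpty.{u + 1} ↪o {w // pI w} :=
    ⟨⟨PEmpty.elim, fun x => x.elim⟩, fun {x} => x.elim⟩
  have hf : IsLowerSet (Set.range f) := by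
    rintro _ y hy ⟨x, rfl⟩
    exact x.elim
  have lT : IsLowerSet (Set.range gT) := range_subtype_lower _ (by
    intro x y hy hx hyv
    subst hyv
    exact hx (hmax x hy))
  have lV : IsLowerSet (Set.range gV) := range_subtype_lower _ (fun x y hy hx => hy.trans hx)
  have hpb : ∀ x y, gT x = gV y → ∃ i, iT i = x ∧ iV i = y := by
    rintro ⟨x, hx⟩ ⟨y, hy⟩ hxy
    have hxy' : x = y := hxy
    subst hxy'
    exact ⟨⟨x, lt_of_le_of_ne hy hx⟩, rfl, rfl⟩
  have hcov : ∀ w, w ∈ Set.range gT ∨ w ∈ Set.range gV := by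
    intro w
    by_cases hw : w = v
    · exact Or.inr ⟨⟨w, hw.le⟩, rfl⟩
    · exact Or.inl ⟨⟨w, hw⟩, rfl⟩
  have sq : IsPushout (c.map (nvMap f.toOrderHom)) (𝟙 (c.obj (nerve PEmpty.{u + 1})))
      (𝟙 (c.obj (nerve P))) (c.map (nvMap f.toOrderHom)) := IsPushout.of_vert_isIso ⟨by simp⟩
  have sqT : IsPushout (c.map (nvMap fT.toOrderHom)) (𝟙 (c.obj (nerve PEmpty.{u + 1})))
      (𝟙 _) (c.map (nvMap fT.toOrderHom)) := IsPushout.of_vert_isIso ⟨by simp⟩
  have sqV : IsPushout (c.map (nvMap fV.toOrderHom)) (𝟙 (c.obj (nerve PEmpty.{u + 1})))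
      (𝟙 _) (c.map (nvMap fV.toOrderHom)) := IsPushout.of_vert_isIso ⟨by simp⟩
  have sqI : IsPushout (c.map (nvMap fI.toOrderHom)) (𝟙 (c.obj (nerve PEmpty.{u + 1})))
      (𝟙 _) (c.map (nvMap fI.toOrderHom)) := IsPushout.of_vert_isIso ⟨by simp⟩
  have hcomp : ∀ {B C : Type u} [PartialOrder B] [PartialOrder C] (g : PEmpty.{u + 1} ↪o B)
      (k : B ↪o C) (h : PEmpty.{u + 1} ↪o C),
      c.map (nvMap g.toOrderHom) ≫ c.map (nvMap k.toOrderHom) = c.map (nvMap h.toOrderHom) := by
    intro B C _ _ g k h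
    rw [← c.map_comp, nvMap_comp]
    congr 2
    ext x
    exact x.elim
  obtain ⟨po, mT, mV, mU⟩ := isPushout_union hA f hf fT gT (fun x => x.elim) lT fV gV
      (fun x => x.elim) lV fI iT iV (fun x => x.elim) (fun _ => rfl) hpb hcov
      sq sqT sqV sqI (c.map (nvMap gT.toOrderHom)) (by simp) (hcomp _ _ _)
      (c.map (nvMap gV.toOrderHom)) (by simp) (hcomp _ _ _)
      (c.map (nvMap iT.toOrderHom)) (by simp) (hcomp _ _ _)
      (c.map (nvMap iV.toOrderHom)) (by simp) (hcomp _ _ _)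
  have cT : Nat.card {w // pT w} < n := by
    rw [← hn]
    exact card_subtype_lt (v := v) (fun h => h rfl)
  have cI : Nat.card {w // pI w} < n := by
    rw [← hn]
    exact card_subtype_lt (v := v) (lt_irrefl _)
  have cV : Nat.card {w // pV w} < n := by
    rw [← hn]
    exact card_subtype_lt (v := w₀) hw₀
  have wT := ih _ cT _ rfl
  have wI := ih _ cI _ rfl
  have wV := ih _ cV _ rfl
  have pon := isPushout_nerve gT gV iT iV (fun _ => rfl) hpb lT lV hcov
  have m1 := mono_nvMap iV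
  exact whe_gluing pon.flip po.flip _ _ _ (adj.unit.app (nerve P))
    (adj.unit.naturality (nvMap iV.toOrderHom)) (adj.unit.naturality (nvMap iT.toOrderHom))
    (adj.unit.naturality (nvMap gV.toOrderHom)) (adj.unit.naturality (nvMap gT.toOrderHom))
    wI wV wT


/-- for every finite poset `P`, `N(P) ⟶ N c N(P)` is a weak equivalence -/
lemma whe_unit_nerve [HasPullbacks D] [HasPushouts D] (hA : ModelAxioms adj)
    (P : Type u) [PartialOrder P] [Finite P] : whe (adj.unit.app (nerve P)) :=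
  whe_unit_nerve_aux hA _ P rfl

/-- `W` finite poset, `S` lower set such that every `w` has a greatest element `r w` of `S`
below it. Then `N X ⟶ N (X ∪_{cN(S)} cN(W))` is a trivial cofibration. -/
lemma trivCof_of_retraction [HasPullbacks D] [HasPushouts D] (hA : ModelAxioms adj)
    {W : Type u} [PartialOrder W] [Finite W] (S : Set W) (hS : IsLowerSet S)
    (r : W → W) (hrS : ∀ w, r w ∈ S) (hrw : ∀ w, r w ≤ w) (hr : ∀ w, ∀ s ∈ S, s ≤ w → s ≤ r w)
    {X Y : D} {a : c.obj (nerve S) ⟶ X} {b : c.obj (nerve W) ⟶ Y} {j : X ⟶ Y}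
    (sq : IsPushout (c.map (nvMap (subIncl S))) a b j) : trivCof (N.map j) := by
  refine trivCof_emb hA _ (OrderEmbedding.subtype (fun w => w ∈ S)) ?_ (fun w => ⟨r w, hrS w⟩)
    hrw (fun w s hs => hr w s.1 s.2 hs) sq rfl
  rintro _ y hy ⟨x, rfl⟩
  exact ⟨⟨y, hS hy x.2⟩, rfl⟩


end Vale.Agent.P213
end

section

/-!
CA4: the homotopy pushout property of nerves of pushouts along Dwyer maps of finite posets.
-/

open CategoryTheory HomotopicalAlgebra Simplicial MonoidalCategory Limits MorphismProperty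
open SSet.modelCategoryQuillen CartesianMonoidalCategory
open Opposite

universe v u

namespace Vale.Agent.P213

namespace CADwyer

open CAUtil CAExt

lemma toDelta1_naturality {E E' : Type u} [PartialOrder E] [PartialOrder E'] (f : E →o E')
    (T : Set E') (hT : IsLowerSet T) (T' : Set E) (hT' : IsLowerSet T')
    (h : ∀ e, f e ∈ T ↔ e ∈ T') : nvMap f ≫ toDelta1 T hT = toDelta1 T' hT' := by
  apply hom_ext_stdSimplex
  intro y
  apply SSet.stdSimplex.ext
  intro i
  have h1 := toDelta1_apply T hT ((nvMap f).app _ y) i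
  have h2 := toDelta1_apply T' hT' y i
  have h3 : ((nvMap f).app _ y).obj i = f (y.obj i) := rfl
  rw [h3, h, ← h2] at h1
  have hcases : ∀ s t : Fin 2, (s = 0 ↔ t = 0) → s = t := by decide
  exact hcases _ _ h1

lemma const_comp {X Y : SSet.{u}} (f : X ⟶ Y) (ε : Fin 2) :
    f ≫ constDelta1 Y ε = constDelta1 X ε := rfl

/-- a retraction of posets gives a weak equivalence -/
lemma whe_of_poset_retraction {A B : Type u} [PartialOrder A] [PartialOrder B] (i : A →o B)
    (r : B →o A) (h₁ : ∀ a, r (i a) = a) (h₂ : ∀ b, i (r b) ≤ b) : whe (nvMap i) := by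
  refine whe_of_eqvGen (nvMap i) (nvMap r) ?_ ?_
  · have : nvMap i ≫ nvMap r = 𝟙 (nerve A) := by
      rw [Retract.nvMap_comp, ← Retract.nvMap_id]
      congr 1
      ext a
      exact h₁ a
    rw [this]
    exact Relation.EqvGen.refl _
  · refine Relation.EqvGen.rel _ _ ⟨nvHomotopy (i.comp r) OrderHom.id h₂, ?_, ?_⟩
    · exact Retract.ι₀_nvHomotopy (i.comp r) OrderHom.id h₂
    · exact Retract.ι₁_nvHomotopy (i.comp r) OrderHom.id h₂

variable {D : Type (u + 1)} [Category.{v} D] {c : SSet.{u} ⥤ D} {N : D ⥤ SSet.{u}}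
  {adj : c ⊣ N}

lemma unit_comp {K L : SSet.{u}} (f : K ⟶ L) {Z : D} (g : c.obj L ⟶ Z) :
    f ≫ adj.homEquiv _ _ g = adj.unit.app K ≫ N.map (c.map f ≫ g) := by
  rw [← adj.homEquiv_naturality_left, adj.homEquiv_unit]

/-- `N X ⟶ N Y` is a monomorphism -/
lemma mono_of_sieve [HasPullbacks D] (hA : ModelAxioms adj)
    {E : Type u} [PartialOrder E] {S : Set E} (hS : IsLowerSet S)
    {X Y : D} {a : c.obj (nerve S) ⟶ X} {b : c.obj (nerve E) ⟶ Y} {j : X ⟶ Y}
    (sq : IsPushout (c.map (nvMap (subIncl S))) a b j) : Mono (N.map j) := by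
  have sq' : IsPushout (c.map (nvMap (subIncl₂ (le_refl S)))) a a (𝟙 X) := by
    have e : c.map (nvMap (subIncl₂ (le_refl S))) = 𝟙 _ := c.map_id _
    rw [e]
    exact IsPushout.of_id_fst
  obtain ⟨π, -, -, pb⟩ := fiber_lower hA hS (le_refl S) sq sq' j sq.w.symm (by simp)
  exact mono_of_fiber pb

section

variable {E : Type u} [PartialOrder E]

/-- the elements above some element of `S` -/
def up (S : Set E) : Set E := {w | ∃ s ∈ S, s ≤ w}

lemma subset_up (S : Set E) : S ⊆ up S := fun s hs => ⟨s, hs, le_rfl⟩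

lemma lower_up_compl (S : Set E) : IsLowerSet (up S)ᶜ := by
  intro x y hyx hx ⟨s, hs, hsy⟩
  exact hx ⟨s, hs, hsy.trans hyx⟩

/-- `S` as a subset of `up S` -/
def inUp (S : Set E) : Set (up S) := {w | w.1 ∈ S}

lemma lower_inUp {S : Set E} (hS : IsLowerSet S) : IsLowerSet (inUp S) :=
  fun _ _ hyx hx => hS hyx hx

/-- the identification of `inUp S` and `S` -/
def inUpTo (S : Set E) : inUp S →o S := ⟨fun w => ⟨w.1.1, w.2⟩, fun _ _ h => h⟩

/-- the identification of `S` and `inUp S` -/
def toInUp (S : Set E) : S →o inUp S :=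
  ⟨fun s => ⟨⟨s.1, subset_up S s.2⟩, s.2⟩, fun _ _ h => h⟩

/-- the identification on nerves -/
def inUpIso (S : Set E) : nerve (inUp S) ≅ nerve S where
  hom := nvMap (inUpTo S)
  inv := nvMap (toInUp S)
  hom_inv_id := rfl
  inv_hom_id := rfl

/-- the inclusion of the complement of `S` in `up S` into the complement of `S` in `E` -/
def comp (S : Set E) : ((inUp S)ᶜ : Set (up S)) →o (Sᶜ : Set E) :=
  ⟨fun w => ⟨w.1.1, w.2⟩, fun _ _ h => h⟩

lemma isPullback_nerve (S : Set E) : IsPullback (nvMap (comp S)) (nvMap (subIncl (inUp S)ᶜ))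
    (nvMap (subIncl Sᶜ)) (nvMap (subIncl (up S))) := by
  have h1 : Mono (nvMap (subIncl (inUp S)ᶜ)) := mono_nvMap _ Subtype.val_injective
  have h2 : Mono (nvMap (subIncl (Sᶜ : Set E))) := mono_nvMap _ Subtype.val_injective
  refine isPullback_of_lift rfl (fun n x y hxy => ?_)
  refine nv_lift _ _ (fun _ => rfl) y (fun i hi => ?_)
  have h3 : (x.obj i).1 = (y.obj i).1 :=
    congrArg (fun z : (nerve E) _⦋n⦌ => z.obj i) hxy
  apply (x.obj i).2
  rw [h3]
  exact hi

lemma isPushout_nerve {S : Set E} (hS : IsLowerSet S) :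
    IsPushout (nvMap (comp S)) (nvMap (subIncl (inUp S)ᶜ))
    (nvMap (subIncl Sᶜ)) (nvMap (subIncl (up S))) := by
  have h1 : Mono (nvMap (subIncl (up S))) := mono_nvMap _ Subtype.val_injective
  have h2 : Mono (nvMap (subIncl (Sᶜ : Set E))) := mono_nvMap _ Subtype.val_injective
  refine isPushout_of_isPullback (isPullback_nerve S) (fun n x => ?_)
  have hmono : ∀ i : Fin (n + 1), x.obj 0 ≤ x.obj i := fun i =>
    leOfHom (x.map (homOfLE (Fin.zero_le i)))
  by_cases h : x.obj 0 ∈ S
  · right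
    exact nv_lift _ _ (fun _ => rfl) x (fun i => ⟨x.obj 0, h, hmono i⟩)
  · left
    exact nv_lift _ _ (fun _ => rfl) x (fun i hi => h (hS (hmono i) hi))

end

/-- the data of the comparison of `Y` and `Y_W` -/
lemma key_square [HasPullbacks D] (hA : ModelAxioms adj)
    {E : Type u} [PartialOrder E] [Finite E] {S : Set E} (hS : IsLowerSet S)
    {X Y YW : D} {a : c.obj (nerve S) ⟶ X} {b : c.obj (nerve E) ⟶ Y} {j : X ⟶ Y}
    (sq : IsPushout (c.map (nvMap (subIncl S))) a b j)
    {bW : c.obj (nerve (up S)) ⟶ YW} {jW : X ⟶ YW}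
    (sqW : IsPushout (c.map (nvMap (subIncl₂ (subset_up S)))) a bW jW)
    (sqW' : IsPushout (c.map (nvMap (subIncl (inUp S)))) (c.map (nvMap (inUpTo S)) ≫ a) bW jW)
    (k : YW ⟶ Y) (hk₁ : bW ≫ k = c.map (nvMap (subIncl (up S))) ≫ b) (hk₂ : jW ≫ k = j) :
    Mono (N.map (c.map (nvMap (comp S)))) ∧
    IsPushout (N.map (c.map (nvMap (comp S)))) (N.map (c.map (nvMap (subIncl (inUp S)ᶜ)) ≫ bW))
      (N.map (c.map (nvMap (subIncl Sᶜ)) ≫ b)) (N.map k) := by
  obtain ⟨π₁, hπ₁b, hπ₁j, pb₁⟩ := fiber_upper hA (lower_up_compl S) (subset_up S) sq sqW k hk₁ hk₂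
  obtain ⟨π₂, hπ₂b, hπ₂j, pb₂⟩ := fiber_compl hA hS (le_refl S) sq
  obtain ⟨π₃, hπ₃b, hπ₃j, pb₃⟩ := fiber_compl hA (lower_inUp hS) (le_refl (inUp S)) sqW'
  have hmk : Mono (N.map k) := mono_of_fiber pb₁
  have hml : Mono (N.map (c.map (nvMap (subIncl Sᶜ)) ≫ b)) := mono_of_fiber pb₂
  have hπ : π₃ = N.map k ≫ π₂ := by
    refine pi_ext hA (lower_inUp hS) sqW' ?_ ?_
    · rw [hπ₃b, ← Category.assoc, ← adj.homEquiv_naturality_right, hk₁,
        adj.homEquiv_naturality_left, Category.assoc, hπ₂b]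
      exact (toDelta1_naturality (subIncl (up S)) S hS (inUp S) (lower_inUp hS)
        (fun e => Iff.rfl)).symm
    · rw [hπ₃j, ← Category.assoc, ← N.map_comp, hk₂, hπ₂j]
  have hcomm : N.map (c.map (nvMap (comp S))) ≫ N.map (c.map (nvMap (subIncl Sᶜ)) ≫ b) =
      N.map (c.map (nvMap (subIncl (inUp S)ᶜ)) ≫ bW) ≫ N.map k := by
    rw [← N.map_comp, ← N.map_comp, Category.assoc, hk₁, ← Category.assoc, ← Category.assoc,
      ← c.map_comp, ← c.map_comp]
    rfl
  have hpb : IsPullback (N.map (c.map (nvMap (comp S))))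
      (N.map (c.map (nvMap (subIncl (inUp S)ᶜ)) ≫ bW))
      (N.map (c.map (nvMap (subIncl Sᶜ)) ≫ b)) (N.map k) := by
    refine IsPullback.of_right ?_ hcomm pb₂.flip
    have h := pb₃.flip
    rw [hπ] at h
    exact h
  refine ⟨MorphismProperty.of_isPullback (P := monomorphisms _) hpb.flip hmk, ?_⟩
  refine isPushout_of_isPullback hpb (fun n x => ?_)
  have hcases : ∀ t : Fin 2, t = 0 ∨ t = 1 := by decide
  have v₁ : (π₁.app _ x : (Δ[1] _⦋n⦌ : Type u)) 0 = (π₁.app _ (vtx x 0) : (Δ[1] _⦋0⦌ : Type u)) 0 := by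
    rw [app_vtx]
    rfl
  have v₂ : (π₂.app _ x : (Δ[1] _⦋n⦌ : Type u)) 0 = (π₂.app _ (vtx x 0) : (Δ[1] _⦋0⦌ : Type u)) 0 := by
    rw [app_vtx]
    rfl
  rcases hcases ((π₁.app _ x : (Δ[1] _⦋n⦌ : Type u)) 0) with h0 | h1
  · left
    refine exists_of_fiber_one pb₂ x (apply_eq_one _ ?_)
    rw [v₂]
    rw [v₁] at h0
    rcases vert_cover hA hS sq (vtx x 0) with ⟨y, hy⟩ | ⟨e, he⟩
    · exfalso
      rw [← hy] at h0
      have h2 := ConcreteCategory.congr_hom (congr_app hπ₁j (op ⦋0⦌)) y
      have h3 : (π₁.app _ ((N.map j).app _ y) : (Δ[1] _⦋0⦌ : Type u)) 0 = 1 := by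
        exact DFunLike.congr_fun h2 (0 : Fin 1)
      rw [h0] at h3
      exact absurd h3 (by decide)
    · rw [← he] at h0 ⊢
      have h2 : (π₁.app _ ((adj.homEquiv _ _ b).app _ e) : (Δ[1] _⦋0⦌ : Type u)) 0 =
          ((toDelta1 (up S)ᶜ (lower_up_compl S)).app _ e : (Δ[1] _⦋0⦌ : Type u)) 0 := by
        rw [← hπ₁b]
        rfl
      have h3 : (π₂.app _ ((adj.homEquiv _ _ b).app _ e) : (Δ[1] _⦋0⦌ : Type u)) 0 =
          ((toDelta1 S hS).app _ e : (Δ[1] _⦋0⦌ : Type u)) 0 := by
        rw [← hπ₂b]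
        rfl
      rw [h2] at h0
      rw [h3]
      have h4 := (toDelta1_apply (up S)ᶜ (lower_up_compl S) e 0).1 h0
      rcases hcases (((toDelta1 S hS).app _ e : (Δ[1] _⦋0⦌ : Type u)) 0) with h5 | h5
      · exfalso
        exact h4 (subset_up S ((toDelta1_apply S hS e 0).1 h5))
      · exact h5
  · right
    exact exists_of_fiber_one pb₁ x (apply_eq_one _ h1)

end CADwyer

open CADwyer CAUtil CAExt in
/-- `E` finite poset, `S` lower set such that every `w` above some element of `S` has a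
greatest element `r w` of `S` below it. Homotopy pushout property. -/
lemma dwyer_pushout {D : Type (u + 1)} [Category.{v} D] {c : SSet.{u} ⥤ D}
    {N : D ⥤ SSet.{u}} {adj : c ⊣ N} [HasPullbacks D] [HasPushouts D] (hA : ModelAxioms adj)
    {E : Type u} [PartialOrder E] [Finite E] (S : Set E) (hS : IsLowerSet S)
    (r : E → E) (hrS : ∀ w, (∃ s ∈ S, s ≤ w) → r w ∈ S ∧ r w ≤ w)
    (hr : ∀ w, ∀ s ∈ S, s ≤ w → s ≤ r w)
    {X Y : D} {a : c.obj (nerve S) ⟶ X} {b : c.obj (nerve E) ⟶ Y} {j : X ⟶ Y}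
    (sq : IsPushout (c.map (nvMap (subIncl S))) a b j) :
    Mono (N.map j) ∧ ∀ {T : SSet.{u}} (b' : nerve E ⟶ T) (j' : N.obj X ⟶ T)
      (_ : IsPushout (nvMap (subIncl S)) (adj.homEquiv _ _ a) b' j')
      (t : T ⟶ N.obj Y) (_ : b' ≫ t = adj.homEquiv _ _ b) (_ : j' ≫ t = N.map j), whe t := by
  refine ⟨mono_of_sieve hA hS sq, ?_⟩
  intro T b' j' sqT t hbt hjt
  -- the pushout `Y_W`
  have sqW := IsPushout.of_hasPushout (c.map (nvMap (subIncl₂ (subset_up S)))) a
  set YW : D := pushout (c.map (nvMap (subIncl₂ (subset_up S)))) a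
  set bW : c.obj (nerve (up S)) ⟶ YW := pushout.inl _ _
  set jW : X ⟶ YW := pushout.inr _ _
  have hcomp : nvMap (subIncl₂ (subset_up S)) ≫ nvMap (subIncl (up S)) = nvMap (subIncl S) := rfl
  let k : YW ⟶ Y := sqW.desc (c.map (nvMap (subIncl (up S))) ≫ b) j (by
    rw [← Category.assoc, ← c.map_comp, hcomp, sq.w])
  have hk₁ : bW ≫ k = c.map (nvMap (subIncl (up S))) ≫ b := sqW.inl_desc _ _ _
  have hk₂ : jW ≫ k = j := sqW.inr_desc _ _ _
  have sqW' : IsPushout (c.map (nvMap (subIncl (inUp S)))) (c.map (nvMap (inUpTo S)) ≫ a) bW jW := by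
    refine IsPushout.of_iso sqW (c.mapIso (inUpIso S).symm) (Iso.refl _) (Iso.refl _) (Iso.refl _)
      ?_ ?_ ?_ ?_
    · simp only [Iso.refl_hom, Category.comp_id, Functor.mapIso_hom, Iso.symm_hom]
      rw [← c.map_comp]
      rfl
    · simp only [Iso.refl_hom, Category.comp_id, Functor.mapIso_hom, Iso.symm_hom]
      rw [← Category.assoc, ← c.map_comp]
      change a = c.map (𝟙 _) ≫ a
      rw [c.map_id, Category.id_comp]
    · simp
    · simp
  obtain ⟨hmono, hpush⟩ := key_square hA hS sq sqW sqW' k hk₁ hk₂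
  -- `N X ⟶ N Y_W` is a trivial cofibration
  have hrW : ∀ w : up S, r w.1 ∈ up S := fun w => subset_up S (hrS w.1 w.2).1
  have htriv : trivCof (N.map jW) :=
    trivCof_of_retraction hA (inUp S) (lower_inUp hS) (fun w => ⟨r w.1, hrW w⟩)
      (fun w => (hrS w.1 w.2).1) (fun w => (hrS w.1 w.2).2) (fun w s hs hsw => hr w.1 s.1 hs hsw)
      sqW'
  -- the pushout `T_W`
  have sqTW := IsPushout.of_hasPushout (nvMap (subIncl₂ (subset_up S))) (adj.homEquiv _ _ a)
  set TW : SSet.{u} := pushout (nvMap (subIncl₂ (subset_up S))) (adj.homEquiv _ _ a)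
  set pW : nerve (up S) ⟶ TW := pushout.inl _ _
  set qW : N.obj X ⟶ TW := pushout.inr _ _
  let w : TW ⟶ T := sqTW.desc (nvMap (subIncl (up S)) ≫ b') j' (by
    rw [← Category.assoc, hcomp, sqT.w])
  have hw₁ : pW ≫ w = nvMap (subIncl (up S)) ≫ b' := sqTW.inl_desc _ _ _
  have hw₂ : qW ≫ w = j' := sqTW.inr_desc _ _ _
  have sq₁ : IsPushout (nvMap (subIncl (up S))) pW b' w := by
    refine IsPushout.of_left ?_ hw₁.symm sqTW
    rw [hcomp, hw₂]
    exact sqT
  have sq₂ := (isPushout_nerve hS).paste_vert sq₁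
  let v : TW ⟶ N.obj YW := sqTW.desc (adj.homEquiv _ _ bW) (N.map jW) (by
    rw [← adj.homEquiv_naturality_left, sqW.w, adj.homEquiv_naturality_right])
  have hv₁ : pW ≫ v = adj.homEquiv _ _ bW := sqTW.inl_desc _ _ _
  have hv₂ : qW ≫ v = N.map jW := sqTW.inr_desc _ _ _
  -- `nerve S ⟶ nerve (up S)` is a trivial cofibration
  have hSW : trivCof (nvMap (subIncl₂ (subset_up S))) := by
    refine ⟨mono_nvMap _ (Set.inclusion_injective (subset_up S)), ?_⟩
    refine whe_of_poset_retraction _ ⟨fun w => ⟨r w.1, (hrS w.1 w.2).1⟩, ?_⟩ ?_ ?_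
    · intro x y hxy
      exact hr y.1 _ (hrS x.1 x.2).1 ((hrS x.1 x.2).2.trans hxy)
    · intro s
      apply Subtype.ext
      exact le_antisymm (hrS s.1 (subset_up S s.2)).2 (hr s.1 s.1 s.2 le_rfl)
    · intro x
      exact (hrS x.1 x.2).2
  have hqW : whe qW := (MorphismProperty.of_isPushout (P := trivCof) sqTW.flip hSW).2
  have hv : whe v := by
    refine whe.of_precomp qW v hqW ?_
    rw [hv₂]
    exact htriv.2
  have hi : Mono (nvMap (comp S)) := mono_nvMap _ (fun x y hxy => by
    apply Subtype.ext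
    apply Subtype.ext
    exact congrArg (fun z : (Sᶜ : Set E) => z.1) hxy)
  refine whe_gluing sq₂ hpush (adj.unit.app _) (adj.unit.app _) v t ?_ ?_ ?_ ?_
    (whe_unit_nerve hA _) (whe_unit_nerve hA _) hv
  · exact (adj.unit.naturality (nvMap (comp S)))
  · rw [Category.assoc, hv₁]
    exact unit_comp _ _
  · rw [Category.assoc, hbt]
    exact unit_comp _ _
  · apply sqTW.hom_ext
    · rw [← Category.assoc, hw₁, Category.assoc, hbt, ← Category.assoc, hv₁,
        ← adj.homEquiv_naturality_right, hk₁, adj.homEquiv_naturality_left]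
    · rw [← Category.assoc, hw₂, hjt, ← Category.assoc, hv₂, ← N.map_comp, hk₂]

end Vale.Agent.P213
end

section

/-!
CA5: boundary inclusions are Good.
-/

open CategoryTheory HomotopicalAlgebra Simplicial MonoidalCategory Limits MorphismProperty
open SSet.modelCategoryQuillen CartesianMonoidalCategory
open Opposite

universe v u

namespace Vale.Agent.P213

variable {D : Type (u + 1)} [Category.{v} D] {c : SSet.{u} ⥤ D} {N : D ⥤ SSet.{u}}
  {adj : c ⊣ N}

theorem good_boundary [HasPullbacks D] [HasPushouts D] (hA : ModelAxioms adj) (m : ℕ) :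
    Good adj (∂Δ[m] : SSet.Subcomplex.{u} _).ι := by
  obtain ⟨E, _, _, S, r, hS, hrS, hr, ⟨e⟩⟩ := SdMain.sd_sd_boundary.{u} m
  let el : SSet.sd.obj (SSet.sd.obj (∂Δ[m] : SSet.Subcomplex.{u} _)) ≅ nerve S :=
    Arrow.leftFunc.mapIso e
  let er : SSet.sd.obj (SSet.sd.obj Δ[m]) ≅ nerve E := Arrow.rightFunc.mapIso e
  have w : SSet.sd.map (SSet.sd.map (∂Δ[m] : SSet.Subcomplex.{u} _).ι) ≫ er.hom =
      el.hom ≫ nvMap (subIncl S) := (Arrow.w e.hom).symm
  have key : ∀ {X P : D} (a : c.obj (SSet.sd.obj (SSet.sd.obj (∂Δ[m] : SSet.Subcomplex.{u} _))) ⟶ X)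
      (b : c.obj (SSet.sd.obj (SSet.sd.obj Δ[m])) ⟶ P) (j : X ⟶ P),
      IsPushout (c.map (SSet.sd.map (SSet.sd.map (∂Δ[m] : SSet.Subcomplex.{u} _).ι))) a b j →
      IsPushout (c.map (nvMap (subIncl S))) (c.map el.inv ≫ a) (c.map er.inv ≫ b) j := by
    intro X P a b j sq
    refine IsPushout.of_iso sq (c.mapIso el) (c.mapIso er) (Iso.refl _) (Iso.refl _)
      ?_ ?_ ?_ ?_
    · simp only [Functor.mapIso_hom]
      rw [← c.map_comp, ← c.map_comp, w]
    · simp only [Iso.refl_hom, Category.comp_id, Functor.mapIso_hom]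
      rw [← Category.assoc, ← c.map_comp, el.hom_inv_id, c.map_id, Category.id_comp]
    · simp only [Iso.refl_hom, Category.comp_id, Functor.mapIso_hom]
      rw [← Category.assoc, ← c.map_comp, er.hom_inv_id, c.map_id, Category.id_comp]
    · simp
  constructor
  · intro X P a b j sq
    exact (dwyer_pushout hA S hS r hrS hr (key a b j sq)).1
  · intro X P a b j sq T b' j' sqT t hb hj
    refine (dwyer_pushout hA S hS r hrS hr (key a b j sq)).2 (er.inv ≫ b') j' ?_ t ?_ hj
    · refine IsPushout.of_iso sqT el er (Iso.refl _) (Iso.refl _) w ?_ ?_ ?_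
      · rw [Iso.refl_hom, Category.comp_id, adj.homEquiv_naturality_left, ← Category.assoc,
          el.hom_inv_id, Category.id_comp]
      · rw [Iso.refl_hom, Category.comp_id, ← Category.assoc, er.hom_inv_id, Category.id_comp]
      · simp
    · rw [Category.assoc, hb, adj.homEquiv_naturality_left]

end Vale.Agent.P213
end

section

/-!
The model axioms for the Street nerve of strict `n`-categories, and the internal form of the
main theorem.
-/

open CategoryTheory HomotopicalAlgebra Simplicial MonoidalCategory Limits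

namespace Vale.Agent.P213

/-- The Street nerve satisfies the model axioms. -/
theorem modelAxioms_nerveN {n : ℕ∞} (hn : 1 ≤ n) {c : SSet.{0} ⥤ NCat.{0} n}
    (adj : c ⊣ nerveN n) : ModelAxioms adj where
  unit_empty := UnitAx.isIso_unit_initial adj
  terminal_zero := UnitAx.isTerminal_zero adj
  strict f := UnitAx.strict_initial adj f
  unit_zero := UnitAx.isIso_unit_zero adj
  unit_one := UnitAx.isIso_unit_one hn adj
  fiber_simplex m f ε _ k k' sq := fiber_simplex_NCat hn adj m f ε k k' sq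
  exponentiable ε := exponentiable_NCat hn adj ε
  cyl Z := cylAxiom n Z

/-- The Street nerve of strict `n`-categories satisfies the Thomason statement. -/
theorem isThomason_nerveN {n : ℕ∞} (hn : 1 ≤ n) : IsThomason (nerveN n) := by
  let adj := Adjunction.ofIsRightAdjoint (nerveN n)
  have hA := modelAxioms_nerveN hn adj
  exact isThomason_of_good adj hA.unit_empty (fun m => good_boundary hA m)

end Vale.Agent.P213
end

section

/-!
The Thomason model structure, second statement-level formulation.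
-/

open CategoryTheory

namespace Vale.Agent.P213.St2

theorem main : (∀ a, IsNCat ⊤ (Or a)) ∧ ∀ n : ℕ∞, 1 ≤ n → IsThomason (nerve n) :=
  ⟨fun a => isNCat_tabs (a.len + 1), fun n hn =>
    isThomason_transport (toR n).asEquivalence (nerveIso n) (isThomason_nerveN hn)⟩

end Vale.Agent.P213.St2
end

section

/-!
The Quillen equivalence condition of `IsThomason` holds for all objects, fibrant or not.
-/

open CategoryTheory HomotopicalAlgebra Simplicial Limits MorphismProperty

universe u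

namespace Vale.Agent.P213

open AS

section

variable {D : Type (u + 1)} [Category.{u} D] {N : D ⥤ SSet.{u}}

lemma whe_map_ex2_iff {X Y : D} (f : X ⟶ Y) :
    whe ((N ⋙ SSet.ex ⋙ SSet.ex).map f) ↔ thW N f := by
  change P213.whe (SSet.ex.map (SSet.ex.map (N.map f))) ↔ P213.whe (N.map f)
  rw [whe_ex_iff, whe_ex_iff]

theorem whe_unit_of_isThomason (h : IsThomason N) {c : SSet.{u} ⥤ D} (adj : c ⊣ N)
    (K : SSet.{u}) :
    whe (((SSet.sdExAdjunction.comp SSet.sdExAdjunction).comp adj).unit.app K) := by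
  obtain ⟨M, hc, hw, hf⟩ := h.model
  letI := M
  let L := (((SSet.sd ⋙ SSet.sd) ⋙ c).obj K : D)
  let d := factorizationData (trivialCofibrations D) (fibrations D) (terminal.from L)
  have h1 : thW N d.i := by
    rw [← hw]
    exact d.hi.2
  have h2 : thF N d.p := by
    rw [← hf]
    exact d.hp
  have h3 := ((h.quillenEquivalence adj).equiv K d.Z _ terminalIsTerminal d.p h2 d.i).1 h1
  rw [Adjunction.homEquiv_unit] at h3
  exact (P213.whe.postcomp_iff _ _ (whe_map_ex2_iff d.i |>.2 h1)).1 h3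

theorem quillen_all (h : IsThomason N) {c : SSet.{u} ⥤ D} (adj : c ⊣ N) (K : SSet.{u}) (Y : D)
    (f : ((SSet.sd ⋙ SSet.sd) ⋙ c).obj K ⟶ Y) :
    thW N f ↔ whe (((SSet.sdExAdjunction.comp SSet.sdExAdjunction).comp adj).unit.app K ≫
      (N ⋙ SSet.ex ⋙ SSet.ex).map f) := by
  rw [P213.whe.precomp_iff _ _ (whe_unit_of_isThomason h adj K), whe_map_ex2_iff]

end

end Vale.Agent.P213
end

section

/-!
The two descriptions of weak homotopy equivalences agree.
-/

open CategoryTheory HomotopicalAlgebra Simplicial Limits MorphismProperty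

universe v u

namespace Vale.Agent.P213

lemma exists_factor {C : Type u} [Category.{v} C] {cof w fib : MorphismProperty C}
    (h : IsModelStructure cof w fib) {X Y : C} (f : X ⟶ Y) :
    ∃ (Z : C) (i : X ⟶ Z) (p : Z ⟶ Y), cof i ∧ w i ∧ fib p ∧ i ≫ p = f := by
  obtain ⟨M, hc, hw, hf⟩ := h
  let _ := M
  let d := factorizationData (trivialCofibrations C) (fibrations C) f
  refine ⟨d.Z, d.i, d.p, ?_, ?_, ?_, d.fac⟩
  · rw [← hc]
    exact d.hi.1
  · rw [← hw]
    exact d.hi.2
  · rw [← hf]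
    exact d.hp

end Vale.Agent.P213

open SSet.modelCategoryQuillen

namespace Vale.Agent.P213.St

theorem whe_eq : P213.whe.{0} = St.whe := by
  ext X Y f
  constructor
  · intro h
    obtain ⟨Z, i, p, hi, hw, hp, rfl⟩ := exists_factor P213.kanQuillen.{0} f
    have h3 : trivCof i := ⟨hi, hw⟩
    rw [trivCof_eq] at h3
    exact ⟨Z, i, p, h3, rlpI_of_kanFib_of_whe _ hp ((P213.whe.precomp_iff _ _ hw).1 h), rfl⟩
  · rintro ⟨Z, j, p, hj, hp, rfl⟩
    refine P213.whe.comp_mem _ _ ?_ (rlpI_le_whe _ hp)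
    have h3 : SSet.anodyneExtensions j := hj
    rw [← trivCof_eq] at h3
    exact h3.2

end Vale.Agent.P213.St
end

section

/-!
Transport of the Thomason statement along an equivalence of categories, from the internal
definitions to the statement-level definitions.
-/

open CategoryTheory HomotopicalAlgebra Simplicial Limits

namespace Vale.Agent.P213.St

lemma isModel_transport {C D : Type 1} [Category.{0} C] [Category.{0} D] (F : C ⥤ D)
    [F.IsEquivalence] {cof w fib : MorphismProperty D} (h : IsModelStructure cof w fib) :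
    IsModel (cof.inverseImage F) (w.inverseImage F) (fib.inverseImage F) := by
  obtain ⟨M, rfl, rfl, rfl⟩ := h
  let _ := M
  let _ : CategoryWithCofibrations C := ⟨(cofibrations D).inverseImage F⟩
  let _ : CategoryWithFibrations C := ⟨(fibrations D).inverseImage F⟩
  let _ : CategoryWithWeakEquivalences C := ⟨(weakEquivalences D).inverseImage F⟩
  exact ⟨ModelCategory.transport F.asEquivalence rfl rfl rfl, rfl, rfl, rfl⟩

lemma llp_inverseImage {C D : Type 1} [Category.{0} C] [Category.{0} D] (F : C ⥤ D)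
    [F.IsEquivalence] (P : MorphismProperty D) [P.RespectsIso] :
    (P.inverseImage F).llp = P.llp.inverseImage F := by
  ext X Y i
  constructor
  · intro h A B p hp
    let adj := F.asEquivalence.toAdjunction
    have h1 : P.inverseImage F (F.inv.map p) := by
      refine (P.arrow_mk_iso_iff ?_).2 hp
      exact ((Functor.mapArrowFunctor _ _).mapIso F.asEquivalence.counitIso).app (Arrow.mk p)
    have h2 := h _ h1
    exact (adj.hasLiftingProperty_iff i p).2 h2
  · intro h A B p hp
    rw [← F.hasLiftingProperty_iff_of_isEquivalence]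
    exact h _ hp

section

variable {D D' : Type 1} [Category.{0} D] [Category.{0} D'] (F : D' ⥤ D)
  {N : D ⥤ SSet.{0}}

lemma thW_transport : thW (F ⋙ N) = (P213.thW N).inverseImage F := by
  rw [thW, P213.thW, whe_eq]
  rfl

lemma thF_transport : thF (F ⋙ N) = (P213.thF N).inverseImage F := rfl

instance kanFib_respectsIso : P213.kanFib.{0}.RespectsIso :=
  inferInstanceAs SSet.modelCategoryQuillen.J.rlp.RespectsIso

instance thF_respectsIso : (P213.thF N).RespectsIso :=
  inferInstanceAs (P213.kanFib.inverseImage _).RespectsIso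

instance thW_respectsIso : (P213.thW N).RespectsIso := by
  have : P213.whe.{0}.RespectsIso := by
    rw [whe_eq]
    infer_instance
  exact inferInstanceAs (P213.whe.inverseImage _).RespectsIso

lemma thC_transport [F.IsEquivalence] : thC (F ⋙ N) = (P213.thC N).inverseImage F := by
  rw [thC, P213.thC, ← llp_inverseImage, thW_transport, thF_transport]
  rfl

end

section

variable {D D' : Type 1} [Category.{0} D] [Category.{0} D'] (e : D' ≌ D) {N : D ⥤ SSet.{0}}

/-- The left adjoint of `N` obtained from a left adjoint of `e.functor ⋙ N`. -/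
noncomputable def adjOf {c : SSet.{0} ⥤ D'} (h : c ⊣ e.functor ⋙ N) : c ⋙ e.functor ⊣ N :=
  (h.comp e.toAdjunction).ofNatIsoRight
    ((Functor.associator _ _ _).symm ≪≫
      Functor.isoWhiskerRight e.counitIso N ≪≫ Functor.leftUnitor N)

lemma adjOf_homEquiv {c : SSet.{0} ⥤ D'} (h : c ⊣ e.functor ⋙ N) {K : SSet.{0}} {Y : D'}
    (f : c.obj K ⟶ Y) :
    (adjOf e h).homEquiv K (e.functor.obj Y) (e.functor.map f) = h.homEquiv K Y f := by
  rw [adjOf, Adjunction.homEquiv_ofNatIsoRight_apply, Adjunction.comp_homEquiv]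
  change h.homEquiv _ _ (e.toAdjunction.homEquiv _ _ (e.functor.map f)) ≫ _ = _
  have e1 : e.toAdjunction.homEquiv _ _ (e.functor.map f) = f ≫ e.unit.app Y := by
    rw [Adjunction.homEquiv_unit]
    exact (e.unit.naturality f).symm
  rw [e1, Adjunction.homEquiv_naturality_right, Category.assoc]
  have e2 : (e.functor ⋙ N).map (e.unit.app Y) ≫
      ((Functor.associator _ _ _).symm ≪≫
      Functor.isoWhiskerRight e.counitIso N ≪≫ Functor.leftUnitor N).hom.app
        (e.functor.obj Y) = 𝟙 _ := by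
    have e3 : N.map (e.functor.map (e.unit.app Y)) ≫ N.map (e.counit.app (e.functor.obj Y)) =
        𝟙 _ := by
      rw [← N.map_comp]
      exact (congrArg N.map (e.functor_unit_comp Y)).trans (N.map_id _)
    simpa using e3
  rw [e2]
  exact Category.comp_id _

end

section

variable {D D' : Type 1} [Category.{0} D] [Category.{0} D'] (e : D' ≌ D) {N : D ⥤ SSet.{0}}

theorem isThomason_of_equiv (h : P213.IsThomason N) : IsThomason (e.functor ⋙ N) := by
  refine ⟨?_, ?_, ?_, ?_⟩
  · rw [← whe_eq]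
    exact h.kanQuillen
  · rw [thC_transport, thW_transport, thF_transport]
    exact isModel_transport e.functor h.model
  · have := h.isRightAdjoint
    infer_instance
  · intro c h'
    have h2 := h.quillenEquivalence (adjOf e h')
    refine ⟨?_, ?_⟩
    · intro K K' i hi
      rw [thC_transport, thW_transport, ← whe_eq]
      exact ⟨h2.cof_map i hi, h2.trivCof_map i hi⟩
    · intro K Y f
      rw [thW_transport]
      have e1 := unit_map h' f
      have e2 := unit_map (adjOf e h') (e.functor.map f)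
      rw [adjOf_homEquiv] at e2
      refine (quillen_all h (adjOf e h') K (e.functor.obj Y) (e.functor.map f)).trans ?_
      rw [← whe_eq]
      refine (congrArg (fun g => P213.whe g) e2).to_iff.trans ?_
      exact (congrArg (fun g => P213.whe g) e1).to_iff.symm

end

end Vale.Agent.P213.St
end

section

/-!
The main theorem in terms of the statement-level definitions.
-/

open CategoryTheory Simplicial

namespace Vale.Agent.P213.St

theorem main (n : ℕ∞) (hn : 1 ≤ n) :
    (∃ (N : NCat n ⥤ SSet.{0}) (ev : ∀ X m, (Δ[m] ⟶ N.obj X) → O m → X.C),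
      IsStreetNerve NCat.C (fun _ _ => Fun.f) N ev) ∧
    ∀ (N : NCat n ⥤ SSet.{0}) (ev : ∀ X m, (Δ[m] ⟶ N.obj X) → O m → X.C),
      IsStreetNerve NCat.C (fun _ _ => Fun.f) N ev → IsThomason N := by
  have h1 := isStreetNerve_nerveSt n
  have h2 : IsThomason (nerveSt n) :=
    isThomason_of_equiv (toReal n).asEquivalence (isThomason_nerveN hn)
  exact ⟨⟨nerveSt n, evSt, h1⟩, fun N ev h => isThomason_unique h1 h h2⟩

end Vale.Agent.P213.St
end

section

/-!
Comparison of the two statement layers.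
-/

open CategoryTheory HomotopicalAlgebra Simplicial

namespace Vale.Agent.P213.SX

variable {n : ℕ∞}

/-- The operations of a strict `n`-category. -/
@[implicit_reducible] def opsOf (X : SX.NCat n) : St.Ops X.C := ⟨X.d, X.cmp⟩

attribute [local instance] opsOf

lemma isOmega_opsOf (X : SX.NCat n) : @St.IsOmega X.C (opsOf X) :=
  @St.IsOmega.mk X.C (opsOf X) X.fin (fun a b m k x => X.dd a b m k x) X.src X.tgt
    X.dcomp X.idl X.idr X.asc X.inter

/-- The comparison functor. -/
def toSt (n : ℕ∞) : SX.NCat n ⥤ St.NCat n where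
  obj X := @St.NCat.mk n X.C (opsOf X) (isOmega_opsOf X) (fun k hk x => X.dim k x hk)
  map φ := ⟨φ.toFun, φ.isFun.1, φ.isFun.2⟩

instance : (toSt n).Faithful where
  map_injective := by
    rintro X Y ⟨f, _⟩ ⟨g, _⟩ h
    have h' : f = g := congrArg St.Fun.f h
    subst h'
    rfl

instance : (toSt n).Full where
  map_surjective g := ⟨⟨g.f, g.map_d, g.map_comp⟩, rfl⟩

/-- The inverse on objects. -/
def ofSt (Y : St.NCat n) : SX.NCat n where
  C := Y.C
  d := St.Ops.d
  cmp := St.Ops.comp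
  fin := Y.omega.fin
  dd := Y.omega.dd
  src := Y.omega.src
  tgt := Y.omega.tgt
  dcomp := Y.omega.dcomp
  idl := Y.omega.idl
  idr := Y.omega.idr
  asc := Y.omega.assoc
  inter := Y.omega.inter
  dim k x hk := Y.dim k hk x

instance : (toSt n).EssSurj where
  mem_essImage Y := ⟨ofSt Y, ⟨Iso.refl Y⟩⟩

instance : (toSt n).IsEquivalence where

section

variable {m : ℕ}

/-- Comparison of the cells of the orientals. -/
def toO (x : SX.O m) : St.O m := ⟨x.coef, x.empty, x.aug, x.bdry⟩

/-- Comparison of the cells of the orientals. -/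
def ofO (x : St.O m) : SX.O m := ⟨x.x, x.empty, x.aug, x.bdry⟩

lemma isSimplex_iff (X : SX.NCat n) (g : SX.O m → X.C) :
    SX.IsSimplex X g ↔ @St.IsSimplex X.C (opsOf X) m (fun x => g (ofO x)) := by
  constructor
  · intro h
    exact ⟨fun a k x y hb => h.1 a k (ofO x) (ofO y) hb,
      fun k x y z w h1 h2 h3 => h.2 k (ofO x) (ofO y) (ofO z) (ofO w) h1 h2 h3⟩
  · intro h
    exact ⟨fun a k x y hb => h.1 a k (toO x) (toO y) hb,
      fun k x y z w h1 h2 h3 => h.2 k (toO x) (toO y) (toO z) (toO w) h1 h2 h3⟩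

end

section

variable {D : Type 1} [Category.{0} D] {U : D → SX.NCat n}
    {H : ∀ X Y : D, (X ⟶ Y) → (U X).C → (U Y).C} {N : D ⥤ SSet.{0}}

theorem IsStreetNerve.toSt (h : SX.IsStreetNerve U H N) :
    ∃ ev, St.IsStreetNerve (fun X => (U X).C) H N ev := by
  obtain ⟨ev, h1, h2, h3⟩ := h
  refine ⟨fun X m s x => ev X m s (ofO x), ?_⟩
  constructor
  · intro X m s t e
    refine (h1 X m).injOn (Set.mem_univ _) (Set.mem_univ _) ?_
    funext x
    exact congrFun e (toO x)
  · intro X m f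
    constructor
    · intro hf
      have hf' : SX.IsSimplex (U X) (fun x => f (toO x)) := (isSimplex_iff _ _).2 hf
      obtain ⟨s, -, hs⟩ := (h1 X m).surjOn hf'
      refine ⟨s, ?_⟩
      funext x
      exact congrFun hs (ofO x)
    · rintro ⟨s, rfl⟩
      exact (isSimplex_iff _ _).1 ((h1 X m).mapsTo (Set.mem_univ s))
  · intro X Y φ m s x
    exact h2 X Y φ m s (ofO x)
  · intro X m k θ s x y hxy
    exact h3 X m k θ s (ofO x) (ofO y) hxy

theorem isStreetNerve_of {ev : ∀ (X : D) (m : ℕ), (Δ[m] ⟶ N.obj X) → St.O m → (U X).C}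
    (h : St.IsStreetNerve (fun X => (U X).C) H N ev) :
    SX.IsStreetNerve U H N := by
  refine ⟨fun X m s x => ev X m s (toO x), ?_, ?_, ?_⟩
  · intro X m
    refine ⟨?_, ?_, ?_⟩
    · intro s _
      exact (isSimplex_iff _ _).2 ((h.surj X m _).2 ⟨s, rfl⟩)
    · intro s _ t _ e
      apply h.inj X m
      funext x
      exact congrFun e (ofO x)
    · intro f hf
      obtain ⟨s, hs⟩ := (h.surj X m _).1 ((isSimplex_iff _ _).1 hf)
      refine ⟨s, Set.mem_univ _, ?_⟩
      funext x
      exact congrFun hs (toO x)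
  · intro X Y φ m s x
    exact h.nat X Y φ m s (toO x)
  · intro X m k θ s x y hxy
    exact h.nat' X m k θ s (toO x) (toO y) hxy

end

end Vale.Agent.P213.SX
end

section

/-!
# Left properness
-/

open CategoryTheory HomotopicalAlgebra Simplicial MonoidalCategory Limits MorphismProperty
open SSet.modelCategoryQuillen

universe v u

namespace Vale.Agent.P213

/-- The Kan-Quillen model structure is left proper. -/
theorem isLeftProper_sSet : IsLeftProper (monomorphisms SSet.{u}) whe := by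
  intro A B A' B' i f g i' sq hi hf
  have : Mono i := hi
  exact whe_of_isPushout sq hf

namespace AS

section

variable {D : Type (u + 1)} [Category.{u} D] (N : D ⥤ SSet.{u})

/-- The maps `j` along which cobase change preserves Thomason weak equivalences, and whose
cobase changes along Thomason weak equivalences have a monomorphism as nerve. -/
def lpV : MorphismProperty D := fun X P j ↦
  Mono (N.map j) ∧ ∀ ⦃X' P' : D⦄ (f : X ⟶ X') (f' : P ⟶ P') (j' : X' ⟶ P'),
    IsPushout j f f' j' → P213.whe (N.map f) → Mono (N.map j') ∧ P213.whe (N.map f')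

instance : (lpV N).ContainsIdentities where
  id_mem X := by
    refine ⟨inferInstance, fun X' P' f f' j' sq hf ↦ ?_⟩
    have : IsIso j' := isIso_of_isPushout sq
    have e : f' = f ≫ j' := by rw [← sq.w, Category.id_comp]
    refine ⟨inferInstance, ?_⟩
    rw [e, N.map_comp]
    exact P213.whe.comp_mem _ _ hf (whe_of_isIso _)

instance : (lpV N).RespectsIso := by
  apply MorphismProperty.RespectsIso.of_respects_arrow_iso
  intro f g e hf
  have sq₀ : e.hom.left ≫ g.hom = f.hom ≫ e.hom.right := e.hom.w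
  have sq₁ : IsPushout f.hom e.hom.left e.hom.right g.hom :=
    IsPushout.of_vert_isIso ⟨sq₀.symm⟩
  refine ⟨?_, ?_⟩
  · have h : N.map g.hom = inv (N.map e.hom.left) ≫ N.map f.hom ≫ N.map e.hom.right := by
      rw [← N.map_comp, ← sq₀, N.map_comp, IsIso.inv_hom_id_assoc]
    have := hf.1
    rw [h]
    infer_instance
  · intro X' P' h h' j' sq hh
    have sq₂ := sq₁.paste_vert sq
    obtain ⟨h₁, h₂⟩ := hf.2 _ _ _ sq₂ (by
      rw [N.map_comp]; exact P213.whe.comp_mem _ _ (whe_of_isIso _) hh)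
    refine ⟨h₁, ?_⟩
    rw [N.map_comp] at h₂
    exact P213.whe.of_precomp _ _ (whe_of_isIso _) h₂

instance [HasPushouts D] : (lpV N).IsStableUnderComposition where
  comp_mem {A B B'} j k hj hk := by
    refine ⟨?_, ?_⟩
    · have := hj.1
      have := hk.1
      rw [N.map_comp]
      infer_instance
    · intro X' P' f f' j' sq hf
      have sq₁ := IsPushout.of_hasPushout j f
      obtain ⟨h₁, h₂⟩ := hj.2 _ _ _ sq₁ hf
      obtain ⟨h₃, h₄⟩ := hk.2 _ _ _ (IsPushout.of_left' sq sq₁) h₂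
      refine ⟨?_, h₄⟩
      have := sq₁.inr_desc (k ≫ f') j' (by rw [← Category.assoc, sq.w])
      rw [← this, N.map_comp]
      infer_instance

instance [HasPushouts D] : (lpV N).IsMultiplicative where

variable [HasColimitsOfSize.{u, u} D] [PreservesFilteredColimitsOfSize.{u, u} N]
  {J : Type u} [LinearOrder J] [OrderBot J] [SuccOrder J] [WellFoundedLT J]

variable {N}

theorem lpV_of_chain {F : J ⥤ D} [F.IsWellOrderContinuous]
    (hF : ∀ (i j : J) (f : i ⟶ j), lpV N (F.map f)) {cF : Cocone F}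
    (hcF : IsColimit cF) : lpV N (cF.ι.app ⊥) := by
  refine ⟨?_, ?_⟩
  · exact MorphismProperty.colimitsOfShape_le (W := monomorphisms SSet.{u}) _
      (.of_isColimit (isColimitOfPreserves N hcF) (fun j ↦ (hF _ _ _).1))
  · intro X' P' f f' j' sq hf
    obtain ⟨ι, ⟨hι⟩, h₁, h₂⟩ := exists_isColimit_poF F f hcF sq
    have hw : ∀ j, P213.whe (N.map ((poFinl F f).app j)) := fun j ↦
      ((hF ⊥ j _).2 _ _ _ (poF_isPushout F f j) hf).2
    have hm : ∀ (i j : J) (g : i ⟶ j), Mono ((poF F f ⋙ N).map g) := fun i j g ↦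
      ((hF i j g).2 _ _ _ (poF_isPushout_map F f g) (hw i)).1
    refine ⟨?_, ?_⟩
    · have hm' : Mono (N.map (ι.app ⊥)) :=
        MorphismProperty.colimitsOfShape_le (W := monomorphisms SSet.{u}) _
          (.of_isColimit (isColimitOfPreserves N hι) (fun j ↦ hm _ _ _))
      rw [← h₂ ⊥, N.map_comp]
      infer_instance
    · refine whe_of_transfinite (F := F ⋙ N) (G := poF F f ⋙ N)
        (Functor.whiskerRight (poFinl F f) N) (fun i j g ↦ (hF i j g).1) hm hw
        (isColimitOfPreserves N hcF) (isColimitOfPreserves N hι) (N.map f') ?_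
      intro j
      change N.map (cF.ι.app j) ≫ N.map f' = N.map ((poFinl F f).app j) ≫ N.map (ι.app j)
      rw [← N.map_comp, ← N.map_comp, h₁]

omit [OrderBot J] in
lemma lpV_map (F : J ⥤ D) [F.IsWellOrderContinuous]
    (h : ∀ j : J, ¬ IsMax j → lpV N (F.map (homOfLE (Order.le_succ j)))) (j : J) :
    ∀ (i : J) (hij : i ≤ j), lpV N (F.map (homOfLE hij)) := by
  have hid : ∀ i : J, lpV N (F.map (homOfLE (le_refl i))) := by
    intro i
    have : homOfLE (le_refl i) = 𝟙 i := rfl
    rw [this, F.map_id]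
    exact (lpV N).id_mem _
  induction j using SuccOrder.limitRecOn with
  | isMin j hj =>
    intro i hij
    obtain rfl : i = j := hj.eq_of_le hij
    exact hid i
  | succ j hj ih =>
    intro i hij
    rcases (Order.le_succ_iff_eq_or_le.mp hij) with rfl | h'
    · exact hid _
    · have : homOfLE hij = homOfLE h' ≫ homOfLE (Order.le_succ j) := rfl
      rw [this, F.map_comp]
      exact (lpV N).comp_mem _ _ (ih i h') (h j hj)
  | isSuccLimit j hj ih =>
    intro i hij
    rcases hij.eq_or_lt with rfl | hlt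
    · exact hid _
    let F' : Set.Ici i ⥤ D := (Subtype.mono_coe (· ∈ Set.Ici i)).functor ⋙ F
    have : F'.IsWellOrderContinuous := Functor.IsWellOrderContinuous.restriction_setIci i
    let m : Set.Ici i := ⟨j, hij⟩
    have hm : Order.IsSuccLimit m := by
      refine ⟨fun h0 ↦ ?_, fun b hb ↦ ?_⟩
      · exact absurd (h0 (show (⟨i, le_refl i⟩ : Set.Ici i) ≤ m from hij)) (not_le.mpr hlt)
      · refine hj.2 b.1 ⟨hb.1, fun k hk hk' ↦ ?_⟩
        exact hb.2 (show b < ⟨k, b.2.trans hk.le⟩ from hk) hk'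
    let : OrderBot (Set.Iio m) :=
      { bot := ⟨⊥, hm.bot_lt⟩
        bot_le k := (bot_le : (⊥ : Set.Ici i) ≤ k.1) }
    let : SuccOrder (Set.Iio m) := SuccOrder.ofLinearWellFoundedLT _
    let F'' : Set.Iio m ⥤ D := (Set.principalSegIio m).monotone.functor ⋙ F'
    have : F''.IsWellOrderContinuous :=
      inferInstanceAs (((Set.principalSegIio m : Set.Iio m ≤i Set.Ici i).monotone.functor
        ⋙ F').IsWellOrderContinuous)
    have := lpV_of_chain (N := N) (F := F'') (fun k l f ↦ ih l.1.1 l.2 k.1.1 (leOfHom f))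
      (F'.isColimitOfIsWellOrderContinuous m hm)
    exact this

instance isStableUnderTransfiniteComposition_lpV :
    IsStableUnderTransfiniteComposition.{u} (lpV N) where
  isStableUnderTransfiniteCompositionOfShape J _ _ _ _ :=
    { le := by
        rintro X Y f ⟨h⟩
        have h1 := lpV_of_chain (N := N) (F := h.F) (fun i j f ↦
          lpV_map h.F h.map_mem j i (leOfHom f)) h.isColimit
        rw [← h.fac]
        exact (MorphismProperty.cancel_left_of_respectsIso (lpV N) _ _).2 h1 }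

end

section

variable {D : Type (u + 1)} [Category.{u} D] [HasColimitsOfSize.{u, u} D]
  {c : SSet.{u} ⥤ D} {N : D ⥤ SSet.{u}} (adj : c ⊣ N) [PreservesFilteredColimitsOfSize.{u, u} N]

omit [HasColimitsOfSize.{u, u} D] [PreservesFilteredColimitsOfSize.{u, u} N] in
lemma lpV_of_good {K L : SSet.{u}} (i : K ⟶ L) [Mono i] (hg : Good adj i) :
    univPush (lpV N) (c.map (SSet.sd.map (SSet.sd.map i))) := by
  intro X P a b j sq
  refine ⟨hg.mono a b j sq, ?_⟩
  intro X' P' f f' j' sq' hf
  have sq₂ := sq.paste_vert sq'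
  refine ⟨hg.mono _ _ _ sq₂, ?_⟩
  have : Mono (SSet.sd.map (SSet.sd.map i)) := inferInstance
  -- the pushouts in simplicial sets
  have sqT := IsPushout.of_hasPushout (SSet.sd.map (SSet.sd.map i)) (adj.homEquiv _ _ a)
  have hw : (SSet.sd.map (SSet.sd.map i)) ≫ adj.homEquiv _ _ b = adj.homEquiv _ _ a ≫ N.map j := by
    rw [← adj.homEquiv_naturality_left, ← adj.homEquiv_naturality_right, sq.w]
  have hT := hg.whe a b j sq _ _ sqT (sqT.desc _ _ hw) (sqT.inl_desc _ _ _) (sqT.inr_desc _ _ _)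
  have : Mono (pushout.inr (SSet.sd.map (SSet.sd.map i)) (adj.homEquiv _ _ a)) :=
    AS.mono_of_isPushout sqT
  have sqT' := IsPushout.of_hasPushout
    (pushout.inr (SSet.sd.map (SSet.sd.map i)) (adj.homEquiv _ _ a)) (N.map f)
  have h₁ := P213.whe_of_isPushout sqT' hf
  have sq₃ := sqT.paste_vert sqT'
  rw [← adj.homEquiv_naturality_right] at sq₃
  have hw' : pushout.inr (SSet.sd.map (SSet.sd.map i)) (adj.homEquiv _ _ a) ≫
      (sqT.desc _ _ hw ≫ N.map f') = N.map f ≫ N.map j' := by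
    rw [sqT.inr_desc_assoc, ← N.map_comp, ← N.map_comp, sq'.w]
  have h₂ : P213.whe (sqT'.desc (sqT.desc _ _ hw ≫ N.map f') (N.map j') hw') := by
    refine hg.whe _ _ _ sq₂ _ _ sq₃ _ ?_ (sqT'.inr_desc _ _ _)
    rw [Category.assoc, sqT'.inl_desc, sqT.inl_desc_assoc, adj.homEquiv_naturality_right]
  have h₃ := P213.whe.comp_mem _ _ h₁ h₂
  rw [sqT'.inl_desc] at h₃
  exact P213.whe.of_precomp _ _ hT h₃

omit [PreservesFilteredColimitsOfSize.{u, u} N] in
/-- Cobase changes of Thomason weak equivalences along retracts. -/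
lemma whe_of_retractArrow {A B K L : D} {j : A ⟶ B} {i : K ⟶ L} (r : RetractArrow i j)
    (hj : univPush (lpV N) j) {K' L' : D} {f : K ⟶ K'} {f' : L ⟶ L'} {i' : K' ⟶ L'}
    (sq : IsPushout i f f' i') (hf : P213.whe (N.map f)) : P213.whe (N.map f') := by
  have sq₁ := IsPushout.of_hasPushout j r.r.left
  have sq₂ := IsPushout.of_hasPushout (pushout.inr j r.r.left) f
  obtain ⟨-, h⟩ := (hj _ _ _ sq₁).2 _ _ _ sq₂ hf
  have e₁ : i ≫ r.i.right ≫ pushout.inl j r.r.left = pushout.inr j r.r.left := by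
    rw [← r.i_w_assoc, sq₁.w, r.retract_left_assoc]
    exact Category.id_comp _
  let p : pushout j r.r.left ⟶ L := sq₁.desc r.r.right i r.r_w.symm
  have hp₁ : pushout.inl j r.r.left ≫ p = r.r.right := sq₁.inl_desc _ _ _
  have hp₂ : pushout.inr j r.r.left ≫ p = i := sq₁.inr_desc _ _ _
  let s' : L' ⟶ pushout (pushout.inr j r.r.left) f :=
    sq.desc (r.i.right ≫ pushout.inl j r.r.left ≫ pushout.inl (pushout.inr j r.r.left) f)
      (pushout.inr (pushout.inr j r.r.left) f) (by rw [← sq₂.w, reassoc_of% e₁])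
  have hs₁ : f' ≫ s' = r.i.right ≫ pushout.inl j r.r.left ≫
    pushout.inl (pushout.inr j r.r.left) f := sq.inl_desc _ _ _
  have hs₂ : i' ≫ s' = pushout.inr (pushout.inr j r.r.left) f := sq.inr_desc _ _ _
  let p' : pushout (pushout.inr j r.r.left) f ⟶ L' :=
    sq₂.desc (p ≫ f') i' (by rw [reassoc_of% hp₂, sq.w])
  have hp'₁ : pushout.inl (pushout.inr j r.r.left) f ≫ p' = p ≫ f' := sq₂.inl_desc _ _ _
  have hp'₂ : pushout.inr (pushout.inr j r.r.left) f ≫ p' = i' := sq₂.inr_desc _ _ _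
  have hr₁ : (r.i.right ≫ pushout.inl j r.r.left) ≫ p = 𝟙 L := by
    rw [Category.assoc, hp₁]
    exact r.retract_right
  have hr₂ : s' ≫ p' = 𝟙 L' := by
    apply sq.hom_ext
    · rw [reassoc_of% hs₁, hp'₁, Category.comp_id]
      rw [← Category.assoc, ← Category.assoc, hr₁, Category.id_comp]
    · rw [reassoc_of% hs₂, hp'₂, Category.comp_id]
  have ret : RetractArrow f' (pushout.inl (pushout.inr j r.r.left) f) :=
    { i := Arrow.homMk (r.i.right ≫ pushout.inl j r.r.left) s' (by
        dsimp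
        rw [hs₁, Category.assoc])
      r := Arrow.homMk p p' hp'₁.symm
      retract := by
        apply Arrow.hom_ext
        · exact hr₁
        · exact hr₂ }
  exact MorphismProperty.of_retract (ret.map N) h

end

end AS

open AS

/-- The Thomason model structure is left proper. -/
theorem isLeftProper_thomason {D : Type (u + 1)} [Category.{u} D]
    [HasColimitsOfSize.{u, u} D]
    {c : SSet.{u} ⥤ D} {N : D ⥤ SSet.{u}} (adj : c ⊣ N) [PreservesFilteredColimitsOfSize.{u, u} N]
    (h : ∀ m, Good adj (∂Δ[m] : SSet.Subcomplex.{u} _).ι) :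
    IsLeftProper (thC N) (thW N) := by
  intro A B A' B' i f g i' sq hi hf
  have : PreservesFilteredColimitsOfSize.{u, u} (N ⋙ (SSet.ex ⋙ SSet.ex)) := inferInstance
  have e : thF N ⊓ thW N = (genI ((SSet.sd ⋙ SSet.sd) ⋙ c)).rlp := by
    rw [rlp_genI (adj₂ adj)]
    ext X Y f
    exact thF_thW_iff f
  have hs := hasSmallObjectArgument_genI (adj₂ adj)
  have hle : (transfiniteCompositions.{u}
      (coproducts.{u} (genI ((SSet.sd ⋙ SSet.sd) ⋙ c))).pushouts) ≤ univPush (lpV N) := by
    have : IsStableUnderCoproducts.{u} (univPush (lpV N)) :=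
      isStableUnderCoproducts_of_transfinite _
    rw [transfiniteCompositions_le_iff, pushouts_le_iff, coproducts_le_iff]
    rintro X Y f ⟨m⟩
    exact lpV_of_good adj _ (h m)
  have hi' : (genI ((SSet.sd ⋙ SSet.sd) ⋙ c)).rlp.llp i := by
    rw [← e]; exact hi
  rw [llp_rlp_of_hasSmallObjectArgument] at hi'
  obtain ⟨X, Y, j, ret, hj⟩ := hi'
  exact whe_of_retractArrow ret (hle _ hj) sq hf

end Vale.Agent.P213
end

section

/-!
# Right properness
-/

universe v u

open CategoryTheory MonoidalCategory CartesianMonoidalCategory Simplicial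
  HomotopicalAlgebra Limits SSet SSet.modelCategoryQuillen

namespace Vale.Agent.P213

variable {X Y Z K A B C E S T : SSet.{u}}

/-- An anodyne extension between Kan complexes is the inclusion of a strong deformation
retract. -/
lemma exists_sdr {i : A ⟶ B} (hi : anodyneExtensions i) [KanComplex A] [KanComplex B] :
    ∃ (r : B ⟶ A) (H : B ⊗ Δ[1] ⟶ B), i ≫ r = 𝟙 A ∧ ι₀ ≫ H = r ≫ i ∧ ι₁ ≫ H = 𝟙 B ∧
      i ▷ _ ≫ H = fst _ _ ≫ i := by
  have := anodyne_mono hi
  obtain ⟨r, hr⟩ := exists_extension_of_anodyne hi (𝟙 A)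
  obtain ⟨H, h₀, h₁, h₂, -⟩ := lift_cyl₀₁_of_anodyne i hi
    (kanFib_terminal B (terminal.from B)) (r ≫ i) (𝟙 B) (fst _ _ ≫ i) (terminal.from _)
    (by rw [ι₀_fst_assoc, reassoc_of% hr]) (Subsingleton.elim _ _)
    (by rw [ι₁_fst_assoc, Category.comp_id]) (Subsingleton.elim _ _) (Subsingleton.elim _ _)
  exact ⟨r, H, hr, h₀, h₁, h₂⟩

/-- The base change of the inclusion of a strong deformation retract along a Kan fibration
is a weak equivalence. -/
lemma whe_of_isPullback_sdr {i : A ⟶ B} [Mono i] {r : B ⟶ A} {H : B ⊗ Δ[1] ⟶ B}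
    (hr : i ≫ r = 𝟙 A) (h₀ : ι₀ ≫ H = r ≫ i) (h₁ : ι₁ ≫ H = 𝟙 B)
    (h₂ : i ▷ _ ≫ H = fst _ _ ≫ i) {E E' : SSet.{u}} {i' : E' ⟶ E} {p' : E' ⟶ A} {p : E ⟶ B}
    (sq : IsPullback i' p' p i) (hp : kanFib p) : whe i' := by
  have : Mono i' := by
    exact MorphismProperty.of_isPullback (P := MorphismProperty.monomorphisms SSet.{u}) sq.flip
      (MorphismProperty.monomorphisms.infer_property i)
  obtain ⟨K, hK₁, hK₂, hK₃⟩ := lift_cyl₁ i' hp (𝟙 E) (fst _ _ ≫ i') (p ▷ _ ≫ H)
    (by rw [ι₁_fst_assoc, Category.comp_id]) (by rw [ι₁_comp_assoc, h₁, Category.comp_id,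
      Category.id_comp])
    (by
      rw [← comp_whiskerRight_assoc, sq.w, comp_whiskerRight_assoc, h₂,
        whiskerRight_fst_assoc, Category.assoc, sq.w])
  let ρ : E ⟶ E' := sq.lift (ι₀ ≫ K) (p ≫ r) (by
    rw [Category.assoc, hK₃, ι₀_comp_assoc, h₀, Category.assoc])
  have hρ₁ : ρ ≫ i' = ι₀ ≫ K := sq.lift_fst _ _ _
  have hρ₂ : ρ ≫ p' = p ≫ r := sq.lift_snd _ _ _
  refine whe_of_eqvGen i' ρ ?_ ?_
  · have : i' ≫ ρ = 𝟙 E' := by
      apply sq.hom_ext
      · rw [Category.assoc, hρ₁, ← ι₀_comp_assoc, hK₂, ι₀_fst_assoc, Category.id_comp]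
      · rw [Category.assoc, hρ₂, sq.w_assoc, hr, Category.comp_id, Category.id_comp]
    rw [this]
    exact HtpyE.refl _
  · rw [hρ₁]
    exact Htpy.toE ⟨K, rfl, hK₁⟩

lemma whe_of_isPullback_of_kanComplex [KanComplex A] [KanComplex B] {f : A ⟶ B}
    (hf : whe f) {E E' : SSet.{u}} {g : E' ⟶ E} {p' : E' ⟶ A} {p : E ⟶ B}
    (sq : IsPullback g p' p f) (hp : kanFib p) : whe g := by
  let d := MorphismProperty.factorizationData anodyneExtensions.{u} kanFib.{u} f
  have hi : anodyneExtensions d.i := d.hi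
  have hq : kanFib d.p := d.hp
  have hqw : whe d.p := (anodyne_le_whe _ hi).cancel_pre (by rw [d.fac]; exact hf)
  have hZ : KanComplex d.Z := kanComplex_of_kanFib hq
  have := anodyne_mono hi
  have htriv := rlpI_of_kanFib_of_whe_of_kanComplex _ hq hqw
  -- base change of the trivial fibration
  have sq₁ : IsPullback (pullback.fst p d.p) (pullback.snd p d.p) p d.p :=
    IsPullback.of_hasPullback _ _
  have hg₁ : whe (pullback.fst p d.p) := rlpI_le_whe _
    (MorphismProperty.of_isPullback (P := I.{u}.rlp) sq₁.flip htriv)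
  -- base change of the anodyne extension
  let g₂ : E' ⟶ pullback p d.p := sq₁.lift g (p' ≫ d.i) (by rw [sq.w, Category.assoc, d.fac])
  have hg₂₁ : g₂ ≫ pullback.fst p d.p = g := sq₁.lift_fst _ _ _
  have hg₂₂ : g₂ ≫ pullback.snd p d.p = p' ≫ d.i := sq₁.lift_snd _ _ _
  have sq₂ : IsPullback g₂ p' (pullback.snd p d.p) d.i :=
    IsPullback.of_right (by rw [hg₂₁, d.fac]; exact sq) hg₂₂ sq₁
  obtain ⟨r, H, hr, h₀, h₁, h₂⟩ := exists_sdr hi
  have hg₂ : whe g₂ := whe_of_isPullback_sdr hr h₀ h₁ h₂ sq₂ (kanFib_pullback_snd hp d.p)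
  rw [← hg₂₁]
  exact hg₂.comp hg₁

/-- If `j : 𝟭 ⟶ E` consists of weak equivalences, then `E` preserves and reflects weak
equivalences. -/
lemma whe_map_iff_of_natTrans {E : SSet.{u} ⥤ SSet.{u}} (j : 𝟭 _ ⟶ E)
    (hj : ∀ X, whe (j.app X)) {X Y : SSet.{u}} (p : X ⟶ Y) : whe (E.map p) ↔ whe p := by
  have h := j.naturality p
  dsimp at h
  constructor
  · intro h'
    refine (hj Y).cancel_post ?_
    rw [h]
    exact (hj X).comp h'
  · intro h'
    refine (hj X).cancel_pre ?_
    rw [← h]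
    exact h'.comp (hj Y)

/-- The Kan-Quillen model structure is right proper. -/
theorem isRightProper_sSet : IsRightProper whe.{u} kanFib := by
  intro P X Y B g p' p f sq hp hf
  have hnat : ∀ {X Y : SSet.{u}} (p : X ⟶ Y), whe (exInf.map p) ↔ whe p := fun {X Y} p =>
    whe_map_iff_of_natTrans toExInf (fun X => anodyne_le_whe _ (anodyne_toExInf X)) p
  rw [← hnat]
  exact whe_of_isPullback_of_kanComplex ((hnat f).2 hf) (sq.map exInf) (kanFib_exInf p hp)

section

variable {D : Type (u + 1)} [Category.{v} D] (N : D ⥤ SSet.{u})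

/-- Right properness of the Thomason classes. -/
theorem isRightProper_thomason [PreservesLimitsOfShape WalkingCospan N] :
    IsRightProper (thW N) (thF N) := by
  intro P X Y B g p' p f sq hp hf
  have hex : ∀ {X Y : SSet.{u}} (p : X ⟶ Y), whe (SSet.ex.map p) ↔ whe p := fun {X Y} p =>
    whe_map_iff_of_natTrans toEx (fun X => anodyne_le_whe _ (anodyne_toEx X)) p
  have h₁ : ∀ {X Y : D} (f : X ⟶ Y), whe (SSet.ex.map (SSet.ex.map (N.map f))) ↔ whe (N.map f) :=
    fun f => by rw [hex, hex]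
  have sq' := ((sq.map N).map SSet.ex).map SSet.ex
  exact (h₁ g).1 (isRightProper_sSet _ _ _ _ sq' hp ((h₁ f).2 hf))

end

end Vale.Agent.P213
end

section

/-!
Cofibrant generation of the Thomason classes.
-/

open CategoryTheory HomotopicalAlgebra Simplicial MonoidalCategory Limits MorphismProperty

universe v u

namespace Vale.Agent.P213

/-- Cofibrant generation by small sets of morphisms between finitely presentable objects: the
trivial fibrations and the fibrations are the classes with the right lifting property against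
a small set `I` (generating cofibrations), respectively a small set `J` (generating trivial
cofibrations). -/
def IsFinitelyCofibrantlyGenerated {D : Type (u + 1)} [Category.{u} D]
    (w fib : MorphismProperty D) : Prop :=
  ∃ I J : MorphismProperty D, MorphismProperty.IsSmall.{u} I ∧ MorphismProperty.IsSmall.{u} J ∧
    (∀ ⦃A B : D⦄ (f : A ⟶ B), I f → IsFinitelyPresentable.{u} A ∧ IsFinitelyPresentable.{u} B) ∧
    (∀ ⦃A B : D⦄ (f : A ⟶ B), J f → IsFinitelyPresentable.{u} A ∧ IsFinitelyPresentable.{u} B) ∧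
    I.rlp = fib ⊓ w ∧ J.rlp = fib

namespace AS

section

attribute [local instance] Cardinal.fact_isRegular_aleph0
  Cardinal.orderBotAleph0OrdToType

variable {D : Type (u + 1)} [Category.{u} D] {c : SSet.{u} ⥤ D} {N : D ⥤ SSet.{u}}
  (adj : c ⊣ N) [PreservesFilteredColimitsOfSize.{u, u} N]

include adj

/-- The Thomason classes are cofibrantly generated. -/
theorem isFinitelyCofibrantlyGenerated :
    IsFinitelyCofibrantlyGenerated (thW N) (thF N) := by
  have : PreservesFilteredColimitsOfSize.{u, u} (N ⋙ (SSet.ex ⋙ SSet.ex)) := inferInstance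
  refine ⟨genI ((SSet.sd ⋙ SSet.sd) ⋙ c), genJ ((SSet.sd ⋙ SSet.sd) ⋙ c), inferInstance,
    inferInstance, ?_, ?_, ?_, rlp_genJ (adj₂ adj)⟩
  · rintro _ _ _ ⟨m⟩
    exact ⟨isFinitelyPresentable_obj (adj₂ adj) _, isFinitelyPresentable_obj (adj₂ adj) _⟩
  · intro A B f hf
    simp only [genJ, iSup_iff] at hf
    obtain ⟨m, ⟨i⟩⟩ := hf
    exact ⟨isFinitelyPresentable_obj (adj₂ adj) _, isFinitelyPresentable_obj (adj₂ adj) _⟩
  · rw [rlp_genI (adj₂ adj)]
    ext X Y f
    exact (thF_thW_iff f).symm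

end

end AS

end Vale.Agent.P213
end

section

/-!
Properness, cofibrant generation and local presentability for the Thomason classes on strict
`n`-categories.
-/

open CategoryTheory HomotopicalAlgebra Simplicial MonoidalCategory Limits

namespace Vale.Agent.P213

attribute [local instance] Cardinal.fact_isRegular_aleph0

/-- The Thomason model structure on strict `n`-categories is left proper. -/
theorem isLeftProper_nerveN {n : ℕ∞} (hn : 1 ≤ n) :
    IsLeftProper (thC (nerveN n)) (thW (nerveN n)) := by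
  let adj := Adjunction.ofIsRightAdjoint (nerveN n)
  exact isLeftProper_thomason adj (fun m => good_boundary (modelAxioms_nerveN hn adj) m)

/-- The Thomason model structure on strict `n`-categories is right proper. -/
theorem isRightProper_nerveN (n : ℕ∞) :
    IsRightProper (thW (nerveN n)) (thF (nerveN n)) := by
  have : PreservesLimitsOfSize.{0, 0} (nerveN n) :=
    (Adjunction.ofIsRightAdjoint (nerveN n)).rightAdjoint_preservesLimits
  exact isRightProper_thomason _

/-- The Thomason model structure on strict `n`-categories is cofibrantly generated. -/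
theorem isFinitelyCofibrantlyGenerated_nerveN (n : ℕ∞) :
    IsFinitelyCofibrantlyGenerated (thW (nerveN n)) (thF (nerveN n)) :=
  AS.isFinitelyCofibrantlyGenerated (Adjunction.ofIsRightAdjoint (nerveN n))

/-- The Thomason statement for strict `n`-categories, together with completeness and
cocompleteness, properness, cofibrant generation and local presentability. -/
theorem isThomason_nerveN_full {n : ℕ∞} (hn : 1 ≤ n) :
    IsThomason (nerveN n) ∧ HasLimits (NCat.{0} n) ∧ HasColimits (NCat.{0} n) ∧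
      IsLeftProper (thC (nerveN n)) (thW (nerveN n)) ∧
      IsRightProper (thW (nerveN n)) (thF (nerveN n)) ∧
      IsFinitelyCofibrantlyGenerated (thW (nerveN n)) (thF (nerveN n)) ∧
      IsCardinalLocallyPresentable (NCat.{0} n) Cardinal.aleph0.{0} :=
  ⟨isThomason_nerveN hn, inferInstance, inferInstance, isLeftProper_nerveN hn,
    isRightProper_nerveN n, isFinitelyCofibrantlyGenerated_nerveN n,
    NCat.isLocallyFinitelyPresentable⟩

end Vale.Agent.P213
end

section

/-!
Properness, local presentability and generating sets for the second statement layer.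
-/

open CategoryTheory HomotopicalAlgebra Simplicial Limits
open SSet.modelCategoryQuillen

namespace Vale.Agent.P213.SX

section

variable {D D' : Type 1} [Category.{0} D] [Category.{0} D'] (F : D' ⥤ D) [F.IsEquivalence]

lemma isProper_inverseImage {cof w fib : MorphismProperty D} (h : IsProper cof w fib) :
    IsProper (cof.inverseImage F) (w.inverseImage F) (fib.inverseImage F) := by
  intro A B A' B' t l r b
  refine ⟨fun h1 h2 h3 => ?_, fun h1 h2 h3 => ?_⟩
  · exact (h _ _ _ _ _ _ _ _).1 (h1.map F) h2 h3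
  · exact (h _ _ _ _ _ _ _ _).2 (h1.map F) h2 h3

end

lemma isProper_nerveN {n : ℕ∞} (hn : 1 ≤ n) :
    IsProper (P213.thC (nerveN n)) (P213.thW (nerveN n)) (P213.thF (nerveN n)) := by
  intro A B A' B' t l r b
  exact ⟨fun h1 h2 h3 => isLeftProper_nerveN hn t l r b h1 h2 h3,
    fun h1 h2 h3 => isRightProper_nerveN n l t b r h1.flip h2 h3⟩

attribute [local instance] Cardinal.fact_isRegular_aleph0 in
lemma isLocallyPresentable_of_equiv {D' : Type 1} [Category.{0} D'] {n : ℕ∞}
    (e : D' ≌ P213.NCat.{0} n) : IsLocallyPresentable.{0} D' := by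
  have : IsCardinalLocallyPresentable (P213.NCat.{0} n) Cardinal.aleph0.{0} :=
    NCat.isLocallyFinitelyPresentable
  have : IsLocallyPresentable.{0} (P213.NCat.{0} n) := ⟨Cardinal.aleph0.{0}, inferInstance, this⟩
  exact e.symm.isLocallyPresentable

section

variable {D : Type 1} [Category.{0} D] {N : D ⥤ SSet.{0}}

lemma rlp_map {L : SSet.{0} ⥤ D} {R : D ⥤ SSet.{0}} (adj : L ⊣ R)
    (P : MorphismProperty SSet.{0}) : (P.map L).rlp = P.rlp.inverseImage R := by
  ext X Y p
  constructor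
  · intro h A B i hi
    rw [← adj.hasLiftingProperty_iff]
    exact h _ (P.map_mem_map L i hi)
  · rintro h A B i ⟨A', B', i', hi', ⟨e⟩⟩
    have := (adj.hasLiftingProperty_iff i' p).2 (h _ hi')
    exact HasLiftingProperty.of_arrow_iso_left e p

lemma rlp_I {c : SSet.{0} ⥤ D} (h : c ⊣ N) :
    (I.map ((SSet.sd ⋙ SSet.sd) ⋙ c)).rlp = SX.thF N ⊓ SX.thW N := by
  rw [rlp_map (St.sdEx2.comp h)]
  ext X Y f
  refine (AS.thF_thW_iff f).symm.trans ?_
  rw [P213.thW, St.whe_eq]
  rfl

lemma rlp_J {c : SSet.{0} ⥤ D} (h : c ⊣ N) :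
    (J.map ((SSet.sd ⋙ SSet.sd) ⋙ c)).rlp = SX.thF N :=
  rlp_map (St.sdEx2.comp h) J

end

end Vale.Agent.P213.SX
end

section

/-!
The main theorem with properness and combinatoriality, in terms of the second layer of
statement-level definitions.
-/

open CategoryTheory HomotopicalAlgebra Simplicial

namespace Vale.Agent.P213.SX

attribute [local instance] opsOf

/-- The equivalence with the internal category. -/
noncomputable abbrev toRealSX (n : ℕ∞) : SX.NCat n ⥤ P213.NCat.{0} n := toSt n ⋙ St.toReal n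

/-- The nerve. -/
noncomputable abbrev nerveSX (n : ℕ∞) : SX.NCat n ⥤ SSet.{0} := toRealSX n ⋙ nerveN n

theorem isStreetNerve_nerveSX (n : ℕ∞) :
    St.IsStreetNerve (fun X : SX.NCat n => X.C) (fun _ _ => Fun.toFun) (nerveSX n)
      (fun X m => St.evSt (X := (toSt n).obj X) m) where
  inj X m := (St.isStreetNerve_nerveSt n).inj ((toSt n).obj X) m
  surj X m f := (St.isStreetNerve_nerveSt n).surj ((toSt n).obj X) m f
  nat X Y φ m s x := (St.isStreetNerve_nerveSt n).nat _ _ ((toSt n).map φ) m s x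
  nat' X m k θ s x y h := (St.isStreetNerve_nerveSt n).nat' ((toSt n).obj X) m k θ s x y h

theorem main (n : ℕ∞) (hn : 1 ≤ n) :
    (∃ N : NCat n ⥤ SSet.{0}, IsStreetNerve id (fun _ _ => Fun.toFun) N) ∧
    ∀ N : NCat n ⥤ SSet.{0}, IsStreetNerve id (fun _ _ => Fun.toFun) N → IsThomason N := by
  have h0 := isStreetNerve_nerveSX n
  refine ⟨⟨nerveSX n, isStreetNerve_of (U := id) h0⟩, fun N hN => ?_⟩
  obtain ⟨ev, h1⟩ := hN.toSt
  let e : nerveSX n ≅ N := St.isoN h0 h1
  have hT : St.IsThomason N := St.isThomason_of_iso e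
    (St.isThomason_of_equiv (toRealSX n).asEquivalence (isThomason_nerveN hn))
  have eW : thW N = (P213.thW (nerveN n)).inverseImage (toRealSX n) :=
    (St.thW_iso e).symm.trans (St.thW_transport _)
  have eF : thF N = (P213.thF (nerveN n)).inverseImage (toRealSX n) :=
    (St.thF_iso e).symm.trans (St.thF_transport _)
  have eC : thC N = (P213.thC (nerveN n)).inverseImage (toRealSX n) :=
    (St.thC_iso e).symm.trans (St.thC_transport _)
  refine ⟨hT.1, hT.2.1, ?_, ?_, hT.2.2.1, fun c h => ⟨hT.2.2.2 c h, ?_, ?_⟩⟩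
  · rw [eW, eF, eC]
    exact isProper_inverseImage _ (isProper_nerveN hn)
  · exact isLocallyPresentable_of_equiv (toRealSX n).asEquivalence
  · exact rlp_I h
  · exact rlp_J h

end Vale.Agent.P213.SX
end
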