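import Vale.Agent.P213.Bdl.B2

set_option linter.all false

section

/-!
Swap lemmas, normal forms, uniqueness of values.
-/

universe u v w

namespace Vale.Agent.P213

open OmegaStr

namespace Steiner

variable {K : BCx} (hK : Steiner K) {Z : Type v} [OmegaStr Z]

open BCx

theorem isDim_of_top {p : ℕ} {c : Cell K} (hc : IsDim (p + 1) c)
    (h : ∀ e, K.dim e = p + 1 → c.val false e = 0) : IsDim p c := by
  rw [Cell.isDim_iff] at hc ⊢
  constructor
  · intro a e he
    by_cases h1 : K.dim e = p + 1
    · cases a
      · exact h e h1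
      · rw [hc.2 e h1, h e h1]
    · exact hc.1 a e (by omega)
  · intro e he
    have h1 : K.bdry (c.val false) e = c.val true e - c.val false e := by rw [c.bdry_val]; rfl
    have h2 : K.bdry (c.val false) e = K.bdry 0 e := by
      apply bdry_congr
      intro e' he'
      rw [h e' (by omega)]; rfl
    rw [h2, map_zero] at h1
    have h3 : (0 : K.B →₀ ℤ) e = 0 := rfl
    omega

include hK in
theorem bd_pos_of_dim_one {m : K.B} (hm : K.dim m = 1) : ∃ e, 0 < K.bd m e := by
  by_contra hcon
  push Not at hcon
  have h1 : ∀ e, K.dim e = 0 → (hK.atom m).val true e = 0 := by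
    intro e he
    by_contra hne
    have h2 := hK.atom_disj m e (by omega)
    have h3 : (0 : ℤ) ≤ (hK.atom m).val true e := (hK.atom m).nonneg true e
    have h4 := hK.atom_bdry false m e
    obtain ⟨c, hc, hce⟩ := exists_pos ((hK.atom m).nonneg false) (e := e) (by omega)
    have h5 := K.bd_dim c e hce.ne'
    by_cases h6 : c = m
    · subst h6
      exact absurd hce (not_lt.2 (hcon e))
    · rw [hK.atom_eq_zero (by omega) h6] at hc
      exact lt_irrefl _ hc
  have h2 : K.aug ((hK.atom m).val true) = 0 := by
    apply aug_eq_zero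
    intro c hc h0
    exact hc (h1 c h0)
  rw [(hK.atom m).aug_val] at h2
  exact one_ne_zero h2

include hK in
theorem bd_neg_of_dim_one {m : K.B} (hm : K.dim m = 1) : ∃ e, K.bd m e < 0 := by
  by_contra hcon
  push Not at hcon
  have h1 : ∀ e, K.dim e = 0 → (hK.atom m).val false e = 0 := by
    intro e he
    by_contra hne
    have h2 := hK.atom_disj m e (by omega)
    have h3 : (0 : ℤ) ≤ (hK.atom m).val false e := (hK.atom m).nonneg false e
    have h4 := hK.atom_bdry true m e
    obtain ⟨c, hc, hce⟩ := exists_neg ((hK.atom m).nonneg true) (e := e) (by omega)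
    have h5 := K.bd_dim c e hce.ne
    by_cases h6 : c = m
    · subst h6
      exact absurd hce (not_lt.2 (hcon e))
    · rw [hK.atom_eq_zero (by omega) h6] at hc
      exact lt_irrefl _ hc
  have h2 : K.aug ((hK.atom m).val false) = 0 := by
    apply aug_eq_zero
    intro c hc h0
    exact hc (h1 c h0)
  rw [(hK.atom m).aug_val] at h2
  exact one_ne_zero h2

theorem zero_right {b : K.B} (hb : 0 < K.dim b) {c : Cell K}
    (htop : ∀ e, K.dim e = 1 → c.val false e ≠ 0 → hK.ord.le b e)
    (h : d true 0 c = d false 0 (hK.atom b)) : ∀ e, K.dim e = 1 → c.val false e = 0 := by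
  classical
  let _ := hK.ord
  by_contra hcon
  push Not at hcon
  obtain ⟨e0, he0, he0'⟩ := hcon
  obtain ⟨u, hu⟩ : ∃ u : K.B →₀ ℤ, u = K.part (· = 1) (c.val false) := ⟨_, rfl⟩
  have hu0 : ∀ e, u e = if K.dim e = 1 then c.val false e else 0 := by
    intro e; rw [hu, part_apply]
  have hne : u.support.Nonempty := ⟨e0, by rw [Finsupp.mem_support_iff, hu0, if_pos he0]; exact he0'⟩
  obtain ⟨m, hm, hmax⟩ := u.support.exists_max_image (fun x => x) hne
  have hm1 : K.dim m = 1 ∧ c.val false m ≠ 0 := by
    rw [Finsupp.mem_support_iff, hu0] at hm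
    split_ifs at hm with h1
    · exact ⟨h1, hm⟩
    · exact absurd rfl hm
  obtain ⟨e, he⟩ := bd_pos_of_dim_one hK hm1.1
  have hed := K.bd_dim m e he.ne'
  have hun : 0 ≤ u := by rw [hu]; exact part_nonneg _ (c.nonneg false)
  have h1 : 0 < K.bdry u e := by
    rw [bdry_apply]
    apply Finset.sum_pos'
    · intro c' hc'
      have h2 : (0 : ℤ) ≤ u c' := hun c'
      apply mul_nonneg h2
      by_contra h3
      have h4 : e < c' := hK.lt_of_neg c' e (not_le.1 h3)
      have h5 : c' ≤ m := hmax c' hc'
      have h6 : m < e := hK.lt_of_pos m e he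
      exact absurd (h6.trans h4) (not_lt.2 h5)
    · refine ⟨m, hm, mul_pos ?_ he⟩
      have h2 : (0 : ℤ) ≤ u m := hun m
      exact lt_of_le_of_ne h2 (Ne.symm (Finsupp.mem_support_iff.1 hm))
  have h2 : K.bdry (c.val false) e = c.val true e - c.val false e := by rw [c.bdry_val]; rfl
  have h3 : K.bdry (c.val false) e = K.bdry u e := by
    apply bdry_congr
    intro e' he'
    rw [hu0, if_pos (by omega)]
  have h4 : (0 : ℤ) ≤ c.val false e := c.nonneg false e
  have h5 := congrArg (fun z : Cell K => z.val false e) h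
  simp only [Cell.d_eq, Cell.dd_val_apply] at h5
  rw [if_neg (by omega), if_pos (by omega), if_neg (by omega), if_pos (by omega)] at h5
  have h6 : e < b := hK.atom_src_lt (by omega) (by omega)
  have h7 : b ≤ m := htop m hm1.1 hm1.2
  have h8 : m < e := hK.lt_of_pos m e he
  exact absurd (h8.trans h6) (not_lt.2 h7)

theorem zero_left {b : K.B} (hb : 0 < K.dim b) {c : Cell K}
    (htop : ∀ e, K.dim e = 1 → c.val false e ≠ 0 → hK.ord.le e b)
    (h : d true 0 (hK.atom b) = d false 0 c) : ∀ e, K.dim e = 1 → c.val false e = 0 := by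
  classical
  let _ := hK.ord
  by_contra hcon
  push Not at hcon
  obtain ⟨e0, he0, he0'⟩ := hcon
  obtain ⟨u, hu⟩ : ∃ u : K.B →₀ ℤ, u = K.part (· = 1) (c.val false) := ⟨_, rfl⟩
  have hu0 : ∀ e, u e = if K.dim e = 1 then c.val false e else 0 := by
    intro e; rw [hu, part_apply]
  have hne : u.support.Nonempty := ⟨e0, by rw [Finsupp.mem_support_iff, hu0, if_pos he0]; exact he0'⟩
  obtain ⟨m, hm, hmin⟩ := u.support.exists_min_image (fun x => x) hne
  have hm1 : K.dim m = 1 ∧ c.val false m ≠ 0 := by
    rw [Finsupp.mem_support_iff, hu0] at hm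
    split_ifs at hm with h1
    · exact ⟨h1, hm⟩
    · exact absurd rfl hm
  obtain ⟨e, he⟩ := bd_neg_of_dim_one hK hm1.1
  have hed := K.bd_dim m e he.ne
  have hun : 0 ≤ u := by rw [hu]; exact part_nonneg _ (c.nonneg false)
  have h1 : K.bdry u e < 0 := by
    rw [bdry_apply, ← neg_pos, ← Finset.sum_neg_distrib]
    apply Finset.sum_pos'
    · intro c' hc'
      have h2 : (0 : ℤ) ≤ u c' := hun c'
      rw [← mul_neg]
      apply mul_nonneg h2
      by_contra h3
      have h4 : c' < e := hK.lt_of_pos c' e (by omega)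
      have h5 : m ≤ c' := hmin c' hc'
      have h6 : e < m := hK.lt_of_neg m e he
      exact absurd (h4.trans h6) (not_lt.2 h5)
    · refine ⟨m, hm, ?_⟩
      rw [← mul_neg]
      have h2 : (0 : ℤ) ≤ u m := hun m
      exact mul_pos (lt_of_le_of_ne h2 (Ne.symm (Finsupp.mem_support_iff.1 hm))) (by omega)
  have h2 : K.bdry (c.val false) e = c.val true e - c.val false e := by rw [c.bdry_val]; rfl
  have h3 : K.bdry (c.val false) e = K.bdry u e := by
    apply bdry_congr
    intro e' he'
    rw [hu0, if_pos (by omega)]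
  have h4 : (0 : ℤ) ≤ c.val true e := c.nonneg true e
  have h5 := congrArg (fun z : Cell K => z.val false e) h
  simp only [Cell.d_eq, Cell.dd_val_apply] at h5
  rw [if_neg (by omega), if_pos (by omega), if_neg (by omega), if_pos (by omega)] at h5
  have h6 : b < e := hK.atom_tgt_lt (by omega) (by omega)
  have h7 : m ≤ b := htop m hm1.1 hm1.2
  have h8 : e < m := hK.lt_of_neg m e he
  exact absurd (h6.trans h8) (not_lt.2 h7)

variable {n : ℕ} {F : PFun (Cell K) Z n} {b : K.B} {z : Z}

/-- Existence of sorted decompositions at level `p`. -/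
def Norm (F : PFun (Cell K) Z n) (b : K.B) (z : Z) : ℕ → Prop
  | 0 => True
  | q + 1 => ∀ (w : Cell K) (v : Z), Ev hK F b z (q + 1) w v →
      ∃ (L R w' : Cell K) (v' : Z), Ev hK F b z q w' v' ∧ IsDim (q + 1) L ∧
      IsDim (q + 1) R ∧ d true q L = d false q w' ∧ d true q w' = d false q R ∧
      w = tc q L (tc q w' R) ∧ v = tc q (F.toFun L) (tc q v' (F.toFun R)) ∧
      (∀ e, K.dim e = q + 1 → L.val false e ≠ 0 → hK.ord.lt e b) ∧
      (∀ e, K.dim e = q + 1 → R.val false e ≠ 0 → hK.ord.le b e)

set_option maxHeartbeats 400000 in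
/-- Swap a cell with large tops past a reduced cell, to the right. -/
theorem swR (hg : Good hK F b z) {p : ℕ} (hp : p + 1 ≤ n) (hN : Norm hK F b z p)
    {c w : Cell K} {v : Z} (hc : IsDim (p + 1) c)
    (htop : ∀ e, K.dim e = p + 1 → c.val false e ≠ 0 → hK.ord.le b e)
    (hev : Ev hK F b z p w v) (h : d true p c = d false p w) :
    ∃ (w'' M : Cell K) (v'' : Z), Ev hK F b z p w'' v'' ∧ IsDim (p + 1) M ∧
      d true p w'' = d false p M ∧ tc p c w = tc p w'' M ∧
      tc p (F.toFun c) v = tc p v'' (F.toFun M) := by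
  classical
  let _ := hK.ord
  have hb := hg.dim_b
  have hdw := fun a {i : ℕ} (hi : i ≤ n) => Ev.d_eq hK hg (by omega : p ≤ n) hev a hi
  rcases p with _ | q
  · obtain ⟨rfl, rfl⟩ := hev
    have h1 := zero_right hK (by omega) htop h
    have h2 : IsDim 0 c := isDim_of_top hc h1
    have h3 : c = d false 0 (hK.atom b) := by rw [← h, h2.d_eq true le_rfl]
    refine ⟨hK.atom b, d true 0 (hK.atom b), v, ⟨rfl, rfl⟩, (isDim_d _ _ _).mono (by omega),
      (dd_le le_rfl).symm, ?_, ?_⟩
    · rw [h3, src_tc_id, tc_tgt_id]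
    · rw [h3, ← hdw false (by omega), ← hdw true (by omega), src_tc_id, tc_tgt_id]
  · obtain ⟨L, R, β, vβ, hevβ, hL, hR, h1, h2, rfl, rfl, hLt, hRt⟩ := hN w v hev
    obtain ⟨-, -, hred, -⟩ := Ev.isDim hK hg (by omega : q ≤ n) hevβ
    have hdβ := fun a {i : ℕ} (hi : i ≤ n) => Ev.d_eq hK hg (by omega : q ≤ n) hevβ a hi
    have hqq : q < q + 1 := by omega
    have hLβ : d true q L = d false q (d false (q + 1) β) := by rw [dd_lt hqq, h1]
    have hLβR : d true q L = d false q (tc q β R) := by rw [src_tc h2, h1]
    obtain ⟨U, hU⟩ : ∃ U : Cell K, U = tc q L (d false (q + 1) β) := ⟨_, rfl⟩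
    have hUd : IsDim (q + 1) U := by rw [hU]; exact hL.tc (isDim_d _ _ _) hLβ
    -- pointwise facts
    have f1 : ∀ a e, (U.val a) e = L.val a e - (L.dd true q).val a e +
        (β.dd false (q + 1)).val a e := by
      intro a e
      rw [hU, Cell.tc_val hLβ]; rfl
    have f2 : ∀ a e, (tc q L (tc q β R)).val a e = L.val a e - (L.dd true q).val a e +
        (β.val a e - (β.dd true q).val a e + R.val a e) := by
      intro a e
      rw [Cell.tc_val hLβR, Cell.tc_val h2]; rfl
    have f3 : ∀ a e, (c.dd true (q + 1)).val a e =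
        ((tc q L (tc q β R)).dd false (q + 1)).val a e := fun a e =>
      congrArg (fun z : Cell K => z.val a e) h
    have f4 : ∀ a e, (L.dd true q).val a e = (β.dd false q).val a e := fun a e =>
      congrArg (fun z : Cell K => z.val a e) h1
    have f5 : ∀ a e, (β.dd true q).val a e = (R.dd false q).val a e := fun a e =>
      congrArg (fun z : Cell K => z.val a e) h2
    simp only [Cell.dd_val_apply, f2] at f1 f3 f4 f5
    have cL := Cell.isDim_iff.1 hL
    have cR := Cell.isDim_iff.1 hR
    have cU := Cell.isDim_iff.1 hUd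
    have cc := Cell.isDim_iff.1 hc
    have hneg : ∀ e, K.dim e = q + 1 → 0 ≤ c.val false e - U.val false e := by
      intro e he
      have g1 := f1 false e
      have g3 := f3 false e
      rw [if_neg (by omega), if_neg (by omega), if_neg (by omega), if_pos he] at g1
      rw [if_neg (by omega), if_pos he, if_neg (by omega), if_pos he, if_neg (by omega),
        if_neg (by omega), if_neg (by omega), if_neg (by omega)] at g3
      by_contra hcon
      have g4 : K.bdry (c.val false) e = c.val true e - c.val false e := by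
        rw [c.bdry_val]; rfl
      have g5 : (0 : ℤ) ≤ R.val false e := R.nonneg false e
      have g6 : 0 < K.bdry (K.part (· = q + 2) (c.val false)) e := by
        have : K.bdry (K.part (· = q + 2) (c.val false)) e = K.bdry (c.val false) e := by
          apply bdry_congr
          intro e' he'
          rw [part_apply, if_pos (by omega)]
        omega
      obtain ⟨c', hc', hce'⟩ := exists_pos (part_nonneg _ (c.nonneg false)) g6
      rw [part_apply] at hc'
      split_ifs at hc' with h7
      · have h8 : b ≤ c' := htop c' (by omega) (by omega)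
        have h9 : c' < e := hK.lt_of_pos c' e hce'
        have h10 : L.val false e = 0 := by
          by_contra hne
          have : e < b := hLt e he hne
          exact absurd (h9.trans this) (not_lt.2 h8)
        have h11 : β.val false e = 0 := by
          rw [hred false e (by omega)]
          by_contra hne
          have : e < b := hK.atom_src_lt (by omega) hne
          exact absurd (h9.trans this) (not_lt.2 h8)
        have h12 : (0 : ℤ) ≤ c.val false e := c.nonneg false e
        omega
      · exact lt_irrefl _ hc'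
    obtain ⟨ρ, hρ⟩ : ∃ ρ : Cell K, ∀ a e, ρ.val a e = c.val a e - U.val a e +
        (U.dd true q).val a e := by
      refine ⟨⟨fun a => c.val a - U.val a + (U.dd true q).val a, ?_, ?_, ?_⟩, fun a e => rfl⟩
      · intro a e
        change (0 : ℤ) ≤ c.val a e - U.val a e + (U.dd true q).val a e
        rw [Cell.dd_val_apply]
        have g0 := hneg e
        have g1 := f1 a e
        have g3 := f3 a e
        have g4 := f4 a e
        have g5 := f5 a e
        have n1 : (0 : ℤ) ≤ c.val a e := c.nonneg a e
        have n2 : (0 : ℤ) ≤ U.val a e := U.nonneg a e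
        have n3 : (0 : ℤ) ≤ U.val true e := U.nonneg true e
        have n4 : (0 : ℤ) ≤ R.val false e := R.nonneg false e
        have n5 := cL.2 e
        have n6 := cR.2 e
        have n7 := cU.1 a e
        have n8 := cc.1 a e
        have n9 := cL.1 a e
        cases a <;> split_ifs at g1 g3 g4 g5 ⊢ <;> omega
      · intro a
        simp only [map_add, map_sub, c.bdry_val, U.bdry_val, (U.dd true q).bdry_val]
        abel
      · intro a
        simp only [map_add, map_sub, c.aug_val, U.aug_val, (U.dd true q).aug_val]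
        norm_num
    have k1 : d true q U = d false q ρ := by
      apply Cell.ext
      funext a
      ext e
      rw [Cell.d_eq, Cell.d_eq, Cell.dd_val_apply, Cell.dd_val_apply, hρ, hρ,
        Cell.dd_val_apply, Cell.dd_val_apply]
      have g1 := f1 a e
      have g1' := f1 false e
      have g3 := f3 a e
      have g3' := f3 false e
      have g4 := f4 a e
      have g4' := f4 false e
      have g5 := f5 a e
      cases a <;> split_ifs at g1 g1' g3 g3' g4 g4' g5 ⊢ <;> omega
    have k2 : c = tc q U ρ := by
      apply Cell.ext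
      funext a
      ext e
      rw [Cell.tc_val k1]
      change _ = U.val a e - (U.dd true q).val a e + ρ.val a e
      rw [hρ]
      omega
    have k3 : d true (q + 1) ρ = R := by
      apply Cell.ext
      funext a
      ext e
      rw [Cell.d_eq, Cell.dd_val_apply, hρ, hρ, Cell.dd_val_apply, Cell.dd_val_apply]
      have g1 := f1 a e
      have g1' := f1 true e
      have g3 := f3 a e
      have g3' := f3 true e
      have g4 := f4 a e
      have g4' := f4 true e
      have g5 := f5 a e
      have n5 := cL.2 e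
      have n6 := cR.2 e
      have n7 := cU.1 a e
      have n8 := cR.1 a e
      cases a <;> split_ifs at g1 g1' g3 g3' g4 g4' g5 ⊢ <;> omega
    have k4 : d true q β = d false q ρ := by
      rw [← k1, hU, tgt_tc hLβ, dd_lt hqq]
    have k4' : d true q (d false (q + 1) β) = d false q ρ := by rw [dd_lt hqq, k4]
    have k5 : d true q β = d false q (d false (q + 1) ρ) := by rw [dd_lt hqq, k4]
    have k6 : d true q (d true (q + 1) β) = d false q ρ := by rw [dd_lt hqq, k4]
    have hρd : IsDim (q + 2) ρ := by
      rw [Cell.isDim_iff]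
      constructor
      · intro a e he
        rw [hρ, cc.1 a e he, cU.1 a e (by omega), Cell.dd_val_apply, if_neg (by omega),
          if_neg (by omega)]
        rfl
      · intro e he
        rw [hρ, hρ, cc.2 e he, cU.1 _ e (by omega), cU.1 _ e (by omega), Cell.dd_val_apply,
          if_neg (by omega), if_neg (by omega), Cell.dd_val_apply,
          if_neg (by omega), if_neg (by omega)]
    have hLn : IsDim n L := hL.mono (by omega)
    have hRn : IsDim n R := hR.mono (by omega)
    have hρn : IsDim n ρ := hρd.mono (by omega)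
    have l1 : d true q L = d false q (tc q (d true (q + 1) β) ρ) := by
      rw [src_tc k6, dd_lt hqq, h1]
    have l2 : d true q L = d false q (tc q (d false (q + 1) β) ρ) := by
      rw [src_tc k4', dd_lt hqq, h1]
    have m1 : d true q (F.toFun L) = d false q vβ := by
      rw [hdβ false (by omega), ← h1, F.map_dd hLn]
    have m2 : d true q vβ = d false q (F.toFun ρ) := by
      rw [hdβ true (by omega), k4, F.map_dd hρn]
    refine ⟨tc q L (tc q β (d false (q + 1) ρ)), tc q L (tc q (d true (q + 1) β) ρ),
      tc q (F.toFun L) (tc q vβ (F.toFun (d false (q + 1) ρ))), ?_, ?_, ?_, ?_, ?_⟩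
    · exact ⟨L, d false (q + 1) ρ, β, vβ, hevβ, hL, isDim_d _ _ _, h1, k5, rfl, rfl⟩
    · exact (hL.mono (by omega)).tc (((isDim_d _ _ _).mono (by omega)).tc hρd k6) l1
    · rw [d_tc_gt (by rw [src_tc k5, h1]) hqq, d_tc_gt k5 hqq, d_tc_gt l1 hqq,
        d_tc_gt k6 hqq, dd_le le_rfl, dd_le le_rfl, hL.d_eq _ le_rfl, hL.d_eq _ le_rfl]
    · rw [swap2 hqq hL h1 k4, ← swap1 hqq hL h1 k4, k3]
      congr 1
      rw [k2, hU, tc_assoc hLβ k4']
    · have e1 : F.toFun c = tc q (F.toFun L) (tc q (d false (q + 1) vβ) (F.toFun ρ)) := by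
        conv_lhs => rw [k2, hU, tc_assoc hLβ k4']
        rw [F.map_tc hLn (IsDim.tc ((isDim_d _ _ _).mono (by omega)) hρn k4') l2,
          F.map_tc ((isDim_d _ _ _).mono (by omega)) hρn k4', hdβ false (by omega)]
      have e2 : F.toFun (tc q L (tc q (d true (q + 1) β) ρ)) =
          tc q (F.toFun L) (tc q (d true (q + 1) vβ) (F.toFun ρ)) := by
        rw [F.map_tc hLn (IsDim.tc ((isDim_d _ _ _).mono (by omega)) hρn k6) l1,
          F.map_tc ((isDim_d _ _ _).mono (by omega)) hρn k6, hdβ true (by omega)]
      rw [e1, e2, F.map_dd hρn, swap2 hqq (F.isDim hLn hL) m1 m2,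
        ← swap1 hqq (F.isDim hLn hL) m1 m2, ← F.map_dd hρn, k3]

end Steiner

end Vale.Agent.P213
end

section

/-!
Swap lemmas, normal forms, uniqueness of values.
-/

universe u v w

namespace Vale.Agent.P213

open OmegaStr

namespace Steiner

variable {K : BCx} (hK : Steiner K) {Z : Type v} [OmegaStr Z]

open BCx

variable {n : ℕ} {F : PFun (Cell K) Z n} {b : K.B} {z : Z}

set_option maxHeartbeats 400000 in
/-- Table part of the left swap. -/
theorem tblL {b : K.B} {q : ℕ} (hb : q + 1 < K.dim b) {L R β c : Cell K}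
    (hL : IsDim (q + 1) L) (hR : IsDim (q + 1) R) (hred : Red hK b q β)
    (h1 : d true q L = d false q β) (h2 : d true q β = d false q R)
    (hRt : ∀ e, K.dim e = q + 1 → R.val false e ≠ 0 → hK.ord.le b e) (hc : IsDim (q + 2) c)
    (htop : ∀ e, K.dim e = q + 2 → c.val false e ≠ 0 → hK.ord.le e b)
    (h : d true (q + 1) (tc q L (tc q β R)) = d false (q + 1) c) :
    ∃ l : Cell K, IsDim (q + 2) l ∧ d true q l = d false q (tc q (d true (q + 1) β) R) ∧
      c = tc q l (tc q (d true (q + 1) β) R) ∧ d false (q + 1) l = L := by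
  classical
  let _ := hK.ord
  have hqq : q < q + 1 := by omega
  have hβR : d true q (d true (q + 1) β) = d false q R := by rw [dd_lt hqq, h2]
  have hLβR : d true q L = d false q (tc q β R) := by rw [src_tc h2, h1]
  obtain ⟨V, hV⟩ : ∃ V : Cell K, V = tc q (d true (q + 1) β) R := ⟨_, rfl⟩
  have hVd : IsDim (q + 1) V := by rw [hV]; exact IsDim.tc (isDim_d _ _ _) hR hβR
  -- pointwise facts
  have f1 : ∀ a e, (V.val a) e = (β.dd true (q + 1)).val a e - (β.dd true q).val a e +
      R.val a e := by
    intro a e
    rw [hV, Cell.tc_val hβR, Cell.d_eq, Cell.dd_dd_of_lt _ _ _ _ _ hqq]; rfl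
  have f2 : ∀ a e, (tc q L (tc q β R)).val a e = L.val a e - (L.dd true q).val a e +
      (β.val a e - (β.dd true q).val a e + R.val a e) := by
    intro a e
    rw [Cell.tc_val hLβR, Cell.tc_val h2]; rfl
  have f3 : ∀ a e, ((tc q L (tc q β R)).dd true (q + 1)).val a e =
      (c.dd false (q + 1)).val a e := fun a e =>
    congrArg (fun z : Cell K => z.val a e) h
  have f4 : ∀ a e, (L.dd true q).val a e = (β.dd false q).val a e := fun a e =>
    congrArg (fun z : Cell K => z.val a e) h1
  have f5 : ∀ a e, (β.dd true q).val a e = (R.dd false q).val a e := fun a e =>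
    congrArg (fun z : Cell K => z.val a e) h2
  simp only [Cell.dd_val_apply, f2] at f1 f3 f4 f5
  have cL := Cell.isDim_iff.1 hL
  have cR := Cell.isDim_iff.1 hR
  have cV := Cell.isDim_iff.1 hVd
  have cc := Cell.isDim_iff.1 hc
  have hneg : ∀ e, K.dim e = q + 1 → 0 ≤ c.val true e - V.val true e := by
    intro e he
    have g1 := f1 true e
    have g3 := f3 true e
    rw [if_neg (by omega), if_pos he, if_neg (by omega), if_neg (by omega)] at g1
    rw [if_neg (by omega), if_pos he, if_neg (by omega), if_neg (by omega), if_neg (by omega),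
      if_neg (by omega), if_neg (by omega), if_pos he] at g3
    by_contra hcon
    have g4 : K.bdry (c.val false) e = c.val true e - c.val false e := by
      rw [c.bdry_val]; rfl
    have g5 : (0 : ℤ) ≤ L.val true e := L.nonneg true e
    have g6 : K.bdry (K.part (· = q + 2) (c.val false)) e < 0 := by
      have : K.bdry (K.part (· = q + 2) (c.val false)) e = K.bdry (c.val false) e := by
        apply bdry_congr
        intro e' he'
        rw [part_apply, if_pos (by omega)]
      omega
    obtain ⟨c', hc', hce'⟩ := exists_neg (part_nonneg _ (c.nonneg false)) g6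
    rw [part_apply] at hc'
    split_ifs at hc' with h7
    · have h8 : c' ≤ b := htop c' (by omega) (by omega)
      have h9 : e < c' := hK.lt_of_neg c' e hce'
      have h10 : R.val true e = 0 := by
        rw [cR.2 e he]
        by_contra hne
        have : b ≤ e := hRt e he hne
        exact absurd (h9.trans_le h8) (not_lt.2 this)
      have h11 : β.val true e = 0 := by
        rw [hred true e (by omega)]
        by_contra hne
        have : b < e := hK.atom_tgt_lt (by omega) hne
        exact absurd (h9.trans_le h8) (not_lt.2 this.le)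
      have h12 : (0 : ℤ) ≤ c.val true e := c.nonneg true e
      omega
    · exact lt_irrefl _ hc'
  obtain ⟨l, hl⟩ : ∃ l : Cell K, ∀ a e, l.val a e = c.val a e - V.val a e +
      (V.dd false q).val a e := by
    refine ⟨⟨fun a => c.val a - V.val a + (V.dd false q).val a, ?_, ?_, ?_⟩, fun a e => rfl⟩
    · intro a e
      change (0 : ℤ) ≤ c.val a e - V.val a e + (V.dd false q).val a e
      rw [Cell.dd_val_apply]
      have g0 := hneg e
      have g1 := f1 a e
      have g3 := f3 a e
      have g4 := f4 a e
      have g5 := f5 a e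
      have n1 : (0 : ℤ) ≤ c.val a e := c.nonneg a e
      have n2 : (0 : ℤ) ≤ V.val a e := V.nonneg a e
      have n3 : (0 : ℤ) ≤ V.val false e := V.nonneg false e
      have n4 : (0 : ℤ) ≤ L.val false e := L.nonneg false e
      have n5 := cL.2 e
      have n6 := cR.2 e
      have n7 := cV.1 a e
      have n8 := cc.1 a e
      have n9 := cL.1 a e
      have n10 := cR.1 a e
      cases a <;> split_ifs at g1 g3 g4 g5 ⊢ <;> omega
    · intro a
      simp only [map_add, map_sub, c.bdry_val, V.bdry_val, (V.dd false q).bdry_val]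
      abel
    · intro a
      simp only [map_add, map_sub, c.aug_val, V.aug_val, (V.dd false q).aug_val]
      norm_num
  have k1 : d true q l = d false q V := by
    apply Cell.ext
    funext a
    ext e
    rw [Cell.d_eq, Cell.d_eq, Cell.dd_val_apply, Cell.dd_val_apply, hl, hl,
      Cell.dd_val_apply, Cell.dd_val_apply]
    have g1 := f1 a e
    have g1' := f1 true e
    have g3 := f3 a e
    have g3' := f3 true e
    have g4 := f4 a e
    have g4' := f4 true e
    have g5 := f5 a e
    have g5' := f5 true e
    cases a <;> split_ifs at g1 g1' g3 g3' g4 g4' g5 g5' ⊢ <;> omega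
  have k2 : c = tc q l V := by
    apply Cell.ext
    funext a
    ext e
    rw [Cell.tc_val k1]
    change _ = l.val a e - (l.dd true q).val a e + V.val a e
    have k1' : (l.dd true q).val a e = (V.dd false q).val a e :=
      congrArg (fun z : Cell K => z.val a e) k1
    rw [k1', hl]
    omega
  have k3 : d false (q + 1) l = L := by
    apply Cell.ext
    funext a
    ext e
    rw [Cell.d_eq, Cell.dd_val_apply, hl, hl, Cell.dd_val_apply, Cell.dd_val_apply]
    have g1 := f1 a e
    have g1' := f1 false e
    have g3 := f3 a e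
    have g3' := f3 false e
    have g4 := f4 a e
    have g4' := f4 false e
    have g5 := f5 a e
    have g5' := f5 false e
    have n5 := cL.2 e
    have n6 := cR.2 e
    have n7 := cV.1 a e
    have n8 := cL.1 a e
    cases a <;> split_ifs at g1 g1' g3 g3' g4 g4' g5 g5' ⊢ <;> omega
  have hld : IsDim (q + 2) l := by
    rw [Cell.isDim_iff]
    constructor
    · intro a e he
      rw [hl, cc.1 a e he, cV.1 a e (by omega), Cell.dd_val_apply, if_neg (by omega),
        if_neg (by omega)]
      rfl
    · intro e he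
      rw [hl, hl, cc.2 e he, cV.1 _ e (by omega), cV.1 _ e (by omega), Cell.dd_val_apply,
        if_neg (by omega), if_neg (by omega), Cell.dd_val_apply,
        if_neg (by omega), if_neg (by omega)]
  rw [hV] at k1 k2
  exact ⟨l, hld, k1, k2, k3⟩

set_option maxHeartbeats 400000 in
/-- Swap a cell with small tops past a reduced cell, to the left. -/
theorem swL (hg : Good hK F b z) {p : ℕ} (hp : p + 1 ≤ n) (hN : Norm hK F b z p)
    {c w : Cell K} {v : Z} (hc : IsDim (p + 1) c)
    (htop : ∀ e, K.dim e = p + 1 → c.val false e ≠ 0 → hK.ord.le e b)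
    (hev : Ev hK F b z p w v) (h : d true p w = d false p c) :
    ∃ (w'' M : Cell K) (v'' : Z), Ev hK F b z p w'' v'' ∧ IsDim (p + 1) M ∧
      d true p M = d false p w'' ∧ tc p w c = tc p M w'' ∧
      tc p v (F.toFun c) = tc p (F.toFun M) v'' := by
  classical
  let _ := hK.ord
  have hb := hg.dim_b
  have hdw := fun a {i : ℕ} (hi : i ≤ n) => Ev.d_eq hK hg (by omega : p ≤ n) hev a hi
  rcases p with _ | q
  · obtain ⟨rfl, rfl⟩ := hev
    have h1 := zero_left hK (by omega) htop h
    have h2 : IsDim 0 c := isDim_of_top hc h1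
    have h3 : c = d true 0 (hK.atom b) := by rw [h, h2.d_eq false le_rfl]
    refine ⟨hK.atom b, d false 0 (hK.atom b), v, ⟨rfl, rfl⟩, (isDim_d _ _ _).mono (by omega),
      dd_le le_rfl, ?_, ?_⟩
    · rw [h3, src_tc_id, tc_tgt_id]
    · rw [h3, ← hdw false (by omega), ← hdw true (by omega), src_tc_id, tc_tgt_id]
  · obtain ⟨L, R, β, vβ, hevβ, hL, hR, h1, h2, rfl, rfl, hLt, hRt⟩ := hN w v hev
    obtain ⟨-, -, hred, -⟩ := Ev.isDim hK hg (by omega : q ≤ n) hevβ
    have hdβ := fun a {i : ℕ} (hi : i ≤ n) => Ev.d_eq hK hg (by omega : q ≤ n) hevβ a hi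
    have hqq : q < q + 1 := by omega
    have hβR : d true q (d true (q + 1) β) = d false q R := by rw [dd_lt hqq, h2]
    obtain ⟨l, hld, k1, k2, k3⟩ := tblL hK (by omega) hL hR hred h1 h2 hRt hc htop h
    have k4 : d true q l = d false q β := by
      rw [k1, src_tc hβR, dd_lt hqq]
    have k4' : d true q l = d false q (tc q (d true (q + 1) β) R) := by
      rw [src_tc hβR, dd_lt hqq, k4]
    have k5 : d true q (d true (q + 1) l) = d false q (tc q β R) := by
      rw [dd_lt hqq, k4, src_tc h2]
    have k5' : d true q (d true (q + 1) l) = d false q β := by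
      rw [dd_lt hqq, k4]
    have k6' : d true q (d false (q + 1) β) = d false q R := by rw [dd_lt hqq, h2]
    have k6 : d true q l = d false q (tc q (d false (q + 1) β) R) := by
      rw [src_tc k6', dd_lt hqq, k4]
    have hLn : IsDim n L := hL.mono (by omega)
    have hRn : IsDim n R := hR.mono (by omega)
    have hln : IsDim n l := hld.mono (by omega)
    have m1 : d true q (F.toFun l) = d false q vβ := by
      rw [hdβ false (by omega), ← k4, F.map_dd hln]
    have m2 : d true q vβ = d false q (F.toFun R) := by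
      rw [hdβ true (by omega), h2, F.map_dd hRn]
    refine ⟨tc q (d true (q + 1) l) (tc q β R), tc q l (tc q (d false (q + 1) β) R),
      tc q (F.toFun (d true (q + 1) l)) (tc q vβ (F.toFun R)), ?_, ?_, ?_, ?_, ?_⟩
    · exact ⟨d true (q + 1) l, R, β, vβ, hevβ, isDim_d _ _ _, hR, k5', h2, rfl, rfl⟩
    · exact hld.tc (((isDim_d _ _ _).mono (by omega)).tc (hR.mono (by omega)) k6') k6
    · rw [d_tc_gt k6 hqq, d_tc_gt k6' hqq, d_tc_gt k5 hqq,
        d_tc_gt h2 hqq, dd_le le_rfl, dd_le le_rfl, hR.d_eq _ le_rfl, hR.d_eq _ le_rfl]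
    · rw [swap4 hqq hR k4 h2, ← swap3 hqq hR k4 h2, k3]
      congr 1
    · have e1 : F.toFun c = tc q (F.toFun l) (tc q (d true (q + 1) vβ) (F.toFun R)) := by
        conv_lhs => rw [k2]
        rw [F.map_tc hln (IsDim.tc ((isDim_d _ _ _).mono (by omega)) hRn hβR) k4',
          F.map_tc ((isDim_d _ _ _).mono (by omega)) hRn hβR, hdβ true (by omega)]
      have e2 : F.toFun (tc q l (tc q (d false (q + 1) β) R)) =
          tc q (F.toFun l) (tc q (d false (q + 1) vβ) (F.toFun R)) := by
        rw [F.map_tc hln (IsDim.tc ((isDim_d _ _ _).mono (by omega)) hRn k6') k6,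
          F.map_tc ((isDim_d _ _ _).mono (by omega)) hRn k6', hdβ false (by omega)]
      rw [e1, e2, F.map_dd hln, swap4 hqq (F.isDim hRn hR) m1 m2,
        ← swap3 hqq (F.isDim hRn hR) m1 m2, ← F.map_dd hln, k3]

end Steiner

end Vale.Agent.P213
end

section

/-!
Normal forms, uniqueness of values.
-/

universe u v w

namespace Vale.Agent.P213

open OmegaStr

namespace Steiner

variable {K : BCx} (hK : Steiner K) {Z : Type v} [OmegaStr Z]

open BCx

/-- Splitting the tops of a cell at a threshold. -/
theorem topSplitLt {q : ℕ} {x : Cell K} (hx : IsDim (q + 1) x) (b : K.B) :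
    ∃ L R : Cell K, IsDim (q + 1) L ∧ IsDim (q + 1) R ∧ d true q L = d false q R ∧
      tc q L R = x ∧
      (∀ e, K.dim e = q + 1 → L.val false e ≠ 0 → hK.ord.lt e b) ∧
      (∀ e, K.dim e = q + 1 → R.val false e ≠ 0 → hK.ord.le b e) := by
  classical
  let _ := hK.ord
  obtain ⟨u, hu⟩ : ∃ u : K.B →₀ ℤ, u = (K.part (· = q + 1) (x.val false)).filter (· < b) :=
    ⟨_, rfl⟩
  obtain ⟨v, hv⟩ : ∃ v : K.B →₀ ℤ, v = (K.part (· = q + 1) (x.val false)).filter (b ≤ ·) :=
    ⟨_, rfl⟩
  have hp0 : ∀ c, (0 : ℤ) ≤ K.part (· = q + 1) (x.val false) c :=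
    fun c => part_nonneg _ (x.nonneg false) c
  have hu0 : ∀ c, u c = if c < b then K.part (· = q + 1) (x.val false) c else 0 := by
    intro c; rw [hu, Finsupp.filter_apply]
  have hv0 : ∀ c, v c = if b ≤ c then K.part (· = q + 1) (x.val false) c else 0 := by
    intro c; rw [hv, Finsupp.filter_apply]
  obtain ⟨L, R, h1, h2, h3, h4, h5, h6⟩ := hK.topSplit hx b (u := u) (v := v)
    (by intro c; change (0 : ℤ) ≤ u c; rw [hu0]; split_ifs; exacts [hp0 c, le_rfl])
    (by intro c; change (0 : ℤ) ≤ v c; rw [hv0]; split_ifs; exacts [hp0 c, le_rfl])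
    (by
      ext c
      rw [Finsupp.add_apply, hu0, hv0]
      rcases lt_or_ge c b with h | h
      · rw [if_pos h, if_neg (not_le.2 h), add_zero]
      · rw [if_neg (not_lt.2 h), if_pos h, zero_add])
    (by intro c hc; rw [hu0] at hc; by_contra h
        rw [if_neg (fun h' => h (le_of_lt h'))] at hc; exact hc rfl)
    (by intro c hc; rw [hv0] at hc; by_contra h; rw [if_neg h] at hc; exact hc rfl)
  refine ⟨L, R, h1, h2, h3, h4, ?_, ?_⟩
  · intro e he hne
    have g : u e = L.val false e := by rw [← h5, part_apply, if_pos he]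
    rw [← g, hu0] at hne
    by_contra h
    rw [if_neg h] at hne
    exact hne rfl
  · intro e he hne
    have g : v e = R.val false e := by rw [← h6, part_apply, if_pos he]
    rw [← g, hv0] at hne
    by_contra h
    rw [if_neg h] at hne
    exact hne rfl

variable {n : ℕ} {F : PFun (Cell K) Z n} {b : K.B} {z : Z}

theorem tc_top {p : ℕ} {x y : Cell K} (h : d true p x = d false p y) {a : Bool} {e : K.B}
    (he : p < K.dim e) : (tc p x y).val a e = x.val a e + y.val a e := by
  rw [Cell.tc_val h, Finsupp.add_apply, Finsupp.sub_apply, Cell.dd_val_apply,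
    if_neg (by omega), if_neg (by omega), sub_zero]

theorem norm_succ (hg : Good hK F b z) {p : ℕ} (hp : p + 1 ≤ n) (hN : Norm hK F b z p) :
    Norm hK F b z (p + 1) := by
  intro w v hev
  obtain ⟨L, R, w', v', hev', hL, hR, h1, h2, rfl, rfl⟩ := hev
  have hd' := fun a {i : ℕ} (hi : i ≤ n) => Ev.d_eq hK hg (by omega : p ≤ n) hev' a hi
  obtain ⟨L1, L2, hL1, hL2, h12, rfl, hL1t, hL2t⟩ := topSplitLt hK hL b
  have h2w : d true p L2 = d false p w' := by rw [← h1, tgt_tc h12]
  obtain ⟨w1, M1, v1, hev1, hM1, h1M, e1, E1⟩ := swR hK hg hp hN hL2 hL2t hev' h2w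
  have hd1 := fun a {i : ℕ} (hi : i ≤ n) => Ev.d_eq hK hg (by omega : p ≤ n) hev1 a hi
  have h3 : d true p M1 = d false p R := by rw [← tgt_tc h1M, ← e1, tgt_tc h2w, h2]
  obtain ⟨Ma, Mb, hMa, hMb, hab, e2, hMat, hMbt⟩ := topSplitLt hK (hM1.tc hR h3) b
  have h1a : d true p w1 = d false p Ma := by rw [h1M, ← src_tc h3, ← e2, src_tc hab]
  obtain ⟨w2, M2, v2, hev2, hM2, h22, e3, E3⟩ := swL hK hg hp hN hMa
    (fun e he hne => (hK.ord.lt_iff_le_not_ge _ _ |>.1 (hMat e he hne)).1) hev1 h1a
  have hd2 := fun a {i : ℕ} (hi : i ≤ n) => Ev.d_eq hK hg (by omega : p ≤ n) hev2 a hi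
  obtain ⟨a1, a2, a3⟩ := norm_aux h12 h2w h2 e1 h1M e2.symm hab h1a e3 h22
  have hL1n := hL1.mono hp
  have hL2n := hL2.mono hp
  have hM1n := hM1.mono hp
  have hM2n := hM2.mono hp
  have hMan := hMa.mono hp
  have hMbn := hMb.mono hp
  have hRn := hR.mono hp
  have E2 : tc p (F.toFun M1) (F.toFun R) = tc p (F.toFun Ma) (F.toFun Mb) := by
    rw [← F.map_tc hM1n hRn h3, ← e2, F.map_tc hMan hMbn hab]
  have E2w : d true p (F.toFun L2) = d false p v' := by
    rw [hd' false (by omega), ← h2w, F.map_dd hL2n]
  have E2R : d true p v' = d false p (F.toFun R) := by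
    rw [hd' true (by omega), h2, F.map_dd hRn]
  have E1M : d true p v1 = d false p (F.toFun M1) := by
    rw [hd1 true (by omega), h1M, F.map_dd hM1n]
  have E1a : d true p v1 = d false p (F.toFun Ma) := by
    rw [hd1 true (by omega), h1a, F.map_dd hMan]
  have E22 : d true p (F.toFun M2) = d false p v2 := by
    rw [hd2 false (by omega), ← h22, F.map_dd hM2n]
  obtain ⟨b1, b2, b3⟩ := norm_aux (F.composable hL1n hL2n h12) E2w E2R E1 E1M E2
    (F.composable hMan hMbn hab) E1a E3 E22
  refine ⟨tc p L1 M2, Mb, w2, v2, hev2, hL1.tc hM2 a2, hMb, by rw [tgt_tc a2, h22], a3, a1, ?_,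
    ?_, hMbt⟩
  · rw [F.map_tc hL1n hL2n h12, b1, F.map_tc hL1n hM2n a2]
  · intro e he hne
    rw [tc_top a2 (by omega)] at hne
    by_cases h4 : L1.val false e = 0
    · apply hMat e he
      have h5 : (tc p w1 Ma).val false e = (tc p M2 w2).val false e := by rw [e3]
      rw [tc_top h1a (by omega), tc_top h22 (by omega),
        (Ev.isDim hK hg (by omega) hev1).2.2.1 false e (by omega),
        (Ev.isDim hK hg (by omega) hev2).2.2.1 false e (by omega)] at h5
      omega
    · exact hL1t e he h4

theorem norm_all (hg : Good hK F b z) : ∀ {p : ℕ}, p ≤ n → Norm hK F b z p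
  | 0, _ => trivial
  | _ + 1, hp => norm_succ hK hg hp (norm_all hg (by omega))

theorem ext_src {p : ℕ} {x y : Cell K} (hd : d false p x = d false p y)
    (h : ∀ a e, p < K.dim e → x.val a e = y.val a e) : x = y := by
  apply Cell.ext
  funext a
  ext e
  have h0 : ∀ a e, (x.dd false p).val a e = (y.dd false p).val a e := fun a e =>
    congrArg (fun z : Cell K => z.val a e) hd
  simp only [Cell.dd_val_apply] at h0
  rcases lt_trichotomy (K.dim e) p with h1 | h1 | h1
  · have := h0 a e
    rwa [if_pos h1, if_pos h1] at this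
  · have h2 := h0 a e
    rw [if_neg (by omega), if_pos h1, if_neg (by omega), if_pos h1] at h2
    cases a
    · exact h2
    · have h3 : K.bdry (x.val false) e = x.val true e - x.val false e := by rw [x.bdry_val]; rfl
      have h4 : K.bdry (y.val false) e = y.val true e - y.val false e := by rw [y.bdry_val]; rfl
      have h5 : K.bdry (x.val false) e = K.bdry (y.val false) e :=
        bdry_congr fun e' he' => h false e' (by omega)
      omega
  · exact h a e h1

theorem ext_tgt {p : ℕ} {x y : Cell K} (hd : d true p x = d true p y)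
    (h : ∀ a e, p < K.dim e → x.val a e = y.val a e) : x = y := by
  apply Cell.ext
  funext a
  ext e
  have h0 : ∀ a e, (x.dd true p).val a e = (y.dd true p).val a e := fun a e =>
    congrArg (fun z : Cell K => z.val a e) hd
  simp only [Cell.dd_val_apply] at h0
  rcases lt_trichotomy (K.dim e) p with h1 | h1 | h1
  · have := h0 a e
    rwa [if_pos h1, if_pos h1] at this
  · have h2 := h0 a e
    rw [if_neg (by omega), if_pos h1, if_neg (by omega), if_pos h1] at h2
    cases a
    · have h3 : K.bdry (x.val false) e = x.val true e - x.val false e := by rw [x.bdry_val]; rfl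
      have h4 : K.bdry (y.val false) e = y.val true e - y.val false e := by rw [y.bdry_val]; rfl
      have h5 : K.bdry (x.val false) e = K.bdry (y.val false) e :=
        bdry_congr fun e' he' => h false e' (by omega)
      omega
    · exact h2
  · exact h a e h1

theorem IsDim_val_congr {p : ℕ} {x y : Cell K} (hx : IsDim (p + 1) x) (hy : IsDim (p + 1) y)
    (h : ∀ e, K.dim e = p + 1 → x.val false e = y.val false e) (a : Bool) (e : K.B)
    (he : p < K.dim e) : x.val a e = y.val a e := by
  have cx := Cell.isDim_iff.1 hx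
  have cy := Cell.isDim_iff.1 hy
  by_cases h1 : K.dim e = p + 1
  · cases a
    · exact h e h1
    · rw [cx.2 e h1, cy.2 e h1, h e h1]
  · rw [cx.1 a e (by omega), cy.1 a e (by omega)]

/-- Sorted decompositions are unique. -/
theorem sorted_unique {p : ℕ} {L R w L' R' w' : Cell K} (hL : IsDim (p + 1) L)
    (hR : IsDim (p + 1) R) (hw : Red hK b p w) (hL' : IsDim (p + 1) L')
    (hR' : IsDim (p + 1) R') (hw' : Red hK b p w')
    (h1 : d true p L = d false p w) (h2 : d true p w = d false p R)
    (h1' : d true p L' = d false p w') (h2' : d true p w' = d false p R')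
    (h : tc p L (tc p w R) = tc p L' (tc p w' R'))
    (hLt : ∀ e, K.dim e = p + 1 → L.val false e ≠ 0 → hK.ord.lt e b)
    (hRt : ∀ e, K.dim e = p + 1 → R.val false e ≠ 0 → hK.ord.le b e)
    (hLt' : ∀ e, K.dim e = p + 1 → L'.val false e ≠ 0 → hK.ord.lt e b)
    (hRt' : ∀ e, K.dim e = p + 1 → R'.val false e ≠ 0 → hK.ord.le b e) :
    L = L' ∧ w = w' ∧ R = R' := by
  let _ := hK.ord
  have g1 : d true p L = d false p (tc p w R) := by rw [src_tc h2, h1]
  have g1' : d true p L' = d false p (tc p w' R') := by rw [src_tc h2', h1']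
  have key : ∀ e, K.dim e = p + 1 → L.val false e = L'.val false e ∧
      R.val false e = R'.val false e := by
    intro e he
    have h3 : (tc p L (tc p w R)).val false e = (tc p L' (tc p w' R')).val false e := by rw [h]
    rw [tc_top g1 (by omega), tc_top h2 (by omega), tc_top g1' (by omega),
      tc_top h2' (by omega), hw false e (by omega), hw' false e (by omega)] at h3
    rcases lt_or_ge e b with h4 | h4
    · have h5 : R.val false e = 0 := by
        by_contra hne; exact absurd h4 (not_lt.2 (hRt e he hne))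
      have h6 : R'.val false e = 0 := by
        by_contra hne; exact absurd h4 (not_lt.2 (hRt' e he hne))
      omega
    · have h5 : L.val false e = 0 := by
        by_contra hne; exact absurd (hLt e he hne) (not_lt.2 h4)
      have h6 : L'.val false e = 0 := by
        by_contra hne; exact absurd (hLt' e he hne) (not_lt.2 h4)
      omega
  have e1 : L = L' := ext_src (by rw [← src_tc g1, h, src_tc g1'])
    (IsDim_val_congr hL hL' fun e he => (key e he).1)
  have e2 : R = R' := ext_tgt
    (by rw [← tgt_tc h2, ← tgt_tc g1, h, tgt_tc g1', tgt_tc h2'])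
    (IsDim_val_congr hR hR' fun e he => (key e he).2)
  refine ⟨e1, ?_, e2⟩
  exact ext_src (by rw [← h1, ← h1', e1]) fun a e he => by rw [hw a e he, hw' a e he]

theorem Ev.unique (hg : Good hK F b z) : ∀ {p : ℕ}, p ≤ n → ∀ {w : Cell K} {v v' : Z},
    Ev hK F b z p w v → Ev hK F b z p w v' → v = v'
  | 0, _, w, v, v', h, h' => by rw [h.2, h'.2]
  | p + 1, hp, w, v, v', h, h' => by
    obtain ⟨L, R, w1, v1, hev, hL, hR, h1, h2, rfl, rfl, hLt, hRt⟩ := norm_all hK hg hp _ _ h
    obtain ⟨L', R', w1', v1', hev', hL', hR', h1', h2', e, rfl, hLt', hRt'⟩ :=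
      norm_all hK hg hp _ _ h'
    obtain ⟨rfl, rfl, rfl⟩ := sorted_unique hK hL hR (Ev.isDim hK hg (by omega) hev).2.2.1 hL' hR'
      (Ev.isDim hK hg (by omega) hev').2.2.1 h1 h2 h1' h2' e hLt hRt hLt' hRt'
    rw [Ev.unique hg (by omega) hev hev']

end Steiner

end Vale.Agent.P213
end

section

/-!
Closure properties of the evaluation of reduced cells.
-/

universe u v w

namespace Vale.Agent.P213

open OmegaStr

section Abstract

variable {C : Type u} [OmegaStr C]

theorem whiskR_aux {i p : ℕ} (hip : i < p) {L w R u : C} (h1 : d true p L = d false p w)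
    (h2 : d true p w = d false p R) (h : d true i L = d false i u) :
    tc i (tc p L (tc p w R)) u =
      tc p (tc i L (d false p u)) (tc p (tc i w (d false p u)) (tc i R u)) := by
  have hw : d true i w = d false i u := by rw [← d_eq_of_composable h1 hip, h]
  have h3 : d true p L = d false p (tc p w R) := by rw [src_tc h2, h1]
  have h4 : d true p (d false p u) = d false p u := dd_le le_rfl
  calc tc i (tc p L (tc p w R)) u
      = tc i (tc p L (tc p w R)) (tc p (d false p u) (tc p (d false p u) u)) := by
        rw [src_tc_id, src_tc_id]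
    _ = tc p (tc i L (d false p u)) (tc i (tc p w R) (tc p (d false p u) u)) := by
        rw [tc_interchange hip h3 (by rw [src_tc_id, h4]) (by rw [dd_lt hip, h])]
    _ = _ := by
        rw [tc_interchange hip h2 h4 (by rw [dd_lt hip, hw])]

theorem whiskL_aux {i p : ℕ} (hip : i < p) {L w R u : C} (h1 : d true p L = d false p w)
    (h2 : d true p w = d false p R) (h : d true i u = d false i L) :
    tc i u (tc p L (tc p w R)) =
      tc p (tc i u L) (tc p (tc i (d true p u) w) (tc i (d true p u) R)) := by
  have hw : d true i u = d false i w := by rw [← d_eq_of_composable h1 hip, h]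
  have h3 : d true p L = d false p (tc p w R) := by rw [src_tc h2, h1]
  have h4 : d false p (d true p u) = d true p u := dd_le le_rfl
  have h5 : tc p (d true p u) (d true p u) = d true p u := isDim_tc_self (isDim_d _ _ _)
  calc tc i u (tc p L (tc p w R))
      = tc i (tc p u (tc p (d true p u) (d true p u))) (tc p L (tc p w R)) := by
        rw [h5, tc_tgt_id]
    _ = tc p (tc i u L) (tc i (tc p (d true p u) (d true p u)) (tc p w R)) := by
        rw [tc_interchange hip (by rw [h5, h4]) h3 h]
    _ = _ := by
        rw [tc_interchange hip (by rw [h4, dd_le le_rfl]) h2 (by rw [dd_lt hip, hw])]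

end Abstract

namespace Steiner

variable {K : BCx} (hK : Steiner K) {Z : Type v} [OmegaStr Z]

open BCx

variable {n : ℕ} {F : PFun (Cell K) Z n} {b : K.B} {z : Z}

theorem Ev.whiskR (hg : Good hK F b z) : ∀ {p i : ℕ}, i < p → p ≤ n → ∀ {w u : Cell K} {v : Z},
    Ev hK F b z p w v → IsDim p u → d true i w = d false i u →
    Ev hK F b z p (tc i w u) (tc i v (F.toFun u))
  | p + 1, i, hi, hp, w, u, v, hev, hu, h => by
    obtain ⟨L, R, w', v', hev', hL, hR, h1, h2, rfl, rfl⟩ := hev
    have hd' := fun a {i : ℕ} (hi : i ≤ n) => Ev.d_eq hK hg (by omega : p ≤ n) hev' a hi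
    have hLn := hL.mono hp
    have hRn := hR.mono hp
    have hun := hu.mono hp
    have g1 : d true p L = d false p (tc p w' R) := by rw [src_tc h2, h1]
    have k1 : d true p (F.toFun L) = d false p v' := by
      rw [hd' false (by omega), ← h1, F.map_dd hLn]
    have k2 : d true p v' = d false p (F.toFun R) := by
      rw [hd' true (by omega), h2, F.map_dd hRn]
    have k3 : d true p (F.toFun L) = d false p (tc p v' (F.toFun R)) := by rw [src_tc k2, k1]
    rcases (Nat.lt_succ_iff.1 hi).lt_or_eq with hi | rfl
    · have h3 : d true i L = d false i u := by rw [d_tc_lt g1 hi] at h; exact h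
      have h4 : d true i w' = d false i u := by rw [← d_eq_of_composable h1 hi, h3]
      have h5 : d true i R = d false i u := by rw [← d_eq_of_composable h2 hi, h4]
      have h4' : d true i w' = d false i (d false p u) := by rw [dd_lt hi, h4]
      have h3' : d true i L = d false i (d false p u) := by rw [dd_lt hi, h3]
      have ih := Ev.whiskR hg hi (by omega) hev' (isDim_d false p u) h4'
      refine ⟨tc i L (d false p u), tc i R u, _, _, ih, hL.tc ((isDim_d _ _ _).mono (by omega)) h3',
        hR.tc hu h5, ?_, ?_, ?_, ?_⟩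
      · rw [d_tc_gt h3' hi, d_tc_gt h4' hi, dd_le le_rfl, dd_le le_rfl, h1]
      · rw [d_tc_gt h4' hi, d_tc_gt h5 hi, dd_le le_rfl, h2]
      · exact whiskR_aux hi h1 h2 h3
      · rw [F.map_tc hLn ((isDim_d _ _ _).mono (by omega)) h3', F.map_tc hRn hun h5,
          F.map_dd hun]
        exact whiskR_aux hi k1 k2 (by rw [← F.map_dd hLn, h3, F.map_dd hun])
    · have h5 : d true i R = d false i u := by rw [tgt_tc g1, tgt_tc h2] at h; exact h
      have k5 := F.composable hRn hun h5
      refine ⟨L, tc i R u, w', v', hev', hL, hR.tc hu h5, h1, by rw [src_tc h5, h2], ?_, ?_⟩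
      · rw [tc_assoc g1 (by rw [tgt_tc h2, h5]), tc_assoc h2 h5]
      · rw [tc_assoc k3 (by rw [tgt_tc k2, k5]), tc_assoc k2 k5, F.map_tc hRn hun h5]

theorem Ev.whiskL (hg : Good hK F b z) : ∀ {p i : ℕ}, i < p → p ≤ n → ∀ {w u : Cell K} {v : Z},
    Ev hK F b z p w v → IsDim p u → d true i u = d false i w →
    Ev hK F b z p (tc i u w) (tc i (F.toFun u) v)
  | p + 1, i, hi, hp, w, u, v, hev, hu, h => by
    obtain ⟨L, R, w', v', hev', hL, hR, h1, h2, rfl, rfl⟩ := hev
    have hd' := fun a {i : ℕ} (hi : i ≤ n) => Ev.d_eq hK hg (by omega : p ≤ n) hev' a hi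
    have hLn := hL.mono hp
    have hRn := hR.mono hp
    have hun := hu.mono hp
    have g1 : d true p L = d false p (tc p w' R) := by rw [src_tc h2, h1]
    have k1 : d true p (F.toFun L) = d false p v' := by
      rw [hd' false (by omega), ← h1, F.map_dd hLn]
    have k2 : d true p v' = d false p (F.toFun R) := by
      rw [hd' true (by omega), h2, F.map_dd hRn]
    have k3 : d true p (F.toFun L) = d false p (tc p v' (F.toFun R)) := by rw [src_tc k2, k1]
    rcases (Nat.lt_succ_iff.1 hi).lt_or_eq with hi | rfl
    · have h3 : d true i u = d false i L := by rw [d_tc_lt g1 hi] at h; exact h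
      have h4 : d true i u = d false i w' := by rw [← d_eq_of_composable h1 hi, h3]
      have h5 : d true i u = d false i R := by rw [← d_eq_of_composable h2 hi, h4]
      have h4' : d true i (d true p u) = d false i w' := by rw [dd_lt hi, h4]
      have h5' : d true i (d true p u) = d false i R := by rw [dd_lt hi, h5]
      have ih := Ev.whiskL hg hi (by omega) hev' (isDim_d true p u) h4'
      refine ⟨tc i u L, tc i (d true p u) R, _, _, ih, hu.tc hL h3,
        ((isDim_d _ _ _).mono (by omega)).tc hR h5', ?_, ?_, ?_, ?_⟩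
      · rw [d_tc_gt h3 hi, d_tc_gt h4' hi, dd_le le_rfl, h1]
      · rw [d_tc_gt h4' hi, d_tc_gt h5' hi, dd_le le_rfl, dd_le le_rfl, h2]
      · exact whiskL_aux hi h1 h2 h3
      · rw [F.map_tc hun hLn h3, F.map_tc ((isDim_d _ _ _).mono (by omega)) hRn h5',
          F.map_dd hun]
        exact whiskL_aux hi k1 k2 (by rw [← F.map_dd hun, h3, F.map_dd hLn])
    · have h5 : d true i u = d false i L := by rw [src_tc g1] at h; exact h
      have k5 := F.composable hun hLn h5
      refine ⟨tc i u L, R, w', v', hev', hu.tc hL h5, hR, by rw [tgt_tc h5, h1], h2, ?_, ?_⟩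
      · rw [tc_assoc h5 g1]
      · rw [F.map_tc hun hLn h5, tc_assoc k5 k3]

/-- The value of the atom itself. -/
theorem Ev.atom (hg : Good hK F b z) : ∀ {p : ℕ}, p ≤ n → Ev hK F b z p (hK.atom b) z
  | 0, _ => ⟨rfl, rfl⟩
  | p + 1, hp => by
    have ih := Ev.atom hg (by omega : p ≤ n)
    have hd := fun a {i : ℕ} (hi : i ≤ n) => Ev.d_eq hK hg (by omega : p ≤ n) ih a hi
    refine ⟨d false p (hK.atom b), d true p (hK.atom b), hK.atom b, z, ih,
      (isDim_d _ _ _).mono (by omega), (isDim_d _ _ _).mono (by omega), dd_le le_rfl,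
      (dd_le le_rfl).symm, ?_, ?_⟩
    · rw [tc_tgt_id, src_tc_id]
    · rw [← hd false (by omega), ← hd true (by omega), tc_tgt_id, src_tc_id]

end Steiner

end Vale.Agent.P213
end

section

/-!
Values of cells one dimension higher.
-/

universe u v w

namespace Vale.Agent.P213

open OmegaStr

namespace Steiner

variable {K : BCx} (hK : Steiner K) {Z : Type v} [OmegaStr Z]

open BCx

variable {n : ℕ} {F : PFun (Cell K) Z n}

/-- Sorted words. -/
inductive G (F : PFun (Cell K) Z n) (φ : K.B → Z) : Cell K → Z → Prop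
  | base {x : Cell K} {v : Z} (hx : IsDim n x) (hv : v = F.toFun x) : G F φ x v
  | cons {x : Cell K} {v : Z} (b : K.B) (y : Cell K) (vy : Z) (x' : Cell K) (v' : Z)
    (hb : K.dim b = n + 1) (hy : Ev hK F b (φ b) n y vy) (h : d true n y = d false n x')
    (hx' : G F φ x' v')
    (hs : ∀ e, K.dim e = n + 1 → x'.val false e ≠ 0 → hK.ord.le b e)
    (ex : x = tc n y x') (ev : v = tc n vy v') : G F φ x v

variable {φ : K.B → Z} (hg : ∀ b, K.dim b = n + 1 → Good hK F b (φ b))

include hg in
theorem G.compat {x : Cell K} {v : Z} (h : G hK F φ x v) :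
    IsDim (n + 1) x ∧ IsDim (n + 1) v ∧ ∀ a i, i ≤ n → d a i v = F.toFun (d a i x) := by
  induction h with
  | base hx hv =>
    subst hv
    exact ⟨hx.mono (by omega), (F.isDim hx hx).mono (by omega), fun a i _ => (F.map_dd hx a i).symm⟩
  | @cons x v b y vy x' v' hb hy h hx' hs ex ev ih =>
    subst ex ev
    obtain ⟨i1, i2, i3⟩ := ih
    obtain ⟨j1, j2, -, -⟩ := Ev.isDim hK (hg b hb) le_rfl hy
    have j3 := fun a {i : ℕ} (hi : i ≤ n) => Ev.d_eq hK (hg b hb) le_rfl hy a hi
    have k : d true n vy = d false n v' := by rw [j3 _ le_rfl, i3 _ _ le_rfl, h]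
    refine ⟨j1.tc i1 h, j2.tc i2 k, ?_⟩
    intro a i hi
    rcases hi.lt_or_eq with hi | rfl
    · rw [d_tc_lt k hi, d_tc_lt h hi, j3 _ hi.le]
    · cases a
      · rw [src_tc k, src_tc h, j3 _ le_rfl]
      · rw [tgt_tc k, tgt_tc h, i3 _ _ le_rfl]

theorem top_of_red [DecidableEq K.B] {b : K.B} (hb : K.dim b = n + 1) {y : Cell K} (hy : Red hK b n y) (e : K.B)
    (he : K.dim e = n + 1) : y.val false e = if e = b then 1 else 0 := by
  rw [hy false e (by omega)]
  split_ifs with h
  · subst h; exact hK.atom_self _ _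
  · exact hK.atom_eq_zero (by omega) h

include hg in
theorem G.unique {x : Cell K} {v : Z} (h : G hK F φ x v) : ∀ {v' : Z}, G hK F φ x v' →
    v = v' := by
  classical
  let _ := hK.ord
  induction h with
  | @base x v hx hv =>
    intro v' h'
    cases h' with
    | base hx' hv' => rw [hv, hv']
    | cons b y vy x' v' hb hy h hx' hs ex ev =>
      exfalso
      have h1 := (Cell.isDim_iff.1 hx).1 false b (by omega)
      have h2 := top_of_red hK hb (Ev.isDim hK (hg b hb) le_rfl hy).2.2.1 b hb
      rw [ex, tc_top h (by omega), h2, if_pos rfl] at h1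
      have h3 : (0 : ℤ) ≤ x'.val false b := x'.nonneg false b
      omega
  | @cons x v b y vy x₁ v₁ hb hy h hx₁ hs ex ev ih =>
    intro v' h'
    have h2 := fun e he => top_of_red hK hb (Ev.isDim hK (hg b hb) le_rfl hy).2.2.1 e he
    cases h' with
    | base hx' hv' =>
      exfalso
      have h1 := (Cell.isDim_iff.1 hx').1 false b (by omega)
      rw [ex, tc_top h (by omega), h2 b hb, if_pos rfl] at h1
      have h3 : (0 : ℤ) ≤ x₁.val false b := x₁.nonneg false b
      omega
    | cons b' y' vy' x₁' v₁' hb' hy' h' hx₁' hs' ex' ev' =>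
      have h2' := fun e he => top_of_red hK hb' (Ev.isDim hK (hg b' hb') le_rfl hy').2.2.1 e he
      have h0 : ∀ e, K.dim e = n + 1 → (if e = b then (1 : ℤ) else 0) + x₁.val false e =
          (if e = b' then 1 else 0) + x₁'.val false e := by
        intro e he
        rw [← h2 e he, ← h2' e he, ← tc_top h (by omega), ← tc_top h' (by omega), ← ex, ← ex']
      have hbb : b = b' := by
        by_contra hne
        have k1 := h0 b hb
        have k2 := h0 b' hb'
        rw [if_pos rfl, if_neg hne] at k1
        rw [if_neg (Ne.symm hne), if_pos rfl] at k2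
        have k3 : (0 : ℤ) ≤ x₁.val false b := x₁.nonneg false b
        have k4 : (0 : ℤ) ≤ x₁'.val false b' := x₁'.nonneg false b'
        have k5 : b ≤ b' := hs b' hb' (by omega)
        have k6 : b' ≤ b := hs' b hb (by omega)
        exact hne (le_antisymm k5 k6)
      subst hbb
      have r1 := (Ev.isDim hK (hg b hb) le_rfl hy).2.2.1
      have r2 := (Ev.isDim hK (hg b hb) le_rfl hy').2.2.1
      have e1 : y = y' := by
        apply ext_src (p := n)
        · rw [← src_tc h, ← ex, ex', src_tc h']
        · intro a e he; rw [r1 a e he, r2 a e he]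
      subst e1
      have e2 : x₁ = x₁' := by
        apply ext_tgt (p := n)
        · rw [← tgt_tc h, ← ex, ex', tgt_tc h']
        · intro a e he
          have k1 := tc_top h (a := a) (e := e) (by omega)
          have k2 := tc_top h' (a := a) (e := e) (by omega)
          rw [← ex] at k1
          rw [← ex'] at k2
          omega
      subst e2
      rw [ev, ev', Ev.unique hK (hg b hb) le_rfl hy hy', ih hx₁']

include hg in
/-- Every cell has a value. -/
theorem G.exists : ∀ (m : ℕ) {x : Cell K}, IsDim (n + 1) x →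
    (K.part (· = n + 1) (x.val false)).sum (fun _ k => k.toNat) ≤ m → ∃ v, G hK F φ x v := by
  classical
  let _ := hK.ord
  intro m
  induction m with
  | zero =>
    intro x hx hm
    have h1 : IsDim n x := by
      apply isDim_of_top hx
      intro e he
      by_contra hne
      have h2 : e ∈ (K.part (· = n + 1) (x.val false)).support := by
        rw [Finsupp.mem_support_iff, part_apply, if_pos he]; exact hne
      have h3 : (0 : ℤ) ≤ x.val false e := x.nonneg false e
      have h4 : (K.part (· = n + 1) (x.val false) e).toNat ≤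
          (K.part (· = n + 1) (x.val false)).sum (fun _ k => k.toNat) :=
        Finset.single_le_sum (f := fun e => (K.part (· = n + 1) (x.val false) e).toNat)
          (fun _ _ => Nat.zero_le _) h2
      rw [part_apply, if_pos he] at h4
      omega
    exact ⟨_, G.base h1 rfl⟩
  | succ m ih =>
    intro x hx hm
    by_cases hne : (K.part (· = n + 1) (x.val false)).support.Nonempty
    · obtain ⟨b, hb, hmin⟩ := Finset.exists_min_image _ (fun e => e) hne
      have hb1 : K.dim b = n + 1 ∧ x.val false b ≠ 0 := by
        rw [Finsupp.mem_support_iff, part_apply] at hb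
        split_ifs at hb with h1
        · exact ⟨h1, hb⟩
        · exact absurd rfl hb
      have hx0 : ∀ e, (0 : ℤ) ≤ x.val false e := fun e => x.nonneg false e
      obtain ⟨v, hv⟩ : ∃ v : K.B →₀ ℤ, v = K.part (· = n + 1) (x.val false) -
        Finsupp.single b 1 := ⟨_, rfl⟩
      have hv0 : ∀ e, v e = (if K.dim e = n + 1 then x.val false e else 0) -
          if e = b then 1 else 0 := by
        intro e
        rw [hv, Finsupp.sub_apply, part_apply, Finsupp.single_apply]
        simp only [eq_comm]
      obtain ⟨L, R, hL, hR, h1, h2, h3, h4⟩ := hK.topSplit hx b (u := Finsupp.single b 1) (v := v)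
        (by
          intro c
          change (0 : ℤ) ≤ (Finsupp.single b (1 : ℤ)) c
          rw [Finsupp.single_apply]; split_ifs <;> omega)
        (by
          intro c
          change (0 : ℤ) ≤ v c
          rw [hv0]
          have k1 := hx0 c
          by_cases hc : c = b
          · subst hc
            rw [if_pos hb1.1, if_pos rfl]
            have := hb1.2
            omega
          · rw [if_neg hc]
            split_ifs <;> omega)
        (by rw [hv]; abel)
        (by
          intro c hc
          by_contra h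
          apply hc
          rw [Finsupp.single_apply, if_neg]
          rintro rfl
          exact h (le_refl b))
        (by
          intro c hc
          by_cases hcb : c = b
          · rw [hcb]
          · apply hmin
            rw [Finsupp.mem_support_iff, part_apply]
            rw [hv0, if_neg hcb, sub_zero] at hc
            exact hc)
      have hred : Red hK b n L := by
        have cL := Cell.isDim_iff.1 hL
        have k1 : ∀ e, K.dim e = n + 1 → L.val false e = if e = b then 1 else 0 := by
          intro e he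
          have := congrArg (fun z => z e) h3
          simp only [part_apply, Finsupp.single_apply] at this
          rw [if_pos he] at this
          rw [this]
          simp only [eq_comm]
        have k2 : ∀ a e, K.dim e = n + 1 →
            (hK.atom b).val a e = if e = b then 1 else 0 := by
          intro a e he
          split_ifs with h
          · subst h; exact hK.atom_self _ _
          · exact hK.atom_eq_zero (by omega) h
        intro a e he
        by_cases h5 : K.dim e = n + 1
        · rw [k2 a e h5]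
          cases a
          · exact k1 e h5
          · rw [cL.2 e h5]; exact k1 e h5
        · rw [cL.1 a e (by omega), hK.atom_eq_zero (by omega)]
          rintro rfl
          omega
      obtain ⟨vy, hvy⟩ := Ev.exists hK (hg b hb1.1) le_rfl hred
      have hmR : (K.part (· = n + 1) (R.val false)).sum (fun _ k => k.toNat) ≤ m := by
        rw [h4]
        rw [Finsupp.sum] at hm
        rw [Finsupp.sum_of_support_subset (s := (K.part (· = n + 1) (x.val false)).support) _ ?_ _
          (by simp)]
        · apply Nat.le_of_lt_succ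
          refine lt_of_lt_of_le ?_ hm
          apply Finset.sum_lt_sum
          · intro e _
            rw [hv0, part_apply]
            split_ifs <;> omega
          · refine ⟨b, hb, ?_⟩
            have k1 := hx0 b
            have k2 := hb1.2
            rw [hv0, part_apply, if_pos hb1.1, if_pos rfl]
            omega
        · intro e he
          rw [Finsupp.mem_support_iff] at he ⊢
          rw [hv0] at he
          rw [part_apply]
          by_cases h7 : e = b
          · rw [h7, if_pos hb1.1]; exact hb1.2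
          · rw [if_neg h7, sub_zero] at he
            exact he
      obtain ⟨v', hv'⟩ := ih hR hmR
      refine ⟨_, G.cons b L vy R v' hb1.1 hvy h1 hv' ?_ h2.symm rfl⟩
      intro e he hne'
      have h5 : v e = R.val false e := by rw [← h4, part_apply, if_pos he]
      rw [← h5, hv0, if_pos he] at hne'
      by_cases h6 : e = b
      · rw [h6]
      · rw [if_neg h6] at hne'
        apply hmin
        rw [Finsupp.mem_support_iff, part_apply, if_pos he]
        omega
    · rw [Finset.not_nonempty_iff_eq_empty] at hne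
      apply ih hx
      rw [Finsupp.sum, hne]
      simp

end Steiner

end Vale.Agent.P213
end

section

/-!
Closure of the values under composition; extension of partial functors.
-/

universe u v w

namespace Vale.Agent.P213

open OmegaStr

namespace Steiner

variable {K : BCx} (hK : Steiner K) {Z : Type v} [OmegaStr Z]

open BCx

variable {n : ℕ} {F : PFun (Cell K) Z n}

/-- Swap of two adjacent letters. -/
theorem swapLetter {b₀ b₁ : K.B} {z₀ z₁ : Z} (hg₀ : Good hK F b₀ z₀) (hg₁ : Good hK F b₁ z₁)
    (hb : hK.ord.lt b₁ b₀) {y₀ y₁ : Cell K} {v₀ v₁ : Z} (h₀ : Ev hK F b₀ z₀ n y₀ v₀)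
    (h₁ : Ev hK F b₁ z₁ n y₁ v₁) (h : d true n y₀ = d false n y₁) :
    ∃ (y₁' y₀' : Cell K) (v₁' v₀' : Z), Ev hK F b₁ z₁ n y₁' v₁' ∧ Ev hK F b₀ z₀ n y₀' v₀' ∧
      d true n y₁' = d false n y₀' ∧ tc n y₀ y₁ = tc n y₁' y₀' ∧
      tc n v₀ v₁ = tc n v₁' v₀' := by
  classical
  let _ := hK.ord
  have hb₀ := hg₀.dim_b
  have hb₁ := hg₁.dim_b
  obtain ⟨i1, i2, i3, i4⟩ := Ev.isDim hK hg₁ le_rfl h₁
  have htop : ∀ e, K.dim e = n + 1 → y₁.val false e ≠ 0 → e ≤ b₀ := by
    intro e he hne
    rw [top_of_red hK hb₁ i3 e he] at hne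
    by_cases h5 : e = b₁
    · rw [h5]; exact hb.le
    · rw [if_neg h5] at hne; exact absurd rfl hne
  rcases n with _ | q
  · exfalso
    obtain ⟨rfl, rfl⟩ := h₀
    have k1 := zero_left hK (by omega) htop h b₁ (by omega)
    rw [top_of_red hK hb₁ i3 b₁ hb₁, if_pos rfl] at k1
    omega
  · obtain ⟨L, R, β, vβ, hevβ, hL, hR, h1, h2, rfl, rfl, hLt, hRt⟩ :=
      norm_all hK hg₀ le_rfl _ _ h₀
    obtain ⟨-, -, hred, -⟩ := Ev.isDim hK hg₀ (by omega : q ≤ q + 1) hevβ
    have hdβ := fun a {i : ℕ} (hi : i ≤ q + 1) =>
      Ev.d_eq hK hg₀ (by omega : q ≤ q + 1) hevβ a hi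
    have hqq : q < q + 1 := by omega
    have hβR : d true q (d true (q + 1) β) = d false q R := by rw [dd_lt hqq, h2]
    obtain ⟨l, hld, k1, k2, k3⟩ := tblL hK (by omega) hL hR hred h1 h2 hRt i1 htop h
    have k4 : d true q l = d false q β := by
      rw [k1, src_tc hβR, dd_lt hqq]
    have k5 : d true q (d true (q + 1) l) = d false q (tc q β R) := by
      rw [dd_lt hqq, k4, src_tc h2]
    have k5' : d true q (d true (q + 1) l) = d false q β := by
      rw [dd_lt hqq, k4]
    have k6' : d true q (d false (q + 1) β) = d false q R := by rw [dd_lt hqq, h2]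
    have k6 : d true q l = d false q (tc q (d false (q + 1) β) R) := by
      rw [src_tc k6', dd_lt hqq, k4]
    have hVd : IsDim (q + 1) (tc q (d true (q + 1) β) R) := IsDim.tc (isDim_d _ _ _) hR hβR
    have hUd : IsDim (q + 1) (tc q (d false (q + 1) β) R) := IsDim.tc (isDim_d _ _ _) hR k6'
    have hredl : Red hK b₁ (q + 1) l := by
      intro a e he
      rw [← i3 a e he, k2, tc_top k1 (by omega), (Cell.isDim_iff.1 hVd).1 a e he, add_zero]
    obtain ⟨vl, hvl⟩ := Ev.exists hK hg₁ le_rfl hredl
    have hdl := fun a {i : ℕ} (hi : i ≤ q + 1) => Ev.d_eq hK hg₁ le_rfl hvl a hi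
    have ev1 := Ev.whiskR hK hg₁ hqq le_rfl hvl hVd k1
    rw [← k2] at ev1
    have hv₁ := Ev.unique hK hg₁ le_rfl h₁ ev1
    have ev2 := Ev.whiskR hK hg₁ hqq le_rfl hvl hUd k6
    have m1 : d true q vl = d false q vβ := by
      rw [hdβ false (by omega), ← k4, hdl true (by omega)]
    have m2 : d true q vβ = d false q (F.toFun R) := by
      rw [hdβ true (by omega), h2, F.map_dd hR]
    refine ⟨_, tc q (d true (q + 1) l) (tc q β R), _,
      tc q (F.toFun (d true (q + 1) l)) (tc q vβ (F.toFun R)), ev2, ?_, ?_, ?_, ?_⟩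
    · exact ⟨d true (q + 1) l, R, β, vβ, hevβ, isDim_d _ _ _, hR, k5', h2, rfl, rfl⟩
    · rw [d_tc_gt k6 hqq, d_tc_gt k6' hqq, d_tc_gt k5 hqq,
        d_tc_gt h2 hqq, dd_le le_rfl, hR.d_eq _ le_rfl, hR.d_eq _ le_rfl, dd_le le_rfl]
    · rw [swap4 hqq hR k4 h2, ← swap3 hqq hR k4 h2, k3]
      congr 1
    · rw [hv₁, F.map_tc (isDim_d _ _ _) hR hβR, F.map_tc (isDim_d _ _ _) hR k6',
        ← hdβ true le_rfl, ← hdβ false le_rfl, ← hdl true le_rfl,
        swap4 hqq (F.isDim hR hR) m1 m2,
        ← swap3 hqq (F.isDim hR hR) m1 m2, hdl false le_rfl, k3]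

variable {φ : K.B → Z} (hg : ∀ b, K.dim b = n + 1 → Good hK F b (φ b))

include hg in
/-- Insertion of a letter on the left. -/
theorem G.insert {x : Cell K} {v : Z} (hG : G hK F φ x v) : ∀ {b : K.B} {y : Cell K} {vy : Z},
    K.dim b = n + 1 → Ev hK F b (φ b) n y vy → d true n y = d false n x →
    G hK F φ (tc n y x) (tc n vy v) := by
  classical
  let _ := hK.ord
  induction hG with
  | @base x v hx hv =>
    intro b y vy hb hy h
    refine G.cons b y vy x v hb hy h (G.base hx hv) ?_ rfl rfl
    intro e he hne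
    exact absurd ((Cell.isDim_iff.1 hx).1 false e (by omega)) hne
  | @cons x v b₁ y₁ v₁ x' v' hb₁ hy₁ h₁ hx' hs ex ev ih =>
    intro b y vy hb hy h
    have r1 := (Ev.isDim hK (hg b hb) le_rfl hy).2.2.1
    have r₁ := (Ev.isDim hK (hg b₁ hb₁) le_rfl hy₁).2.2.1
    rcases le_or_gt b b₁ with hle | hlt
    · refine G.cons b y vy x v hb hy h (G.cons b₁ y₁ v₁ x' v' hb₁ hy₁ h₁ hx' hs ex ev) ?_ rfl rfl
      intro e he hne
      rw [ex, tc_top h₁ (by omega), top_of_red hK hb₁ r₁ e he] at hne
      by_cases h5 : e = b₁
      · rw [h5]; exact hle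
      · rw [if_neg h5, zero_add] at hne
        exact hle.trans (hs e he hne)
    · have h' : d true n y = d false n y₁ := by rw [h, ex, src_tc h₁]
      obtain ⟨y₁', y', v₁', vy', e1, e2, e3, e4, e5⟩ :=
        swapLetter hK (hg b hb) (hg b₁ hb₁) hlt hy hy₁ h'
      have r2 := (Ev.isDim hK (hg b hb) le_rfl e2).2.2.1
      have h6 : d true n y' = d false n x' := by
        rw [← tgt_tc e3, ← e4, tgt_tc h', h₁]
      have c := G.compat hK hg hx'
      have m1 := fun a => Ev.d_eq hK (hg b hb) le_rfl hy a le_rfl
      have m2 := fun a => Ev.d_eq hK (hg b₁ hb₁) le_rfl hy₁ a le_rfl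
      have m3 := fun a => Ev.d_eq hK (hg b₁ hb₁) le_rfl e1 a le_rfl
      have m4 := fun a => Ev.d_eq hK (hg b hb) le_rfl e2 a le_rfl
      have g1 : d true n vy = d false n v₁ := by rw [m1, h', m2]
      have g2 : d true n v₁ = d false n v' := by rw [m2, h₁, c.2.2 _ _ le_rfl]
      have g3 : d true n v₁' = d false n vy' := by rw [m3, e3, m4]
      have g4 : d true n vy' = d false n v' := by rw [m4, h6, c.2.2 _ _ le_rfl]
      refine G.cons b₁ y₁' v₁' (tc n y' x') (tc n vy' v') hb₁ e1 (by rw [src_tc h6, e3])
        (ih hb e2 h6) ?_ ?_ ?_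
      · intro e he hne
        rw [tc_top h6 (by omega), top_of_red hK hb r2 e he] at hne
        by_cases h5 : e = b
        · rw [h5]; exact hlt.le
        · rw [if_neg h5, zero_add] at hne
          exact hs e he hne
      · rw [ex, ← tc_assoc h' h₁, e4, tc_assoc e3 h6]
      · rw [ev, ← tc_assoc g1 g2, e5, tc_assoc g3 g4]

include hg in
theorem G.comp_top {x : Cell K} {v : Z} (hG : G hK F φ x v) : ∀ {x' : Cell K} {v' : Z},
    G hK F φ x' v' → d true n x = d false n x' → G hK F φ (tc n x x') (tc n v v') := by
  induction hG with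
  | @base x v hx hv =>
    intro x' v' h' h
    have c := G.compat hK hg h'
    have h1 : x = d false n x' := by rw [← h, hx.d_eq _ le_rfl]
    rw [hv, h1, src_tc_id, ← c.2.2 _ _ le_rfl, src_tc_id]
    exact h'
  | @cons x v b₁ y₁ v₁ x₁ v₁' hb₁ hy₁ h₁ hx₁ hs ex ev ih =>
    intro x' v' h' h
    have c := G.compat hK hg hx₁
    have c' := G.compat hK hg h'
    have h2 : d true n x₁ = d false n x' := by rw [← h, ex, tgt_tc h₁]
    have m := fun a => Ev.d_eq hK (hg b₁ hb₁) le_rfl hy₁ a le_rfl
    have g1 : d true n v₁ = d false n v₁' := by rw [m, h₁, c.2.2 _ _ le_rfl]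
    have g2 : d true n v₁' = d false n v' := by
      rw [c.2.2 _ _ le_rfl, h2, c'.2.2 _ _ le_rfl]
    rw [ex, ev, tc_assoc h₁ h2, tc_assoc g1 g2]
    exact G.insert hK hg (ih h' h2) hb₁ hy₁ (by rw [src_tc h2, h₁])

include hg in
theorem G.whiskR {i : ℕ} (hi : i < n) {x : Cell K} {v : Z} (hG : G hK F φ x v) {u : Cell K}
    (hu : IsDim n u) (h : d true i x = d false i u) :
    G hK F φ (tc i x u) (tc i v (F.toFun u)) := by
  induction hG with
  | @base x v hx hv =>
    rw [hv]
    exact G.base (hx.tc hu h) (F.map_tc hx hu h).symm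
  | @cons x v b₁ y₁ v₁ x₁ v₁' hb₁ hy₁ h₁ hx₁ hs ex ev ih =>
    have c := G.compat hK hg hx₁
    have m := fun a => Ev.d_eq hK (hg b₁ hb₁) le_rfl hy₁ a le_rfl
    have g1 : d true n v₁ = d false n v₁' := by rw [m, h₁, c.2.2 _ _ le_rfl]
    have h2 : d true i y₁ = d false i u := by rw [← h, ex, d_tc_lt h₁ hi]
    have h3 : d true i x₁ = d false i u := by rw [← d_eq_of_composable h₁ hi, h2]
    have hFu := F.isDim hu hu
    have g2 : d true i v₁ = d false i (F.toFun u) := by
      rw [Ev.d_eq hK (hg b₁ hb₁) le_rfl hy₁ true hi.le, h2, F.map_dd hu]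
    have g3 : d true i v₁' = d false i (F.toFun u) := by rw [← d_eq_of_composable g1 hi, g2]
    have e1 : tc i x u = tc n (tc i y₁ u) (tc i x₁ u) := by
      rw [ex, ← tc_interchange hi h₁ (isDim_src_tgt hu) h2, isDim_tc_self hu]
    have e2 : tc i v (F.toFun u) = tc n (tc i v₁ (F.toFun u)) (tc i v₁' (F.toFun u)) := by
      rw [ev, ← tc_interchange hi g1 (isDim_src_tgt hFu) g2, isDim_tc_self hFu]
    rw [e1, e2]
    exact G.insert hK hg (ih h3) hb₁ (Ev.whiskR hK (hg b₁ hb₁) hi le_rfl hy₁ hu h2)
      (by rw [d_tc_gt h2 hi, d_tc_gt h3 hi, h₁, isDim_src_tgt hu])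

include hg in
theorem G.whiskL {i : ℕ} (hi : i < n) {x : Cell K} {v : Z} (hG : G hK F φ x v) {u : Cell K}
    (hu : IsDim n u) (h : d true i u = d false i x) :
    G hK F φ (tc i u x) (tc i (F.toFun u) v) := by
  induction hG with
  | @base x v hx hv =>
    rw [hv]
    exact G.base (hu.tc hx h) (F.map_tc hu hx h).symm
  | @cons x v b₁ y₁ v₁ x₁ v₁' hb₁ hy₁ h₁ hx₁ hs ex ev ih =>
    have c := G.compat hK hg hx₁
    have m := fun a => Ev.d_eq hK (hg b₁ hb₁) le_rfl hy₁ a le_rfl
    have g1 : d true n v₁ = d false n v₁' := by rw [m, h₁, c.2.2 _ _ le_rfl]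
    have h2 : d true i u = d false i y₁ := by rw [h, ex, d_tc_lt h₁ hi]
    have h3 : d true i u = d false i x₁ := by rw [← d_eq_of_composable h₁ hi, h2]
    have hFu := F.isDim hu hu
    have g2 : d true i (F.toFun u) = d false i v₁ := by
      rw [Ev.d_eq hK (hg b₁ hb₁) le_rfl hy₁ false hi.le, ← h2, F.map_dd hu]
    have g3 : d true i (F.toFun u) = d false i v₁' := by rw [← d_eq_of_composable g1 hi, g2]
    have e1 : tc i u x = tc n (tc i u y₁) (tc i u x₁) := by
      rw [ex, ← tc_interchange hi (isDim_src_tgt hu) h₁ h2, isDim_tc_self hu]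
    have e2 : tc i (F.toFun u) v = tc n (tc i (F.toFun u) v₁) (tc i (F.toFun u) v₁') := by
      rw [ev, ← tc_interchange hi (isDim_src_tgt hFu) g1 g2, isDim_tc_self hFu]
    rw [e1, e2]
    exact G.insert hK hg (ih h3) hb₁ (Ev.whiskL hK (hg b₁ hb₁) hi le_rfl hy₁ hu h2)
      (by rw [d_tc_gt h2 hi, d_tc_gt h3 hi, h₁, isDim_src_tgt hu])

include hg in
theorem G.comp_lt {i : ℕ} (hi : i < n) {x x' : Cell K} {v v' : Z} (hG : G hK F φ x v)
    (hG' : G hK F φ x' v') (h : d true i x = d false i x') :
    G hK F φ (tc i x x') (tc i v v') := by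
  have c := G.compat hK hg hG
  have c' := G.compat hK hg hG'
  have h1 : d true i x = d false i (d false n x') := by rw [dd_lt hi, h]
  have h2 : d true i (d true n x) = d false i x' := by rw [dd_lt hi, h]
  have g : d true i v = d false i v' := by
    rw [c.2.2 _ _ hi.le, c'.2.2 _ _ hi.le, h]
  have g1 : d true i v = d false i (d false n v') := by rw [dd_lt hi, g]
  have g2 : d true i (d true n v) = d false i v' := by rw [dd_lt hi, g]
  have e : tc i x x' = tc n (tc i x (d false n x')) (tc i (d true n x) x') := by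
    rw [← tc_interchange hi (dd_le le_rfl).symm (dd_le le_rfl) h1, tc_tgt_id, src_tc_id]
  have e' : tc i v v' = tc n (tc i v (d false n v')) (tc i (d true n v) v') := by
    rw [← tc_interchange hi (dd_le le_rfl).symm (dd_le le_rfl) g1, tc_tgt_id, src_tc_id]
  rw [e, e', c.2.2 _ _ le_rfl, c'.2.2 _ _ le_rfl]
  refine G.comp_top hK hg (G.whiskR hK hg hi hG (isDim_d _ _ _) h1)
    (G.whiskL hK hg hi hG' (isDim_d _ _ _) h2) ?_
  rw [d_tc_gt h1 hi, d_tc_gt h2 hi, dd_le le_rfl, dd_le le_rfl]

include hg in
theorem G.atom {b : K.B} (hb : K.dim b = n + 1) : G hK F φ (hK.atom b) (φ b) := by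
  have h := Ev.atom hK (hg b hb) (le_refl n)
  refine G.cons b (hK.atom b) (φ b) (d true n (hK.atom b)) (F.toFun (d true n (hK.atom b))) hb h
    (dd_le le_rfl).symm (G.base (isDim_d _ _ _) rfl) ?_ tc_tgt_id.symm ?_
  · intro e he hne
    exact absurd ((Cell.isDim_iff.1 (isDim_d true n (hK.atom b))).1 false e (by omega)) hne
  · rw [← Ev.d_eq hK (hg b hb) le_rfl h true le_rfl, tc_tgt_id]

end Steiner

/-- Extension of a partial functor from dimension `n` to dimension `n + 1`. -/
theorem Steiner.exists_extend {K : BCx} (hK : Steiner K) {Z : Type v} [OmegaStr Z] {n : ℕ}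
    (F : PFun (Cell K) Z n) (φ : K.B → Z) (hφ : ∀ b, K.dim b = n + 1 → IsDim (n + 1) (φ b))
    (h1 : ∀ b, K.dim b = n + 1 → ∀ a, d a n (φ b) = F.toFun (d a n (hK.atom b))) :
    ∃ F' : PFun (Cell K) Z (n + 1), (∀ x, IsDim n x → F'.toFun x = F.toFun x) ∧
      ∀ b, K.dim b = n + 1 → F'.toFun (hK.atom b) = φ b := by
  classical
  have hg : ∀ b, K.dim b = n + 1 → Good hK F b (φ b) := fun b hb => ⟨hb, hφ b hb, h1 b hb⟩
  have hex : ∀ x : Cell K, ∃ v : Z, IsDim (n + 1) x → G hK F φ x v := by
    intro x
    by_cases hx : IsDim (n + 1) x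
    · obtain ⟨v, hv⟩ := G.exists hK hg _ hx le_rfl
      exact ⟨v, fun _ => hv⟩
    · exact ⟨F.toFun x, fun h => absurd h hx⟩
  choose f hf using hex
  have hfb : ∀ x, IsDim n x → f x = F.toFun x := fun x hx =>
    G.unique hK hg (hf x (hx.mono (by omega))) (G.base hx rfl)
  refine ⟨⟨f, ?_, ?_⟩, hfb, fun b hb => G.unique hK hg (hf _ (hb ▸ hK.isDim_atom b))
    (G.atom hK hg hb)⟩
  · intro a i x hx
    have hx : IsDim (n + 1) x := hx
    have c := G.compat hK hg (hf x hx)
    rcases Nat.lt_or_ge n i with hi | hi
    · rw [hx.d_eq a hi, c.2.1.d_eq a hi]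
    · rw [c.2.2 a i hi]
      exact hfb _ ((isDim_d a i x).mono hi)
  · intro i x y h h' hx hy
    have hx : IsDim (n + 1) x := hx
    have hy : IsDim (n + 1) y := hy
    have c := G.compat hK hg (hf x hx)
    rw [← tc_eq h, ← tc_eq h']
    rcases lt_trichotomy i n with hi | rfl | hi
    · exact G.unique hK hg (hf _ (hx.tc hy h)) (G.comp_lt hK hg hi (hf x hx) (hf y hy) h)
    · exact G.unique hK hg (hf _ (hx.tc hy h)) (G.comp_top hK hg (hf x hx) (hf y hy) h)
    · have e : x = y := by rw [← hx.d_eq true hi, h, hy.d_eq false hi]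
      subst e
      rw [isDim_tc_self (hx.mono hi), isDim_tc_self (c.2.1.mono hi)]

end Vale.Agent.P213
end

section

end

section

/-!
Generation by atoms; uniqueness and iteration of extensions.
-/

universe u v w

namespace Vale.Agent.P213

open OmegaStr

namespace Steiner

variable {K : BCx} (hK : Steiner K)

open BCx

theorem Red.isDim {b : K.B} {p : ℕ} (hp : p < K.dim b) {w : Cell K} (hw : Red hK b p w) :
    IsDim (K.dim b) w := by
  have hb := Cell.isDim_iff.1 (hK.isDim_atom b)
  rw [Cell.isDim_iff]
  constructor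
  · intro a c hc
    rw [hw a c (by omega), hb.1 a c hc]
  · intro c hc
    rw [hw true c (by omega), hw false c (by omega), hb.2 c hc]

theorem atom_injective : Function.Injective hK.atom := by
  intro b c h
  by_contra hne
  rcases le_total (K.dim b) (K.dim c) with h1 | h1
  · have h2 := hK.atom_self true c
    rw [← h, hK.atom_eq_zero h1 (Ne.symm hne)] at h2
    exact zero_ne_one h2
  · have h2 := hK.atom_self true b
    rw [h, hK.atom_eq_zero h1 hne] at h2
    exact zero_ne_one h2

/-- The sum of the coefficients of a chain. -/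
noncomputable def mass (x : K.B →₀ ℤ) : ℤ := x.sum fun _ k => k

theorem mass_add (x y : K.B →₀ ℤ) : mass (x + y) = mass x + mass y :=
  Finsupp.sum_add_index' (fun _ => rfl) (fun _ _ _ => rfl)

theorem mass_single (b : K.B) (k : ℤ) : mass (Finsupp.single b k) = k :=
  Finsupp.sum_single_index rfl

theorem mass_nonneg {x : K.B →₀ ℤ} (hx : 0 ≤ x) : 0 ≤ mass x :=
  Finset.sum_nonneg fun b _ => hx b

theorem eq_zero_of_mass {x : K.B →₀ ℤ} (hx : 0 ≤ x) (h : mass x = 0) : x = 0 := by
  ext b
  by_contra hb
  have h1 := (Finset.sum_eq_zero_iff_of_nonneg (fun b _ => hx b)).1 h b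
    (Finsupp.mem_support_iff.2 hb)
  exact hb h1

/-- Zero-dimensional cells are atoms. -/
theorem exists_atom_of_isDim_zero {x : Cell K} (hx : IsDim 0 x) :
    ∃ b, K.dim b = 0 ∧ x = hK.atom b := by
  classical
  have hx' := Cell.isDim_iff.1 hx
  have hxf : ∀ c, K.dim c ≠ 0 → x.val false c = 0 := fun c hc => hx'.1 false c (by omega)
  have h1 : mass (x.val false) = 1 := by
    rw [← x.aug_val false, BCx.aug, Finsupp.linearCombination_apply, mass, Finsupp.sum, Finsupp.sum]
    apply Finset.sum_congr rfl
    intro c hc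
    have : K.dim c = 0 := by
      by_contra h
      exact (Finsupp.mem_support_iff.1 hc) (hxf c h)
    rw [if_pos this, smul_eq_mul, mul_one]
  have h2 : x.val false ≠ 0 := by
    intro h
    rw [h, mass, Finsupp.sum_zero_index] at h1
    exact zero_ne_one h1
  obtain ⟨b, hb⟩ := Finsupp.support_nonempty_iff.2 h2
  have hb' := Finsupp.mem_support_iff.1 hb
  have hb0 : K.dim b = 0 := by
    by_contra h
    exact hb' (hxf b h)
  have hb1 : (0 : ℤ) ≤ x.val false b := x.nonneg false b
  have h3 : 0 ≤ x.val false - Finsupp.single b 1 := by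
    intro c
    have hc1 : (0 : ℤ) ≤ x.val false c := x.nonneg false c
    change (0 : ℤ) ≤ x.val false c - Finsupp.single b 1 c
    rw [Finsupp.single_apply]
    split_ifs with h
    · subst h
      omega
    · omega
  have h4 : x.val false - Finsupp.single b 1 = 0 := by
    apply eq_zero_of_mass h3
    have := mass_add (x.val false - Finsupp.single b 1) (Finsupp.single b 1)
    rw [sub_add_cancel, h1, mass_single] at this
    omega
  have h5 := sub_eq_zero.1 h4
  refine ⟨b, hb0, ?_⟩
  have h6 : ∀ (y : Cell K), IsDim 0 y → y.val false = Finsupp.single b 1 →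
      ∀ a c, y.val a c = Finsupp.single b 1 c := by
    intro y hy hyb a c
    have hy' := Cell.isDim_iff.1 hy
    cases a
    · rw [hyb]
    · by_cases hc : K.dim c = 0
      · rw [hy'.2 c hc, hyb]
      · rw [hy'.1 true c (by omega), Finsupp.single_apply, if_neg]
        rintro rfl
        exact hc hb0
  have h7 : (hK.atom b).val false = Finsupp.single b 1 := by
    ext c
    rw [Finsupp.single_apply]
    split_ifs with h
    · subst h
      exact hK.atom_self false b
    · exact hK.atom_eq_zero (by omega) (Ne.symm h)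
  have h8 : IsDim 0 (hK.atom b) := hb0 ▸ hK.isDim_atom b
  apply Cell.ext
  funext a
  ext c
  rw [h6 x hx h5 a c, h6 _ h8 h7 a c]

/-- Induction principle: cells of dimension at most `n` are generated by the atoms. -/
theorem gen_induction {n : ℕ} {P : Cell K → Prop}
    (hatom : ∀ b, K.dim b ≤ n → P (hK.atom b))
    (htc : ∀ (p : ℕ) (x y : Cell K), IsDim n x → IsDim n y → d true p x = d false p y →
      P x → P y → P (tc p x y)) :
    ∀ x, IsDim n x → P x := by
  classical
  let _ := hK.ord
  induction n with
  | zero =>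
    intro x hx
    obtain ⟨b, hb, rfl⟩ := hK.exists_atom_of_isDim_zero hx
    exact hatom b hb.le
  | succ q ih =>
    have ih' : ∀ x, IsDim q x → P x := ih (fun b hb => hatom b (by omega))
      (fun p x y hx hy => htc p x y (hx.mono (by omega)) (hy.mono (by omega)))
    -- reduced cells
    have hred : ∀ (b : K.B), K.dim b = q + 1 → ∀ p, p ≤ q → ∀ w, Red hK b p w → P w := by
      intro b hb p
      induction p with
      | zero =>
        intro _ w hw
        rw [Red.eq_atom hK (by omega) hw]
        exact hatom b (by omega)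
      | succ p ihp =>
        intro hp w hw
        obtain ⟨L, w', R, hL, hR, hw', h1, h2, rfl, -, -⟩ := hK.split (by omega) hw
        have hw'd : IsDim (q + 1) w' := hb ▸ Red.isDim hK (by omega) hw'
        have hLd : IsDim (q + 1) L := hL.mono (by omega)
        have hRd : IsDim (q + 1) R := hR.mono (by omega)
        exact htc p _ _ (hLd.tc hw'd h1) hRd (by rw [tgt_tc h1, h2])
          (htc p _ _ hLd hw'd h1 (ih' L (hL.mono hp)) (ihp (by omega) w' hw'))
          (ih' R (hR.mono hp))
    -- cells with top a basis element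
    have hsingle : ∀ (b : K.B) (x : Cell K), IsDim (q + 1) x →
        K.part (· = q + 1) (x.val false) = Finsupp.single b 1 → P x := by
      intro b x hx hb
      have hx' := Cell.isDim_iff.1 hx
      have hb1 : K.dim b = q + 1 := by
        have h1 : K.part (· = q + 1) (x.val false) b = 1 := by
          rw [hb, Finsupp.single_eq_same]
        rw [part_apply] at h1
        by_contra h2
        rw [if_neg h2] at h1
        exact zero_ne_one h1
      apply hred b hb1 q le_rfl
      have hb' := Cell.isDim_iff.1 (hb1 ▸ hK.isDim_atom b : IsDim (q + 1) (hK.atom b))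
      intro a c hc
      rcases (Nat.succ_le_of_lt hc).eq_or_lt with hc | hc
      · have h1 : x.val false c = (hK.atom b).val false c := by
          have h2 : K.part (· = q + 1) (x.val false) c = x.val false c := by
            rw [part_apply, if_pos hc.symm]
          rw [← h2, hb, Finsupp.single_apply]
          split_ifs with h3
          · subst h3
            exact (hK.atom_self false b).symm
          · exact (hK.atom_eq_zero (by omega) (Ne.symm h3)).symm
        cases a
        · exact h1
        · rw [hx'.2 c hc.symm, hb'.2 c hc.symm, h1]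
      · rw [hx'.1 a c hc, hb'.1 a c hc]
    have key : ∀ (k : ℕ) (x : Cell K), IsDim (q + 1) x →
        mass (K.part (· = q + 1) (x.val false)) = k → P x := by
      intro k
      induction k with
      | zero =>
        intro x hx hk
        have h1 := eq_zero_of_mass (part_nonneg _ (x.nonneg false)) hk
        apply ih'
        apply isDim_of_top hx
        intro e he
        have h2 : K.part (· = q + 1) (x.val false) e = 0 := by rw [h1]; rfl
        rwa [part_apply, if_pos he] at h2
      | succ k ihk =>
        intro x hx hk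
        obtain ⟨u, hu⟩ : ∃ u, u = K.part (· = q + 1) (x.val false) := ⟨_, rfl⟩
        have hun : 0 ≤ u := by rw [hu]; exact part_nonneg _ (x.nonneg false)
        rw [← hu] at hk
        have hne : u ≠ 0 := by
          rintro rfl
          rw [mass, Finsupp.sum_zero_index] at hk
          omega
        obtain ⟨b, hb, hmax⟩ := u.support.exists_max_image (fun x => x)
          (Finsupp.support_nonempty_iff.2 hne)
        have hb' := Finsupp.mem_support_iff.1 hb
        have hb1 : (0 : ℤ) ≤ u b := hun b
        have h1 : 0 ≤ u - Finsupp.single b 1 := by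
          intro c
          have hc1 : (0 : ℤ) ≤ u c := hun c
          change (0 : ℤ) ≤ u c - Finsupp.single b 1 c
          rw [Finsupp.single_apply]
          split_ifs with h
          · subst h
            omega
          · omega
        have h2 : 0 ≤ (Finsupp.single b 1 : K.B →₀ ℤ) := by
          intro c
          change (0 : ℤ) ≤ Finsupp.single b 1 c
          rw [Finsupp.single_apply]
          split_ifs <;> omega
        have h3 : u - Finsupp.single b 1 + Finsupp.single b 1 = u := sub_add_cancel _ _
        obtain ⟨L, R, hL, hR, hLR, htcx, hLt, hRt⟩ := hK.topSplit hx b h1 h2 (by rw [h3, hu])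
          (by
            intro c hc
            apply hmax c
            rw [Finsupp.mem_support_iff]
            intro h4
            apply hc
            change u c - Finsupp.single b 1 c = 0
            rw [h4, Finsupp.single_apply, if_neg]
            · rfl
            · rintro rfl
              exact hb' h4)
          (by
            intro c hc
            rw [Finsupp.single_apply] at hc
            by_contra h
            rw [if_neg] at hc
            · exact hc rfl
            · rintro rfl
              exact h (le_refl b))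
        rw [← htcx]
        refine htc q L R hL hR hLR (ihk L hL ?_) (hsingle b R hR hRt)
        rw [hLt]
        have h4 := mass_add (u - Finsupp.single b 1) (Finsupp.single b 1)
        rw [h3, hk, mass_single] at h4
        push_cast at h4
        omega
    intro x hx
    have h1 := mass_nonneg (part_nonneg (· = q + 1) (x.nonneg false))
    exact key _ x hx (Int.toNat_of_nonneg h1).symm

end Steiner

end Vale.Agent.P213
end

section

/-!
The freeness theorem of Steiner complexes.
-/

universe u v w

namespace Vale.Agent.P213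

open OmegaStr

/-- The same for partial functors. -/
theorem Steiner.pfun_ext {K : BCx} (hK : Steiner K) {Z : Type v} [OmegaStr Z] {n : ℕ}
    {F G : PFun (Cell K) Z n} (h : ∀ b, K.dim b ≤ n → F.toFun (hK.atom b) = G.toFun (hK.atom b))
    (x : Cell K) (hx : d false n x = x) : F.toFun x = G.toFun x := by
  refine hK.gen_induction (P := fun x => F.toFun x = G.toFun x) h ?_ x hx
  intro p x y hx hy hxy h1 h2
  rw [F.map_tc hx hy hxy, G.map_tc hx hy hxy, h1, h2]

/-- Two functors out of the tables of a Steiner complex which agree on atoms are equal. -/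
theorem Steiner.fun_ext {K : BCx} (hK : Steiner K) {Z : Type v} [OmegaStr Z]
    {F G : OmegaFun (Cell K) Z} (h : ∀ b, F (hK.atom b) = G (hK.atom b)) : F = G := by
  apply OmegaFun.ext
  intro x
  obtain ⟨n, hn⟩ := exists_isDim x
  exact hK.pfun_ext (F := F.toPFun n) (G := G.toPFun n) (fun b _ => h b) x hn

namespace Steiner

variable {K : BCx} (hK : Steiner K) {Z : Type v} [OmegaStr Z]

/-- The partial functor in dimension `0`. -/
theorem exists_base (φ : K.B → Z) (h0 : ∀ b, d false (K.dim b) (φ b) = φ b) :
    ∃ F : PFun (Cell K) Z 0, ∀ b, K.dim b ≤ 0 → F.toFun (hK.atom b) = φ b := by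
  have key : ∀ x : Cell K, ∃ b, K.dim b = 0 ∧ d false 0 x = hK.atom b := fun x =>
    hK.exists_atom_of_isDim_zero (isDim_d false 0 x)
  choose β hβ0 hβ using key
  have hβd : ∀ x y : Cell K, d false 0 x = d false 0 y → β x = β y := by
    intro x y hxy
    apply hK.atom_injective
    rw [← hβ, ← hβ, hxy]
  have hφ : ∀ x, IsDim 0 (φ (β x)) := by
    intro x
    have := h0 (β x)
    rwa [hβ0] at this
  refine ⟨⟨fun x => φ (β x), ?_, ?_⟩, ?_⟩
  · intro a i x hx
    have h1 : d a i x = x := IsDim.d_eq hx a (Nat.zero_le i)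
    rw [h1, (hφ x).d_eq a (Nat.zero_le i)]
  · intro i x y h h' hx hy
    have h1 : x = y := by
      rw [← IsDim.d_eq hx true (Nat.zero_le i), h, IsDim.d_eq hy false (Nat.zero_le i)]
    subst h1
    rw [← tc_eq h, ← tc_eq h', isDim_tc_self (IsDim.mono hx (Nat.zero_le i)),
      isDim_tc_self ((hφ x).mono (Nat.zero_le i))]
  · intro b hb
    have h1 : K.dim b = 0 := by omega
    have h2 : β (hK.atom b) = b := by
      apply hK.atom_injective
      rw [← hβ]
      exact h1 ▸ hK.isDim_atom b
    change φ (β (hK.atom b)) = φ b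
    rw [h2]

variable (φ : K.B → Z)

/-- The partial functors extending `φ`. -/
abbrev PExt (n : ℕ) : Type _ :=
  {F : PFun (Cell K) Z n // ∀ b, K.dim b ≤ n → F.toFun (hK.atom b) = φ b}

variable {φ}

theorem exists_step (h0 : ∀ b, d false (K.dim b) (φ b) = φ b)
    (h1 : ∀ (n : ℕ) (F : PFun (Cell K) Z n),
      (∀ b, K.dim b ≤ n → F.toFun (hK.atom b) = φ b) →
      ∀ b, K.dim b = n + 1 → ∀ a, d a n (φ b) = F.toFun (d a n (hK.atom b)))
    {n : ℕ} (F : PExt hK φ n) :
    ∃ G : PExt hK φ (n + 1), ∀ x, IsDim n x → G.1.toFun x = F.1.toFun x := by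
  obtain ⟨G, hG, hG'⟩ := hK.exists_extend F.1 φ (fun b hb => by
    have := h0 b
    rwa [hb] at this) (h1 n F.1 F.2)
  refine ⟨⟨G, fun b hb => ?_⟩, hG⟩
  rcases hb.lt_or_eq with hb | hb
  · rw [hG _ ((hK.isDim_atom b).mono (by omega)), F.2 b (by omega)]
  · exact hG' b hb

end Steiner

/-- Freeness of the omega-category of tables of a Steiner complex: a family of cells `φ b`
extends to a functor as soon as for all `n`, every partial functor on the cells of
dimension `≤ n` extending `φ` sends the `n`-source and `n`-target of the atom of any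
`(n+1)`-dimensional basis element `b` to the source and target of `φ b`. -/
theorem Steiner.exists_fun {K : BCx} (hK : Steiner K) {Z : Type v} [OmegaStr Z]
    (φ : K.B → Z) (h0 : ∀ b, d false (K.dim b) (φ b) = φ b)
    (h1 : ∀ (n : ℕ) (F : PFun (Cell K) Z n),
      (∀ b, K.dim b ≤ n → F.toFun (hK.atom b) = φ b) →
      ∀ b, K.dim b = n + 1 → ∀ a, d a n (φ b) = F.toFun (d a n (hK.atom b))) :
    ∃ F : OmegaFun (Cell K) Z, ∀ b, F (hK.atom b) = φ b := by
  classical
  obtain ⟨F0, hF0⟩ := hK.exists_base φ h0
  let step : ∀ n, Steiner.PExt hK φ n → Steiner.PExt hK φ (n + 1) := fun n F =>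
    (hK.exists_step h0 h1 F).choose
  let Fs : ∀ n, Steiner.PExt hK φ n := fun n => Nat.rec ⟨F0, hF0⟩ step n
  have hstep : ∀ n x, IsDim n x → (Fs (n + 1)).1.toFun x = (Fs n).1.toFun x := fun n =>
    (hK.exists_step h0 h1 (Fs n)).choose_spec
  have hmono : ∀ n k x, IsDim n x → (Fs (n + k)).1.toFun x = (Fs n).1.toFun x := by
    intro n k
    induction k with
    | zero => intro x _; rfl
    | succ k ih =>
      intro x hx
      rw [← add_assoc, hstep _ _ (hx.mono (by omega)), ih x hx]
  have hmono' : ∀ n m x, n ≤ m → IsDim n x → (Fs m).1.toFun x = (Fs n).1.toFun x := by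
    intro n m x hnm hx
    obtain ⟨k, rfl⟩ := Nat.exists_eq_add_of_le hnm
    exact hmono n k x hx
  choose N hN using fun x : Cell K => exists_isDim x
  let Φ : Cell K → Z := fun x => (Fs (N x)).1.toFun x
  have hΦ : ∀ n x, IsDim n x → (Fs n).1.toFun x = Φ x := by
    intro n x hx
    rw [← hmono' n (max n (N x)) x (le_max_left _ _) hx,
      hmono' (N x) (max n (N x)) x (le_max_right _ _) (hN x)]
  refine ⟨⟨Φ, ?_, ?_⟩, ?_⟩
  · intro a i x
    rw [← hΦ (N x) (d a i x) ((hN x).d a i), (Fs (N x)).1.map_dd (hN x)]
  · intro i x y h h'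
    have hx : IsDim (max (N x) (N y)) x := (hN x).mono (le_max_left _ _)
    have hy : IsDim (max (N x) (N y)) y := (hN y).mono (le_max_right _ _)
    rw [← tc_eq h, ← tc_eq h', ← hΦ _ _ (hx.tc hy h), (Fs _).1.map_tc hx hy h, hΦ _ _ hx,
      hΦ _ _ hy]
  · intro b
    change Φ (hK.atom b) = φ b
    rw [← hΦ (K.dim b) _ (hK.isDim_atom b), (Fs (K.dim b)).2 b le_rfl]

end Vale.Agent.P213
end
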