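import Mathlib.Data.Prod.Lex
import Vale.Agent.P213.Bdl.B3
import Vale.Agent.P213.Bdl.B1

set_option linter.all false

section

/-!
The infinite globe complex, tables as morphisms out of it, rigid embeddings and uniqueness
of atoms.
-/

universe u v w

namespace Vale.Agent.P213

open OmegaStr

/-! ### Rigid embeddings -/

/-- A rigid embedding of based complexes: an injective map of bases compatible with
dimensions and boundaries. -/
structure Rigid (K L : BCx) where
  g : K.B → L.B
  inj : Function.Injective g
  dim_g : ∀ b, L.dim (g b) = K.dim b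
  bd_g : ∀ b, L.bd (g b) = (K.bd b).mapDomain g

namespace Rigid

variable {K L M : BCx}

/-- The morphism of complexes attached to a rigid embedding. -/
noncomputable def hom (r : Rigid K L) : BCxHom K L where
  f b := Finsupp.single (r.g b) 1
  nonneg b := by
    classical
    intro c
    simp only [Finsupp.coe_zero, Pi.zero_apply, Finsupp.single_apply]
    split_ifs <;> simp
  dim_f b c h := by
    classical
    simp only [Finsupp.single_apply, ne_eq, ite_eq_right_iff, one_ne_zero, imp_false,
      not_not] at h
    rw [← h, r.dim_g]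
  bdry_f b := by
    rw [BCx.bdry_single, one_smul, r.bd_g, Finsupp.mapDomain, Finsupp.linearCombination_apply]
    simp
  aug_f b h := by
    rw [BCx.aug_single, if_pos (by rw [r.dim_g, h])]

theorem hom_f (r : Rigid K L) (b : K.B) : r.hom.f b = Finsupp.single (r.g b) 1 := rfl

theorem hom_lin (r : Rigid K L) (x : K.B →₀ ℤ) : r.hom.lin x = x.mapDomain r.g := by
  rw [BCxHom.lin, Finsupp.mapDomain, Finsupp.linearCombination_apply]
  simp [hom_f]

theorem hom_lin_apply (r : Rigid K L) (x : K.B →₀ ℤ) (b : K.B) : r.hom.lin x (r.g b) = x b := by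
  rw [hom_lin, Finsupp.mapDomain_apply r.inj]

theorem hom_lin_notin (r : Rigid K L) (x : K.B →₀ ℤ) (c : L.B) (h : ∀ b, r.g b ≠ c) :
    r.hom.lin x c = 0 := by
  rw [hom_lin, Finsupp.mapDomain_of_notMem_range]
  rintro ⟨b, hb⟩
  exact h b hb

end Rigid

/-! ### Uniqueness of atoms -/

theorem BCx.bdry_apply_congr {K : BCx} {x y : K.B →₀ ℤ} (c : K.B)
    (h : ∀ e, K.dim e = K.dim c + 1 → x e = y e) : K.bdry x c = K.bdry y c := by
  have h1 : K.part (· = K.dim c + 1) x = K.part (· = K.dim c + 1) y := by
    ext e
    simp only [BCx.part_apply]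
    split_ifs with he
    · exact h e he
    · rfl
  have h2 := congrArg (fun z => K.bdry z c) h1
  simp only [BCx.bdry_part, BCx.part_apply, add_left_inj, if_true] at h2
  exact h2

/-- A cell is determined by its values in degrees `≥ n` if its source and target are
disjoint in degrees `< n`. -/
theorem Cell.ext_of_disj {K : BCx} {x y : Cell K} (n : ℕ)
    (h : ∀ a c, n ≤ K.dim c → x.val a c = y.val a c)
    (hx : ∀ c, K.dim c < n → x.val false c = 0 ∨ x.val true c = 0)
    (hy : ∀ c, K.dim c < n → y.val false c = 0 ∨ y.val true c = 0) : x = y := by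
  have key : ∀ k : ℕ, k ≤ n → ∀ a c, n - k ≤ K.dim c → x.val a c = y.val a c := by
    intro k
    induction k with
    | zero => intro _ a c hc; exact h a c hc
    | succ k ih =>
      intro hk a c hc
      by_cases h1 : n - k ≤ K.dim c
      · exact ih (by omega) a c h1
      · have h2 : K.dim c < n := by omega
        have h3 : K.bdry (x.val true) c = K.bdry (y.val true) c := by
          apply BCx.bdry_apply_congr
          intro e he
          exact ih (by omega) true e (by omega)
        rw [x.bdry_val, y.bdry_val] at h3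
        simp only [Finsupp.coe_sub, Pi.sub_apply] at h3
        have h4 := x.nonneg false c
        have h5 := x.nonneg true c
        have h6 := y.nonneg false c
        have h7 := y.nonneg true c
        simp only [Finsupp.coe_zero, Pi.zero_apply] at h4 h5 h6 h7
        have h8 := hx c h2
        have h9 := hy c h2
        cases a <;> omega
  ext a c
  exact key n le_rfl a c (by omega)

theorem Steiner.atom_unique {K : BCx} (hK : Steiner K) (x : Cell K) (b : K.B)
    (htop : ∀ a c, K.dim b ≤ K.dim c → (x.val a c = 1 ∧ c = b) ∨ (x.val a c = 0 ∧ c ≠ b))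
    (hdisj : ∀ c, K.dim c < K.dim b → x.val false c = 0 ∨ x.val true c = 0) :
    x = hK.atom b := by
  apply Cell.ext_of_disj (K.dim b) _ hdisj (hK.atom_disj b)
  intro a c hc
  rcases htop a c hc with ⟨h1, h2⟩ | ⟨h1, h2⟩ <;>
    rcases hK.atom_top a b c hc with ⟨h3, h4⟩ | ⟨h3, h4⟩
  · rw [h1, h3]
  · exact absurd h2 h4
  · exact absurd h4 h2
  · rw [h1, h3]

/-- Rigid embeddings send atoms to atoms. -/
theorem Steiner.map_atom {K L : BCx} (hK : Steiner K) (hL : Steiner L) (r : Rigid K L) (b : K.B) :
    (hK.atom b).map r.hom = hL.atom (r.g b) := by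
  apply hL.atom_unique
  · intro a c hc
    rw [Cell.map_val]
    by_cases h : ∃ e, r.g e = c
    · obtain ⟨e, rfl⟩ := h
      rw [r.hom_lin_apply]
      rw [r.dim_g, r.dim_g] at hc
      rcases hK.atom_top a b e hc with ⟨h1, h2⟩ | ⟨h1, h2⟩
      · exact Or.inl ⟨h1, by rw [h2]⟩
      · exact Or.inr ⟨h1, fun h3 => h2 (r.inj h3)⟩
    · right
      refine ⟨r.hom_lin_notin _ c (fun e he => h ⟨e, he⟩), fun h3 => h ⟨b, h3.symm⟩⟩
  · intro c hc
    rw [Cell.map_val, Cell.map_val]
    by_cases h : ∃ e, r.g e = c
    · obtain ⟨e, rfl⟩ := h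
      rw [r.hom_lin_apply, r.hom_lin_apply]
      rw [r.dim_g, r.dim_g] at hc
      exact hK.atom_disj b e hc
    · left
      exact r.hom_lin_notin _ c (fun e he => h ⟨e, he⟩)

/-! ### The infinite globe -/

/-- Boundary of the infinite globe. -/
noncomputable def globeBd : ℕ × Bool → (ℕ × Bool →₀ ℤ)
  | (0, _) => 0
  | (i + 1, _) => Finsupp.single (i, true) 1 - Finsupp.single (i, false) 1

/-- The infinite globe: two basis elements in each dimension. -/
noncomputable abbrev globeCx : BCx where
  B := ℕ × Bool
  dim := Prod.fst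
  bd := globeBd
  bd_dim b c h := by
    classical
    rcases b with ⟨_ | i, a⟩
    · exact absurd rfl h
    · simp only [globeBd, Finsupp.coe_sub, Pi.sub_apply, Finsupp.single_apply] at h
      rcases c with ⟨j, e⟩
      simp only [Prod.mk.injEq] at h
      by_cases hj : i = j
      · simp [hj]
      · simp [hj] at h
  bd_bd b := by
    rcases b with ⟨_ | i, a⟩
    · simp [globeBd]
    · rcases i with _ | i <;> simp [globeBd, map_sub]
  aug_bd b := by
    rcases b with ⟨_ | i, a⟩
    · simp [globeBd]
    · simp [globeBd, map_sub]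

theorem globe_dim (b : globeCx.B) : globeCx.dim b = b.1 := rfl

theorem globe_bd_zero (a : Bool) : globeCx.bd (0, a) = 0 := rfl

theorem globe_bd_succ (i : ℕ) (a : Bool) : globeCx.bd (i + 1, a) =
    Finsupp.single (i, true) 1 - Finsupp.single (i, false) 1 := rfl

/-- constructor for morphisms out of the globe -/
noncomputable def globeHom {K : BCx} (f : ℕ → Bool → (K.B →₀ ℤ)) (h0 : ∀ i a, 0 ≤ f i a)
    (h1 : ∀ i a b, f i a b ≠ 0 → K.dim b = i)
    (h2 : ∀ a, K.aug (f 0 a) = 1)
    (h3 : ∀ i a, K.bdry (f (i + 1) a) = f i true - f i false) : BCxHom globeCx K where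
  f b := f b.1 b.2
  nonneg b := h0 b.1 b.2
  dim_f b c h := h1 b.1 b.2 c h
  bdry_f b := by
    rcases b with ⟨_ | i, a⟩
    · rw [globe_bd_zero, map_zero]
      have h4 : K.part (· = 0) (f 0 a) = f 0 a := BCx.part_of_forall (fun e he => h1 0 a e he)
      rw [← h4, BCx.bdry_part]
      ext c
      rw [BCx.part_apply]
      simp
    · rw [h3, globe_bd_succ, map_sub]
      simp
  aug_f b h := by
    rcases b with ⟨i, a⟩
    change i = 0 at h
    subst h
    exact h2 a

theorem BCxHom.globe_aug {K : BCx} (p : BCxHom globeCx K) (a : Bool) :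
    K.aug (p.f (0, a)) = 1 := p.aug_f (0, a) rfl

theorem BCxHom.globe_bdry {K : BCx} (p : BCxHom globeCx K) (i : ℕ) (a : Bool) :
    K.bdry (p.f (i + 1, a)) = p.f (i, true) - p.f (i, false) := by
  rw [p.bdry_f, globe_bd_succ, map_sub]
  simp

theorem BCxHom.globe_ext {K : BCx} {p q : BCxHom globeCx K}
    (h : ∀ i a, p.f (i, a) = q.f (i, a)) : p = q := by
  ext1
  funext b
  exact h b.1 b.2

/-- The endomorphism `e_i ↦ e_i` (`i < n`), `e_n ↦ e_n^a`, `e_i ↦ 0` (`i > n`) of the
infinite globe. -/
noncomputable def sig (n : ℕ) (a : Bool) : BCxHom globeCx globeCx :=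
  globeHom (fun i b => if i < n then Finsupp.single (i, b) 1 else
    if i = n then Finsupp.single (n, a) 1 else 0)
    (by
      classical
      intro i b c
      split_ifs <;> simp only [Finsupp.coe_zero, Pi.zero_apply, Finsupp.single_apply] <;>
        first | (split_ifs <;> simp) | simp)
    (by
      classical
      intro i b c h
      split_ifs at h with h1 h2
      · rw [Finsupp.single_apply] at h
        split_ifs at h with h3
        · rw [← h3]
        · exact absurd rfl h
      · rw [Finsupp.single_apply] at h
        split_ifs at h with h3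
        · rw [← h3, h2]
        · exact absurd rfl h
      · exact absurd rfl h)
    (by
      intro b
      split_ifs with h1 h2
      · rw [BCx.aug_single, if_pos rfl]
      · rw [BCx.aug_single, if_pos (by rw [← h2])]
      · omega)
    (by
      intro i b
      rcases lt_trichotomy (i + 1) n with h | h | h
      · rw [if_pos h, if_pos (by omega), if_pos (by omega), BCx.bdry_single, one_smul,
          globe_bd_succ]
      · rw [if_neg (by omega), if_pos h, if_pos (by omega), if_pos (by omega),
          BCx.bdry_single, one_smul, ← h, globe_bd_succ]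
      · rw [if_neg (by omega), if_neg (by omega), map_zero]
        have h3 : ¬ i < n := by omega
        simp only [if_neg h3, sub_self])

theorem sig_f (n : ℕ) (a : Bool) (i : ℕ) (b : Bool) : (sig n a).f (i, b) =
    if i < n then Finsupp.single (i, b) 1 else
      if i = n then Finsupp.single (n, a) 1 else 0 := rfl

theorem comp_sig_f {K : BCx} (p : BCxHom globeCx K) (n : ℕ) (a : Bool) (i : ℕ) (b : Bool) :
    (p.comp (sig n a)).f (i, b) = if i < n then p.f (i, b) else
      if i = n then p.f (i, a) else 0 := by
  change p.lin ((sig n a).f (i, b)) = _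
  rw [sig_f]
  split_ifs with h1 h2
  · rw [BCxHom.lin_single, one_smul]
  · rw [BCxHom.lin_single, one_smul, h2]
  · rw [map_zero]

theorem BCxHom.comp_assoc {K L M N : BCx} (χ : BCxHom M N) (ψ : BCxHom L M) (φ : BCxHom K L) :
    (χ.comp ψ).comp φ = χ.comp (ψ.comp φ) := by
  ext1
  funext b
  exact BCxHom.lin_comp _ _ _

theorem BCxHom.comp_id {K L : BCx} (φ : BCxHom K L) : φ.comp (BCxHom.id K) = φ := by
  ext1
  funext b
  change φ.lin (Finsupp.single b 1) = φ.f b
  rw [BCxHom.lin_single, one_smul]

theorem BCxHom.id_comp {K L : BCx} (φ : BCxHom K L) : (BCxHom.id L).comp φ = φ := by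
  ext1
  funext b
  exact BCxHom.lin_id _

theorem comp_sig_sig_of_lt {K : BCx} (p : BCxHom globeCx K) (a b : Bool) (m n : ℕ)
    (h : m < n) : (p.comp (sig n b)).comp (sig m a) = p.comp (sig m a) := by
  apply BCxHom.globe_ext
  intro i c
  simp only [comp_sig_f]
  split_ifs <;> first | rfl | omega

theorem comp_sig_sig_of_le {K : BCx} (p : BCxHom globeCx K) (a b : Bool) (m n : ℕ)
    (h : n ≤ m) : (p.comp (sig n b)).comp (sig m a) = p.comp (sig n b) := by
  apply BCxHom.globe_ext
  intro i c
  simp only [comp_sig_f]
  split_ifs <;> first | rfl | omega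

theorem sig_sig_of_lt (a b : Bool) (m n : ℕ) (h : m < n) :
    (sig n b).comp (sig m a) = sig m a := by
  have := comp_sig_sig_of_lt (BCxHom.id _) a b m n h
  simpa only [BCxHom.id_comp] using this

theorem sig_sig_of_le (a b : Bool) (m n : ℕ) (h : n ≤ m) :
    (sig n b).comp (sig m a) = sig n b := by
  have := comp_sig_sig_of_le (BCxHom.id _) a b m n h
  simpa only [BCxHom.id_comp] using this

/-- Composition of (infinite) tables. -/
noncomputable def hcomp {K : BCx} (n : ℕ) (p q : BCxHom globeCx K)
    (h : p.comp (sig n true) = q.comp (sig n false)) : BCxHom globeCx K :=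
  globeHom (fun i b => p.f (i, b) - (p.comp (sig n true)).f (i, b) + q.f (i, b))
    (by
      intro i b c
      have h1 := congrArg (fun z => z.f (i, b) c) h
      simp only [comp_sig_f, Finsupp.coe_add, Finsupp.coe_sub, Pi.add_apply, Pi.sub_apply,
        Finsupp.coe_zero, Pi.zero_apply] at h1 ⊢
      have h2 := p.nonneg (i, b) c
      have h3 := q.nonneg (i, b) c
      have h4 := p.nonneg (i, false) c
      have h5 := q.nonneg (i, true) c
      simp only [Finsupp.coe_zero, Pi.zero_apply] at h2 h3 h4 h5
      cases b <;> split_ifs at h1 ⊢ <;> (try simp only [Finsupp.coe_zero, Pi.zero_apply] at *) <;>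
        omega)
    (by
      intro i b c h1
      by_contra hne
      apply h1
      have h2 : p.f (i, b) c = 0 := by
        by_contra h3
        exact hne (p.dim_f _ _ h3)
      have h3 : (p.comp (sig n true)).f (i, b) c = 0 := by
        by_contra h3
        exact hne ((p.comp (sig n true)).dim_f _ _ h3)
      have h4 : q.f (i, b) c = 0 := by
        by_contra h3
        exact hne (q.dim_f _ _ h3)
      simp only [Finsupp.coe_add, Finsupp.coe_sub, Pi.add_apply, Pi.sub_apply, h2, h3, h4]
      norm_num)
    (by
      intro b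
      rw [map_add, map_sub, BCxHom.globe_aug, BCxHom.globe_aug, BCxHom.globe_aug]
      norm_num)
    (by
      intro i b
      rw [map_add, map_sub, BCxHom.globe_bdry, BCxHom.globe_bdry, BCxHom.globe_bdry]
      abel)

theorem hcomp_f {K : BCx} (n : ℕ) (p q : BCxHom globeCx K)
    (h : p.comp (sig n true) = q.comp (sig n false)) (i : ℕ) (b : Bool) :
    (hcomp n p q h).f (i, b) = p.f (i, b) - (p.comp (sig n true)).f (i, b) + q.f (i, b) := by
  rfl

theorem comp_hcomp {K L : BCx} (φ : BCxHom K L) (n : ℕ) (p q : BCxHom globeCx K)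
    (h : p.comp (sig n true) = q.comp (sig n false))
    (h' : (φ.comp p).comp (sig n true) = (φ.comp q).comp (sig n false)) :
    φ.comp (hcomp n p q h) = hcomp n (φ.comp p) (φ.comp q) h' := by
  apply BCxHom.globe_ext
  intro i b
  rw [hcomp_f]
  change φ.lin ((hcomp n p q h).f (i, b)) = φ.lin (p.f (i, b)) - _ + φ.lin (q.f (i, b))
  rw [hcomp_f, map_add, map_sub, BCxHom.comp_assoc]
  rfl

theorem comp_hcomp_compat {K L : BCx} (φ : BCxHom K L) (n : ℕ) {p q : BCxHom globeCx K}
    (h : p.comp (sig n true) = q.comp (sig n false)) :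
    (φ.comp p).comp (sig n true) = (φ.comp q).comp (sig n false) := by
  rw [BCxHom.comp_assoc, BCxHom.comp_assoc, h]

section laws

variable {K : BCx}

theorem hcomp_src (n : ℕ) (p q : BCxHom globeCx K)
    (h : p.comp (sig n true) = q.comp (sig n false)) :
    (hcomp n p q h).comp (sig n false) = p.comp (sig n false) := by
  apply BCxHom.globe_ext
  intro i b
  ext c
  have h1 := congrArg (fun z => z.f (i, b) c) h
  have h2 := congrArg (fun z => z.f (i, false) c) h
  simp only [comp_sig_f, hcomp_f] at h1 h2 ⊢
  split_ifs at h1 h2 ⊢ <;> simp_all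

theorem hcomp_tgt (n : ℕ) (p q : BCxHom globeCx K)
    (h : p.comp (sig n true) = q.comp (sig n false)) :
    (hcomp n p q h).comp (sig n true) = q.comp (sig n true) := by
  apply BCxHom.globe_ext
  intro i b
  ext c
  have h1 := congrArg (fun z => z.f (i, b) c) h
  simp only [comp_sig_f, hcomp_f] at h1 ⊢
  split_ifs at h1 ⊢ <;> simp_all

theorem hcomp_sig (a : Bool) (m n : ℕ) (p q : BCxHom globeCx K)
    (h : p.comp (sig n true) = q.comp (sig n false))
    (h' : (p.comp (sig m a)).comp (sig n true) = (q.comp (sig m a)).comp (sig n false))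
    (hnm : n < m) :
    (hcomp n p q h).comp (sig m a) = hcomp n (p.comp (sig m a)) (q.comp (sig m a)) h' := by
  apply BCxHom.globe_ext
  intro i b
  ext c
  simp only [comp_sig_f, hcomp_f]
  split_ifs <;> first | omega | simp_all

theorem hcomp_sig_compat (a : Bool) (m n : ℕ) (p q : BCxHom globeCx K)
    (h : p.comp (sig n true) = q.comp (sig n false)) (hnm : n < m) :
    (p.comp (sig m a)).comp (sig n true) = (q.comp (sig m a)).comp (sig n false) := by
  rw [comp_sig_sig_of_lt _ _ _ _ _ hnm, comp_sig_sig_of_lt _ _ _ _ _ hnm, h]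

theorem hcomp_id_left (n : ℕ) (p : BCxHom globeCx K)
    (h : (p.comp (sig n false)).comp (sig n true) = p.comp (sig n false)) :
    hcomp n (p.comp (sig n false)) p h = p := by
  apply BCxHom.globe_ext
  intro i b
  ext c
  simp only [comp_sig_f, hcomp_f]
  split_ifs <;> simp

theorem hcomp_id_right (n : ℕ) (p : BCxHom globeCx K)
    (h : p.comp (sig n true) = (p.comp (sig n true)).comp (sig n false)) :
    hcomp n p (p.comp (sig n true)) h = p := by
  apply BCxHom.globe_ext
  intro i b
  ext c
  simp only [comp_sig_f, hcomp_f]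
  split_ifs <;> simp

theorem hcomp_assoc (n : ℕ) (x y z : BCxHom globeCx K)
    (h₁ : x.comp (sig n true) = y.comp (sig n false))
    (h₂ : y.comp (sig n true) = z.comp (sig n false))
    (h₃ : (hcomp n x y h₁).comp (sig n true) = z.comp (sig n false))
    (h₄ : x.comp (sig n true) = (hcomp n y z h₂).comp (sig n false)) :
    hcomp n (hcomp n x y h₁) z h₃ = hcomp n x (hcomp n y z h₂) h₄ := by
  apply BCxHom.globe_ext
  intro i b
  rw [hcomp_f, hcomp_f, hcomp_f, hcomp_f, hcomp_tgt]
  abel

theorem hcomp_interchange (m n : ℕ) (x y z w : BCxHom globeCx K) (hmn : m < n)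
    (h₁ : x.comp (sig n true) = y.comp (sig n false))
    (h₂ : z.comp (sig n true) = w.comp (sig n false))
    (h₃ : x.comp (sig m true) = z.comp (sig m false))
    (h₄ : y.comp (sig m true) = w.comp (sig m false))
    (h₅ : (hcomp n x y h₁).comp (sig m true) = (hcomp n z w h₂).comp (sig m false))
    (h₆ : (hcomp m x z h₃).comp (sig n true) = (hcomp m y w h₄).comp (sig n false)) :
    hcomp m (hcomp n x y h₁) (hcomp n z w h₂) h₅ =
      hcomp n (hcomp m x z h₃) (hcomp m y w h₄) h₆ := by
  apply BCxHom.globe_ext
  intro i b
  ext c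
  have g₁ := congrArg (fun z => z.f (i, b) c) h₁
  have g₂ := congrArg (fun z => z.f (i, b) c) h₂
  have g₃ := congrArg (fun z => z.f (i, b) c) h₃
  have g₄ := congrArg (fun z => z.f (i, b) c) h₄
  have g₅ := congrArg (fun z => z.f (i, true) c) h₁
  have g₆ := congrArg (fun z => z.f (i, true) c) h₂
  simp only [comp_sig_f, hcomp_f] at g₁ g₂ g₃ g₄ g₅ g₆ ⊢
  split_ifs at g₁ g₂ g₃ g₄ g₅ g₆ ⊢ <;>
    simp only [Finsupp.coe_add, Finsupp.coe_sub, Pi.add_apply, Pi.sub_apply,
      Finsupp.coe_zero, Pi.zero_apply] at * <;> omega

end laws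

/-! ### The atoms of the globe -/

/-- The chain `Σ_{j < i} e_j^a`. -/
noncomputable def gsum (i : ℕ) (a : Bool) : ℕ × Bool →₀ ℤ :=
  ∑ j ∈ Finset.range i, Finsupp.single (j, a) 1

theorem gsum_succ (i : ℕ) (a : Bool) :
    gsum (i + 1) a = gsum i a + Finsupp.single (i, a) 1 := by
  rw [gsum, gsum, Finset.sum_range_succ]

theorem gsum_apply (i : ℕ) (a : Bool) (c : ℕ × Bool) :
    gsum i a c = if c.1 < i ∧ c.2 = a then 1 else 0 := by
  classical
  induction i with
  | zero => simp [gsum]
  | succ i ih =>
    rw [gsum_succ, Finsupp.add_apply, ih, Finsupp.single_apply]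
    rcases c with ⟨j, b⟩
    simp only [Prod.mk.injEq]
    split_ifs <;> first | rfl | (exfalso; omega) | (exfalso; simp_all; try omega)

theorem bdry_gsum (i : ℕ) (a b : Bool) :
    globeCx.bdry (gsum i a) + globeBd (i, b) = gsum i true - gsum i false := by
  induction i generalizing b with
  | zero => simp [gsum, globeBd]
  | succ i ih =>
    rw [gsum_succ, map_add, BCx.bdry_single, one_smul, globeBd, gsum_succ, gsum_succ]
    change _ + globeBd (i, a) + _ = _
    rw [ih a]
    abel

theorem aug_gsum (i : ℕ) (a : Bool) : globeCx.aug (gsum (i + 1) a) = 1 := by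
  induction i with
  | zero =>
    rw [gsum_succ, map_add, BCx.aug_single]
    simp [gsum]
  | succ i ih =>
    rw [gsum_succ, map_add, ih, BCx.aug_single, if_neg (by simp)]
    simp

/-- The atom `e_i^b` of the infinite globe. -/
noncomputable def gatom (i : ℕ) (b : Bool) : Cell globeCx where
  val a := gsum i a + Finsupp.single (i, b) 1
  nonneg a := by
    classical
    intro c
    simp only [Finsupp.coe_zero, Pi.zero_apply, Finsupp.coe_add, Pi.add_apply, gsum_apply,
      Finsupp.single_apply]
    split_ifs <;> simp
  bdry_val a := by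
    rw [map_add, BCx.bdry_single, one_smul]
    change _ + globeBd (i, b) = _
    rw [bdry_gsum]
    abel
  aug_val a := by
    rcases i with _ | i
    · rw [map_add, BCx.aug_single]
      simp [gsum]
    · rw [map_add, aug_gsum, BCx.aug_single, if_neg (by simp)]
      simp

theorem gatom_val (i : ℕ) (b a : Bool) :
    (gatom i b).val a = gsum i a + Finsupp.single (i, b) 1 := rfl

theorem gatom_val_apply (i : ℕ) (b a : Bool) (c : ℕ × Bool) :
    (gatom i b).val a c = if c.1 < i then (if c.2 = a then 1 else 0) else
      if c = (i, b) then 1 else 0 := by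
  classical
  rw [gatom_val, Finsupp.add_apply, gsum_apply, Finsupp.single_apply]
  rcases c with ⟨j, e⟩
  simp only [Prod.mk.injEq]
  split_ifs <;> first | rfl | (exfalso; omega) | (exfalso; simp_all; try omega)

/-- Position of a basis element of the globe. -/
def gpos (b : ℕ × Bool) : Lex (ℤ × ℤ) :=
  if b.2 then toLex (1, -(b.1 : ℤ)) else toLex (0, (b.1 : ℤ))

theorem gpos_inj : Function.Injective gpos := by
  rintro ⟨i, a⟩ ⟨j, b⟩ h
  cases a <;> cases b <;> simp [gpos] at h ⊢ <;> omega

/-- The infinite globe is a Steiner complex. -/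
noncomputable def steinerGlobe : Steiner globeCx where
  ord := LinearOrder.lift' gpos gpos_inj
  lt_of_neg b c h := by
    classical
    rcases b with ⟨_ | i, a⟩
    · exact absurd h (by change ¬ ((0 : ℕ × Bool →₀ ℤ) c < 0); simp)
    · have h1 : c = (i, false) := by
        by_contra hne
        change (Finsupp.single (i, true) 1 - Finsupp.single (i, false) 1 : ℕ × Bool →₀ ℤ) c < 0 at h
        rw [Finsupp.sub_apply, Finsupp.single_apply, Finsupp.single_apply,
          if_neg (Ne.symm hne)] at h
        split_ifs at h <;> omega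
      subst h1
      change gpos (i, false) < gpos (i + 1, a)
      cases a
      · simp only [gpos]
        apply Prod.Lex.toLex_lt_toLex.2
        right
        simp
      · simp only [gpos]
        apply Prod.Lex.toLex_lt_toLex.2
        left
        simp
  lt_of_pos b c h := by
    classical
    rcases b with ⟨_ | i, a⟩
    · exact absurd h (by change ¬ (0 < (0 : ℕ × Bool →₀ ℤ) c); simp)
    · have h1 : c = (i, true) := by
        by_contra hne
        change 0 < (Finsupp.single (i, true) 1 - Finsupp.single (i, false) 1 : ℕ × Bool →₀ ℤ) c at h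
        rw [Finsupp.sub_apply, Finsupp.single_apply, Finsupp.single_apply,
          if_neg (Ne.symm hne)] at h
        split_ifs at h <;> omega
      subst h1
      change gpos (i + 1, a) < gpos (i, true)
      cases a
      · simp only [gpos]
        apply Prod.Lex.toLex_lt_toLex.2
        left
        simp
      · simp only [gpos]
        apply Prod.Lex.toLex_lt_toLex.2
        right
        simp
  atom b := gatom b.1 b.2
  atom_top a b c h := by
    have h' : ¬ c.1 < b.1 := Nat.not_lt.2 h
    rw [gatom_val_apply, if_neg h']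
    by_cases h1 : c = (b.1, b.2)
    · left
      exact ⟨if_pos h1, h1⟩
    · right
      exact ⟨if_neg h1, h1⟩
  atom_disj b c h := by
    have h' : c.1 < b.1 := h
    rw [gatom_val_apply, gatom_val_apply, if_pos h', if_pos h']
    cases c.2 <;> simp

theorem steinerGlobe_atom (i : ℕ) (b : Bool) : steinerGlobe.atom (i, b) = gatom i b := rfl

theorem map_gatom_val {K : BCx} (φ : BCxHom globeCx K) (i : ℕ) (b a : Bool) :
    ((gatom i b).map φ).val a = ∑ j ∈ Finset.range i, φ.f (j, a) + φ.f (i, b) := by
  rw [Cell.map_val, gatom_val, map_add, BCxHom.lin_single, one_smul, gsum, map_sum]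
  congr 1
  apply Finset.sum_congr rfl
  intro j _
  rw [BCxHom.lin_single, one_smul]

theorem gatom_dd_of_lt (i : ℕ) (b : Bool) (n : ℕ) (a : Bool) (h : n < i) :
    (gatom i b).dd a n = gatom n a := by
  ext e c
  rw [Cell.dd_val_apply, gatom_val_apply, gatom_val_apply, gatom_val_apply]
  rcases c with ⟨j, x⟩
  simp only [Prod.mk.injEq]
  split_ifs <;> first | rfl | (exfalso; omega) | (exfalso; simp_all; try omega)

theorem gatom_dd_of_le (i : ℕ) (b : Bool) (n : ℕ) (a : Bool) (h : i ≤ n) :
    (gatom i b).dd a n = gatom i b := by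
  ext e c
  rw [Cell.dd_val_apply, gatom_val_apply, gatom_val_apply]
  rcases c with ⟨j, x⟩
  simp only [Prod.mk.injEq]
  split_ifs <;> first | rfl | (exfalso; omega) | (exfalso; simp_all; try omega)

/-! ### Cells as morphisms out of the globe -/

/-- The morphism out of the infinite globe classifying a cell. -/
noncomputable def Cell.cls {K : BCx} (x : Cell K) : BCxHom globeCx K :=
  globeHom (fun i a => K.part (· = i) (x.val a))
    (fun i a => BCx.part_nonneg _ (x.nonneg a))
    (fun i a b h => by
      rw [BCx.part_apply] at h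
      by_contra hne
      rw [if_neg hne] at h
      exact h rfl)
    (fun a => by rw [BCx.aug_part, if_pos rfl, x.aug_val])
    (fun i a => by
      rw [BCx.bdry_part, x.bdry_val, map_sub]
      congr 1 <;> exact BCx.part_congr (fun n => by simp) _)

theorem Cell.cls_f {K : BCx} (x : Cell K) (i : ℕ) (a : Bool) :
    x.cls.f (i, a) = K.part (· = i) (x.val a) := rfl

theorem Cell.cls_dd {K : BCx} (x : Cell K) (a : Bool) (n : ℕ) :
    (x.dd a n).cls = x.cls.comp (sig n a) := by
  apply BCxHom.globe_ext
  intro i b
  ext c
  rw [comp_sig_f, Cell.cls_f, BCx.part_apply, Cell.dd_val_apply]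
  split_ifs <;> simp only [Cell.cls_f, BCx.part_apply, Finsupp.coe_zero, Pi.zero_apply] <;>
    (try split_ifs) <;> first | rfl | (exfalso; omega)

theorem Cell.cls_inj {K : BCx} {x y : Cell K} (h : x.cls = y.cls) : x = y := by
  ext a c
  have h1 := congrArg (fun z => z.f (K.dim c, a) c) h
  simp only [Cell.cls_f, BCx.part_apply, if_true] at h1
  exact h1

theorem Cell.cls_compat {K : BCx} {n : ℕ} {x y : Cell K} (h : x.dd true n = y.dd false n) :
    x.cls.comp (sig n true) = y.cls.comp (sig n false) := by
  rw [← Cell.cls_dd, ← Cell.cls_dd, h]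

theorem Cell.cls_cc {K : BCx} (n : ℕ) (x y : Cell K) (h : x.dd true n = y.dd false n) :
    (Cell.cc n x y h).cls = hcomp n x.cls y.cls (Cell.cls_compat h) := by
  apply BCxHom.globe_ext
  intro i b
  rw [hcomp_f, ← Cell.cls_dd, Cell.cls_f, Cell.cls_f, Cell.cls_f, Cell.cls_f, Cell.cc_val,
    map_add, map_sub]

theorem Cell.cls_map {K L : BCx} (φ : BCxHom K L) (x : Cell K) :
    (x.map φ).cls = φ.comp x.cls := by
  apply BCxHom.globe_ext
  intro i b
  rw [Cell.cls_f, Cell.map_val, ← BCxHom.lin_part]
  rfl

theorem Cell.gatom_map_cls {K : BCx} (x : Cell K) (i : ℕ) (a : Bool) :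
    (gatom i a).map x.cls = x.dd a i := by
  ext b c
  rw [map_gatom_val, Cell.dd_val_apply, Finsupp.add_apply, Finsupp.finsetSum_apply]
  simp only [Cell.cls_f, BCx.part_apply]
  rw [Finset.sum_ite_eq]
  simp only [Finset.mem_range]
  split_ifs <;> first | rfl | omega

theorem gatom_cls (n : ℕ) (a : Bool) : (gatom n a).cls = sig n a := by
  apply BCxHom.globe_ext
  intro i b
  ext c
  rw [Cell.cls_f, BCx.part_apply, gatom_val_apply, sig_f]
  rcases c with ⟨j, e⟩
  split_ifs <;> simp_all [Finsupp.single_apply] <;> omega

theorem gatom_map_sig_of_lt (i : ℕ) (b : Bool) (n : ℕ) (a : Bool) (h : i < n) :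
    (gatom i b).map (sig n a) = gatom i b := by
  rw [← gatom_cls, Cell.gatom_map_cls, gatom_dd_of_lt _ _ _ _ h]

theorem gatom_map_sig_of_le (i : ℕ) (b : Bool) (n : ℕ) (a : Bool) (h : n ≤ i) :
    (gatom i b).map (sig n a) = gatom n a := by
  rw [← gatom_cls, Cell.gatom_map_cls, gatom_dd_of_le _ _ _ _ h]

end Vale.Agent.P213
end

section

/-!
The cylinder complex `K ⊗ G₁` of a based complex.
-/

universe u v w

namespace Vale.Agent.P213

/-- The basis of the interval complex. -/
inductive I3 : Type
  | zero : I3
  | one : I3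
  | seg : I3
  deriving DecidableEq

namespace BCx

/-- The chain `x ⊗ t`. -/
noncomputable def inj {B : Type} (t : I3) : (B →₀ ℤ) →ₗ[ℤ] (B × I3 →₀ ℤ) :=
  Finsupp.linearCombination ℤ (fun b => Finsupp.single (b, t) 1)

theorem inj_single {B : Type} (t : I3) (b : B) (k : ℤ) :
    inj t (Finsupp.single b k) = Finsupp.single (b, t) k := by
  simp [inj]

theorem inj_apply {B : Type} (t t' : I3) (x : B →₀ ℤ) (b : B) :
    inj t x (b, t') = if t = t' then x b else 0 := by
  classical
  induction x using Finsupp.induction_linear with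
  | zero => simp
  | add f g hf hg =>
    simp only [map_add, Finsupp.add_apply, hf, hg]
    split_ifs <;> simp
  | single c k =>
    rw [inj_single, Finsupp.single_apply, Finsupp.single_apply]
    simp only [Prod.mk.injEq]
    split_ifs <;> first | rfl | tauto

theorem inj_nonneg {B : Type} (t : I3) {x : B →₀ ℤ} (hx : 0 ≤ x) : 0 ≤ inj t x := by
  rintro ⟨b, t'⟩
  rw [inj_apply]
  split_ifs
  · exact hx b
  · exact le_refl _

variable (K : BCx)

/-- The sign automorphism: multiplication by `(-1) ^ dim`. -/
noncomputable def sgn : (K.B →₀ ℤ) →ₗ[ℤ] (K.B →₀ ℤ) :=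
  Finsupp.linearCombination ℤ (fun b => Finsupp.single b ((-1 : ℤ) ^ K.dim b))

theorem sgn_single (b : K.B) (k : ℤ) :
    K.sgn (Finsupp.single b k) = Finsupp.single b ((-1) ^ K.dim b * k) := by
  simp [sgn, mul_comm]

theorem sgn_apply (x : K.B →₀ ℤ) (b : K.B) : K.sgn x b = (-1) ^ K.dim b * x b := by
  classical
  induction x using Finsupp.induction_linear with
  | zero => simp
  | add f g hf hg => simp only [map_add, Finsupp.add_apply, hf, hg, mul_add]
  | single c k =>
    rw [sgn_single, Finsupp.single_apply, Finsupp.single_apply]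
    split_ifs with h
    · rw [h]
    · simp

theorem sgn_sgn (x : K.B →₀ ℤ) : K.sgn (K.sgn x) = x := by
  ext b
  rw [sgn_apply, sgn_apply, ← mul_assoc, ← mul_pow]
  simp

theorem sgn_bdry (x : K.B →₀ ℤ) : K.sgn (K.bdry x) = - K.bdry (K.sgn x) := by
  induction x using Finsupp.induction_linear with
  | zero => simp
  | add f g hf hg => simp only [map_add, hf, hg, neg_add]
  | single c k =>
    rw [bdry_single, sgn_single, bdry_single, map_smul]
    ext b
    simp only [Finsupp.smul_apply, smul_eq_mul, sgn_apply, Finsupp.neg_apply]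
    by_cases hb : K.bd c b = 0
    · simp [hb]
    · rw [← K.bd_dim c b hb, pow_succ]
      ring

/-- The boundary on the basis of the cylinder. -/
noncomputable def cylBd : K.B × I3 → (K.B × I3 →₀ ℤ)
  | (b, I3.zero) => inj I3.zero (K.bd b)
  | (b, I3.one) => inj I3.one (K.bd b)
  | (b, I3.seg) => inj I3.seg (K.bd b) + (inj I3.one (K.sgn (Finsupp.single b 1))
      - inj I3.zero (K.sgn (Finsupp.single b 1)))

/-- The dimension on the basis of the cylinder. -/
def cylDim : K.B × I3 → ℕ
  | (b, I3.zero) => K.dim b
  | (b, I3.one) => K.dim b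
  | (b, I3.seg) => K.dim b + 1

theorem cylBd_zero (x : K.B →₀ ℤ) :
    Finsupp.linearCombination ℤ K.cylBd (inj I3.zero x) = inj I3.zero (K.bdry x) := by
  induction x using Finsupp.induction_linear with
  | zero => simp
  | add f g hf hg => simp only [map_add, hf, hg]
  | single c k =>
    rw [inj_single, Finsupp.linearCombination_single, bdry_single, map_smul]
    rfl

theorem cylBd_one (x : K.B →₀ ℤ) :
    Finsupp.linearCombination ℤ K.cylBd (inj I3.one x) = inj I3.one (K.bdry x) := by
  induction x using Finsupp.induction_linear with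
  | zero => simp
  | add f g hf hg => simp only [map_add, hf, hg]
  | single c k =>
    rw [inj_single, Finsupp.linearCombination_single, bdry_single, map_smul]
    rfl

theorem cylBd_seg (x : K.B →₀ ℤ) :
    Finsupp.linearCombination ℤ K.cylBd (inj I3.seg x) = inj I3.seg (K.bdry x)
      + (inj I3.one (K.sgn x) - inj I3.zero (K.sgn x)) := by
  induction x using Finsupp.induction_linear with
  | zero => simp
  | add f g hf hg => simp only [map_add, hf, hg]; abel
  | single c k =>
    rw [inj_single, Finsupp.linearCombination_single, bdry_single, map_smul]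
    have : K.sgn (Finsupp.single c k) = k • K.sgn (Finsupp.single c 1) := by
      rw [← map_smul]; simp
    rw [this, map_smul, map_smul, ← smul_sub, ← smul_add]
    rfl

/-- The cylinder `K ⊗ G₁`. -/
noncomputable abbrev cyl : BCx where
  B := K.B × I3
  dim := K.cylDim
  bd := K.cylBd
  bd_dim := by
    rintro ⟨b, t⟩ ⟨c, t'⟩ h
    cases t <;> cases t' <;> simp only [cylBd, inj_apply, Finsupp.add_apply, Finsupp.sub_apply,
      if_true, if_false, reduceCtorEq, sgn_apply, ne_eq, not_true_eq_false, zero_add, sub_self,
      sub_zero, zero_sub, add_zero, neg_eq_zero, mul_eq_zero, not_or] at h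
    · exact K.bd_dim b c h
    · exact K.bd_dim b c h
    · have h1 := h.2
      classical
      rw [Finsupp.single_apply] at h1
      simp only [ite_eq_right_iff, one_ne_zero, imp_false, not_not] at h1
      subst h1
      rfl
    · have h1 := h.2
      classical
      rw [Finsupp.single_apply] at h1
      simp only [ite_eq_right_iff, one_ne_zero, imp_false, not_not] at h1
      subst h1
      rfl
    · change K.dim c + 1 + 1 = K.dim b + 1
      rw [K.bd_dim b c h]
  bd_bd := by
    rintro ⟨b, t⟩
    have h0 : K.bdry (K.bd b) = 0 := by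
      have := K.bdry_bdry (Finsupp.single b 1)
      rwa [bdry_single, one_smul] at this
    cases t
    · change Finsupp.linearCombination ℤ K.cylBd (inj I3.zero (K.bd b)) = 0
      rw [cylBd_zero, h0, map_zero]
    · change Finsupp.linearCombination ℤ K.cylBd (inj I3.one (K.bd b)) = 0
      rw [cylBd_one, h0, map_zero]
    · change Finsupp.linearCombination ℤ K.cylBd (inj I3.seg (K.bd b)
        + (inj I3.one (K.sgn (Finsupp.single b 1)) - inj I3.zero (K.sgn (Finsupp.single b 1)))) = 0
      have h1 : K.sgn (K.bd b) = - K.bdry (K.sgn (Finsupp.single b 1)) := by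
        rw [← sgn_bdry, bdry_single, one_smul]
      rw [map_add, map_sub, cylBd_seg, cylBd_zero, cylBd_one, h0, h1]
      simp
  aug_bd := by
    have key : ∀ (t : I3) (x : K.B →₀ ℤ),
        Finsupp.linearCombination ℤ (fun c => if K.cylDim c = 0 then (1 : ℤ) else 0) (inj t x)
          = if t = I3.seg then 0 else K.aug x := by
      intro t x
      induction x using Finsupp.induction_linear with
      | zero => simp
      | add f g hf hg => simp only [map_add, hf, hg]; split_ifs <;> simp
      | single c k =>
        rw [inj_single, Finsupp.linearCombination_single, aug_single]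
        cases t
        · change (k • if K.dim c = 0 then (1 : ℤ) else 0) = if K.dim c = 0 then k else 0
          simp
        · change (k • if K.dim c = 0 then (1 : ℤ) else 0) = if K.dim c = 0 then k else 0
          simp
        · change (k • if K.dim c + 1 = 0 then (1 : ℤ) else 0) = 0
          simp
    have h0 : ∀ b, K.aug (K.bd b) = 0 := fun b => by
      have := K.aug_bdry (Finsupp.single b 1)
      rwa [bdry_single, one_smul] at this
    rintro ⟨b, t⟩
    cases t
    · change Finsupp.linearCombination ℤ _ (inj I3.zero (K.bd b)) = 0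
      rw [key]; simp [h0]
    · change Finsupp.linearCombination ℤ _ (inj I3.one (K.bd b)) = 0
      rw [key]; simp [h0]
    · change Finsupp.linearCombination ℤ _ (inj I3.seg (K.bd b)
        + (inj I3.one (K.sgn (Finsupp.single b 1)) - inj I3.zero (K.sgn (Finsupp.single b 1)))) = 0
      rw [map_add, map_sub, key, key, key]
      simp

variable {K}

theorem cyl_bdry_zero (x : K.B →₀ ℤ) : K.cyl.bdry (inj I3.zero x) = inj I3.zero (K.bdry x) :=
  K.cylBd_zero x

theorem cyl_bdry_one (x : K.B →₀ ℤ) : K.cyl.bdry (inj I3.one x) = inj I3.one (K.bdry x) :=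
  K.cylBd_one x

theorem cyl_bdry_seg (x : K.B →₀ ℤ) : K.cyl.bdry (inj I3.seg x) = inj I3.seg (K.bdry x)
    + (inj I3.one (K.sgn x) - inj I3.zero (K.sgn x)) :=
  K.cylBd_seg x

theorem cyl_aug_inj (t : I3) (x : K.B →₀ ℤ) :
    K.cyl.aug (inj t x) = if t = I3.seg then 0 else K.aug x := by
  induction x using Finsupp.induction_linear with
  | zero => simp
  | add f g hf hg => simp only [map_add, hf, hg]; split_ifs <;> simp
  | single c k =>
    rw [inj_single]
    refine (K.cyl.aug_single (c, t) k).trans ?_
    rw [aug_single]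
    cases t
    · rfl
    · rfl
    · change (if K.dim c + 1 = 0 then k else 0) = 0
      simp

/-- Every chain of the cylinder is a sum of three pieces. -/
theorem cyl_induction {B : Type} {P : (B × I3 →₀ ℤ) → Prop} (h0 : P 0)
    (hadd : ∀ x y, P x → P y → P (x + y)) (h : ∀ t (b : B) k, P (inj t (Finsupp.single b k)))
    (x : B × I3 →₀ ℤ) : P x := by
  induction x using Finsupp.induction_linear with
  | zero => exact h0
  | add f g hf hg => exact hadd _ _ hf hg
  | single c k =>
    obtain ⟨b, t⟩ := c
    rw [← inj_single]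
    exact h t b k

end BCx

end Vale.Agent.P213
end

section

/-!
Morphisms out of the cylinder complex; functoriality, ends and projection.
-/

universe u v w

namespace Vale.Agent.P213

open BCx

namespace BCxHom

variable {K L M : BCx}

/-- Two morphisms are equal if their linear extensions agree on basis elements. -/
theorem ext_lin {φ ψ : BCxHom K L}
    (h : ∀ b, φ.lin (Finsupp.single b 1) = ψ.lin (Finsupp.single b 1)) : φ = ψ := by
  ext1
  funext b
  have := h b
  rwa [lin_single, lin_single, one_smul, one_smul] at this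

theorem lin_single_one (φ : BCxHom K L) (b : K.B) : φ.lin (Finsupp.single b 1) = φ.f b := by
  rw [lin_single, one_smul]

/-- A morphism which is the linear extension of a linear map. -/
noncomputable def ofLin (F : (K.B →₀ ℤ) →ₗ[ℤ] (L.B →₀ ℤ))
    (hn : ∀ b, 0 ≤ F (Finsupp.single b 1))
    (hd : ∀ b c, F (Finsupp.single b 1) c ≠ 0 → L.dim c = K.dim b)
    (hb : ∀ b, L.bdry (F (Finsupp.single b 1)) = F (K.bdry (Finsupp.single b 1)))
    (ha : ∀ b, K.dim b = 0 → L.aug (F (Finsupp.single b 1)) = 1) : BCxHom K L where
  f b := F (Finsupp.single b 1)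
  nonneg := hn
  dim_f := hd
  bdry_f b := by
    rw [hb, bdry_single, one_smul]
    generalize K.bd b = x
    induction x using Finsupp.induction_linear with
    | zero => simp
    | add f g hf hg => simp only [map_add, hf, hg]
    | single c k =>
      rw [Finsupp.linearCombination_single, ← map_smul]
      simp
  aug_f := ha

theorem lin_ofLin (F : (K.B →₀ ℤ) →ₗ[ℤ] (L.B →₀ ℤ)) (hn hd hb ha) (x : K.B →₀ ℤ) :
    (ofLin F hn hd hb ha).lin x = F x := by
  induction x using Finsupp.induction_linear with
  | zero => simp
  | add f g hf hg => simp only [map_add, hf, hg]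
  | single c k =>
    rw [lin_single]
    change k • F (Finsupp.single c 1) = _
    rw [← map_smul]
    simp

/-- The linear map on chains of the cylinder given by three linear maps. -/
noncomputable def cylLin {B : Type} {B' : Type}
    (F : I3 → ((B →₀ ℤ) →ₗ[ℤ] (B' →₀ ℤ))) : (B × I3 →₀ ℤ) →ₗ[ℤ] (B' →₀ ℤ) :=
  Finsupp.linearCombination ℤ (fun p => F p.2 (Finsupp.single p.1 1))

theorem cylLin_inj {B : Type} {B' : Type} (F : I3 → ((B →₀ ℤ) →ₗ[ℤ] (B' →₀ ℤ)))
    (t : I3) (x : B →₀ ℤ) : cylLin F (inj t x) = F t x := by
  induction x using Finsupp.induction_linear with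
  | zero => simp
  | add f g hf hg => simp only [map_add, hf, hg]
  | single c k =>
    rw [inj_single, cylLin, Finsupp.linearCombination_single, ← map_smul]
    simp

theorem cylLin_single {B : Type} {B' : Type} (F : I3 → ((B →₀ ℤ) →ₗ[ℤ] (B' →₀ ℤ)))
    (t : I3) (b : B) (k : ℤ) : cylLin F (Finsupp.single (b, t) k) = F t (Finsupp.single b k) := by
  rw [← inj_single, cylLin_inj]

/-- Morphisms out of the cylinder. -/
noncomputable def cylDesc (F : I3 → ((K.B →₀ ℤ) →ₗ[ℤ] (L.B →₀ ℤ)))
    (hn : ∀ t b, 0 ≤ F t (Finsupp.single b 1))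
    (hd : ∀ t b c, F t (Finsupp.single b 1) c ≠ 0 → L.dim c = K.cylDim (b, t))
    (h0 : ∀ b, L.bdry (F I3.zero (Finsupp.single b 1)) = F I3.zero (K.bdry (Finsupp.single b 1)))
    (h1 : ∀ b, L.bdry (F I3.one (Finsupp.single b 1)) = F I3.one (K.bdry (Finsupp.single b 1)))
    (hs : ∀ b, L.bdry (F I3.seg (Finsupp.single b 1)) = F I3.seg (K.bdry (Finsupp.single b 1))
      + (F I3.one (K.sgn (Finsupp.single b 1)) - F I3.zero (K.sgn (Finsupp.single b 1))))
    (ha0 : ∀ b, K.dim b = 0 → L.aug (F I3.zero (Finsupp.single b 1)) = 1)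
    (ha1 : ∀ b, K.dim b = 0 → L.aug (F I3.one (Finsupp.single b 1)) = 1) :
    BCxHom K.cyl L :=
  ofLin (cylLin F)
    (by
      rintro ⟨b, t⟩
      rw [cylLin_single]
      exact hn t b)
    (by
      rintro ⟨b, t⟩ c h
      rw [cylLin_single] at h
      exact hd t b c h)
    (by
      rintro ⟨b, t⟩
      rw [cylLin_single, ← inj_single]
      cases t
      · rw [cyl_bdry_zero, cylLin_inj, h0]
      · rw [cyl_bdry_one, cylLin_inj, h1]
      · rw [cyl_bdry_seg, map_add, map_sub, cylLin_inj, cylLin_inj, cylLin_inj, hs])
    (by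
      rintro ⟨b, t⟩ h
      rw [cylLin_single]
      cases t
      · exact ha0 b h
      · exact ha1 b h
      · exact absurd h (Nat.succ_ne_zero _))

theorem lin_cylDesc_inj (F : I3 → ((K.B →₀ ℤ) →ₗ[ℤ] (L.B →₀ ℤ))) (hn hd h0 h1 hs ha0 ha1)
    (t : I3) (x : K.B →₀ ℤ) :
    (cylDesc F hn hd h0 h1 hs ha0 ha1).lin (inj t x) = F t x := by
  rw [cylDesc, lin_ofLin, cylLin_inj]

/-- Morphisms out of the cylinder are determined by their values on the three pieces. -/
theorem cyl_ext {φ ψ : BCxHom K.cyl L}
    (h : ∀ t (x : K.B →₀ ℤ), φ.lin (inj t x) = ψ.lin (inj t x)) : φ = ψ := by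
  apply ext_lin
  rintro ⟨b, t⟩
  rw [← inj_single]
  exact h t _

theorem lin_sgn (φ : BCxHom K L) (x : K.B →₀ ℤ) : φ.lin (K.sgn x) = L.sgn (φ.lin x) := by
  induction x using Finsupp.induction_linear with
  | zero => simp
  | add f g hf hg => simp only [map_add, hf, hg]
  | single c k =>
    rw [sgn_single, lin_single, lin_single]
    ext b
    rw [sgn_apply, Finsupp.smul_apply, Finsupp.smul_apply, smul_eq_mul, smul_eq_mul]
    by_cases hb : φ.f c b = 0
    · simp [hb]
    · rw [φ.dim_f c b hb, mul_assoc]

/-- Functoriality of the cylinder. -/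
noncomputable def cylMap (φ : BCxHom K L) : BCxHom K.cyl L.cyl :=
  cylDesc (fun t => (inj t).comp φ.lin)
    (fun t b => inj_nonneg t (φ.lin_nonneg (by
      classical
      intro c
      rw [Finsupp.single_apply]
      split_ifs <;> simp)))
    (by
      rintro t b ⟨c, t'⟩ h
      simp only [LinearMap.comp_apply, inj_apply, lin_single_one, ne_eq, ite_eq_right_iff,
        Classical.not_imp] at h
      obtain ⟨rfl, h⟩ := h
      have := φ.dim_f b c h
      cases t
      · exact this
      · exact this
      · exact congrArg (· + 1) this)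
    (fun b => by
      simp only [LinearMap.comp_apply]
      rw [cyl_bdry_zero, lin_bdry])
    (fun b => by
      simp only [LinearMap.comp_apply]
      rw [cyl_bdry_one, lin_bdry])
    (fun b => by
      simp only [LinearMap.comp_apply]
      rw [cyl_bdry_seg, lin_bdry, lin_sgn])
    (fun b h => by
      simp only [LinearMap.comp_apply]
      rw [cyl_aug_inj, if_neg (by simp), aug_lin, aug_single, if_pos h])
    (fun b h => by
      simp only [LinearMap.comp_apply]
      rw [cyl_aug_inj, if_neg (by simp), aug_lin, aug_single, if_pos h])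

theorem lin_cylMap_inj (φ : BCxHom K L) (t : I3) (x : K.B →₀ ℤ) :
    (cylMap φ).lin (inj t x) = inj t (φ.lin x) := by
  rw [cylMap, lin_cylDesc_inj]
  rfl

theorem cylMap_id : cylMap (BCxHom.id K) = BCxHom.id K.cyl := by
  apply cyl_ext
  intro t x
  rw [lin_cylMap_inj, lin_id, lin_id]

theorem cylMap_comp (ψ : BCxHom L M) (φ : BCxHom K L) :
    cylMap (ψ.comp φ) = (cylMap ψ).comp (cylMap φ) := by
  apply cyl_ext
  intro t x
  rw [lin_cylMap_inj, lin_comp, lin_comp, lin_cylMap_inj, lin_cylMap_inj]

/-- The label of an end of the cylinder. -/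
def endI3 : Bool → I3
  | false => I3.zero
  | true => I3.one

/-- The two ends of the cylinder. -/
noncomputable def cylEnd (K : BCx) (e : Bool) : BCxHom K K.cyl :=
  ofLin (inj (endI3 e))
    (fun b => inj_nonneg _ (by
      classical
      intro c
      rw [Finsupp.single_apply]
      split_ifs <;> simp))
    (by
      classical
      rintro b ⟨c, t'⟩ h
      simp only [inj_apply, ne_eq, ite_eq_right_iff, Classical.not_imp,
        Finsupp.single_apply] at h
      obtain ⟨rfl, rfl, -⟩ := h
      cases e <;> rfl)
    (fun b => by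
      cases e
      · exact cyl_bdry_zero _
      · exact cyl_bdry_one _)
    (fun b h => by
      rw [cyl_aug_inj, aug_single, if_pos h]
      cases e <;> simp [endI3])

theorem lin_cylEnd (e : Bool) (x : K.B →₀ ℤ) : (cylEnd K e).lin x = inj (endI3 e) x := by
  rw [cylEnd, lin_ofLin]

/-- The projection of the cylinder. -/
noncomputable def cylProj (K : BCx) : BCxHom K.cyl K :=
  cylDesc (fun t => if t = I3.seg then 0 else LinearMap.id)
    (fun t b => by
      classical
      intro c
      split_ifs
      · simp
      · rw [LinearMap.id_apply, Finsupp.single_apply]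
        split_ifs <;> simp)
    (by
      classical
      intro t b c h
      by_cases ht : t = I3.seg
      · rw [if_pos ht] at h
        exact absurd rfl h
      · rw [if_neg ht] at h
        rw [LinearMap.id_apply, Finsupp.single_apply] at h
        have h1 : b = c := by
          by_contra h2
          rw [if_neg h2] at h
          exact h rfl
        subst h1
        cases t
        · rfl
        · rfl
        · exact absurd rfl ht)
    (fun b => by simp)
    (fun b => by simp)
    (fun b => by simp)
    (fun b h => by simp [aug_single, h])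
    (fun b h => by simp [aug_single, h])

theorem lin_cylProj_zero (x : K.B →₀ ℤ) : (cylProj K).lin (inj I3.zero x) = x := by
  rw [cylProj, lin_cylDesc_inj]
  simp

theorem lin_cylProj_one (x : K.B →₀ ℤ) : (cylProj K).lin (inj I3.one x) = x := by
  rw [cylProj, lin_cylDesc_inj]
  simp

theorem lin_cylProj_seg (x : K.B →₀ ℤ) : (cylProj K).lin (inj I3.seg x) = 0 := by
  rw [cylProj, lin_cylDesc_inj]
  simp

theorem cylProj_comp_cylEnd (e : Bool) : (cylProj K).comp (cylEnd K e) = BCxHom.id K := by
  apply ext_lin
  intro b
  rw [lin_comp, lin_cylEnd, lin_id]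
  cases e
  · exact lin_cylProj_zero _
  · exact lin_cylProj_one _

theorem cylMap_comp_cylEnd (φ : BCxHom K L) (e : Bool) :
    (cylMap φ).comp (cylEnd K e) = (cylEnd L e).comp φ := by
  apply ext_lin
  intro b
  rw [lin_comp, lin_comp, lin_cylEnd, lin_cylEnd, lin_cylMap_inj]

theorem cylProj_comp_cylMap (φ : BCxHom K L) :
    (cylProj L).comp (cylMap φ) = φ.comp (cylProj K) := by
  apply cyl_ext
  intro t x
  rw [lin_comp, lin_comp, lin_cylMap_inj]
  cases t
  · rw [lin_cylProj_zero, lin_cylProj_zero]
  · rw [lin_cylProj_one, lin_cylProj_one]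
  · rw [lin_cylProj_seg, lin_cylProj_seg, map_zero]

end BCxHom

end Vale.Agent.P213
end

section

/-!
The Alexander-Whitney maps `C(I) → C(I) ⊗ G₁` for a monotone map `I → Bool`.
-/

universe u v w

namespace Vale.Agent.P213

open BCx

section General

variable {I : Type} [LinearOrder I]

theorem toS_nil (k : ℤ) : toS (Finsupp.single ([] : List I) k) = 0 := by
  classical
  ext t
  rw [toS_apply, Finsupp.single_apply, if_neg (fun h => t.2.1 h.symm)]
  rfl

theorem toS_ofS_toS {M : Type} [AddCommGroup M] [Module ℤ M] (F : (List I →₀ ℤ) →ₗ[ℤ] M)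
    (hF : F (Finsupp.single [] 1) = 0) {x : List I →₀ ℤ} (hx : IsSorted x) :
    F (ofS (toS x)) = F x := by
  have h := F.map_smul (x []) (Finsupp.single [] 1)
  rw [hF, smul_zero, Finsupp.smul_single, smul_eq_mul, mul_one] at h
  rw [ofS_toS hx, map_sub, h, sub_zero]

theorem isSorted_single {l : List I} (hl : l.Pairwise (· < ·)) (k : ℤ) :
    IsSorted (Finsupp.single l k) := by
  classical
  intro t ht
  rw [Finsupp.single_apply] at ht
  by_cases h : l = t
  · rwa [← h]
  · rw [if_neg h] at ht
    exact absurd rfl ht

/-- The sign automorphism on lists. -/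
noncomputable def sgnL {I : Type} : (List I →₀ ℤ) →ₗ[ℤ] (List I →₀ ℤ) :=
  Finsupp.linearCombination ℤ (fun l => Finsupp.single l ((-1 : ℤ) ^ (l.length + 1)))

theorem sgnL_single {I : Type} (l : List I) (k : ℤ) :
    sgnL (Finsupp.single l k) = Finsupp.single l ((-1) ^ (l.length + 1) * k) := by
  simp [sgnL, mul_comm]

theorem sgnL_consL {I : Type} (a : I) (x : List I →₀ ℤ) :
    sgnL (consL a x) = - consL a (sgnL x) := by
  induction x using Finsupp.induction_linear with
  | zero => simp
  | add f g hf hg => simp only [map_add, hf, hg, neg_add]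
  | single l k =>
    rw [consL_single, sgnL_single, sgnL_single, consL_single, ← Finsupp.single_neg]
    congr 1
    rw [List.length_cons, pow_succ]
    ring

theorem sgn_toS (x : List I →₀ ℤ) : (simplexCx I).sgn (toS x) = toS (sgnL x) := by
  ext t
  rw [sgn_apply, toS_apply, toS_apply]
  have key : ∀ l : List I, sgnL x l = (-1) ^ (l.length + 1) * x l := by
    classical
    intro l
    induction x using Finsupp.induction_linear with
    | zero => simp
    | add f g hf hg => simp only [map_add, Finsupp.add_apply, hf, hg, mul_add]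
    | single l k =>
      rw [sgnL_single, Finsupp.single_apply, Finsupp.single_apply]
      split_ifs with h
      · rw [h]
      · simp
  rw [key]
  have ht : t.1.length ≠ 0 := fun h => t.2.1 (List.length_eq_zero_iff.1 h)
  change (-1) ^ (t.1.length - 1) * _ = _
  obtain ⟨n, hn⟩ := Nat.exists_eq_succ_of_ne_zero ht
  rw [hn, Nat.succ_sub_one, Nat.succ_eq_add_one, pow_succ, pow_succ]
  ring

end General

section AW

variable {I J : Type} [LinearOrder I] [LinearOrder J]

/-- The projection onto the simplices all of whose vertices are sent to `false`. -/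
noncomputable def awNL (φ : I → Bool) : (List I →₀ ℤ) →ₗ[ℤ] (List I →₀ ℤ) :=
  Finsupp.linearCombination ℤ (fun l => if (∀ i ∈ l, φ i = false) then Finsupp.single l 1 else 0)

omit [LinearOrder I] in
theorem awNL_single (φ : I → Bool) (l : List I) (k : ℤ) :
    awNL φ (Finsupp.single l k) = if (∀ i ∈ l, φ i = false) then Finsupp.single l k else 0 := by
  simp only [awNL, Finsupp.linearCombination_single]
  split_ifs <;> simp

omit [LinearOrder I] in
theorem awNL_consL (φ : I → Bool) (a : I) (x : List I →₀ ℤ) :
    awNL φ (consL a x) = if φ a = false then consL a (awNL φ x) else 0 := by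
  induction x using Finsupp.induction_linear with
  | zero => simp
  | add f g hf hg =>
    simp only [map_add, hf, hg]
    split_ifs <;> simp
  | single l k =>
    rw [consL_single, awNL_single, awNL_single]
    by_cases h : φ a = false
    · rw [if_pos h]
      by_cases h1 : ∀ i ∈ l, φ i = false
      · rw [if_pos h1, if_pos (by simpa [h] using h1), consL_single]
      · rw [if_neg h1, if_neg (by simpa [h] using h1), map_zero]
    · rw [if_neg h, if_neg (by simp [h])]

/-- The list without its last vertex, if this is the only one sent to `true`. -/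
noncomputable def awP (φ : I → Bool) : List I → (List I →₀ ℤ)
  | [] => 0
  | a :: l => if φ a = false then consL a (awP φ l) else
      if l = [] then Finsupp.single [] 1 else 0

theorem consL_nonneg' (a : I) {x : List I →₀ ℤ} (hx : 0 ≤ x) : 0 ≤ consL a x := by
  classical
  rw [consL, Finsupp.linearCombination_apply, Finsupp.sum]
  apply Finset.sum_nonneg
  intro l _
  apply smul_nonneg (hx l)
  intro m
  rw [Finsupp.single_apply]
  split_ifs <;> simp

theorem awP_nonneg (φ : I → Bool) (l : List I) : 0 ≤ awP φ l := by
  classical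
  induction l with
  | nil => exact le_refl _
  | cons a l ih =>
    rw [awP]
    split_ifs
    · exact consL_nonneg' a ih
    · intro m
      rw [Finsupp.single_apply]
      split_ifs <;> simp
    · exact le_refl _

theorem awP_length (φ : I → Bool) (l t : List I) (h : awP φ l t ≠ 0) :
    t.length + 1 = l.length := by
  classical
  induction l generalizing t with
  | nil => exact absurd rfl h
  | cons a l ih =>
    rw [awP] at h
    split_ifs at h with h1 h2
    · rcases t with _ | ⟨b, t⟩
      · exfalso
        apply h
        generalize awP φ l = x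
        induction x using Finsupp.induction_linear with
        | zero => simp
        | add f g hf hg => simp only [map_add, Finsupp.add_apply, hf, hg, add_zero]
        | single c k => rw [consL_single, Finsupp.single_apply, if_neg (by simp)]
      · have key : ∀ x : List I →₀ ℤ, consL a x (b :: t) ≠ 0 → x t ≠ 0 := by
          intro x hx h3
          apply hx
          rw [consL, Finsupp.linearCombination_apply, Finsupp.sum, Finsupp.finsetSum_apply]
          apply Finset.sum_eq_zero
          intro m _
          rw [Finsupp.smul_apply, Finsupp.single_apply]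
          by_cases h4 : a :: m = b :: t
          · have : m = t := by injection h4
            rw [this, h3]
            simp
          · rw [if_neg h4, smul_zero]
        rw [List.length_cons, List.length_cons, ih t (key _ h)]
    · rw [Finsupp.single_apply] at h
      by_cases h3 : [] = t
      · rw [← h3, h2]; rfl
      · rw [if_neg h3] at h
        exact absurd rfl h
    · exact absurd rfl h

theorem awNL_faces (φ : I →o Bool) {l : List I} (hl : l.Pairwise (· < ·)) :
    awNL φ (faces l) - dL (awNL φ (Finsupp.single l 1)) = - sgnL (awP φ l) := by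
  induction l with
  | nil =>
    rw [faces_nil, awNL_single]
    simp [dL_single, faces_nil, awP]
  | cons a l ih =>
    have ih' := ih hl.of_cons
    rw [faces_cons, map_sub, awNL_consL, ← consL_single, awNL_consL, awP]
    by_cases h : φ a = false
    · have h5 : consL a (awNL φ (faces l)) - consL a (dL (awNL φ (Finsupp.single l 1))) =
          - consL a (sgnL (awP φ l)) := by rw [← map_sub, ih', map_neg]
      rw [if_pos h, if_pos h, if_pos h, dL_consL, sgnL_consL, neg_neg]
      rw [← neg_inj, ← h5]
      abel
    · rw [if_neg h, if_neg h, if_neg h, map_zero, awNL_single]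
      by_cases h1 : l = []
      · subst h1
        rw [if_pos rfl, sgnL_single]
        simp
      · rw [if_neg h1, if_neg]
        · simp
        · intro h2
          obtain ⟨b, hb⟩ := List.exists_mem_of_ne_nil l h1
          have h3 := h2 b hb
          rw [List.pairwise_cons] at hl
          have h4 := φ.monotone (hl.1 b hb).le
          rw [h3] at h4
          exact h (le_bot_iff.1 h4)

theorem isSorted_awNL (φ : I → Bool) {x : List I →₀ ℤ} (hx : IsSorted x) :
    IsSorted (awNL φ x) := by
  classical
  intro l hl
  apply hx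
  intro h
  apply hl
  rw [awNL, Finsupp.linearCombination_apply, Finsupp.sum, Finsupp.finsetSum_apply]
  apply Finset.sum_eq_zero
  intro m _
  rw [Finsupp.smul_apply]
  split_ifs
  · rw [Finsupp.single_apply]
    by_cases h1 : m = l
    · rw [h1, h]; simp
    · rw [if_neg h1, smul_zero]
  · simp

/-- `awNL` on chains. -/
noncomputable def awN (φ : I → Bool) : (Smpl I →₀ ℤ) →ₗ[ℤ] (Smpl I →₀ ℤ) :=
  toS.comp ((awNL φ).comp ofS)

theorem awN_apply (φ : I → Bool) (x : Smpl I →₀ ℤ) : awN φ x = toS (awNL φ (ofS x)) := rfl

theorem awN_single (φ : I → Bool) (s : Smpl I) :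
    awN φ (Finsupp.single s 1) =
      if (∀ i ∈ s.1, φ i = false) then Finsupp.single s 1 else 0 := by
  rw [awN_apply, ofS_single, awNL_single]
  split_ifs
  · rw [← ofS_single, toS_ofS]
  · rw [map_zero]

/-- The part of the Alexander-Whitney map in the direction of the segment. -/
noncomputable def awS (φ : I → Bool) : (Smpl I →₀ ℤ) →ₗ[ℤ] (Smpl I →₀ ℤ) :=
  (simplexCx I).sgn.comp (((simplexCx I).bdry.comp (awN φ)) - ((awN φ).comp (simplexCx I).bdry))

theorem awS_apply (φ : I → Bool) (x : Smpl I →₀ ℤ) : awS φ x =
    (simplexCx I).sgn ((simplexCx I).bdry (awN φ x) - awN φ ((simplexCx I).bdry x)) := rfl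

theorem awS_single (φ : I →o Bool) (s : Smpl I) :
    awS φ (Finsupp.single s 1) = toS (awP φ s.1) := by
  have h1 : (simplexCx I).bdry (awN φ (Finsupp.single s 1)) =
      toS (dL (awNL φ (Finsupp.single s.1 1))) := by
    rw [simplexCx_bdry, awN_apply, ofS_single]
    exact congrArg toS (toS_ofS_toS dL (by rw [dL_single, faces_nil, smul_zero])
      (isSorted_awNL φ (isSorted_single s.2.2 1)))
  have h2 : awN φ ((simplexCx I).bdry (Finsupp.single s 1)) = toS (awNL φ (faces s.1)) := by
    rw [awN_apply, simplexCx_bdry, ofS_single, dL_single, one_smul]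
    have h3 : IsSorted (faces s.1) := fun l hl => s.2.2.sublist (faces_support hl).1
    exact toS_ofS_toS (toS.comp (awNL φ)) (by
      rw [LinearMap.comp_apply, awNL_single, if_pos (by simp), toS_nil]) h3
  rw [awS_apply, h1, h2, ← map_sub, sgn_toS, ← neg_sub, awNL_faces φ s.2.2, neg_neg]
  congr 1
  generalize awP φ s.1 = x
  induction x using Finsupp.induction_linear with
  | zero => simp
  | add f g hf hg => simp only [map_add, hf, hg]
  | single l k =>
    rw [sgnL_single, sgnL_single, ← mul_assoc, ← mul_pow]
    simp

theorem bdry_awS (φ : I → Bool) (x : Smpl I →₀ ℤ) :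
    (simplexCx I).bdry (awS φ x) = awS φ ((simplexCx I).bdry x) := by
  have h : ∀ y : Smpl I →₀ ℤ, (simplexCx I).bdry ((simplexCx I).sgn y) =
      - (simplexCx I).sgn ((simplexCx I).bdry y) := by
    intro y
    rw [sgn_bdry, neg_neg]
  rw [awS_apply, awS_apply, h, map_sub, bdry_bdry, bdry_bdry, map_zero, zero_sub, sub_zero,
    map_neg, neg_neg]

/-- The Alexander-Whitney map. -/
noncomputable def aw (φ : I →o Bool) : BCxHom (simplexCx I) (simplexCx I).cyl :=
  BCxHom.ofLin (((inj I3.zero).comp (awN φ)) + ((inj I3.one).comp (LinearMap.id - awN φ))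
      + ((inj I3.seg).comp (awS φ)))
    (by
      classical
      intro s
      simp only [LinearMap.add_apply, LinearMap.comp_apply, LinearMap.sub_apply,
        LinearMap.id_apply]
      have h0 : (0 : Smpl I →₀ ℤ) ≤ Finsupp.single s 1 := by
        intro t
        rw [Finsupp.single_apply]
        split_ifs <;> simp
      refine add_nonneg (add_nonneg (inj_nonneg _ ?_) (inj_nonneg _ ?_)) (inj_nonneg _ ?_)
      · rw [awN_single]
        split_ifs
        · exact h0
        · exact le_refl _
      · rw [awN_single]
        split_ifs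
        · rw [sub_self]
        · rw [sub_zero]
          exact h0
      · rw [awS_single]
        intro t
        rw [toS_apply]
        exact awP_nonneg φ s.1 t.1)
    (by
      classical
      rintro s ⟨t, e⟩ h
      simp only [LinearMap.add_apply, LinearMap.comp_apply, LinearMap.sub_apply,
        LinearMap.id_apply, Finsupp.add_apply, inj_apply] at h
      have h0 : ∀ {k : Smpl I →₀ ℤ}, k t ≠ 0 → (k = 0 ∨ k = Finsupp.single s 1) →
          (simplexCx I).dim t = (simplexCx I).dim s := by
        rintro k hk (h1 | h1)
        · rw [h1] at hk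
          exact absurd rfl hk
        · rw [h1, Finsupp.single_apply] at hk
          by_cases h2 : s = t
          · rw [h2]
          · rw [if_neg h2] at hk
            exact absurd rfl hk
      cases e
      · simp only [if_true, reduceCtorEq, if_false, add_zero] at h
        refine h0 h ?_
        rw [awN_single]
        split_ifs
        · exact Or.inr rfl
        · exact Or.inl rfl
      · simp only [if_true, reduceCtorEq, if_false, add_zero, zero_add] at h
        refine h0 h ?_
        rw [awN_single]
        split_ifs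
        · left; rw [sub_self]
        · right; rw [sub_zero]
      · simp only [if_true, reduceCtorEq, if_false, add_zero, zero_add] at h
        rw [awS_single, toS_apply] at h
        have h1 := awP_length _ _ _ h
        have h2 : t.1.length ≠ 0 := fun h => t.2.1 (List.length_eq_zero_iff.1 h)
        change t.1.length - 1 + 1 = s.1.length - 1
        omega)
    (by
      intro s
      simp only [LinearMap.add_apply, LinearMap.comp_apply, LinearMap.sub_apply,
        LinearMap.id_apply, map_add]
      rw [cyl_bdry_zero, cyl_bdry_one, cyl_bdry_seg, bdry_awS]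
      have h1 : (simplexCx I).sgn (awS φ (Finsupp.single s 1)) =
          (simplexCx I).bdry (awN φ (Finsupp.single s 1))
            - awN φ ((simplexCx I).bdry (Finsupp.single s 1)) := by
        rw [awS_apply, sgn_sgn]
      rw [h1]
      simp only [map_sub]
      abel)
    (by
      intro s h
      simp only [LinearMap.add_apply, LinearMap.comp_apply, LinearMap.sub_apply,
        LinearMap.id_apply, map_add]
      rw [cyl_aug_inj, cyl_aug_inj, cyl_aug_inj]
      simp only [reduceCtorEq, if_false, map_sub]
      rw [aug_single, if_pos h]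
      simp)

theorem lin_aw (φ : I →o Bool) (x : Smpl I →₀ ℤ) : (aw φ).lin x =
    inj I3.zero (awN φ x) + inj I3.one (x - awN φ x) + inj I3.seg (awS φ x) := by
  rw [aw, BCxHom.lin_ofLin]
  rfl

theorem awN_natural (θ : I →o J) (φ : J →o Bool) (x : Smpl I →₀ ℤ) :
    (simplexMap θ).lin (awN (φ.comp θ) x) = awN φ ((simplexMap θ).lin x) := by
  induction x using Finsupp.induction_linear with
  | zero => simp
  | add f g hf hg => simp only [map_add, hf, hg]
  | single s k =>
    have h0 : Finsupp.single s k = k • Finsupp.single s (1 : ℤ) := by simp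
    rw [h0]
    simp only [map_smul]
    congr 1
    rw [awN_single, simplexMap_lin, simplexMap_lin, ofS_single, pushL_single]
    by_cases h : (s.1.map θ).Pairwise (· < ·)
    · rw [if_pos h, awN_apply]
      have h2 := toS_ofS_toS (toS.comp (awNL φ)) (by
        rw [LinearMap.comp_apply, awNL_single, if_pos (by simp), toS_nil])
        (isSorted_single h 1)
      rw [LinearMap.comp_apply, LinearMap.comp_apply] at h2
      rw [h2, awNL_single]
      by_cases h3 : ∀ i ∈ s.1, φ (θ i) = false
      · rw [if_pos (by simpa using h3), if_pos (by simpa using h3), ofS_single, pushL_single,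
          if_pos h]
      · rw [if_neg (by simpa using h3), if_neg (by simpa using h3), map_zero, map_zero]
    · rw [if_neg h, map_zero, map_zero]
      split_ifs
      · rw [ofS_single, pushL_single, if_neg h, map_zero]
      · rw [map_zero, map_zero, map_zero]

theorem awS_natural (θ : I →o J) (φ : J →o Bool) (x : Smpl I →₀ ℤ) :
    (simplexMap θ).lin (awS (φ.comp θ) x) = awS φ ((simplexMap θ).lin x) := by
  rw [awS_apply, awS_apply, BCxHom.lin_sgn, map_sub, BCxHom.lin_bdry, awN_natural, awN_natural,
    BCxHom.lin_bdry]

/-- Naturality of the Alexander-Whitney map. -/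
theorem aw_natural (θ : I →o J) (φ : J →o Bool) :
    (BCxHom.cylMap (simplexMap θ)).comp (aw (φ.comp θ)) = (aw φ).comp (simplexMap θ) := by
  apply BCxHom.ext_lin
  intro s
  rw [BCxHom.lin_comp, BCxHom.lin_comp, lin_aw, lin_aw]
  simp only [map_add, map_sub]
  rw [BCxHom.lin_cylMap_inj, BCxHom.lin_cylMap_inj, BCxHom.lin_cylMap_inj,
    BCxHom.lin_cylMap_inj, awN_natural, awS_natural]

theorem aw_const_false : aw (OrderHom.const I false) = BCxHom.cylEnd (simplexCx I) false := by
  have h1 : ∀ x, awN (OrderHom.const I false) x = x := by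
    intro x
    induction x using Finsupp.induction_linear with
    | zero => simp
    | add f g hf hg => simp only [map_add, hf, hg]
    | single s k =>
      have h0 : Finsupp.single s k = k • Finsupp.single s (1 : ℤ) := by simp
      rw [h0, map_smul, awN_single, if_pos (by simp)]
  apply BCxHom.ext_lin
  intro s
  rw [lin_aw, BCxHom.lin_cylEnd, awS_apply, h1, h1, sub_self, sub_self]
  simp [BCxHom.endI3]

theorem aw_const_true : aw (OrderHom.const I true) = BCxHom.cylEnd (simplexCx I) true := by
  have h1 : ∀ x, awN (OrderHom.const I true) x = 0 := by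
    intro x
    induction x using Finsupp.induction_linear with
    | zero => simp
    | add f g hf hg => simp only [map_add, hf, hg, add_zero]
    | single s k =>
      have h0 : Finsupp.single s k = k • Finsupp.single s (1 : ℤ) := by simp
      rw [h0, map_smul, awN_single, if_neg, smul_zero]
      intro h
      obtain ⟨b, hb⟩ := List.exists_mem_of_ne_nil s.1 s.2.1
      simpa using h b hb
  apply BCxHom.ext_lin
  intro s
  rw [lin_aw, BCxHom.lin_cylEnd, awS_apply, h1, h1, map_zero, sub_zero, sub_zero]
  simp [BCxHom.endI3]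

end AW

end Vale.Agent.P213
end

section

/-!
The cylinder of a Steiner complex is a Steiner complex.
-/

universe u v w

namespace Vale.Agent.P213

open BCx

/-- The rank of the label of a basis element of the cylinder. -/
def cylRank (n : ℕ) : I3 → ℕ
  | I3.zero => if n % 2 = 0 then 0 else 2
  | I3.seg => 1
  | I3.one => if n % 2 = 0 then 2 else 0

theorem cylRank_injective (n : ℕ) : Function.Injective (cylRank n) := by
  intro a b h
  cases a <;> cases b <;> simp only [cylRank] at h <;> first | rfl | (split_ifs at h <;> omega)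

/-- The total order on the basis of the cylinder. -/
@[reducible]
noncomputable def cylOrd (K : BCx) (o : LinearOrder K.B) : LinearOrder (K.B × I3) :=
  letI := o
  LinearOrder.lift' (fun p : K.B × I3 => (toLex (p.1, cylRank (K.dim p.1) p.2) : K.B ×ₗ ℕ)) (by
    rintro ⟨b, t⟩ ⟨c, t'⟩ h
    have h1 : (b, cylRank (K.dim b) t) = (c, cylRank (K.dim c) t') := toLex.injective h
    rw [Prod.mk.injEq] at h1
    obtain ⟨rfl, h2⟩ := h1
    rw [cylRank_injective _ h2])

theorem cylOrd_lt {K : BCx} (o : LinearOrder K.B) (p q : K.B × I3) :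
    (cylOrd K o).lt p q ↔ o.lt p.1 q.1 ∨
      (p.1 = q.1 ∧ cylRank (K.dim p.1) p.2 < cylRank (K.dim q.1) q.2) :=
  @Prod.Lex.toLex_lt_toLex K.B ℕ _ _ (p.1, cylRank (K.dim p.1) p.2)
    (q.1, cylRank (K.dim q.1) q.2)

namespace Cell

variable {K : BCx}

/-- The part of even dimension (`false`) or odd dimension (`true`). -/
noncomputable def par (K : BCx) (e : Bool) : (K.B →₀ ℤ) →ₗ[ℤ] (K.B →₀ ℤ) :=
  match e with
  | false => K.part (fun n => n % 2 = 0)
  | true => K.part (fun n => n % 2 = 1)

theorem par_nonneg (e : Bool) {x : K.B →₀ ℤ} (hx : 0 ≤ x) : 0 ≤ par K e x := by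
  cases e
  · exact part_nonneg _ hx
  · exact part_nonneg _ hx

theorem bdry_par (e : Bool) (x : K.B →₀ ℤ) : K.bdry (par K e x) = par K (!e) (K.bdry x) := by
  cases e
  · change K.bdry (K.part _ x) = K.part _ _
    rw [bdry_part]
    exact part_congr (fun n => by omega) _
  · change K.bdry (K.part _ x) = K.part _ _
    rw [bdry_part]
    exact part_congr (fun n => by omega) _

theorem aug_par (e : Bool) (x : K.B →₀ ℤ) :
    K.aug (par K e x) = if e = false then K.aug x else 0 := by
  cases e
  · exact (aug_part _ _).trans (by simp)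
  · exact (aug_part _ _).trans (by simp)

theorem sgn_eq_par (x : K.B →₀ ℤ) : K.sgn x = par K false x - par K true x := by
  ext b
  rw [sgn_apply, Finsupp.sub_apply]
  change _ = K.part _ x b - K.part _ x b
  rw [part_apply, part_apply]
  rcases Nat.mod_two_eq_zero_or_one (K.dim b) with h | h
  · rw [if_pos h, if_neg (by omega), Even.neg_one_pow (Nat.even_iff.2 h)]
    ring
  · rw [if_neg (by omega), if_pos h, Odd.neg_one_pow (Nat.odd_iff.2 h)]
    ring

/-- The tensor product of a table with the one dimensional generator. -/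
noncomputable def tseg (x : Cell K) : Cell K.cyl where
  val a := inj I3.seg (x.val a) + (inj I3.zero (par K a (x.val a))
    + inj I3.one (par K (!a) (x.val a)))
  nonneg a := add_nonneg (inj_nonneg _ (x.nonneg a))
    (add_nonneg (inj_nonneg _ (par_nonneg _ (x.nonneg a)))
      (inj_nonneg _ (par_nonneg _ (x.nonneg a))))
  bdry_val a := by
    rw [map_add, map_add, cyl_bdry_seg, cyl_bdry_zero, cyl_bdry_one, bdry_par, bdry_par,
      x.bdry_val, sgn_eq_par]
    cases a
    · simp only [Bool.not_false, Bool.not_true, map_sub]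
      abel
    · simp only [Bool.not_false, Bool.not_true, map_sub]
      abel
  aug_val a := by
    rw [map_add, map_add, cyl_aug_inj, cyl_aug_inj, cyl_aug_inj, aug_par, aug_par, x.aug_val]
    cases a <;> simp

theorem tseg_val (x : Cell K) (a : Bool) : x.tseg.val a = inj I3.seg (x.val a)
    + (inj I3.zero (par K a (x.val a)) + inj I3.one (par K (!a) (x.val a))) := rfl

end Cell

open Cell

/-- The atoms of the cylinder. -/
noncomputable def cylAtom {K : BCx} (at' : K.B → Cell K) : K.B × I3 → Cell K.cyl
  | (b, I3.zero) => (at' b).map (BCxHom.cylEnd K false)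
  | (b, I3.one) => (at' b).map (BCxHom.cylEnd K true)
  | (b, I3.seg) => (at' b).tseg

theorem par_apply {K : BCx} (e : Bool) (x : K.B →₀ ℤ) (b : K.B) :
    par K e x b = if K.dim b % 2 = (if e = true then 1 else 0) then x b else 0 := by
  cases e
  · exact part_apply _ _ _
  · exact part_apply _ _ _

/-- The cylinder of a Steiner complex is a Steiner complex. -/
noncomputable def Steiner.cyl {K : BCx} (hK : Steiner K) : Steiner K.cyl where
  ord := cylOrd K hK.ord
  lt_of_neg := by
    rintro ⟨b, t⟩ ⟨c, t'⟩ h
    rw [cylOrd_lt]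
    change K.cylBd (b, t) (c, t') < 0 at h
    cases t
    · rw [cylBd, inj_apply] at h
      split_ifs at h
      · exact Or.inl (hK.lt_of_neg b c h)
      · omega
    · rw [cylBd, inj_apply] at h
      split_ifs at h
      · exact Or.inl (hK.lt_of_neg b c h)
      · omega
    · rw [cylBd, Finsupp.add_apply, Finsupp.sub_apply, inj_apply, inj_apply, inj_apply,
        sgn_apply] at h
      classical
      rw [Finsupp.single_apply] at h
      by_cases hbc : b = c
      · subst hbc
        right
        refine ⟨rfl, ?_⟩
        change cylRank (K.dim b) t' < cylRank (K.dim b) I3.seg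
        have hb : K.bd b b = 0 := by
          by_contra hb
          have := K.bd_dim b b hb
          omega
        rw [hb] at h
        rcases Nat.mod_two_eq_zero_or_one (K.dim b) with h1 | h1
        · rw [Even.neg_one_pow (Nat.even_iff.2 h1)] at h
          cases t' <;> simp [cylRank, h1] at h ⊢
        · rw [Odd.neg_one_pow (Nat.odd_iff.2 h1)] at h
          cases t' <;> simp [cylRank, h1] at h ⊢
      · left
        cases t' <;> simp [hbc] at h
        exact hK.lt_of_neg b c h
  lt_of_pos := by
    rintro ⟨b, t⟩ ⟨c, t'⟩ h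
    rw [cylOrd_lt]
    change 0 < K.cylBd (b, t) (c, t') at h
    cases t
    · rw [cylBd, inj_apply] at h
      split_ifs at h
      · exact Or.inl (hK.lt_of_pos b c h)
      · omega
    · rw [cylBd, inj_apply] at h
      split_ifs at h
      · exact Or.inl (hK.lt_of_pos b c h)
      · omega
    · rw [cylBd, Finsupp.add_apply, Finsupp.sub_apply, inj_apply, inj_apply, inj_apply,
        sgn_apply] at h
      classical
      rw [Finsupp.single_apply] at h
      by_cases hbc : b = c
      · subst hbc
        right
        refine ⟨rfl, ?_⟩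
        change cylRank (K.dim b) I3.seg < cylRank (K.dim b) t'
        have hb : K.bd b b = 0 := by
          by_contra hb
          have := K.bd_dim b b hb
          omega
        rw [hb] at h
        rcases Nat.mod_two_eq_zero_or_one (K.dim b) with h1 | h1
        · rw [Even.neg_one_pow (Nat.even_iff.2 h1)] at h
          cases t' <;> simp [cylRank, h1] at h ⊢
        · rw [Odd.neg_one_pow (Nat.odd_iff.2 h1)] at h
          cases t' <;> simp [cylRank, h1] at h ⊢
      · left
        cases t' <;> simp [hbc] at h
        exact hK.lt_of_pos b c h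
  atom := cylAtom hK.atom
  atom_top := by
    rintro a ⟨b, t⟩ ⟨c, t'⟩ h
    cases t
    · change K.dim b ≤ K.cylDim (c, t') at h
      rw [cylAtom, map_val, BCxHom.lin_cylEnd, inj_apply]
      cases t'
      · change K.dim b ≤ K.dim c at h
        rcases hK.atom_top a b c h with ⟨h1, h2⟩ | ⟨h1, h2⟩
        · left
          rw [h2] at h1 ⊢
          exact ⟨(if_pos rfl).trans h1, rfl⟩
        · right
          exact ⟨(if_pos rfl).trans h1, fun h3 => h2 (congrArg Prod.fst h3)⟩
      · right
        exact ⟨by simp [BCxHom.endI3], by simp⟩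
      · right
        exact ⟨by simp [BCxHom.endI3], by simp⟩
    · change K.dim b ≤ K.cylDim (c, t') at h
      rw [cylAtom, map_val, BCxHom.lin_cylEnd, inj_apply]
      cases t'
      · right
        exact ⟨by simp [BCxHom.endI3], by simp⟩
      · change K.dim b ≤ K.dim c at h
        rcases hK.atom_top a b c h with ⟨h1, h2⟩ | ⟨h1, h2⟩
        · left
          rw [h2] at h1 ⊢
          exact ⟨(if_pos rfl).trans h1, rfl⟩
        · right
          exact ⟨(if_pos rfl).trans h1, fun h3 => h2 (congrArg Prod.fst h3)⟩
      · right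
        exact ⟨by simp [BCxHom.endI3], by simp⟩
    · change K.dim b + 1 ≤ K.cylDim (c, t') at h
      rw [cylAtom, tseg_val, Finsupp.add_apply, Finsupp.add_apply, inj_apply, inj_apply,
        inj_apply, par_apply, par_apply]
      have key : K.dim b + 1 ≤ K.dim c → (hK.atom b).val a c = 0 := by
        intro h3
        rcases hK.atom_top a b c (by omega) with ⟨h1, h2⟩ | ⟨h1, h2⟩
        · rw [h2] at h3; omega
        · exact h1
      cases t'
      · right
        have h3 := key h
        refine ⟨?_, by simp⟩
        simp [h3]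
      · right
        have h3 := key h
        refine ⟨?_, by simp⟩
        simp [h3]
      · change K.dim b + 1 ≤ K.dim c + 1 at h
        rcases hK.atom_top a b c (by omega) with ⟨h1, h2⟩ | ⟨h1, h2⟩
        · left
          rw [h2] at h1 ⊢
          exact ⟨by simp [h1], rfl⟩
        · right
          exact ⟨by simp [h1], fun h3 => h2 (congrArg Prod.fst h3)⟩
  atom_disj := by
    rintro ⟨b, t⟩ ⟨c, t'⟩ h
    cases t
    · change K.cylDim (c, t') < K.dim b at h
      rw [cylAtom, map_val, map_val, BCxHom.lin_cylEnd, BCxHom.lin_cylEnd, inj_apply, inj_apply]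
      cases t'
      · simp only [BCxHom.endI3, if_true]
        exact hK.atom_disj b c h
      · simp [BCxHom.endI3]
      · simp [BCxHom.endI3]
    · change K.cylDim (c, t') < K.dim b at h
      rw [cylAtom, map_val, map_val, BCxHom.lin_cylEnd, BCxHom.lin_cylEnd, inj_apply, inj_apply]
      cases t'
      · simp [BCxHom.endI3]
      · simp only [BCxHom.endI3, if_true]
        exact hK.atom_disj b c h
      · simp [BCxHom.endI3]
    · change K.cylDim (c, t') < K.dim b + 1 at h
      rw [cylAtom, tseg_val, tseg_val, Finsupp.add_apply, Finsupp.add_apply, inj_apply, inj_apply,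
        inj_apply, par_apply, par_apply, Finsupp.add_apply, Finsupp.add_apply, inj_apply, inj_apply,
        inj_apply, par_apply, par_apply]
      cases t'
      · rcases Nat.mod_two_eq_zero_or_one (K.dim c) with h1 | h1 <;> simp [h1]
      · rcases Nat.mod_two_eq_zero_or_one (K.dim c) with h1 | h1 <;> simp [h1]
      · change K.dim c + 1 < K.dim b + 1 at h
        simpa using hK.atom_disj b c (by omega)

end Vale.Agent.P213
end
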