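import Mathlib.Order.RelClasses
import Mathlib.Order.Defs.LinearOrder
import Mathlib.Data.List.Lex
import Mathlib.Order.Lex
import Vale.Agent.P213.Bdl.B1
import Vale.Agent.P213.Bdl.B3
import Vale.Agent.P213.Bdl.B4

set_option linter.all false

section

/-!
The normalized chain complex of a simplex is a Steiner complex.
-/

universe u v w

namespace Vale.Agent.P213

section Lists

variable {I : Type}

theorem consL_apply_cons (a : I) (x : List I →₀ ℤ) (t' : List I) :
    consL a x (a :: t') = x t' := by
  classical
  induction x using Finsupp.induction_linear with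
  | zero => simp
  | add f g hf hg => simp only [map_add, Finsupp.add_apply, hf, hg]
  | single c k =>
    rw [consL_single, Finsupp.single_apply, Finsupp.single_apply]
    simp

theorem consL_apply_of_ne (a : I) (x : List I →₀ ℤ) (t : List I) (ht : ∀ t', t ≠ a :: t') :
    consL a x t = 0 := by
  classical
  induction x using Finsupp.induction_linear with
  | zero => simp
  | add f g hf hg => simp only [map_add, Finsupp.add_apply, hf, hg, add_zero]
  | single c k =>
    rw [consL_single, Finsupp.single_apply, if_neg]
    intro h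
    exact ht c h.symm

end Lists

section Alt

variable {I : Type} [LinearOrder I]

/-- The alternating lexicographic order on lists: at even positions (`e = false`) the end of
the list is the largest and smaller entries are smaller; at odd positions (`e = true`) the
end of the list is the smallest and larger entries are smaller. -/
def altLt : Bool → List I → List I → Prop
  | false, [], _ => False
  | false, _ :: _, [] => True
  | false, a :: l, b :: l' => a < b ∨ (a = b ∧ altLt true l l')
  | true, [], [] => False
  | true, [], _ :: _ => True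
  | true, _ :: _, [] => False
  | true, a :: l, b :: l' => b < a ∨ (a = b ∧ altLt false l l')

theorem altLt_irrefl (e : Bool) (l : List I) : ¬ altLt e l l := by
  induction l generalizing e with
  | nil => cases e <;> simp [altLt]
  | cons a l ih => cases e <;> simp [altLt, ih]

theorem altLt_trans (e : Bool) (l m n : List I) (h1 : altLt e l m) (h2 : altLt e m n) :
    altLt e l n := by
  induction l generalizing e m n with
  | nil =>
    cases e
    · exact absurd h1 (by simp [altLt])
    · rcases m with _ | ⟨b, m⟩
      · exact absurd h1 (by simp [altLt])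
      · rcases n with _ | ⟨c, n⟩
        · exact absurd h2 (by simp [altLt])
        · simp [altLt]
  | cons a l ih =>
    cases e
    · rcases m with _ | ⟨b, m⟩
      · exact absurd h2 (by simp [altLt])
      · rcases n with _ | ⟨c, n⟩
        · simp [altLt]
        · simp only [altLt] at h1 h2 ⊢
          rcases h1 with h1 | ⟨h1, h1'⟩
          · rcases h2 with h2 | ⟨h2, h2'⟩
            · exact Or.inl (h1.trans h2)
            · exact Or.inl (h2 ▸ h1)
          · rcases h2 with h2 | ⟨h2, h2'⟩
            · exact Or.inl (h1 ▸ h2)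
            · exact Or.inr ⟨h1.trans h2, ih true m n h1' h2'⟩
    · rcases m with _ | ⟨b, m⟩
      · exact absurd h1 (by simp [altLt])
      · rcases n with _ | ⟨c, n⟩
        · exact absurd h2 (by simp [altLt])
        · simp only [altLt] at h1 h2 ⊢
          rcases h1 with h1 | ⟨h1, h1'⟩
          · rcases h2 with h2 | ⟨h2, h2'⟩
            · exact Or.inl (h2.trans h1)
            · exact Or.inl (h2 ▸ h1)
          · rcases h2 with h2 | ⟨h2, h2'⟩
            · exact Or.inl (h1 ▸ h2)
            · exact Or.inr ⟨h1.trans h2, ih false m n h1' h2'⟩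

theorem altLt_trichotomous (e : Bool) (l m : List I) : altLt e l m ∨ l = m ∨ altLt e m l := by
  induction l generalizing e m with
  | nil =>
    rcases m with _ | ⟨b, m⟩
    · exact Or.inr (Or.inl rfl)
    · cases e
      · exact Or.inr (Or.inr (by simp [altLt]))
      · exact Or.inl (by simp [altLt])
  | cons a l ih =>
    rcases m with _ | ⟨b, m⟩
    · cases e
      · exact Or.inl (by simp [altLt])
      · exact Or.inr (Or.inr (by simp [altLt]))
    · rcases lt_trichotomy a b with h | h | h
      · cases e
        · exact Or.inl (Or.inl h)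
        · exact Or.inr (Or.inr (Or.inl h))
      · subst h
        cases e
        · rcases ih true m with h1 | h1 | h1
          · exact Or.inl (Or.inr ⟨rfl, h1⟩)
          · exact Or.inr (Or.inl (by rw [h1]))
          · exact Or.inr (Or.inr (Or.inr ⟨rfl, h1⟩))
        · rcases ih false m with h1 | h1 | h1
          · exact Or.inl (Or.inr ⟨rfl, h1⟩)
          · exact Or.inr (Or.inl (by rw [h1]))
          · exact Or.inr (Or.inr (Or.inr ⟨rfl, h1⟩))
      · cases e
        · exact Or.inr (Or.inr (Or.inl h))
        · exact Or.inl (Or.inl h)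

theorem altLt_swap (e : Bool) (l m : List I) : altLt e l m ↔ altLt (!e) m l := by
  induction l generalizing e m with
  | nil => cases e <;> cases m <;> simp [altLt]
  | cons a l ih =>
    rcases m with _ | ⟨b, m⟩
    · cases e <;> simp [altLt]
    · cases e
      · simp only [altLt, Bool.not_false, ih true m, Bool.not_true]
        simp only [eq_comm (a := a)]
      · simp only [altLt, Bool.not_false, ih false m, Bool.not_true]
        simp only [eq_comm (a := a)]

/-- Faces with a positive sign are above, faces with a negative sign below. -/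
theorem altLt_faces {l : List I} (hl : l.Pairwise (· < ·)) (t : List I) :
    (0 < faces l t → altLt false l t) ∧ (faces l t < 0 → altLt false t l) := by
  classical
  have hc : ∀ (a : I) (x : List I →₀ ℤ) (t : List I), consL a x t ≠ 0 →
      ∃ t', t = a :: t' ∧ consL a x t = x t' := by
    intro a x t
    intro h
    by_cases ht : ∀ t', t ≠ a :: t'
    · exact absurd (consL_apply_of_ne a x t ht) h
    · push Not at ht
      obtain ⟨t', ht'⟩ := ht
      exact ⟨t', ht', by rw [ht', consL_apply_cons]⟩
  induction l generalizing t with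
  | nil => rw [faces_nil]; simp
  | cons a l ih =>
    have ih' := ih hl.of_cons
    rw [faces_cons, Finsupp.sub_apply, Finsupp.single_apply]
    constructor
    · intro h
      by_cases h1 : l = t
      · subst h1
        rcases l with _ | ⟨b, l⟩
        · trivial
        · left
          rw [List.pairwise_cons] at hl
          exact hl.1 b (by simp)
      · rw [if_neg h1] at h
        have h2 : consL a (faces l) t ≠ 0 := by omega
        obtain ⟨t', rfl, h3⟩ := hc a _ t h2
        rw [h3] at h
        right
        refine ⟨rfl, ?_⟩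
        rw [altLt_swap]
        exact (ih' t').2 (by omega)
    · intro h
      have h2 : consL a (faces l) t ≠ 0 := by
        intro h3
        rw [h3] at h
        split_ifs at h <;> omega
      obtain ⟨t', rfl, h3⟩ := hc a _ t h2
      rw [h3] at h
      right
      refine ⟨rfl, ?_⟩
      rw [altLt_swap]
      refine (ih' t').1 ?_
      split_ifs at h <;> omega

end Alt

section Atoms

variable {I : Type}

/-- The tables of the atoms, on the level of lists (the empty list included). -/
noncomputable def atomL : List I → Bool → (List I →₀ ℤ)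
  | [], _ => Finsupp.single [] 1
  | a :: l, false => consL a (atomL l true)
  | a :: l, true => consL a (atomL l false) + atomL l true

theorem dL_atomL (l : List I) (a : Bool) : dL (atomL l a) = atomL l true - atomL l false := by
  induction l generalizing a with
  | nil => simp [atomL, dL_single, faces_nil]
  | cons i l ih =>
    cases a
    · simp only [atomL]
      rw [dL_consL, ih, map_sub]
      abel
    · simp only [atomL]
      rw [map_add, dL_consL, ih, ih, map_sub]
      abel

theorem consL_nonneg (a : I) {x : List I →₀ ℤ} (hx : 0 ≤ x) : 0 ≤ consL a x := by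
  classical
  rw [consL, Finsupp.linearCombination_apply, Finsupp.sum]
  apply Finset.sum_nonneg
  intro l _
  apply smul_nonneg (hx l)
  intro m
  rw [Finsupp.single_apply]
  split_ifs <;> simp

theorem atomL_nonneg (l : List I) (a : Bool) : 0 ≤ atomL l a := by
  classical
  induction l generalizing a with
  | nil =>
    intro m
    rw [atomL, Finsupp.single_apply]
    split_ifs <;> simp
  | cons i l ih =>
    cases a
    · exact consL_nonneg i (ih true)
    · exact add_nonneg (consL_nonneg i (ih false)) (ih true)

theorem atomL_support (l : List I) (a : Bool) (t : List I) (h : atomL l a t ≠ 0) :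
    t.Sublist l := by
  classical
  induction l generalizing a t with
  | nil =>
    rw [atomL, Finsupp.single_apply] at h
    by_cases h1 : [] = t
    · rw [← h1]
    · rw [if_neg h1] at h
      exact absurd rfl h
  | cons i l ih =>
    have key : ∀ b, consL i (atomL l b) t ≠ 0 → t.Sublist (i :: l) := by
      intro b hb
      by_cases ht : ∀ t', t ≠ i :: t'
      · exact absurd (consL_apply_of_ne i _ t ht) hb
      · push Not at ht
        obtain ⟨t', rfl⟩ := ht
        rw [consL_apply_cons] at hb
        exact (ih b t' hb).cons_cons i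
    cases a
    · exact key true h
    · simp only [atomL, Finsupp.add_apply] at h
      by_cases h1 : consL i (atomL l false) t = 0
      · rw [h1, zero_add] at h
        exact (ih true t h).cons i
      · exact key false h1

theorem atomL_self (l : List I) (a : Bool) : atomL l a l = 1 := by
  induction l generalizing a with
  | nil => simp [atomL]
  | cons i l ih =>
    cases a
    · simp only [atomL]
      rw [consL_apply_cons, ih]
    · simp only [atomL, Finsupp.add_apply]
      rw [consL_apply_cons, ih]
      have : atomL l true (i :: l) = 0 := by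
        by_contra h
        have := (atomL_support l true _ h).length_le
        simp at this
      rw [this]
      simp

theorem atomL_nil_apply (l : List I) : l ≠ [] → atomL l false [] = 0 := by
  intro h
  rcases l with _ | ⟨a, l⟩
  · exact absurd rfl h
  · exact consL_apply_of_ne a _ _ (by simp)

theorem atomL_true_nil_apply (l : List I) : atomL l true [] = 1 := by
  induction l with
  | nil => simp [atomL]
  | cons a l ih =>
    simp only [atomL, Finsupp.add_apply]
    rw [consL_apply_of_ne a _ _ (by simp), ih, zero_add]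

end Atoms

section Steiner

variable {I : Type} [LinearOrder I]

theorem atomL_disj {l : List I} (hl : l.Pairwise (· < ·)) (t : List I)
    (ht : t.length < l.length) : atomL l false t = 0 ∨ atomL l true t = 0 := by
  induction l generalizing t with
  | nil => simp at ht
  | cons a l ih =>
    by_cases h : ∀ t', t ≠ a :: t'
    · left
      exact consL_apply_of_ne a _ t h
    · push Not at h
      obtain ⟨t', rfl⟩ := h
      simp only [atomL, Finsupp.add_apply]
      rw [consL_apply_cons, consL_apply_cons]
      have h1 : atomL l true (a :: t') = 0 := by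
        by_contra h
        have h2 := (atomL_support l true _ h).mem (by simp : a ∈ a :: t')
        rw [List.pairwise_cons] at hl
        exact lt_irrefl a (hl.1 a h2)
      rw [h1, add_zero]
      exact (ih hl.of_cons t' (by simpa using ht)).symm

/-- The atom of a simplex. -/
noncomputable def simplexAtom (s : Smpl I) : Cell (simplexCx I) where
  val a := toS (atomL s.1 a)
  nonneg a t := by
    rw [toS_apply]
    exact atomL_nonneg s.1 a t.1
  bdry_val a := by
    have h1 : IsSorted (atomL s.1 a) := fun l hl => s.2.2.sublist (atomL_support s.1 a l hl)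
    rw [simplexCx_bdry, ofS_toS h1, map_sub, dL_single, faces_nil, smul_zero, sub_zero, dL_atomL,
      map_sub]
  aug_val a := by
    have key : ∀ x : Smpl I →₀ ℤ, (simplexCx I).aug x = (dL (ofS x)) [] := by
      intro x
      induction x using Finsupp.induction_linear with
      | zero => simp
      | add f g hf hg => simp only [map_add, Finsupp.add_apply, hf, hg]
      | single s k =>
        rw [BCx.aug_single, ofS_single, dL_single, Finsupp.smul_apply]
        obtain ⟨l, hl, h2⟩ := s
        rcases l with _ | ⟨a, l⟩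
        · exact absurd rfl hl
        · rw [faces_cons, Finsupp.sub_apply, consL_apply_of_ne a _ _ (by simp), sub_zero]
          rcases l with _ | ⟨b, l⟩
          · simp
          · classical
            rw [Finsupp.single_apply]
            simp
    have h1 : IsSorted (atomL s.1 a) := fun l hl => s.2.2.sublist (atomL_support s.1 a l hl)
    rw [key, ofS_toS h1, map_sub, dL_single, faces_nil, smul_zero, sub_zero, dL_atomL,
      Finsupp.sub_apply, atomL_true_nil_apply, atomL_nil_apply _ s.2.1]
    simp

theorem simplexAtom_val (s : Smpl I) (a : Bool) (t : Smpl I) :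
    (simplexAtom s).val a t = atomL s.1 a t.1 := rfl

/-- The strict order on simplices. -/
def smplLt (s t : Smpl I) : Prop := altLt false s.1 t.1

instance : IsStrictTotalOrder (Smpl I) smplLt where
  irrefl s := altLt_irrefl false s.1
  trans s t r := altLt_trans false s.1 t.1 r.1
  trichotomous s t h1 h2 := by
    rcases altLt_trichotomous false s.1 t.1 with h | h | h
    · exact absurd h h1
    · exact Subtype.ext h
    · exact absurd h h2

/-- The chain complex of the simplex with vertex set `I` is a Steiner complex. -/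
noncomputable def simplexSteiner (I : Type) [LinearOrder I] : Steiner (simplexCx I) where
  ord := by
    classical
    exact linearOrderOfSTO smplLt
  lt_of_neg s t h := (altLt_faces s.2.2 t.1).2 h
  lt_of_pos s t h := (altLt_faces s.2.2 t.1).1 h
  atom := simplexAtom
  atom_top := by
    intro a s t h
    change s.1.length - 1 ≤ t.1.length - 1 at h
    have hs : s.1.length ≠ 0 := fun h => s.2.1 (List.length_eq_zero_iff.1 h)
    have ht : t.1.length ≠ 0 := fun h => t.2.1 (List.length_eq_zero_iff.1 h)
    by_cases h1 : t = s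
    · left
      rw [h1, simplexAtom_val, atomL_self]
      exact ⟨rfl, rfl⟩
    · right
      refine ⟨?_, h1⟩
      rw [simplexAtom_val]
      by_contra h2
      have h3 := atomL_support _ _ _ h2
      exact h1 (Subtype.ext (h3.eq_of_length_le (by omega)))
  atom_disj := by
    intro s t h
    change t.1.length - 1 < s.1.length - 1 at h
    rw [simplexAtom_val, simplexAtom_val]
    exact atomL_disj s.2.2 _ (by omega)

end Steiner

end Vale.Agent.P213
end

section

/-!
The cylinder of a simplex is generated by the images of the Alexander-Whitney maps.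
-/

namespace Vale.Agent.P213

open BCx

theorem BCxHom.exists_of_lin_ne_zero {K L : BCx} (φ : BCxHom K L) (x : K.B →₀ ℤ) (e : L.B)
    (h : φ.lin x e ≠ 0) : ∃ b, x b ≠ 0 ∧ φ.f b e ≠ 0 := by
  by_contra h1
  push Not at h1
  apply h
  rw [BCxHom.lin, Finsupp.linearCombination_apply, Finsupp.sum, Finsupp.finsetSum_apply]
  apply Finset.sum_eq_zero
  intro b hb
  rw [Finsupp.smul_apply, h1 b (Finsupp.mem_support_iff.1 hb), smul_zero]

theorem Steiner.map_atom_of_disj {K L : BCx} (hK : Steiner K) (hL : Steiner L) (φ : BCxHom K L)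
    (b : K.B) (c : L.B) (hb : φ.f b = Finsupp.single c 1)
    (hdis : ∀ b₁ b₂ : K.B, (∃ a, (hK.atom b).val a b₁ ≠ 0) → (∃ a, (hK.atom b).val a b₂ ≠ 0) →
      b₁ ≠ b₂ → ∀ e, φ.f b₁ e = 0 ∨ φ.f b₂ e = 0) : (hK.atom b).map φ = hL.atom c := by
  classical
  have hd : L.dim c = K.dim b := by
    apply φ.dim_f b c
    rw [hb]
    simp
  apply hL.atom_unique
  · intro a e he
    have key : ((hK.atom b).map φ).val a e = Finsupp.single c (1 : ℤ) e := by
      rw [Cell.map_val]
      by_contra h1
      have h2 : φ.lin ((hK.atom b).val a - Finsupp.single b 1) e ≠ 0 := by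
        rw [map_sub, BCxHom.lin_single, one_smul, hb, Finsupp.sub_apply]
        exact sub_ne_zero.2 h1
      obtain ⟨b', h3, h4⟩ := φ.exists_of_lin_ne_zero _ _ h2
      have h5 := φ.dim_f b' e h4
      apply h3
      rw [Finsupp.sub_apply, Finsupp.single_apply]
      rcases hK.atom_top a b b' (by omega) with ⟨h6, h7⟩ | ⟨h6, h7⟩
      · rw [h6, if_pos h7.symm, sub_self]
      · rw [h6, if_neg (Ne.symm h7), sub_self]
    rw [key, Finsupp.single_apply]
    by_cases h1 : e = c
    · left
      exact ⟨if_pos h1.symm, h1⟩
    · right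
      exact ⟨if_neg (Ne.symm h1), h1⟩
  · intro e he
    by_contra h1
    push Not at h1
    obtain ⟨h1, h2⟩ := h1
    rw [Cell.map_val] at h1 h2
    obtain ⟨b₁, h3, h4⟩ := φ.exists_of_lin_ne_zero _ _ h1
    obtain ⟨b₂, h5, h6⟩ := φ.exists_of_lin_ne_zero _ _ h2
    have h7 : b₁ = b₂ := by
      by_contra h7
      rcases hdis b₁ b₂ ⟨_, h3⟩ ⟨_, h5⟩ h7 e with h8 | h8
      · exact h4 h8
      · exact h6 h8
    subst h7
    have h8 := φ.dim_f b₁ e h4
    rcases hK.atom_disj b b₁ (by omega) with h9 | h9
    · exact h3 h9
    · exact h5 h9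

section Comb

variable {m : ℕ} (v : Fin (m + 1))

/-- The collapse of the vertices after `v` onto `v`. -/
def thetaV : Fin (m + 2) →o Fin (m + 1) where
  toFun i := ⟨min i.val v.val, lt_of_le_of_lt (min_le_right _ _) v.isLt⟩
  monotone' i j h := by
    rw [Fin.mk_le_mk]
    have : i.val ≤ j.val := h
    omega

/-- The function which is `true` on the last vertex only. -/
def betaTop (m : ℕ) : Fin (m + 2) →o Bool where
  toFun i := decide (i = Fin.last (m + 1))
  monotone' i j h h1 := by
    simp only [decide_eq_true_eq] at h1 ⊢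
    rw [h1] at h
    exact Fin.last_le_iff.1 h

theorem map_thetaV {t : List (Fin (m + 1))} (ht : ∀ i ∈ t, i ≤ v) :
    (t.map Fin.castSucc).map (thetaV v) = t := by
  rw [List.map_map]
  conv_rhs => rw [← List.map_id t]
  apply List.map_congr_left
  intro i hi
  have := ht i hi
  have h1 : i.val ≤ v.val := this
  apply Fin.ext
  change min i.val v.val = i.val
  omega

theorem thetaV_last : thetaV v (Fin.last (m + 1)) = v := by
  apply Fin.ext
  change min (m + 1) v.val = v.val
  have := v.isLt
  omega

theorem betaTop_castSucc (i : Fin (m + 1)) : betaTop m (Fin.castSucc i) = false := by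
  change decide (Fin.castSucc i = Fin.last (m + 1)) = false
  rw [decide_eq_false_iff_not]
  exact (Fin.castSucc_lt_last i).ne

theorem betaTop_last : betaTop m (Fin.last (m + 1)) = true := by
  change decide (Fin.last (m + 1) = Fin.last (m + 1)) = true
  simp

theorem awP_castSucc (t : List (Fin (m + 1))) : awP (betaTop m) (t.map Fin.castSucc) = 0 := by
  induction t with
  | nil => rfl
  | cons i t ih => rw [List.map_cons, awP, if_pos (betaTop_castSucc i), ih, map_zero]

theorem awP_append (t : List (Fin (m + 1))) :
    awP (betaTop m) (t.map Fin.castSucc ++ [Fin.last (m + 1)]) =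
      Finsupp.single (t.map Fin.castSucc) 1 := by
  induction t with
  | nil =>
    rw [List.map_nil, List.nil_append, awP, if_neg (by rw [betaTop_last]; decide), if_pos rfl]
  | cons i t ih =>
    rw [List.map_cons, List.cons_append, awP, if_pos (betaTop_castSucc i), ih, consL_single]

/-- The composite of the Alexander-Whitney map and the collapse. -/
noncomputable def phiV : BCxHom (simplexCx (Fin (m + 2))) (simplexCx (Fin (m + 1))).cyl :=
  (BCxHom.cylMap (simplexMap (thetaV v))).comp (aw (betaTop m))

theorem simplexMap_toS {I J : Type} [LinearOrder I] [LinearOrder J] (θ : I →o J)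
    {x : List I →₀ ℤ} (hx : IsSorted x) :
    (simplexMap θ).lin (toS x) = toS (pushL θ x) := by
  rw [simplexMap_lin]
  refine toS_ofS_toS (toS.comp (pushL θ)) ?_ hx
  rw [LinearMap.comp_apply, pushL_single, if_pos (by simp), List.map_nil, toS_nil]

theorem phiV_f (t : Smpl (Fin (m + 2))) (ht : IsSorted (awP (betaTop m) t.1)) : (phiV v).f t =
    inj I3.zero (toS (pushL (thetaV v) (awNL (betaTop m) (Finsupp.single t.1 1))))
    + inj I3.one (toS (pushL (thetaV v) (Finsupp.single t.1 1)) -
      toS (pushL (thetaV v) (awNL (betaTop m) (Finsupp.single t.1 1))))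
    + inj I3.seg (toS (pushL (thetaV v) (awP (betaTop m) t.1))) := by
  change (BCxHom.cylMap (simplexMap (thetaV v))).lin ((aw (betaTop m)).f t) = _
  have h1 : Finsupp.single t (1 : ℤ) = toS (Finsupp.single t.1 1) := by
    rw [← ofS_single, toS_ofS]
  have h2 : awN (betaTop m) (Finsupp.single t 1) =
      toS (awNL (betaTop m) (Finsupp.single t.1 1)) := by
    rw [awN_apply, ofS_single]
  have h3 := isSorted_single t.2.2 1
  rw [← BCxHom.lin_single_one, lin_aw, awS_single, h2, map_add, map_add,
    BCxHom.lin_cylMap_inj, BCxHom.lin_cylMap_inj, BCxHom.lin_cylMap_inj, map_sub,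
    simplexMap_toS _ (isSorted_awNL _ h3), simplexMap_toS _ ht, h1, simplexMap_toS _ h3]

theorem phiV_A (t : Smpl (Fin (m + 2))) (t' : List (Fin (m + 1)))
    (h : t.1 = t'.map Fin.castSucc) (hv : ∀ i ∈ t', i ≤ v) :
    (phiV v).f t = inj I3.zero (toS (Finsupp.single t' 1)) := by
  have hs : t'.Pairwise (· < ·) := by
    have := t.2.2
    rw [h, List.pairwise_map] at this
    exact this
  have h1 : pushL (thetaV v) (Finsupp.single t.1 1) = Finsupp.single t' 1 := by
    rw [pushL_single, h, map_thetaV v hv, if_pos hs]
  have h2 : awNL (betaTop m) (Finsupp.single t.1 1) = Finsupp.single t.1 1 := by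
    rw [awNL_single, if_pos]
    intro i hi
    rw [h, List.mem_map] at hi
    obtain ⟨j, -, rfl⟩ := hi
    exact betaTop_castSucc j
  have h3 : awP (betaTop m) t.1 = 0 := by rw [h, awP_castSucc]
  rw [phiV_f v t (by rw [h3]; exact fun l hl => absurd rfl hl), h2, h3, h1]
  simp

theorem phiV_B (t : Smpl (Fin (m + 2))) (t' : List (Fin (m + 1)))
    (h : t.1 = t'.map Fin.castSucc ++ [Fin.last (m + 1)]) (hv : ∀ i ∈ t', i ≤ v) :
    (phiV v).f t = inj I3.one (toS (if (t' ++ [v]).Pairwise (· < ·) then
      Finsupp.single (t' ++ [v]) 1 else 0)) + inj I3.seg (toS (Finsupp.single t' 1)) := by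
  have hs : t'.Pairwise (· < ·) := by
    have := t.2.2
    rw [h, List.pairwise_append, List.pairwise_map] at this
    exact this.1
  have hs' : (t'.map Fin.castSucc).Pairwise (· < ·) := by
    rw [List.pairwise_map]
    exact hs
  have h1 : pushL (thetaV v) (Finsupp.single t.1 1) = if (t' ++ [v]).Pairwise (· < ·) then
      Finsupp.single (t' ++ [v]) 1 else 0 := by
    rw [pushL_single, h, List.map_append, map_thetaV v hv, List.map_singleton, thetaV_last]
  have h2 : awNL (betaTop m) (Finsupp.single t.1 1) = 0 := by
    rw [awNL_single, if_neg]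
    intro h2
    have := h2 (Fin.last (m + 1)) (by rw [h]; simp)
    rw [betaTop_last] at this
    exact absurd this (by decide)
  have h3 : awP (betaTop m) t.1 = Finsupp.single (t'.map Fin.castSucc) 1 := by
    rw [h, awP_append]
  have h4 : pushL (thetaV v) (Finsupp.single (t'.map Fin.castSucc) 1) = Finsupp.single t' 1 := by
    rw [pushL_single, map_thetaV v hv, if_pos hs]
  rw [phiV_f v t (by rw [h3]; exact isSorted_single hs' 1), h2, h3, h1, h4]
  simp

/-- Sublists of `l` and `l ++ [last]`. -/
theorem sublist_cases {l : List (Fin (m + 1))} {t : List (Fin (m + 2))}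
    (h : t.Sublist (l.map Fin.castSucc ++ [Fin.last (m + 1)])) :
    ∃ t' : List (Fin (m + 1)), t'.Sublist l ∧ (t = t'.map Fin.castSucc ∨
      t = t'.map Fin.castSucc ++ [Fin.last (m + 1)]) := by
  rw [List.sublist_append_iff] at h
  obtain ⟨t₁, t₂, rfl, h1, h2⟩ := h
  rw [List.sublist_map_iff] at h1
  obtain ⟨t', h3, rfl⟩ := h1
  refine ⟨t', h3, ?_⟩
  rcases t₂ with _ | ⟨a, _ | ⟨b, t₂⟩⟩
  · left; simp
  · right
    have := h2.mem (a := a) (by simp)
    rw [List.mem_singleton] at this
    rw [this]
  · have := h2.length_le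
    simp at this

theorem toS_single_ne {I : Type} [LinearOrder I] {l : List I} {u : Smpl I}
    (h : toS (Finsupp.single l 1) u ≠ 0) : l = u.1 := by
  classical
  rw [toS_apply, Finsupp.single_apply] at h
  by_contra h1
  rw [if_neg h1] at h
  exact h rfl

theorem phiV_A_ne {t : Smpl (Fin (m + 2))} {t' : List (Fin (m + 1))}
    (h : t.1 = t'.map Fin.castSucc) (hv : ∀ i ∈ t', i ≤ v) {e : Smpl (Fin (m + 1)) × I3}
    (he : (phiV v).f t e ≠ 0) : e.2 = I3.zero ∧ t' = e.1.1 := by
  obtain ⟨u, c⟩ := e
  rw [phiV_A v t t' h hv, inj_apply] at he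
  by_cases hc : I3.zero = c
  · rw [if_pos hc] at he
    exact ⟨hc.symm, toS_single_ne he⟩
  · rw [if_neg hc] at he
    exact absurd rfl he

theorem phiV_B_ne {t : Smpl (Fin (m + 2))} {t' : List (Fin (m + 1))}
    (h : t.1 = t'.map Fin.castSucc ++ [Fin.last (m + 1)]) (hv : ∀ i ∈ t', i ≤ v)
    {e : Smpl (Fin (m + 1)) × I3} (he : (phiV v).f t e ≠ 0) :
    (e.2 = I3.one ∧ t' ++ [v] = e.1.1) ∨ (e.2 = I3.seg ∧ t' = e.1.1) := by
  obtain ⟨u, c⟩ := e
  rw [phiV_B v t t' h hv, Finsupp.add_apply, inj_apply, inj_apply] at he
  cases c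
  · simp at he
  · left
    simp only [if_true, reduceCtorEq, if_false, add_zero] at he
    refine ⟨rfl, ?_⟩
    split_ifs at he with h1
    · exact toS_single_ne he
    · simp at he
  · right
    simp only [if_true, reduceCtorEq, if_false, zero_add] at he
    exact ⟨rfl, toS_single_ne he⟩

/-- The simplex `s` with the new last vertex. -/
def topS (s : Smpl (Fin (m + 1))) : Smpl (Fin (m + 2)) :=
  ⟨s.1.map Fin.castSucc ++ [Fin.last (m + 1)], by simp, by
    rw [List.pairwise_append, List.pairwise_map]
    refine ⟨s.2.2, List.pairwise_singleton _ _, ?_⟩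
    intro a ha b hb
    rw [List.mem_map] at ha
    rw [List.mem_singleton] at hb
    obtain ⟨c, -, rfl⟩ := ha
    rw [hb]
    exact Fin.castSucc_lt_last c⟩

theorem phiV_atom (s : Smpl (Fin (m + 1))) (hv : ∀ i ∈ s.1, i ≤ v) (hvs : v ∈ s.1) :
    (simplexAtom (topS s)).map (phiV v) = (simplexAtom s).tseg := by
  refine Steiner.map_atom_of_disj (simplexSteiner (Fin (m + 2)))
    (simplexSteiner (Fin (m + 1))).cyl (phiV v) (topS s) (s, I3.seg) ?_ ?_
  · rw [phiV_B v (topS s) s.1 rfl hv, if_neg]
    · rw [map_zero, map_zero, zero_add, ← ofS_single, toS_ofS, inj_single]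
    · intro h
      rw [List.pairwise_append] at h
      exact lt_irrefl v (h.2.2 v hvs v (by simp))
  · rintro t₁ t₂ ⟨a₁, h₁⟩ ⟨a₂, h₂⟩ hne e
    by_contra h
    push Not at h
    obtain ⟨h3, h4⟩ := h
    have h5 : t₁.1.Sublist (topS s).1 := atomL_support _ a₁ _ h₁
    have h6 : t₂.1.Sublist (topS s).1 := atomL_support _ a₂ _ h₂
    obtain ⟨t₁', h7, h8⟩ := sublist_cases h5
    obtain ⟨t₂', h9, h10⟩ := sublist_cases h6
    have hv₁ : ∀ i ∈ t₁', i ≤ v := fun i hi => hv i (h7.mem hi)
    have hv₂ : ∀ i ∈ t₂', i ≤ v := fun i hi => hv i (h9.mem hi)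
    apply hne
    apply Subtype.ext
    rcases h8 with h8 | h8 <;> rcases h10 with h10 | h10
    · rw [h8, h10, (phiV_A_ne v h8 hv₁ h3).2, (phiV_A_ne v h10 hv₂ h4).2]
    · have h11 := phiV_A_ne v h8 hv₁ h3
      have h12 := phiV_B_ne v h10 hv₂ h4
      rw [h11.1] at h12
      simp at h12
    · have h11 := phiV_A_ne v h10 hv₂ h4
      have h12 := phiV_B_ne v h8 hv₁ h3
      rw [h11.1] at h12
      simp at h12
    · have h11 := phiV_B_ne v h8 hv₁ h3
      have h12 := phiV_B_ne v h10 hv₂ h4
      rcases h11 with ⟨h11, h13⟩ | ⟨h11, h13⟩ <;> rcases h12 with ⟨h12, h14⟩ | ⟨h12, h14⟩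
      · rw [← h14] at h13
        rw [h8, h10, List.append_cancel_right h13]
      · rw [h11] at h12
        simp at h12
      · rw [h11] at h12
        simp at h12
      · rw [h8, h10, h13, h14]

end Comb

/-- The functors given by the Alexander-Whitney maps are jointly epimorphic. -/
theorem cyl_joint_epi {m : ℕ} {Z : Type} [OmegaStr Z]
    {F G : OmegaFun (Cell (simplexCx (Fin (m + 1))).cyl) Z}
    (h : ∀ (p : ℕ) (θ : Fin (p + 1) →o Fin (m + 1)) (φ : Fin (p + 1) →o Bool),
      F.comp (Cell.mapFun ((BCxHom.cylMap (simplexMap θ)).comp (aw φ))) =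
      G.comp (Cell.mapFun ((BCxHom.cylMap (simplexMap θ)).comp (aw φ)))) : F = G := by
  apply (simplexSteiner (Fin (m + 1))).cyl.fun_ext
  have hend : ∀ e : Bool, ∀ x : Cell (simplexCx (Fin (m + 1))),
      F (x.map (BCxHom.cylEnd _ e)) = G (x.map (BCxHom.cylEnd _ e)) := by
    intro e x
    have h1 := h m OrderHom.id (OrderHom.const _ e)
    have h2 : (BCxHom.cylMap (simplexMap (OrderHom.id : Fin (m + 1) →o Fin (m + 1)))).comp
        (aw (OrderHom.const _ e)) = BCxHom.cylEnd _ e := by
      rw [simplexMap_id, BCxHom.cylMap_id, BCxHom.id_comp]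
      cases e
      · exact aw_const_false
      · exact aw_const_true
    rw [h2] at h1
    exact congrArg (fun H : OmegaFun (Cell (simplexCx (Fin (m + 1)))) Z => H x) h1
  rintro ⟨s, c⟩
  cases c
  · exact hend false _
  · exact hend true _
  · have hs : ∃ v ∈ s.1, ∀ i ∈ s.1, i ≤ v := by
      obtain ⟨a, ha⟩ := List.exists_mem_of_ne_nil s.1 s.2.1
      obtain ⟨v, hv, hv'⟩ := Finset.exists_max_image s.1.toFinset id
        ⟨a, List.mem_toFinset.2 ha⟩
      exact ⟨v, List.mem_toFinset.1 hv, fun i hi => hv' i (List.mem_toFinset.2 hi)⟩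
    obtain ⟨v, hv, hv'⟩ := hs
    have h1 := h (m + 1) (thetaV v) (betaTop m)
    have h2 := congrArg (fun H : OmegaFun (Cell (simplexCx (Fin (m + 2)))) Z =>
      H (simplexAtom (topS s))) h1
    have h3 := phiV_atom v s hv' hv
    change F ((simplexAtom (topS s)).map (phiV v)) = G ((simplexAtom (topS s)).map (phiV v)) at h2
    rw [h3] at h2
    exact h2

end Vale.Agent.P213
end

section

/-!
The prism chain map: oplax homotopies between monotone maps.
-/

universe u v w

namespace Vale.Agent.P213

open BCx

section Srt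

variable {I J : Type} [LinearOrder I] [LinearOrder J]

/-- The chain of a list: zero if the list is not strictly increasing. -/
noncomputable def srt (l : List J) : List J →₀ ℤ :=
  if l.Pairwise (· < ·) then Finsupp.single l 1 else 0

theorem isSorted_srt (l : List J) : IsSorted (srt l) := by
  rw [srt]
  split_ifs with h
  · exact isSorted_single h 1
  · intro m hm
    exact absurd rfl hm

theorem pushL_single_one (θ : I →o J) (l : List I) :
    pushL θ (Finsupp.single l 1) = srt (l.map θ) := by
  rw [pushL_single, srt]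

theorem pcons_srt (a : J) (l : List J) : pcons a (srt l) = srt (a :: l) := by
  rw [srt, srt]
  by_cases h : l.Pairwise (· < ·)
  · rw [if_pos h, pcons_single]
  · rw [if_neg h, map_zero, if_neg]
    intro h1
    exact h h1.of_cons

/-- Boundary of a prepended chain. -/
theorem dL_pcons' {a : J} {x : List J →₀ ℤ} (hx : IsSorted x)
    (ha : ∀ l, x l ≠ 0 → ∀ b ∈ l, a ≤ b) : dL (pcons a x) = x - pcons a (dL x) := by
  classical
  have h1 : x = x.sum (fun l k => Finsupp.single l k) := (Finsupp.sum_single x).symm
  have key : ∀ s : Finset (List J), (∀ l ∈ s, x l ≠ 0) →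
      dL (pcons a (∑ l ∈ s, Finsupp.single l (x l))) =
        (∑ l ∈ s, Finsupp.single l (x l)) - pcons a (dL (∑ l ∈ s, Finsupp.single l (x l))) := by
    intro s hs
    simp only [map_sum, ← Finset.sum_sub_distrib]
    apply Finset.sum_congr rfl
    intro l hl
    exact dL_pcons (hx l (hs l hl)) (ha l (hs l hl)) _
  have h2 := key x.support (fun l hl => Finsupp.mem_support_iff.1 hl)
  have h3 : ∑ l ∈ x.support, Finsupp.single l (x l) = x := Finsupp.sum_single x
  rwa [h3] at h2

theorem srt_nonneg (l : List J) : 0 ≤ srt l := by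
  classical
  rw [srt]
  split_ifs
  · intro m
    rw [Finsupp.single_apply]
    split_ifs <;> simp
  · exact le_refl _

theorem srt_apply_ne {l m : List J} (h : srt l m ≠ 0) : m = l ∧ l.Pairwise (· < ·) := by
  classical
  rw [srt] at h
  split_ifs at h with h1
  · rw [Finsupp.single_apply] at h
    by_cases h2 : l = m
    · exact ⟨h2.symm, h1⟩
    · rw [if_neg h2] at h
      exact absurd rfl h
  · exact absurd rfl h

theorem srt_eq_zero {l : List J} (h : ¬ l.Pairwise (· < ·)) : srt l = 0 := if_neg h

theorem srt_eq_single {l : List J} (h : l.Pairwise (· < ·)) : srt l = Finsupp.single l 1 :=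
  if_pos h

end Srt

section PrismDef

variable {I J : Type} [LinearOrder J]

/-- The prism operator on a list: apply `f0`, and append the image of the last vertex
under `f1`. -/
noncomputable def prL (f0 f1 : I → J) (l : List I) : List J →₀ ℤ :=
  if h : l = [] then 0 else srt (l.map f0 ++ [f1 (l.getLast h)])

/-- The prism operator. -/
noncomputable def prLin (f0 f1 : I → J) : (List I →₀ ℤ) →ₗ[ℤ] (List J →₀ ℤ) :=
  Finsupp.linearCombination ℤ (prL f0 f1)

theorem prLin_single (f0 f1 : I → J) (l : List I) (k : ℤ) :
    prLin f0 f1 (Finsupp.single l k) = k • prL f0 f1 l := by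
  simp [prLin]

theorem prL_nil (f0 f1 : I → J) : prL f0 f1 [] = 0 := by
  rw [prL, dif_pos rfl]

theorem prL_singleton (f0 f1 : I → J) (i : I) : prL f0 f1 [i] = srt [f0 i, f1 i] := by
  rw [prL, dif_neg (by simp)]
  simp

theorem prL_cons (f0 f1 : I → J) (i : I) {l : List I} (hl : l ≠ []) :
    prL f0 f1 (i :: l) = pcons (f0 i) (prL f0 f1 l) := by
  rw [prL, prL, dif_neg (by simp), dif_neg hl, pcons_srt, List.getLast_cons hl]
  simp

theorem prLin_consL (f0 f1 : I → J) (i : I) (x : List I →₀ ℤ) :
    prLin f0 f1 (consL i x) = pcons (f0 i) (prLin f0 f1 x) + x [] • srt [f0 i, f1 i] := by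
  classical
  induction x using Finsupp.induction_linear with
  | zero => simp
  | add f g hf hg => simp only [map_add, hf, hg, Finsupp.add_apply, add_smul]; abel
  | single l k =>
    rw [consL_single, prLin_single, prLin_single, Finsupp.single_apply]
    by_cases h : l = []
    · subst h
      rw [prL_singleton, prL_nil, if_pos rfl, smul_zero, map_zero, zero_add]
    · rw [prL_cons f0 f1 i h, if_neg h, map_smul, zero_smul, add_zero]

end PrismDef

theorem faces_apply_nil {I : Type} (l : List I) : faces l [] = if l.length = 1 then 1 else 0 := by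
  classical
  rcases l with _ | ⟨a, l⟩
  · rw [faces_nil]; simp
  · rw [faces_cons, Finsupp.sub_apply]
    have : consL a (faces l) [] = 0 := by
      generalize faces l = x
      induction x using Finsupp.induction_linear with
      | zero => simp
      | add f g hf hg => simp only [map_add, Finsupp.add_apply, hf, hg, add_zero]
      | single c k => rw [consL_single, Finsupp.single_apply, if_neg (by simp)]
    rw [this, sub_zero, Finsupp.single_apply]
    rcases l with _ | ⟨b, l⟩ <;> simp

section Prism

variable {I J : Type} [LinearOrder I] [LinearOrder J]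

omit [LinearOrder I] in
theorem dL_srt_pair {a b : J} (h : a ≤ b) :
    dL (srt [a, b]) = Finsupp.single [b] 1 - Finsupp.single [a] 1 := by
  rcases h.lt_or_eq with h | h
  · rw [srt, if_pos (by simpa using h), dL_single, one_smul, faces_cons, faces_cons, faces_nil]
    simp [consL_single]
  · subst h
    rw [srt, if_neg (by simp)]
    simp

/-- The boundary of the prism operator. -/
theorem dL_prL (f0 f1 : I →o J) (hle : ∀ i, f0 i ≤ f1 i)
    (hc : ∀ i j, i < j → f0 i = f1 i ∨ f1 i = f1 j) {l : List I} (hl : l.Pairwise (· < ·))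
    (hne : l ≠ []) :
    dL (prL f0 f1 l) = prLin f0 f1 (faces l) +
      ((-1 : ℤ) ^ (l.length + 1)) • (srt (l.map f1) - srt (l.map f0)) := by
  classical
  induction l with
  | nil => exact absurd rfl hne
  | cons i l ih =>
    have hl0 := hl
    rw [List.pairwise_cons] at hl
    obtain ⟨hl1, hl2⟩ := hl
    by_cases h : l = []
    · subst h
      rw [prL_singleton, dL_srt_pair (hle i), faces_cons, faces_nil, map_zero, sub_zero,
        prLin_single, prL_nil, smul_zero]
      simp [srt]
    · have ih' := ih hl2 h
      have h1 : IsSorted (prL f0 f1 l) := by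
        rw [prL, dif_neg h]
        exact isSorted_srt _
      have h2 : ∀ m, prL f0 f1 l m ≠ 0 → ∀ b ∈ m, f0 i ≤ b := by
        intro m hm b hb
        rw [prL, dif_neg h] at hm
        obtain ⟨rfl, -⟩ := srt_apply_ne hm
        rw [List.mem_append, List.mem_map, List.mem_singleton] at hb
        rcases hb with ⟨c, hc', rfl⟩ | rfl
        · exact f0.monotone (hl1 c hc').le
        · exact (f0.monotone (hl1 _ (List.getLast_mem h)).le).trans (hle _)
      rw [prL_cons _ _ _ h, dL_pcons' h1 h2, ih', faces_cons, map_sub, prLin_single, one_smul,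
        prLin_consL, faces_apply_nil, map_add, map_smul, map_sub, pcons_srt, pcons_srt]
      by_cases h3 : l.length = 1
      · obtain ⟨j, rfl⟩ := List.length_eq_one_iff.1 h3
        have h4 : srt [f0 i, f1 j] = srt [f0 i, f1 i] + srt [f1 i, f1 j] := by
          rcases hc i j (hl1 j (by simp)) with h5 | h5
          · have h6 : srt [f0 i, f1 i] = 0 := srt_eq_zero (by simp [h5])
            rw [h6, zero_add, h5]
          · have h6 : srt [f1 i, f1 j] = 0 := srt_eq_zero (by simp [h5])
            rw [h6, add_zero, h5]
        simp only [List.map_cons, List.map_nil, List.length_cons, List.length_nil, if_true]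
        rw [h4]
        norm_num
        abel
      · have h4 : srt (f0 i :: l.map f1) = srt (f1 i :: l.map f1) := by
          obtain ⟨j, l, rfl⟩ := List.exists_cons_of_ne_nil h
          obtain ⟨k, l, rfl⟩ := List.exists_cons_of_ne_nil (l := l) (by
            rintro rfl
            exact h3 rfl)
          rcases hc i j (hl1 j (by simp)) with h5 | h5
          · rw [h5]
          · rcases hc i k (hl1 k (by simp)) with h6 | h6
            · rw [h6]
            · rw [srt_eq_zero, srt_eq_zero]
              · intro h7
                rw [List.pairwise_cons, List.map_cons, List.map_cons, List.pairwise_cons] at h7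
                have := h7.2.1 (f1 k) (by simp)
                rw [← h5, h6] at this
                exact lt_irrefl _ this
              · intro h7
                rw [List.pairwise_cons, List.map_cons, List.map_cons, List.pairwise_cons] at h7
                have := h7.2.1 (f1 k) (by simp)
                rw [← h5, h6] at this
                exact lt_irrefl _ this
        rw [if_neg h3, h4, List.map_cons, List.map_cons, List.length_cons, pow_succ (-1 : ℤ)
          (l.length + 1)]
        simp only [zero_smul, add_zero, mul_neg, mul_one, neg_smul]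
        abel

omit [LinearOrder I] in
theorem isSorted_prL (f0 f1 : I → J) (l : List I) : IsSorted (prL f0 f1 l) := by
  rw [prL]
  split_ifs
  · intro m hm
    exact absurd rfl hm
  · exact isSorted_srt _

/-- The prism operator on chains. -/
noncomputable def prS (f0 f1 : I → J) : (Smpl I →₀ ℤ) →ₗ[ℤ] (Smpl J →₀ ℤ) :=
  toS.comp ((prLin f0 f1).comp ofS)

theorem prS_single (f0 f1 : I → J) (s : Smpl I) :
    prS f0 f1 (Finsupp.single s 1) = toS (prL f0 f1 s.1) := by
  change toS (prLin f0 f1 (ofS (Finsupp.single s 1))) = _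
  rw [ofS_single, prLin_single, one_smul]

theorem bdry_prS (f0 f1 : I →o J) (hle : ∀ i, f0 i ≤ f1 i)
    (hc : ∀ i j, i < j → f0 i = f1 i ∨ f1 i = f1 j) (s : Smpl I) :
    (simplexCx J).bdry (prS f0 f1 (Finsupp.single s 1)) =
      prS f0 f1 ((simplexCx I).bdry (Finsupp.single s 1)) +
      ((simplexMap f1).lin ((simplexCx I).sgn (Finsupp.single s 1)) -
        (simplexMap f0).lin ((simplexCx I).sgn (Finsupp.single s 1))) := by
  have h1 : (simplexCx J).bdry (prS f0 f1 (Finsupp.single s 1)) = toS (dL (prL f0 f1 s.1)) := by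
    rw [prS_single, simplexCx_bdry]
    exact congrArg toS (toS_ofS_toS dL (by rw [dL_single, faces_nil, smul_zero])
      (isSorted_prL f0 f1 s.1))
  have h2 : prS f0 f1 ((simplexCx I).bdry (Finsupp.single s 1)) =
      toS (prLin f0 f1 (faces s.1)) := by
    change toS (prLin f0 f1 (ofS _)) = _
    rw [simplexCx_bdry, ofS_single, dL_single, one_smul]
    have h3 : IsSorted (faces s.1) := fun l hl => s.2.2.sublist (faces_support hl).1
    exact toS_ofS_toS (toS.comp (prLin f0 f1)) (by
      rw [LinearMap.comp_apply, prLin_single, prL_nil, smul_zero, map_zero]) h3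
  have h3 : ∀ f : I →o J, (simplexMap f).lin ((simplexCx I).sgn (Finsupp.single s 1)) =
      ((-1 : ℤ) ^ (s.1.length + 1)) • toS (srt (s.1.map f)) := by
    intro f
    rw [sgn_single, BCxHom.lin_single, mul_one]
    have hs : s.1.length ≠ 0 := fun h => s.2.1 (List.length_eq_zero_iff.1 h)
    change (-1 : ℤ) ^ (s.1.length - 1) • toS (pushL f (Finsupp.single s.1 1)) = _
    rw [pushL_single_one]
    obtain ⟨n, hn⟩ := Nat.exists_eq_succ_of_ne_zero hs
    rw [hn, Nat.succ_sub_one, Nat.succ_eq_add_one, pow_succ, pow_succ]
    congr 1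
    ring
  rw [h1, h2, h3, h3, dL_prL f0 f1 hle hc s.2.2 s.2.1, map_add, map_smul, map_sub, smul_sub]

/-- The prism morphism from the cylinder of `I` to `J`. -/
noncomputable def prism (f0 f1 : I →o J) (hle : ∀ i, f0 i ≤ f1 i)
    (hc : ∀ i j, i < j → f0 i = f1 i ∨ f1 i = f1 j) :
    BCxHom (simplexCx I).cyl (simplexCx J) :=
  BCxHom.cylDesc
    (fun t => match t with
      | I3.zero => (simplexMap f0).lin
      | I3.one => (simplexMap f1).lin
      | I3.seg => prS f0 f1)
    (by
      intro t s
      cases t
      · change 0 ≤ (simplexMap f0).lin _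
        rw [BCxHom.lin_single_one]
        exact (simplexMap f0).nonneg s
      · change 0 ≤ (simplexMap f1).lin _
        rw [BCxHom.lin_single_one]
        exact (simplexMap f1).nonneg s
      · change 0 ≤ prS f0 f1 _
        rw [prS_single]
        intro m
        rw [toS_apply, prL]
        split_ifs
        · exact le_refl _
        · exact srt_nonneg _ _)
    (by
      intro t s m h
      cases t
      · change (simplexMap f0).lin _ m ≠ 0 at h
        rw [BCxHom.lin_single_one] at h
        exact (simplexMap f0).dim_f s m h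
      · change (simplexMap f1).lin _ m ≠ 0 at h
        rw [BCxHom.lin_single_one] at h
        exact (simplexMap f1).dim_f s m h
      · change prS f0 f1 _ m ≠ 0 at h
        rw [prS_single, toS_apply, prL, dif_neg s.2.1] at h
        have h1 := (srt_apply_ne h).1
        have hs : s.1.length ≠ 0 := fun h => s.2.1 (List.length_eq_zero_iff.1 h)
        change m.1.length - 1 = s.1.length - 1 + 1
        rw [h1, List.length_append, List.length_map, List.length_singleton]
        omega)
    (fun s => ((simplexMap f0).lin_bdry _).symm)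
    (fun s => ((simplexMap f1).lin_bdry _).symm)
    (fun s => bdry_prS f0 f1 hle hc s)
    (fun s h => by
      change (simplexCx J).aug ((simplexMap f0).lin _) = 1
      rw [BCxHom.lin_single_one]
      exact (simplexMap f0).aug_f s h)
    (fun s h => by
      change (simplexCx J).aug ((simplexMap f1).lin _) = 1
      rw [BCxHom.lin_single_one]
      exact (simplexMap f1).aug_f s h)

theorem lin_prism_zero (f0 f1 : I →o J) (hle hc) (x : Smpl I →₀ ℤ) :
    (prism f0 f1 hle hc).lin (inj I3.zero x) = (simplexMap f0).lin x :=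
  BCxHom.lin_cylDesc_inj _ _ _ _ _ _ _ _ _ _

theorem lin_prism_one (f0 f1 : I →o J) (hle hc) (x : Smpl I →₀ ℤ) :
    (prism f0 f1 hle hc).lin (inj I3.one x) = (simplexMap f1).lin x :=
  BCxHom.lin_cylDesc_inj _ _ _ _ _ _ _ _ _ _

theorem lin_prism_seg (f0 f1 : I →o J) (hle hc) (x : Smpl I →₀ ℤ) :
    (prism f0 f1 hle hc).lin (inj I3.seg x) = prS f0 f1 x :=
  BCxHom.lin_cylDesc_inj _ _ _ _ _ _ _ _ _ _

theorem prism_comp_cylEnd_false (f0 f1 : I →o J) (hle hc) :
    (prism f0 f1 hle hc).comp (BCxHom.cylEnd _ false) = simplexMap f0 := by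
  apply BCxHom.ext_lin
  intro s
  rw [BCxHom.lin_comp, BCxHom.lin_cylEnd]
  exact lin_prism_zero f0 f1 hle hc _

theorem prism_comp_cylEnd_true (f0 f1 : I →o J) (hle hc) :
    (prism f0 f1 hle hc).comp (BCxHom.cylEnd _ true) = simplexMap f1 := by
  apply BCxHom.ext_lin
  intro s
  rw [BCxHom.lin_comp, BCxHom.lin_cylEnd]
  exact lin_prism_one f0 f1 hle hc _

/-- A map of chains which is zero on `[]` extends the same map on single simplices. -/
theorem prS_eq_of_single {f0 f1 : I → J} {G : (Smpl I →₀ ℤ) →ₗ[ℤ] (Smpl J →₀ ℤ)}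
    (h : ∀ s, toS (prL f0 f1 s.1) = G (Finsupp.single s 1)) (x : Smpl I →₀ ℤ) :
    prS f0 f1 x = G x := by
  induction x using Finsupp.induction_linear with
  | zero => simp
  | add f g hf hg => simp only [map_add, hf, hg]
  | single s k =>
    have h0 : Finsupp.single s k = k • Finsupp.single s (1 : ℤ) := by simp
    rw [h0, map_smul, map_smul, prS_single, h]

/-- A constant prism is degenerate. -/
theorem prism_self (f : I →o J) (hle hc) :
    prism f f hle hc = (simplexMap f).comp (BCxHom.cylProj _) := by
  apply BCxHom.cyl_ext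
  intro t x
  rw [BCxHom.lin_comp]
  cases t
  · rw [lin_prism_zero, BCxHom.lin_cylProj_zero]
  · rw [lin_prism_one, BCxHom.lin_cylProj_one]
  · rw [lin_prism_seg, BCxHom.lin_cylProj_seg, map_zero]
    refine prS_eq_of_single (G := 0) ?_ x
    intro s
    rw [prL, dif_neg s.2.1, srt_eq_zero, map_zero]
    · rfl
    · intro h
      rw [List.pairwise_append] at h
      exact lt_irrefl _ (h.2.2 (f (s.1.getLast s.2.1))
        (List.mem_map.2 ⟨_, List.getLast_mem s.2.1, rfl⟩) _ (by simp))

theorem toS_prLin_ofS_toS (f0 f1 : I → J) {x : List I →₀ ℤ} (hx : IsSorted x) :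
    toS (prLin f0 f1 (ofS (toS x))) = toS (prLin f0 f1 x) :=
  toS_ofS_toS (toS.comp (prLin f0 f1)) (by
    rw [LinearMap.comp_apply, prLin_single, prL_nil, smul_zero, map_zero]) hx

/-- Naturality of the prism in the source. -/
theorem prism_comp_cylMap {I' : Type} [LinearOrder I'] (f0 f1 : I →o J) (hle hc) (θ : I' →o I)
    (hle' hc') : (prism f0 f1 hle hc).comp (BCxHom.cylMap (simplexMap θ)) =
      prism (f0.comp θ) (f1.comp θ) hle' hc' := by
  apply BCxHom.cyl_ext
  intro t x
  rw [BCxHom.lin_comp, BCxHom.lin_cylMap_inj]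
  cases t
  · rw [lin_prism_zero, lin_prism_zero, simplexMap_comp, BCxHom.lin_comp]
  · rw [lin_prism_one, lin_prism_one, simplexMap_comp, BCxHom.lin_comp]
  · rw [lin_prism_seg, lin_prism_seg]
    refine (prS_eq_of_single (G := (prS f0 f1).comp (simplexMap θ).lin) ?_ x).symm
    intro s
    rw [LinearMap.comp_apply, simplexMap_lin, ofS_single, pushL_single_one]
    change _ = toS (prLin f0 f1 (ofS (toS (srt (s.1.map θ)))))
    rw [toS_prLin_ofS_toS _ _ (isSorted_srt _), prL, dif_neg s.2.1]
    by_cases h : (s.1.map θ).Pairwise (· < ·)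
    · rw [srt_eq_single h, prLin_single, one_smul, prL, dif_neg (by simpa using s.2.1)]
      simp [List.map_map]
    · rw [srt_eq_zero h, map_zero, map_zero, srt_eq_zero]
      · rw [map_zero]
      · intro h1
        apply h
        rw [List.pairwise_append] at h1
        have h2 := h1.1
        rw [List.pairwise_map] at h2 ⊢
        refine (s.2.2.and h2).imp ?_
        rintro a b ⟨h3, h4⟩
        refine lt_of_le_of_ne (θ.monotone h3.le) ?_
        intro h5
        simp only [OrderHom.comp_coe, Function.comp_apply, h5, lt_self_iff_false] at h4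

/-- Naturality of the prism in the target. -/
theorem simplexMap_comp_prism {J' : Type} [LinearOrder J'] (f0 f1 : I →o J) (hle hc)
    (g : J →o J') (hle' hc') : (simplexMap g).comp (prism f0 f1 hle hc) =
      prism (g.comp f0) (g.comp f1) hle' hc' := by
  apply BCxHom.cyl_ext
  intro t x
  rw [BCxHom.lin_comp]
  cases t
  · rw [lin_prism_zero, lin_prism_zero, simplexMap_comp, BCxHom.lin_comp]
  · rw [lin_prism_one, lin_prism_one, simplexMap_comp, BCxHom.lin_comp]
  · rw [lin_prism_seg, lin_prism_seg]
    refine (prS_eq_of_single (G := (simplexMap g).lin.comp (prS f0 f1)) ?_ x).symm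
    intro s
    rw [LinearMap.comp_apply, prS_single, simplexMap_lin]
    have h0 : toS (pushL g (ofS (toS (prL f0 f1 s.1)))) = toS (pushL g (prL f0 f1 s.1)) :=
      toS_ofS_toS (toS.comp (pushL g)) (by
        rw [LinearMap.comp_apply, pushL_single_one, List.map_nil, srt, if_pos List.Pairwise.nil,
          toS_nil]) (isSorted_prL _ _ _)
    rw [h0, prL, dif_neg s.2.1, prL, dif_neg s.2.1]
    congr 1
    by_cases h : (s.1.map f0 ++ [f1 (s.1.getLast s.2.1)]).Pairwise (· < ·)
    · rw [srt_eq_single h, pushL_single_one]
      simp [List.map_map]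
    · rw [srt_eq_zero h, map_zero, srt_eq_zero]
      intro h1
      apply h
      have h2 : (s.1.map f0 ++ [f1 (s.1.getLast s.2.1)]).Pairwise (· ≤ ·) := by
        rw [List.pairwise_append]
        refine ⟨?_, by simp, ?_⟩
        · rw [List.pairwise_map]
          exact s.2.2.imp (fun h => f0.monotone h.le)
        · intro a ha b hb
          rw [List.mem_map] at ha
          rw [List.mem_singleton] at hb
          obtain ⟨c, hc1, rfl⟩ := ha
          subst hb
          refine le_trans (f0.monotone ?_) (hle _)
          obtain ⟨l, hl⟩ : ∃ l, s.1 = l ++ [s.1.getLast s.2.1] :=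
            ⟨_, (List.dropLast_append_getLast s.2.1).symm⟩
          have h3 := s.2.2
          rw [hl] at hc1 h3
          rw [List.pairwise_append] at h3
          rw [List.mem_append, List.mem_singleton] at hc1
          rcases hc1 with hc1 | hc1
          · exact (h3.2.2 c hc1 _ (by simp)).le
          · exact hc1.le
      have h4 : ((s.1.map f0 ++ [f1 (s.1.getLast s.2.1)]).map g).Pairwise (· < ·) := by
        simpa [List.map_map] using h1
      rw [List.pairwise_map] at h4
      refine (h2.and h4).imp ?_
      rintro a b ⟨h5, h6⟩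
      refine lt_of_le_of_ne h5 ?_
      rintro rfl
      exact lt_irrefl _ h6

end Prism

end Vale.Agent.P213
end

section

/-!
The composite of the prism with the Alexander-Whitney map.
-/

universe u v w

namespace Vale.Agent.P213

open BCx

section

variable {I J : Type} [LinearOrder I] [LinearOrder J]

theorem cylProj_comp_aw (φ : I →o Bool) :
    (BCxHom.cylProj (simplexCx I)).comp (aw φ) = BCxHom.id (simplexCx I) := by
  apply BCxHom.ext_lin
  intro s
  rw [BCxHom.lin_comp, lin_aw, map_add, map_add, BCxHom.lin_cylProj_zero,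
    BCxHom.lin_cylProj_one, BCxHom.lin_cylProj_seg, BCxHom.lin_id]
  abel

/-- The monotone map which is `f0` where `φ` is `false` and `f1` where `φ` is `true`. -/
def mixHom (f0 f1 : I →o J) (hle : ∀ i, f0 i ≤ f1 i) (φ : I →o Bool) : I →o J where
  toFun i := if φ i = false then f0 i else f1 i
  monotone' := by
    intro i j hij
    have h := φ.monotone hij
    dsimp only
    split_ifs with h1 h2 h2
    · exact f0.monotone hij
    · exact (f0.monotone hij).trans (hle j)
    · rw [h2] at h
      exact absurd (le_bot_iff.1 h) h1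
    · exact f1.monotone hij

theorem mixHom_apply (f0 f1 : I →o J) (hle : ∀ i, f0 i ≤ f1 i) (φ : I →o Bool) (i : I) :
    mixHom f0 f1 hle φ i = if φ i = false then f0 i else f1 i := rfl

omit [LinearOrder I] in
theorem awP_of_false (φ : I → Bool) (l : List I) (h : ∀ i ∈ l, φ i = false) : awP φ l = 0 := by
  induction l with
  | nil => rfl
  | cons a l ih =>
    rw [awP, if_pos (h a (by simp)), ih (fun i hi => h i (by simp [hi])), map_zero]

omit [LinearOrder I] in
theorem awP_support (φ : I → Bool) (m l : List I) (h : awP φ m l ≠ 0) : l.Sublist m := by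
  induction m generalizing l with
  | nil => exact absurd rfl h
  | cons a m ih =>
    rw [awP] at h
    split_ifs at h with h1 h2
    · by_cases ht : ∀ t', l ≠ a :: t'
      · exact absurd (consL_apply_of_ne a _ l ht) h
      · push Not at ht
        obtain ⟨t', rfl⟩ := ht
        rw [consL_apply_cons] at h
        exact (ih t' h).cons_cons a
    · classical
      rw [Finsupp.single_apply] at h
      by_cases h3 : [] = l
      · rw [← h3]
        exact List.nil_sublist _
      · rw [if_neg h3] at h
        exact absurd rfl h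
    · exact absurd rfl h

theorem pushL_mix (f0 f1 : I →o J) (hle : ∀ i, f0 i ≤ f1 i)
    (hc : ∀ i j, i < j → f0 i = f1 i ∨ f1 i = f1 j) (φ : I →o Bool) {l : List I}
    (hl : l.Pairwise (· < ·)) :
    pushL f0 (awNL φ (Finsupp.single l 1)) +
      pushL f1 (Finsupp.single l 1 - awNL φ (Finsupp.single l 1)) +
      prLin f0 f1 (awP φ l) = srt (l.map (mixHom f0 f1 hle φ)) := by
  induction l with
  | nil =>
    rw [awNL_single, if_pos (by simp), sub_self, map_zero, awP, map_zero, pushL_single_one]
    simp
  | cons i l ih =>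
    have ih' := ih hl.of_cons
    rw [List.pairwise_cons] at hl
    by_cases hi : φ i = false
    · have h1 : pcons (f1 i) (pushL f1 (Finsupp.single l 1 - awNL φ (Finsupp.single l 1))) +
          (awP φ l) [] • srt [f0 i, f1 i] =
          pcons (f0 i) (pushL f1 (Finsupp.single l 1 - awNL φ (Finsupp.single l 1))) := by
        by_cases h2 : ∀ j ∈ l, φ j = false
        · rw [awNL_single, if_pos h2, sub_self, map_zero, map_zero, map_zero,
            awP_of_false φ l h2]
          simp
        · rw [awNL_single, if_neg h2, sub_zero, pushL_single_one]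
          by_cases h3 : f0 i = f1 i
          · rw [h3, srt_eq_zero (l := [f1 i, f1 i]) (by simp), smul_zero, add_zero]
          · have h4 : ∀ j ∈ l, f1 i = f1 j := by
              intro j hj
              rcases hc i j (hl.1 j hj) with h5 | h5
              · exact absurd h5 h3
              · exact h5
            rcases l with _ | ⟨j, l⟩
            · exact absurd (by simp) h2
            · rcases l with _ | ⟨k, l⟩
              · have h5 : φ j = true := by simpa using h2
                rw [pcons_srt, pcons_srt, awP, if_neg (by simp [h5]), if_pos rfl]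
                have h6 := h4 j (by simp)
                rw [← List.map_cons, srt_eq_zero (l := List.map f1 [i, j]) (by simp [h6])]
                simp [h6]
              · rw [srt_eq_zero (l := List.map f1 (j :: k :: l)), map_zero, map_zero, zero_add]
                · have h5 : (awP φ (j :: k :: l)) [] = 0 := by
                    by_contra h5
                    have := awP_length _ _ _ h5
                    simp at this
                  rw [h5, zero_smul]
                · intro h5
                  rw [List.map_cons, List.map_cons, List.pairwise_cons] at h5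
                  have h6 := h5.1 (f1 k) (by simp)
                  rw [← h4 j (by simp), ← h4 k (by simp)] at h6
                  exact lt_irrefl _ h6
      have h2 : mixHom f0 f1 hle φ i = f0 i := if_pos hi
      rw [List.map_cons, h2, ← pcons_srt, ← ih', map_add, map_add, ← h1, awP, if_pos hi,
        prLin_consL, ← consL_single, awNL_consL, if_pos hi, ← map_sub, pushL_consL, pushL_consL]
      abel
    · have h0 : ∀ j ∈ i :: l, φ j = true := by
        intro j hj
        rw [List.mem_cons] at hj
        have h1 : φ i = true := by simpa using hi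
        rcases hj with rfl | hj
        · exact h1
        · have h2 := φ.monotone (hl.1 j hj).le
          rw [h1] at h2
          exact top_le_iff.1 h2
      have h1 : ¬ ∀ j ∈ i :: l, φ j = false := fun h => hi (h i (by simp))
      rw [awNL_single, if_neg h1, map_zero, sub_zero, zero_add, pushL_single_one, awP, if_neg hi]
      have h2 : prLin f0 f1 (if l = [] then Finsupp.single [] 1 else 0) = 0 := by
        split_ifs
        · rw [prLin_single, prL_nil, smul_zero]
        · rw [map_zero]
      rw [h2, add_zero]
      congr 1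
      apply List.map_congr_left
      intro j hj
      rw [mixHom_apply, if_neg (by simp [h0 j hj])]

/-- The prism composed with the Alexander-Whitney map. -/
theorem prism_comp_aw (f0 f1 : I →o J) (hle hc) (φ : I →o Bool) :
    (prism f0 f1 hle hc).comp (aw φ) = simplexMap (mixHom f0 f1 hle φ) := by
  apply BCxHom.ext_lin
  intro s
  have h1 : toS (pushL f0 (ofS (awN φ (Finsupp.single s 1)))) =
      toS (pushL f0 (awNL φ (Finsupp.single s.1 1))) := by
    rw [awN_apply, ofS_single]
    exact toS_ofS_toS (toS.comp (pushL f0)) (by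
      rw [LinearMap.comp_apply, pushL_single_one, List.map_nil, srt_eq_single List.Pairwise.nil,
        toS_nil]) (isSorted_awNL φ (isSorted_single s.2.2 1))
  have h2 : toS (pushL f1 (ofS (awN φ (Finsupp.single s 1)))) =
      toS (pushL f1 (awNL φ (Finsupp.single s.1 1))) := by
    rw [awN_apply, ofS_single]
    exact toS_ofS_toS (toS.comp (pushL f1)) (by
      rw [LinearMap.comp_apply, pushL_single_one, List.map_nil, srt_eq_single List.Pairwise.nil,
        toS_nil]) (isSorted_awNL φ (isSorted_single s.2.2 1))
  have h3 : IsSorted (awP φ s.1) := fun l hl => s.2.2.sublist (awP_support _ _ _ hl)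
  rw [BCxHom.lin_comp, lin_aw, map_add, map_add, lin_prism_zero, lin_prism_one, lin_prism_seg,
    map_sub, simplexMap_lin, simplexMap_lin, simplexMap_lin, simplexMap_lin, awS_single, h1, h2,
    ofS_single, pushL_single_one, pushL_single_one]
  change _ + toS (prLin f0 f1 (ofS (toS (awP φ s.1)))) = _
  rw [toS_prLin_ofS_toS _ _ h3, ← pushL_mix f0 f1 hle hc φ s.2.2]
  simp only [map_add, map_sub, pushL_single_one]

end

namespace Cell

variable {K L : BCx}

theorem lin_par (φ : BCxHom K L) (e : Bool) (x : K.B →₀ ℤ) :
    φ.lin (par K e x) = par L e (φ.lin x) := by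
  cases e
  · exact φ.lin_part _ _
  · exact φ.lin_part _ _

/-- Naturality of `tseg`. -/
theorem tseg_map (φ : BCxHom K L) (x : Cell K) :
    (x.map φ).tseg = x.tseg.map (BCxHom.cylMap φ) := by
  ext1
  funext a
  rw [map_val, tseg_val, tseg_val, map_add, map_add, BCxHom.lin_cylMap_inj,
    BCxHom.lin_cylMap_inj, BCxHom.lin_cylMap_inj, map_val, lin_par, lin_par]

end Cell

end Vale.Agent.P213
end

section

/-!
Rigid embeddings and cylinders; gluing of functors along rigid embeddings.
-/

universe u v w

namespace Vale.Agent.P213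

open OmegaStr BCx BCxHom

theorem BCx.cylBd_mk_zero (K : BCx) (b : K.B) : K.cylBd (b, I3.zero) = BCx.inj I3.zero (K.bd b) := rfl

theorem BCx.cylBd_mk_one (K : BCx) (b : K.B) : K.cylBd (b, I3.one) = BCx.inj I3.one (K.bd b) := rfl

theorem BCx.cylBd_mk_seg (K : BCx) (b : K.B) : K.cylBd (b, I3.seg) = BCx.inj I3.seg (K.bd b)
    + (BCx.inj I3.one (K.sgn (Finsupp.single b 1)) - BCx.inj I3.zero (K.sgn (Finsupp.single b 1))) := rfl

theorem mapDomain_inj {B B' : Type} (g : B → B') (t : I3) (x : B →₀ ℤ) :
    (inj t x).mapDomain (fun p : B × I3 => (g p.1, p.2)) = inj t (x.mapDomain g) := by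
  induction x using Finsupp.induction_linear with
  | zero => simp
  | add f g hf hg => simp only [map_add, Finsupp.mapDomain_add, hf, hg]
  | single c k =>
    rw [inj_single, Finsupp.mapDomain_single, Finsupp.mapDomain_single, inj_single]

namespace Rigid

variable {K L : BCx}

/-- The cylinder of a rigid embedding. -/
noncomputable def cyl (r : Rigid K L) : Rigid K.cyl L.cyl where
  g p := (r.g p.1, p.2)
  inj := by
    rintro ⟨b, t⟩ ⟨c, t'⟩ h
    simp only [Prod.mk.injEq] at h
    rw [r.inj h.1, h.2]
  dim_g := by
    rintro ⟨b, t⟩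
    cases t
    · exact r.dim_g b
    · exact r.dim_g b
    · exact congrArg (· + 1) (r.dim_g b)
  bd_g := by
    have hs : ∀ b, L.sgn (Finsupp.single (r.g b) 1)
        = (K.sgn (Finsupp.single b 1)).mapDomain r.g := by
      intro b
      rw [sgn_single, sgn_single, Finsupp.mapDomain_single, r.dim_g]
    rintro ⟨b, t⟩
    cases t
    · change BCx.inj I3.zero (L.bd (r.g b)) = (BCx.inj I3.zero (K.bd b)).mapDomain _
      rw [mapDomain_inj r.g, r.bd_g]
    · change BCx.inj I3.one (L.bd (r.g b)) = (BCx.inj I3.one (K.bd b)).mapDomain _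
      rw [mapDomain_inj r.g, r.bd_g]
    · change BCx.inj I3.seg (L.bd (r.g b)) + (BCx.inj I3.one (L.sgn (Finsupp.single (r.g b) 1))
        - BCx.inj I3.zero (L.sgn (Finsupp.single (r.g b) 1))) =
        (BCx.inj I3.seg (K.bd b) + (BCx.inj I3.one (K.sgn (Finsupp.single b 1))
        - BCx.inj I3.zero (K.sgn (Finsupp.single b 1)))).mapDomain _
      have key : ∀ x y z : K.B × I3 →₀ ℤ, (x + (y - z)).mapDomain
          (fun p : K.B × I3 => (r.g p.1, p.2)) = x.mapDomain (fun p : K.B × I3 => (r.g p.1, p.2))
          + (y.mapDomain (fun p : K.B × I3 => (r.g p.1, p.2))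
          - z.mapDomain (fun p : K.B × I3 => (r.g p.1, p.2))) := by
        intro x y z
        have := (Finsupp.lmapDomain ℤ ℤ (fun p : K.B × I3 => (r.g p.1, p.2))).map_add x (y - z)
        rw [map_sub] at this
        exact this
      rw [key, mapDomain_inj r.g, mapDomain_inj r.g, mapDomain_inj r.g, r.bd_g, hs]

theorem cyl_g (r : Rigid K L) (b : K.B) (t : I3) : r.cyl.g (b, t) = (r.g b, t) := rfl

theorem cyl_hom (r : Rigid K L) : r.cyl.hom = cylMap r.hom := by
  apply BCxHom.ext_lin
  rintro ⟨b, t⟩
  rw [lin_single_one, hom_f]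
  change Finsupp.single (r.g b, t) 1 = (cylMap r.hom).lin (Finsupp.single (b, t) 1)
  rw [← inj_single t b 1, lin_cylMap_inj, lin_single_one, hom_f, inj_single]

end Rigid

/-- Restriction of a partial functor along a functor. -/
def PFun.pre {C : Type u} {D : Type v} {Z : Type w} [OmegaStr C] [OmegaStr D] [OmegaStr Z] {n : ℕ}
    (G : PFun D Z n) (F : OmegaFun C D) : PFun C Z n where
  toFun x := G.toFun (F x)
  map_d a i x hx := by
    rw [F.map_dd]
    exact G.map_d a i _ (F.isDim hx)
  map_comp i x y h h' hx hy := by
    have h₁ : d true i (F x) = d false i (F y) := F.composable h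
    have : F (comp i x y h) = comp i (F x) (F y) h₁ := F.map_comp i x y h h₁
    rw [this]
    exact G.map_comp i _ _ h₁ h' (F.isDim hx) (F.isDim hy)

/-- Gluing of functors along a jointly surjective family of rigid embeddings. -/
theorem Steiner.exists_glue {K : BCx} (hK : Steiner K) {W : Type} {L : W → BCx}
    (hL : ∀ w, Steiner (L w)) (r : ∀ w, Rigid (L w) K) (hr : ∀ b, ∃ w e, (r w).g e = b)
    {Z : Type v} [OmegaStr Z] (F : ∀ w, OmegaFun (Cell (L w)) Z)
    (hF : ∀ w w' e e', (r w).g e = (r w').g e' → F w ((hL w).atom e) = F w' ((hL w').atom e')) :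
    ∃ H : OmegaFun (Cell K) Z, ∀ w, H.comp (Cell.mapFun (r w).hom) = F w := by
  choose w e hwe using hr
  have hφ : ∀ w' e', F (w ((r w').g e')) ((hL _).atom (e ((r w').g e'))) =
      F w' ((hL w').atom e') := fun w' e' => hF _ _ _ _ (hwe _)
  obtain ⟨H, hH⟩ := hK.exists_fun (fun b => F (w b) ((hL (w b)).atom (e b)))
    (by
      intro b
      rw [← OmegaFun.map_dd]
      have h1 := (hL (w b)).isDim_atom (e b)
      rw [← (r (w b)).dim_g, hwe] at h1
      rw [show d false (K.dim b) ((hL (w b)).atom (e b)) = _ from h1])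
    (by
      intro n G hG b hb a
      have h1 : hK.atom b = ((hL (w b)).atom (e b)).map (r (w b)).hom := by
        rw [Steiner.map_atom (hL _) hK, hwe]
      have h2 : d a n (hK.atom b) = (d a n ((hL (w b)).atom (e b))).map (r (w b)).hom := by
        rw [h1]
        exact (Cell.map_dd _ _ _ _).symm
      have h3 := (hL (w b)).pfun_ext (F := G.pre (Cell.mapFun (r (w b)).hom))
        (G := (F (w b)).toPFun n)
        (by
          intro c hc
          change G.toFun (((hL (w b)).atom c).map (r (w b)).hom) = F (w b) ((hL (w b)).atom c)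
          rw [Steiner.map_atom (hL _) hK, hG _ (by rw [(r (w b)).dim_g]; exact hc), hφ])
        (d a n ((hL (w b)).atom (e b))) (dd_le le_rfl)
      change G.toFun ((d a n ((hL (w b)).atom (e b))).map (r (w b)).hom) =
        F (w b) (d a n ((hL (w b)).atom (e b))) at h3
      rw [h2, h3, OmegaFun.map_dd])
  refine ⟨H, fun w' => ?_⟩
  apply (hL w').fun_ext
  intro e'
  change H (((hL w').atom e').map (r w').hom) = _
  rw [Steiner.map_atom (hL w') hK, hH, hφ]

/-- Uniqueness in the gluing of functors. -/
theorem Steiner.glue_ext {K : BCx} (hK : Steiner K) {W : Type} {L : W → BCx}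
    (hL : ∀ w, Steiner (L w)) (r : ∀ w, Rigid (L w) K) (hr : ∀ b, ∃ w e, (r w).g e = b)
    {Z : Type v} [OmegaStr Z] {H H' : OmegaFun (Cell K) Z}
    (h : ∀ w, H.comp (Cell.mapFun (r w).hom) = H'.comp (Cell.mapFun (r w).hom)) : H = H' := by
  apply hK.fun_ext
  intro b
  obtain ⟨w, e, rfl⟩ := hr b
  rw [← Steiner.map_atom (hL w) hK]
  exact congrArg (fun F => F ((hL w).atom e)) (h w)

end Vale.Agent.P213
end

section

/-!
Globular sums of infinite globes, realised inside the universal globular complex whose
basis elements are nonempty lists of naturals.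
-/

universe u v w

namespace Vale.Agent.P213

open OmegaStr

/-! ### Complexes covered by rigid globes -/

/-- A family of rigid embeddings of the infinite globe, jointly surjective on bases. -/
structure Cover (ι : Type) (T : BCx) where
  rg : ι → Rigid globeCx T
  surj : ∀ b, ∃ j e, (rg j).g e = b

namespace Cover

variable {ι : Type} {T : BCx} (c : Cover ι T)

/-- A covered complex with a compatible total order is Steiner. -/
noncomputable def steiner (ord : LinearOrder T.B)
    (lt_of_neg : ∀ b c : T.B, T.bd b c < 0 → ord.lt c b)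
    (lt_of_pos : ∀ b c : T.B, 0 < T.bd b c → ord.lt b c) : Steiner T where
  ord := ord
  lt_of_neg := lt_of_neg
  lt_of_pos := lt_of_pos
  atom b := (steinerGlobe.atom (Classical.choose (Classical.choose_spec (c.surj b)))).map
    (c.rg (Classical.choose (c.surj b))).hom
  atom_top a b d h := by
    have hs := Classical.choose_spec (Classical.choose_spec (c.surj b))
    set j := Classical.choose (c.surj b) with hj
    set e := Classical.choose (Classical.choose_spec (c.surj b)) with he
    rw [Cell.map_val]
    by_cases h1 : ∃ e', (c.rg j).g e' = d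
    · obtain ⟨e', rfl⟩ := h1
      rw [(c.rg j).hom_lin_apply]
      rw [← hs, (c.rg j).dim_g, (c.rg j).dim_g] at h
      rcases steinerGlobe.atom_top a e e' h with ⟨h2, h3⟩ | ⟨h2, h3⟩
      · exact Or.inl ⟨h2, by rw [h3, hs]⟩
      · refine Or.inr ⟨h2, fun h4 => h3 ?_⟩
        rw [← hs] at h4
        exact (c.rg j).inj h4
    · right
      refine ⟨(c.rg j).hom_lin_notin _ d (fun e he => h1 ⟨e, he⟩), fun h3 => h1 ⟨e, ?_⟩⟩
      rw [hs, h3]
  atom_disj b d h := by
    have hs := Classical.choose_spec (Classical.choose_spec (c.surj b))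
    set j := Classical.choose (c.surj b) with hj
    set e := Classical.choose (Classical.choose_spec (c.surj b)) with he
    rw [Cell.map_val, Cell.map_val]
    by_cases h1 : ∃ e', (c.rg j).g e' = d
    · obtain ⟨e', rfl⟩ := h1
      rw [(c.rg j).hom_lin_apply, (c.rg j).hom_lin_apply]
      rw [← hs, (c.rg j).dim_g, (c.rg j).dim_g] at h
      exact steinerGlobe.atom_disj e e' h
    · left
      exact (c.rg j).hom_lin_notin _ d (fun e he => h1 ⟨e, he⟩)

/-- Compatible families of infinite cells glue to a morphism. -/
theorem desc {K : BCx} (p : ι → BCxHom globeCx K)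
    (h : ∀ j j' e e', (c.rg j).g e = (c.rg j').g e' → (p j).f e = (p j').f e') :
    ∃ r : BCxHom T K, ∀ j, r.comp (c.rg j).hom = p j := by
  have key : ∀ b : T.B, ∃ x : K.B →₀ ℤ, ∀ j e, (c.rg j).g e = b → x = (p j).f e := by
    intro b
    obtain ⟨j, e, rfl⟩ := c.surj b
    exact ⟨(p j).f e, fun j' e' h' => h _ _ _ _ h'.symm⟩
  choose f hf using key
  have hf' : ∀ j e, f ((c.rg j).g e) = (p j).f e := fun j e => hf _ j e rfl
  refine ⟨{ f := f, nonneg := ?_, dim_f := ?_, bdry_f := ?_, aug_f := ?_ }, ?_⟩
  · intro b
    obtain ⟨j, e, rfl⟩ := c.surj b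
    rw [hf']
    exact (p j).nonneg e
  · intro b d hd
    obtain ⟨j, e, rfl⟩ := c.surj b
    rw [hf'] at hd
    rw [(p j).dim_f e d hd, (c.rg j).dim_g]
  · intro b
    obtain ⟨j, e, rfl⟩ := c.surj b
    rw [hf', (p j).bdry_f, (c.rg j).bd_g, Finsupp.mapDomain, Finsupp.linearCombination_apply,
      Finsupp.linearCombination_apply, Finsupp.sum_sum_index (by simp) (by
        intro a b₁ b₂
        rw [add_smul])]
    apply Finsupp.sum_congr
    intro x _
    rw [Finsupp.sum_single_index (by simp), hf']
  · intro b hb
    obtain ⟨j, e, rfl⟩ := c.surj b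
    rw [hf']
    rw [(c.rg j).dim_g] at hb
    exact (p j).aug_f e hb
  · intro j
    ext1
    funext e
    change (Finsupp.linearCombination ℤ f) ((c.rg j).hom.f e) = _
    rw [Rigid.hom_f, Finsupp.linearCombination_single, one_smul, hf']

end Cover

/-! ### The universal globular complex -/

/-- The first `i` values of a sequence, in reverse order. -/
def pre (w : ℕ → ℕ) : ℕ → List ℕ
  | 0 => []
  | i + 1 => w i :: pre w i

theorem pre_zero (w : ℕ → ℕ) : pre w 0 = [] := rfl

theorem pre_succ (w : ℕ → ℕ) (i : ℕ) : pre w (i + 1) = w i :: pre w i := rfl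

theorem pre_length (w : ℕ → ℕ) (i : ℕ) : (pre w i).length = i := by
  induction i with
  | zero => rfl
  | succ i ih => rw [pre_succ, List.length_cons, ih]

theorem pre_eq_iff (w w' : ℕ → ℕ) (i : ℕ) : pre w i = pre w' i ↔ ∀ j < i, w j = w' j := by
  induction i with
  | zero => simp [pre_zero]
  | succ i ih =>
    rw [pre_succ, pre_succ, List.cons.injEq, ih]
    constructor
    · rintro ⟨h1, h2⟩ j hj
      rcases Nat.lt_succ_iff_lt_or_eq.1 hj with h | h
      · exact h2 j h
      · rw [h]; exact h1
    · intro h
      exact ⟨h i (Nat.lt_succ_self i), fun j hj => h j (Nat.lt_succ_of_lt hj)⟩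

/-- The address of the basis element `e` of the globe placed along `w`. -/
def gam (w : ℕ → ℕ) (e : ℕ × Bool) : List ℕ × ℕ := (pre w e.1, w e.1 + e.2.toNat)

theorem gam_eq_iff (w w' : ℕ → ℕ) (e e' : ℕ × Bool) : gam w e = gam w' e' ↔
    e.1 = e'.1 ∧ (∀ j < e.1, w j = w' j) ∧ w e.1 + e.2.toNat = w' e.1 + e'.2.toNat := by
  unfold gam
  rw [Prod.mk.injEq]
  constructor
  · rintro ⟨h1, h2⟩
    have h3 : e.1 = e'.1 := by
      have := congrArg List.length h1
      rwa [pre_length, pre_length] at this
    rw [← h3] at h1 h2
    exact ⟨h3, (pre_eq_iff w w' _).1 h1, h2⟩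
  · rintro ⟨h1, h2, h3⟩
    rw [← h1]
    exact ⟨(pre_eq_iff w w' _).2 h2, h3⟩

/-- Boundary of the universal globular complex. -/
noncomputable def ubd : List ℕ × ℕ → (List ℕ × ℕ →₀ ℤ)
  | ([], _) => 0
  | (m :: q, _) => Finsupp.single (q, m + 1) 1 - Finsupp.single (q, m) 1

theorem ubd_nil (k : ℕ) : ubd ([], k) = 0 := rfl

theorem ubd_cons (m : ℕ) (q : List ℕ) (k : ℕ) :
    ubd (m :: q, k) = Finsupp.single (q, m + 1) 1 - Finsupp.single (q, m) 1 := rfl

/-- The basis elements lying on one of the globes `w j`. -/
abbrev ThB {ι : Type} (w : ι → ℕ → ℕ) : Type := {b : List ℕ × ℕ // ∃ j e, gam (w j) e = b}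

/-- placing the globe along `w j` -/
def thMk {ι : Type} (w : ι → ℕ → ℕ) (j : ι) (e : ℕ × Bool) : ThB w := ⟨gam (w j) e, j, e, rfl⟩

section

variable {ι : Type} (w : ι → ℕ → ℕ)

theorem thMk_surj (b : ThB w) : ∃ j e, thMk w j e = b := by
  obtain ⟨b, j, e, rfl⟩ := b
  exact ⟨j, e, rfl⟩

theorem thMk_eq_iff (j j' : ι) (e e' : ℕ × Bool) : thMk w j e = thMk w j' e' ↔
    e.1 = e'.1 ∧ (∀ k < e.1, w j k = w j' k) ∧ w j e.1 + e.2.toNat = w j' e.1 + e'.2.toNat := by
  rw [← gam_eq_iff]
  exact Subtype.ext_iff

theorem thMk_inj (j : ι) : Function.Injective (thMk w j) := by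
  rintro ⟨i, a⟩ ⟨i', a'⟩ h
  obtain ⟨h1, -, h2⟩ := (thMk_eq_iff w _ _ _ _).1 h
  dsimp only at h1 h2
  subst h1
  cases a <;> cases a' <;> simp at h2 ⊢

/-- Boundary of a globular sum. -/
noncomputable def thBd (b : ThB w) : ThB w →₀ ℤ :=
  (ubd b.1).subtypeDomain (fun b => ∃ j e, gam (w j) e = b)

theorem thBd_zero (j : ι) (a : Bool) : thBd w (thMk w j (0, a)) = 0 := by
  ext c
  rfl

theorem thBd_succ (j : ι) (i : ℕ) (a : Bool) : thBd w (thMk w j (i + 1, a)) =
    Finsupp.single (thMk w j (i, true)) 1 - Finsupp.single (thMk w j (i, false)) 1 := by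
  classical
  ext c
  have h1 : thBd w (thMk w j (i + 1, a)) c =
      (Finsupp.single (gam (w j) (i, true)) 1 - Finsupp.single (gam (w j) (i, false)) 1 :
        List ℕ × ℕ →₀ ℤ) c.1 := rfl
  rw [h1, Finsupp.sub_apply, Finsupp.sub_apply, Finsupp.single_apply, Finsupp.single_apply,
    Finsupp.single_apply, Finsupp.single_apply]
  simp only [Subtype.ext_iff, thMk]

/-- The dimension. -/
def thDim (b : ThB w) : ℕ := b.1.1.length

theorem thDim_mk (j : ι) (e : ℕ × Bool) : thDim w (thMk w j e) = e.1 := pre_length _ _

/-- A globular sum of infinite globes. -/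
noncomputable def theta : BCx where
  B := ThB w
  dim := thDim w
  bd := thBd w
  bd_dim b c h := by
    classical
    obtain ⟨j, ⟨_ | i, a⟩, rfl⟩ := thMk_surj w b
    · rw [thBd_zero] at h
      exact absurd rfl h
    · rw [thBd_succ, Finsupp.sub_apply, Finsupp.single_apply, Finsupp.single_apply] at h
      have h1 : thDim w c = i := by
        by_contra hne
        rw [if_neg (fun h2 => hne (by rw [← h2, thDim_mk])),
          if_neg (fun h2 => hne (by rw [← h2, thDim_mk]))] at h
        exact h (sub_self 0)
      rw [h1, thDim_mk]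
  bd_bd b := by
    obtain ⟨j, ⟨_ | i, a⟩, rfl⟩ := thMk_surj w b
    · rw [thBd_zero, map_zero]
    · rw [thBd_succ, map_sub, Finsupp.linearCombination_single, Finsupp.linearCombination_single]
      rcases i with _ | i
      · rw [thBd_zero, thBd_zero, sub_self]
      · rw [thBd_succ, thBd_succ, sub_self]
  aug_bd b := by
    obtain ⟨j, ⟨_ | i, a⟩, rfl⟩ := thMk_surj w b
    · rw [thBd_zero, map_zero]
    · rw [thBd_succ, map_sub, Finsupp.linearCombination_single, Finsupp.linearCombination_single,
        thDim_mk, thDim_mk, sub_self]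

/-- The list of an element of the universal complex. -/
def ulist (b : List ℕ × ℕ) : List ℕ := b.1.reverse ++ [b.2]

theorem ulist_inj : Function.Injective ulist := by
  rintro ⟨p, k⟩ ⟨p', k'⟩ h
  unfold ulist at h
  have h1 := List.append_inj' h rfl
  dsimp only at h1
  rw [List.reverse_inj] at h1
  rw [h1.1, List.head_eq_of_cons_eq h1.2]

theorem ulist_lt (m : ℕ) (q : List ℕ) (k : ℕ) : ulist (q, m) < ulist (m :: q, k) := by
  unfold ulist
  dsimp only
  rw [List.reverse_cons, List.append_assoc]
  exact List.append_left_lt (List.cons_lt_cons_iff.2 (Or.inr ⟨rfl, List.nil_lt_cons _ _⟩))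

theorem ulist_lt' (m : ℕ) (q : List ℕ) (k : ℕ) : ulist (m :: q, k) < ulist (q, m + 1) := by
  unfold ulist
  dsimp only
  rw [List.reverse_cons, List.append_assoc]
  exact List.append_left_lt (List.cons_lt_cons_iff.2 (Or.inl (Nat.lt_succ_self m)))

theorem thBd_map (j : ι) (e : ℕ × Bool) :
    thBd w (thMk w j e) = (globeBd e).mapDomain (thMk w j) := by
  rcases e with ⟨_ | i, a⟩
  · rw [thBd_zero]
    exact Finsupp.mapDomain_zero.symm
  · rw [thBd_succ]
    change _ = (Finsupp.single (i, true) 1 - Finsupp.single (i, false) 1 :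
      ℕ × Bool →₀ ℤ).mapDomain (thMk w j)
    rw [sub_eq_add_neg (Finsupp.single (i, true) (1 : ℤ)), ← Finsupp.single_neg,
      Finsupp.mapDomain_add, Finsupp.mapDomain_single, Finsupp.mapDomain_single,
      Finsupp.single_neg, ← sub_eq_add_neg]

theorem thBd_neg (b c : ThB w) (h : thBd w b c < 0) : ulist c.1 < ulist b.1 := by
  classical
  obtain ⟨j, ⟨_ | i, a⟩, rfl⟩ := thMk_surj w b
  · rw [thBd_zero] at h
    exact absurd h (lt_irrefl _)
  · rw [thBd_succ, Finsupp.sub_apply, Finsupp.single_apply, Finsupp.single_apply] at h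
    have h1 : thMk w j (i, false) = c := by
      by_contra hne
      rw [if_neg hne] at h
      split_ifs at h <;> omega
    rw [← h1]
    exact ulist_lt _ _ _

theorem thBd_pos (b c : ThB w) (h : 0 < thBd w b c) : ulist b.1 < ulist c.1 := by
  classical
  obtain ⟨j, ⟨_ | i, a⟩, rfl⟩ := thMk_surj w b
  · rw [thBd_zero] at h
    exact absurd h (lt_irrefl _)
  · rw [thBd_succ, Finsupp.sub_apply, Finsupp.single_apply, Finsupp.single_apply] at h
    have h1 : thMk w j (i, true) = c := by
      by_contra hne
      rw [if_neg hne] at h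
      split_ifs at h <;> omega
    rw [← h1]
    exact ulist_lt' _ _ _

/-- Globular sums are covered by globes. -/
noncomputable def thCover : Cover ι (theta w) where
  rg j :=
    { g := thMk w j
      inj := thMk_inj w j
      dim_g := thDim_mk w j
      bd_g := thBd_map w j }
  surj := thMk_surj w

theorem thCover_eq_iff (j j' : ι) (e e' : ℕ × Bool) :
    ((thCover w).rg j).g e = ((thCover w).rg j').g e' ↔
    e.1 = e'.1 ∧ (∀ k < e.1, w j k = w j' k) ∧ w j e.1 + e.2.toNat = w j' e.1 + e'.2.toNat :=
  thMk_eq_iff w j j' e e'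

theorem thOrd_inj : Function.Injective (fun b : ThB w => ulist b.1) :=
  fun _ _ h => Subtype.ext (ulist_inj h)

/-- Globular sums are Steiner complexes. -/
noncomputable def thSteiner : Steiner (theta w) :=
  (thCover w).steiner (LinearOrder.lift' (fun b : ThB w => ulist b.1) (thOrd_inj w))
    (thBd_neg w) (thBd_pos w)

end

/-! ### The shapes needed for composition, associativity and interchange -/

/-- addresses for two globes composed along dimension `n` -/
def w2 (n : ℕ) (c : Bool) (i : ℕ) : ℕ := if i = n then c.toNat else 0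

/-- addresses for three globes composed along dimension `n` -/
def w3 (n : ℕ) (c : Fin 3) (i : ℕ) : ℕ := if i = n then c.1 else 0

/-- addresses for the interchange shape -/
def w4 (m n : ℕ) (c : Bool × Bool) (i : ℕ) : ℕ :=
  if i = m then c.1.toNat else if i = n then c.2.toNat else 0

/-- two infinite globes composed along dimension `n` -/
noncomputable def theta2 (n : ℕ) : BCx := theta (w2 n)

noncomputable def st2 (n : ℕ) : Steiner (theta2 n) := thSteiner _

noncomputable def rg2 (n : ℕ) (c : Bool) : Rigid globeCx (theta2 n) := (thCover (w2 n)).rg c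

theorem surj2 (n : ℕ) (b : (theta2 n).B) : ∃ c e, (rg2 n c).g e = b := (thCover (w2 n)).surj b

theorem thCover_eq_succ {ι : Type} (w : ι → ℕ → ℕ) (j j' : ι) (k : ℕ)
    (h₁ : ∀ i < k, w j i = w j' i) (h₂ : w j' k = w j k + 1) (e e' : ℕ × Bool) :
    ((thCover w).rg j).g e = ((thCover w).rg j').g e' ↔
    (e.1 < k ∧ e' = e) ∨ (e = (k, true) ∧ e' = (k, false)) := by
  rw [thCover_eq_iff]
  rcases e with ⟨i, a⟩
  rcases e' with ⟨i', a'⟩
  simp only [Prod.mk.injEq]
  constructor
  · rintro ⟨h3, h4, h5⟩
    subst h3
    rcases lt_trichotomy i k with h | h | h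
    · left
      rw [h₁ i h] at h5
      refine ⟨h, rfl, ?_⟩
      cases a <;> cases a' <;> simp at h5 ⊢
    · right
      subst h
      rw [h₂] at h5
      cases a <;> cases a' <;> simp at h5 ⊢
      omega
    · have := h4 k h
      omega
  · rintro (⟨h3, rfl, rfl⟩ | ⟨⟨rfl, rfl⟩, rfl, rfl⟩)
    · exact ⟨rfl, fun l hl => h₁ l (by omega), by rw [h₁ _ h3]⟩
    · exact ⟨rfl, fun l hl => h₁ l hl, by rw [h₂]; simp⟩

theorem thCover_eq_gap {ι : Type} (w : ι → ℕ → ℕ) (j j' : ι) (k : ℕ)
    (h₁ : ∀ i < k, w j i = w j' i) (h₂ : w j k + 2 ≤ w j' k) (e e' : ℕ × Bool) :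
    ((thCover w).rg j).g e = ((thCover w).rg j').g e' ↔ (e.1 < k ∧ e' = e) := by
  rw [thCover_eq_iff]
  rcases e with ⟨i, a⟩
  rcases e' with ⟨i', a'⟩
  simp only [Prod.mk.injEq]
  constructor
  · rintro ⟨h3, h4, h5⟩
    subst h3
    rcases lt_trichotomy i k with h | h | h
    · rw [h₁ i h] at h5
      refine ⟨h, rfl, ?_⟩
      cases a <;> cases a' <;> simp at h5 ⊢
    · subst h
      cases a <;> cases a' <;> simp at h5 <;> omega
    · have := h4 k h
      omega
  · rintro ⟨h3, rfl, rfl⟩
    exact ⟨rfl, fun l hl => h₁ l (by omega), by rw [h₁ _ h3]⟩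

theorem rg2_eq_iff (n : ℕ) (e e' : ℕ × Bool) : (rg2 n false).g e = (rg2 n true).g e' ↔
    (e.1 < n ∧ e' = e) ∨ (e = (n, true) ∧ e' = (n, false)) :=
  thCover_eq_succ (w2 n) false true n
    (fun i hi => by simp only [w2]; rw [if_neg (by omega), if_neg (by omega)])
    (by simp [w2]) e e'

theorem compat_of_comp_sig {K : BCx} {n : ℕ} {p q : BCxHom globeCx K}
    (h : p.comp (sig n true) = q.comp (sig n false)) (e e' : ℕ × Bool)
    (he : (e.1 < n ∧ e' = e) ∨ (e = (n, true) ∧ e' = (n, false))) : p.f e = q.f e' := by
  rcases he with ⟨h1, rfl⟩ | ⟨rfl, rfl⟩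
  · have h2 := congrArg (fun z => z.f (e'.1, e'.2)) h
    simp only [comp_sig_f] at h2
    rw [if_pos h1, if_pos h1] at h2
    exact h2
  · have h2 := congrArg (fun z => z.f (n, true)) h
    simp only [comp_sig_f, lt_irrefl, if_false, if_true] at h2
    exact h2

theorem desc2 {K : BCx} (n : ℕ) (p q : BCxHom globeCx K)
    (h : p.comp (sig n true) = q.comp (sig n false)) :
    ∃ r : BCxHom (theta2 n) K, r.comp (rg2 n false).hom = p ∧ r.comp (rg2 n true).hom = q := by
  obtain ⟨r, hr⟩ := (thCover (w2 n)).desc (fun c : Bool => if c then q else p) (by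
    intro j j' e e' hee
    cases j <;> cases j'
    · have := ((thCover (w2 n)).rg false).inj hee
      rw [this]
    · exact compat_of_comp_sig h e e' ((rg2_eq_iff n e e').1 hee)
    · exact (compat_of_comp_sig h e' e ((rg2_eq_iff n e' e).1 hee.symm)).symm
    · have := ((thCover (w2 n)).rg true).inj hee
      rw [this])
  exact ⟨r, hr false, hr true⟩

/-- three infinite globes composed along dimension `n` -/
noncomputable def theta3 (n : ℕ) : BCx := theta (w3 n)

noncomputable def st3 (n : ℕ) : Steiner (theta3 n) := thSteiner _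

noncomputable def rg3 (n : ℕ) (c : Fin 3) : Rigid globeCx (theta3 n) := (thCover (w3 n)).rg c

theorem surj3 (n : ℕ) (b : (theta3 n).B) : ∃ c e, (rg3 n c).g e = b := (thCover (w3 n)).surj b

theorem w3_lt (n : ℕ) (c c' : Fin 3) (i : ℕ) (h : i < n) : w3 n c i = w3 n c' i := by
  simp only [w3]
  rw [if_neg (by omega), if_neg (by omega)]

theorem rg3_eq_01 (n : ℕ) (e e' : ℕ × Bool) : (rg3 n 0).g e = (rg3 n 1).g e' ↔
    (e.1 < n ∧ e' = e) ∨ (e = (n, true) ∧ e' = (n, false)) :=
  thCover_eq_succ (w3 n) 0 1 n (fun i hi => w3_lt n _ _ i hi) (by simp [w3]) e e'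

theorem rg3_eq_12 (n : ℕ) (e e' : ℕ × Bool) : (rg3 n 1).g e = (rg3 n 2).g e' ↔
    (e.1 < n ∧ e' = e) ∨ (e = (n, true) ∧ e' = (n, false)) :=
  thCover_eq_succ (w3 n) 1 2 n (fun i hi => w3_lt n _ _ i hi) (by simp [w3]) e e'

theorem rg3_eq_02 (n : ℕ) (e e' : ℕ × Bool) : (rg3 n 0).g e = (rg3 n 2).g e' ↔
    (e.1 < n ∧ e' = e) :=
  thCover_eq_gap (w3 n) 0 2 n (fun i hi => w3_lt n _ _ i hi) (by simp [w3]) e e'

/-- the interchange shape: two copies of `theta2 n` composed along dimension `m < n` -/
noncomputable def theta4 (m n : ℕ) : BCx := theta (w4 m n)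

noncomputable def st4 (m n : ℕ) : Steiner (theta4 m n) := thSteiner _

/-- the first index is the position along dimension `m`, the second one along `n` -/
noncomputable def rg4 (m n : ℕ) (a b : Bool) : Rigid globeCx (theta4 m n) :=
  (thCover (w4 m n)).rg (a, b)

theorem surj4 (m n : ℕ) (b : (theta4 m n).B) : ∃ a c e, (rg4 m n a c).g e = b := by
  obtain ⟨⟨a, c⟩, e, h⟩ := (thCover (w4 m n)).surj b
  exact ⟨a, c, e, h⟩

theorem rg4_eq_m (m n : ℕ) (hmn : m < n) (b b' : Bool) (e e' : ℕ × Bool) :
    (rg4 m n false b).g e = (rg4 m n true b').g e' ↔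
    (e.1 < m ∧ e' = e) ∨ (e = (m, true) ∧ e' = (m, false)) :=
  thCover_eq_succ (w4 m n) (false, b) (true, b') m
    (fun i hi => by
      simp only [w4]
      rw [if_neg (by omega), if_neg (by omega), if_neg (by omega), if_neg (by omega)])
    (by simp [w4]) e e'

theorem rg4_eq_n (m n : ℕ) (hmn : m < n) (a : Bool) (e e' : ℕ × Bool) :
    (rg4 m n a false).g e = (rg4 m n a true).g e' ↔
    (e.1 < n ∧ e' = e) ∨ (e = (n, true) ∧ e' = (n, false)) :=
  thCover_eq_succ (w4 m n) (a, false) (a, true) n
    (fun i hi => by
      simp only [w4]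
      split_ifs <;> first | rfl | omega)
    (by
      have hne : ¬ n = m := by omega
      simp [w4, hne])
    e e'

end Vale.Agent.P213
end
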